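import Crest.Agent.R62.Defs
import Crest.Agent.Lib.PolyTime.More

/-! Polynomial-time families of matrices, sets and graphs on `Fin (N a)`. -/

set_option autoImplicit false
open Classical
open scoped Matrix
open Finset
open Crest.Agent.Lib.PolyTime

noncomputable section
namespace Crest.Agent.R62

/-- table of a function of two variables -/
def algE {N : ℕ} {β : Type} (K : Fin N → Fin N → β) : List (List β) :=
  List.ofFn fun i => List.ofFn fun j => K i j

/-- entry of a table -/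
def algG {β : Type} (z : β) (L : List (List β)) (i j : ℕ) : β := (L.getD i []).getD j z

theorem algG_E {N : ℕ} {β : Type} (z : β) (K : Fin N → Fin N → β) (i j : Fin N) :
    algG z (algE K) i j = K i j := by
  simp [algG, algE]

/-- characteristic list of a set -/
def algS {N : ℕ} (S : Finset (Fin N)) : List Bool := List.ofFn fun i => decide (i ∈ S)

/-- adjacency table -/
def algA {N : ℕ} (G : SimpleGraph (Fin N)) : List (List Bool) := algE fun i j => decide (G.Adj i j)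

variable {α : Type} [PEnc α] {N n : α → ℕ}

theorem alg_polyG {β : Type} [PEnc β] (z : β) {L : α → List (List β)} {i j : α → ℕ} (hL : Poly L)
    (hi : Poly i) (hj : Poly j) : Poly fun a => algG z (L a) (i a) (j a) := by
  unfold algG
  fun_prop

theorem alg_gen {β : Type} [PEnc β] {f : α → β} (h : Poly f) :
    ∃ t : α → β, Poly t ∧ ∀ a, f a = t a := ⟨f, h, fun _ => rfl⟩

/-- polynomial-time family of matrices -/
def PM (K : ∀ a, Matrix (Fin (N a)) (Fin (N a)) ℚ) : Prop := Poly fun a => algE (K a)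
/-- polynomial-time family of sets -/
def PS (S : ∀ a, Finset (Fin (N a))) : Prop := Poly fun a => algS (S a)
/-- polynomial-time family of graphs -/
def PG (G : ∀ a, SimpleGraph (Fin (N a))) : Prop := Poly fun a => algA (G a)
/-- polynomial-time family of indices -/
def PI (i : ∀ a, Fin (N a)) : Prop := Poly fun a => (i a : ℕ)

theorem PM.ent {K : ∀ a, Matrix (Fin (N a)) (Fin (N a)) ℚ} (h : PM K) :
    ∃ L : α → ℕ → ℕ → ℚ, (Poly fun p : α × ℕ × ℕ => L p.1 p.2.1 p.2.2) ∧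
      ∀ a i j, K a i j = L a i j :=
  ⟨fun a => algG 0 (algE (K a)), alg_polyG 0 (Poly.comp h (by fun_prop)) (by fun_prop)
    (by fun_prop), fun a i j => (algG_E 0 (K a) i j).symm⟩

theorem PS.ent {S : ∀ a, Finset (Fin (N a))} (h : PS S) :
    ∃ L : α → ℕ → Bool, (Poly fun p : α × ℕ => L p.1 p.2) ∧ ∀ a i, i ∈ S a ↔ L a i = true := by
  refine ⟨fun a i => (algS (S a)).getD i false, ?_, fun a i => by simp [algS]⟩
  obtain ⟨t, ht, e⟩ := alg_gen h
  simp only [e]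
  fun_prop

theorem PG.ent {G : ∀ a, SimpleGraph (Fin (N a))} (h : PG G) :
    ∃ L : α → ℕ → ℕ → Bool, (Poly fun p : α × ℕ × ℕ => L p.1 p.2.1 p.2.2) ∧
      ∀ a i j, (G a).Adj i j ↔ L a i j = true :=
  ⟨fun a => algG false (algA (G a)), alg_polyG false (Poly.comp h (by fun_prop)) (by fun_prop)
    (by fun_prop), fun a i j => by simp only [algA, algG_E, decide_eq_true_eq]⟩

theorem alg_sumS {ι M : Type} [Fintype ι] [DecidableEq ι] [AddCommMonoid M] (S : Finset ι)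
    (f : ι → M) : ∑ c ∈ S, f c = ∑ c, if c ∈ S then f c else 0 := by simp

section mat
variable {K J : ∀ a, Matrix (Fin (N a)) (Fin (N a)) ℚ} {S : ∀ a, Finset (Fin (N a))}
  {i j : ∀ a, Fin (N a)}

theorem PM.Dd (e : ℚ) (hK : PM K) (hi : PI i) (hj : PI j) :
    Poly fun a => Dd e (K a) (i a) (j a) := by
  obtain ⟨L, hL, eL⟩ := hK.ent
  obtain ⟨i', hi', ei⟩ := alg_gen hi
  obtain ⟨j', hj', ej⟩ := alg_gen hj
  simp only [R62.Dd, eL, ei, ej]
  fun_prop

theorem PM.upd (hn : Poly N) (hb : PB N) (e : ℚ) (hK : PM K) (hi : PI i) (hj : PI j) :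
    PM fun a => upd e (K a) (i a) (j a) := by
  obtain ⟨D, hD, eD⟩ := alg_gen (hK.Dd e hi hj)
  obtain ⟨L, hL, eL⟩ := hK.ent
  obtain ⟨i', hi', ei⟩ := alg_gen hi
  obtain ⟨j', hj', ej⟩ := alg_gen hj
  simp only [PM, algE, R62.upd, Matrix.of_apply, eD, eL, Fin.ext_iff, ei, ej]
  fun_prop

theorem PS.del (hn : Poly N) (hb : PB N) (hS : PS S) (hi : PI i) (hj : PI j) :
    PS fun a => del (S a) (i a) (j a) := by
  obtain ⟨L, hL, eL⟩ := hS.ent
  obtain ⟨i', hi', ei⟩ := alg_gen hi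
  obtain ⟨j', hj', ej⟩ := alg_gen hj
  simp only [PS, algS, R62.del, mem_erase, eL, ne_eq, Fin.ext_iff, ei, ej]
  fun_prop

theorem PM.rnd (hn : Poly N) (hb : PB N) {M : α → ℕ} (hM : Poly M) (hS : PS S) (e : ℚ)
    (hK : PM K) : PM fun a => rnd (M a) (S a) e (K a) := by
  obtain ⟨L, hL, eL⟩ := hK.ent
  obtain ⟨s, hs, es⟩ := hS.ent
  simp only [PM, algE, R62.rnd, Matrix.of_apply, alg_sumS (Finset.erase _ _), mem_erase, es, eL,
    ne_eq, Fin.ext_iff]
  fun_prop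

theorem PM.mul (hn : Poly N) (hb : PB N) (hK : PM K) (hJ : PM J) : PM fun a => K a * J a := by
  obtain ⟨L, hL, eL⟩ := hK.ent
  obtain ⟨L', hL', eL'⟩ := hJ.ent
  simp only [PM, algE, Matrix.mul_apply, eL, eL']
  fun_prop

theorem PM.add (hn : Poly N) (hb : PB N) (hK : PM K) (hJ : PM J) : PM fun a => K a + J a := by
  obtain ⟨L, hL, eL⟩ := hK.ent
  obtain ⟨L', hL', eL'⟩ := hJ.ent
  simp only [PM, algE, Matrix.add_apply, eL, eL']
  fun_prop

theorem PM.idS (hn : Poly N) (hb : PB N) (hS : PS S) : PM fun a => idS (S a) := by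
  obtain ⟨s, hs, es⟩ := hS.ent
  simp only [PM, algE, R62.idS, Matrix.diagonal_apply, es, Fin.ext_iff]
  fun_prop

theorem PM.pow (hn : Poly N) (hb : PB N) (hK : PM K) (k : ℕ) : PM fun a => K a ^ k := by
  induction k with
  | zero =>
    simp only [PM, algE, pow_zero, Matrix.one_apply, Fin.ext_iff]
    fun_prop
  | succ k ih =>
    simp only [pow_succ]
    exact ih.mul hn hb hK

theorem PM.trace (hn : Poly N) (hb : PB N) (hK : PM K) : Poly fun a => (K a).trace := by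
  obtain ⟨L, hL, eL⟩ := hK.ent
  simp only [Matrix.trace, Matrix.diag, eL]
  fun_prop

theorem PM.Tr (hn : Poly N) (hb : PB N) (hK : PM K) (k : ℕ) : Poly fun a => Tr k (K a) :=
  (hK.pow hn hb k).trace hn hb

theorem PM.Vs (hn : Poly N) (hb : PB N) (s0 : ℚ) (hS : PS S) (hK : PM K) :
    Poly fun a => Vs s0 (S a) (K a) := by
  obtain ⟨L, hL, eL⟩ := (hK.mul hn hb hK).ent
  obtain ⟨s, hs, es⟩ := hS.ent
  simp only [R62.Vs, bet, alg_sumS (S _), es, eL]
  fun_prop

theorem PM.Dh (hn : Poly N) (hb : PB N) (hK : PM K) : Poly fun a => Dh (K a) := by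
  obtain ⟨L, hL, eL⟩ := hK.ent
  simp only [R62.Dh, eL]
  fun_prop

theorem PM.Zz (hn : Poly N) (hb : PB N) (hS : PS S) (hK : PM K) (hJ : PM J) :
    Poly fun a => Zz (S a) (K a) (J a) :=
  ((hK.mul hn hb hK).mul hn hb (hJ.add hn hb (PM.idS hn hb hS))).trace hn hb

theorem PS.card (hn : Poly N) (hb : PB N) (hS : PS S) : Poly fun a => (S a).card := by
  obtain ⟨s, hs, es⟩ := hS.ent
  simp only [card_eq_sum_ones, alg_sumS (S _), es]
  fun_prop

@[fun_prop] theorem alg_hub {x : α → ℚ} (hx : Poly x) : Poly fun a => hub (x a) := by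
  unfold hub
  fun_prop

theorem PM.PhiA (hn : Poly N) (hb : PB N) (hS : PS S) (hK : PM K) (hJ : PM J) {m v d : α → ℚ}
    (hm : Poly m) (hv : Poly v) (hd : Poly d) :
    (Poly fun a => PhiA (par0 (m a) (v a) (d a) (S a).card) (S a) (K a) (J a)) ∧
    (Poly fun a => PhiA (par1 (m a) (v a) (d a) (S a).card) (S a) (K a) (J a)) ∧
    (Poly fun a => PhiA (par2 (m a) (v a) (d a) (S a).card) (S a) (K a) (J a)) := by
  obtain ⟨t1, h1, e1⟩ := alg_gen (hK.Tr hn hb 1)
  obtain ⟨t2, h2, e2⟩ := alg_gen (hK.Tr hn hb 2)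
  obtain ⟨t3, h3, e3⟩ := alg_gen (hK.Tr hn hb 3)
  obtain ⟨t4, h4, e4⟩ := alg_gen (hK.Tr hn hb 4)
  obtain ⟨t5, h5, e5⟩ := alg_gen (hK.Vs hn hb 1 hS)
  obtain ⟨t6, h6, e6⟩ := alg_gen (hK.Dh hn hb)
  obtain ⟨t7, h7, e7⟩ := alg_gen (hK.Zz hn hb hS hJ)
  obtain ⟨t8, h8, e8⟩ := alg_gen (hS.card hn hb)
  simp only [R62.PhiA, yy, e1, e2, e3, e4, e5, e6, e7, e8, par0, par1, par2, y2, G1]
  refine ⟨?_, ?_, ?_⟩ <;> fun_prop

theorem PM.PhiC (hn : Poly N) (hb : PB N) (hS : PS S) (hK : PM K) {m : α → ℚ} (hm : Poly m) :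
    Poly fun a => PhiC (m a) (S a) (K a) := by
  obtain ⟨t1, h1, e1⟩ := alg_gen (hK.Tr hn hb 1)
  obtain ⟨t2, h2, e2⟩ := alg_gen (hK.Tr hn hb 2)
  obtain ⟨t5, h5, e5⟩ := alg_gen (hK.Vs hn hb 0 hS)
  obtain ⟨t6, h6, e6⟩ := alg_gen (hK.Dh hn hb)
  obtain ⟨t8, h8, e8⟩ := alg_gen (hS.card hn hb)
  simp only [R62.PhiC, e1, e2, e5, e6, e8, E2, EW, EDc, E1p, E1m]
  fun_prop

theorem PM.bdd (hn : Poly N) (hb : PB N) (hK : PM K) {B : α → ℕ} (hB : Poly B) :
    Poly fun a => decide (∀ c f, |K a c f| ≤ B a) := by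
  obtain ⟨L, hL, eL⟩ := hK.ent
  refine Poly.decide_congr (p := fun a => ¬ ∃ c f : Fin (N a), (B a : ℚ) < |L a c f|)
    (by fun_prop) fun a => ?_
  simp only [eL, not_exists, not_lt]

end mat

end Crest.Agent.R62
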