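import Crest.Agent.R62.Defs
import Crest.Agent.R62.AlgAux
import Crest.Agent.Lib.PolyTime.More
import Crest.Statements.S0084

/-! The greedy algorithm runs in polynomial time. -/

set_option autoImplicit false
open Classical
open scoped Matrix
open Finset
open Crest.Agent.Lib.PolyTime

noncomputable section
namespace Crest.Agent.R62

/-- list form of a state -/
abbrev AlgL := List Bool × List (List Bool) × List (List ℚ) × List (List ℚ)

def algEnc {n N : ℕ} (st : St (Fin n) (Fin N) ℚ) : AlgL :=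
  (algS st.S, algA st.G, algE st.K, algE st.J)

def algGr (n : ℕ) (L : List (List Bool)) : SimpleGraph (Fin n) where
  Adj i j := i ≠ j ∧ algG false L i j = true ∧ algG false L j i = true
  symm := ⟨fun _ _ h => ⟨fun e => h.1 e.symm, h.2.2, h.2.1⟩⟩
  loopless := ⟨fun _ h => h.1 rfl⟩

def algDec (n N : ℕ) (s : AlgL) : St (Fin n) (Fin N) ℚ :=
  ⟨univ.filter fun i => s.1.getD i false = true, algGr n s.2.1,
    Matrix.of fun i j => algG 0 s.2.2.1 i j, Matrix.of fun i j => algG 0 s.2.2.2 i j⟩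

theorem algDec_enc {n N : ℕ} (st : St (Fin n) (Fin N) ℚ) : algDec n N (algEnc st) = st := by
  obtain ⟨S, G, K, J⟩ := st
  simp only [algDec, algEnc, St.mk.injEq]
  refine ⟨?_, ?_, ?_, ?_⟩
  · ext i
    simp [algS]
  · ext i j
    simp only [algGr, algA, algG_E, decide_eq_true_eq]
    exact ⟨fun h => h.2.1, fun h => ⟨h.ne, h, h.symm⟩⟩
  · ext i j
    exact algG_E 0 K i j
  · ext i j
    exact algG_E 0 J i j

section fam
variable {α : Type} [PEnc α] {n : α → ℕ} {d : ℕ}

/-- polynomial-time family of states -/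
structure PSt (st : ∀ a, St (Fin (n a)) (Fin (n a * d)) ℚ) : Prop where
  S : PS fun a => (st a).S
  G : PG fun a => (st a).G
  K : PM fun a => (st a).K
  J : PM fun a => (st a).J

variable {st : ∀ a, St (Fin (n a)) (Fin (n a * d)) ℚ} {i j : ∀ a, Fin (n a * d)}

theorem PSt.enc (h : PSt st) : Poly fun a => algEnc (st a) :=
  Poly.pair h.S (Poly.pair h.G (Poly.pair h.K h.J))

theorem PSt.comp {β : Type} [PEnc β] (h : PSt st) {g : β → α} (hg : Poly g) :
    PSt fun b => st (g b) :=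
  ⟨Poly.comp h.S hg, Poly.comp h.G hg, Poly.comp h.K hg, Poly.comp h.J hg⟩

theorem alg_dec (hn : Poly n) (hb : PB n) {s : α → AlgL} (hs : Poly s) :
    PSt fun a => algDec (n a) (n a * d) (s a) := by
  have hG : Poly fun p : α × ℕ × ℕ => algG false (s p.1).2.1 p.2.1 p.2.2 :=
    alg_polyG _ (by fun_prop) (by fun_prop) (by fun_prop)
  have hK : Poly fun p : α × ℕ × ℕ => algG 0 (s p.1).2.2.1 p.2.1 p.2.2 :=
    alg_polyG _ (by fun_prop) (by fun_prop) (by fun_prop)
  have hJ : Poly fun p : α × ℕ × ℕ => algG 0 (s p.1).2.2.2 p.2.1 p.2.2 :=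
    alg_polyG _ (by fun_prop) (by fun_prop) (by fun_prop)
  refine ⟨?_, ?_, ?_, ?_⟩
  · simp only [PS, algS, algDec, mem_filter, mem_univ, true_and]
    fun_prop
  · simp only [PG, algA, algE, algDec, algGr, ne_eq, Fin.ext_iff, algG]
    fun_prop
  · simp only [PM, algE, algDec, Matrix.of_apply, algG]
    fun_prop
  · simp only [PM, algE, algDec, Matrix.of_apply, algG]
    fun_prop

theorem alg_edge (hn : Poly n) (hb : PB n) {G : ∀ a, SimpleGraph (Fin (n a))} (hG : PG G)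
    (hi : PI i) (hj : PI j) :
    PG fun a => G a ⊔ SimpleGraph.edge (Fin.divNat (i a)) (Fin.divNat (j a)) := by
  obtain ⟨L, hL, eL⟩ := hG.ent
  obtain ⟨i', hi', ei⟩ := alg_gen hi
  obtain ⟨j', hj', ej⟩ := alg_gen hj
  simp only [PG, algA, algE, SimpleGraph.sup_adj, SimpleGraph.edge_adj, eL, ne_eq, Fin.ext_iff,
    Fin.coe_divNat, ei, ej]
  fun_prop

theorem PSt.step (hn : Poly n) (hb : PB n) (h : PSt st) {M : α → ℕ} (hM : Poly M) (hi : PI i)
    (hj : PI j) : PSt fun a => step (M a) Fin.divNat (st a) (i a) (j a) := by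
  have hN : Poly fun a => n a * d := by fun_prop
  have hB : PB fun a => n a * d := by fun_prop
  have hS := h.S.del hN hB hi hj
  exact ⟨hS, alg_edge hn hb h.G hi hj, PM.rnd hN hB hM hS 1 (h.K.upd hN hB 1 hi hj),
    PM.rnd hN hB hM hS (-1) (h.J.upd hN hB (-1) hi hj)⟩

theorem PSt.finStep (hn : Poly n) (hb : PB n) (h : PSt st) (hi : PI i) (hj : PI j) :
    PSt fun a => finStep Fin.divNat (st a) (i a) (j a) :=
  ⟨h.S.del (by fun_prop) (by fun_prop) hi hj, alg_edge hn hb h.G hi hj, h.K, h.J⟩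

theorem PSt.Xs (hn : Poly n) (hb : PB n) (h : PSt st) :
    Poly fun a => Xs (V := Fin (n a)) Fin.divNat (st a).S := by
  obtain ⟨s, hs, es⟩ := h.S.ent
  simp only [R62.Xs, card_filter, sum_product, alg_sumS (St.S _), es, ne_eq, Fin.ext_iff,
    Fin.coe_divNat]
  fun_prop

theorem PSt.Xa (hn : Poly n) (hb : PB n) (h : PSt st) :
    Poly fun a => Xa Fin.divNat (st a).G (st a).S := by
  obtain ⟨s, hs, es⟩ := h.S.ent
  obtain ⟨L, hL, eL⟩ := h.G.ent
  simp only [R62.Xa, card_filter, sum_product, alg_sumS (St.S _), es, eL, Fin.coe_divNat]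
  fun_prop

theorem alg_Phi_ite {V ι : Type} [Fintype V] [Fintype ι] [DecidableEq ι] (k m n d : ℕ) (vx : ι → V)
    (st : St V ι ℚ) : Phi k m n d vx st = if k = 0 then Phi 0 m n d vx st else
      if k = 1 then Phi 1 m n d vx st else if k = 2 then Phi 2 m n d vx st else
        Phi 3 m n d vx st := by
  rcases k with _ | _ | _ | k <;> rfl

theorem PSt.Phi (hn : Poly n) (hb : PB n) (h : PSt st) {k m : α → ℕ} (hk : Poly k) (hm : Poly m) :
    Poly fun a => Phi (k a) (m a) (n a) d Fin.divNat (st a) := by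
  have hN : Poly fun a => n a * d := by fun_prop
  have hB : PB fun a => n a * d := by fun_prop
  have hm' : Poly fun a => (m a : ℚ) := hm.natCastRat
  obtain ⟨a0, a1, a2⟩ := PM.PhiA hN hB h.S h.K h.J hm' hn.natCastRat (Lib.PolyTime.Poly.const (d : ℚ))
  obtain ⟨b0, b1, b2⟩ := PM.PhiA hN hB h.S h.J h.K hm' hn.natCastRat (Lib.PolyTime.Poly.const (d : ℚ))
  have h3 : Poly fun a => R62.Phi 3 (m a) (n a) d Fin.divNat (st a) := by
    obtain ⟨t1, h1, e1⟩ := alg_gen (PM.PhiC hN hB h.S h.K hm')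
    obtain ⟨t2, h2, e2⟩ := alg_gen (PM.PhiC hN hB h.S h.J hm')
    obtain ⟨t3, h3, e3⟩ := alg_gen (h.Xa hn hb)
    obtain ⟨t4, h4, e4⟩ := alg_gen (h.Xs hn hb)
    obtain ⟨t5, h5, e5⟩ := alg_gen (h.S.card hN hB)
    simp only [R62.Phi, XX, EX, e1, e2, e3, e4, e5]
    fun_prop
  refine Poly.congr ?_ fun a => (alg_Phi_ite ..).symm
  exact Poly.ite (by fun_prop) (a0.ratAdd b0) (Poly.ite (by fun_prop) (a1.ratAdd b1)
    (Poly.ite (by fun_prop) (a2.ratAdd b2) h3))

theorem PSt.simple (h : PSt st) (hi : PI i) (hj : PI j) :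
    Poly fun a => decide (Simple Fin.divNat (st a) (i a) (j a)) := by
  obtain ⟨s, hs, es⟩ := h.S.ent
  obtain ⟨L, hL, eL⟩ := h.G.ent
  obtain ⟨i', hi', ei⟩ := alg_gen hi
  obtain ⟨j', hj', ej⟩ := alg_gen hj
  simp only [Simple, Conf, es, eL, Fin.ext_iff, Fin.coe_divNat, ei, ej]
  fun_prop

theorem PSt.valid (hn : Poly n) (hb : PB n) (h : PSt st) (hi : PI i) (hj : PI j) :
    Poly fun a => decide (Valid (n a * d) Fin.divNat (st a) (i a) (j a)) := by
  have hN : Poly fun a => n a * d := by fun_prop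
  have hB : PB fun a => n a * d := by fun_prop
  exact Poly.decide_congr (Poly.decide_and (h.simple hi hj)
    (Poly.decide_and (Poly.decide_ratLt (Lib.PolyTime.Poly.const 0) (h.K.Dd 1 hi hj))
      (Poly.decide_and (Poly.decide_ratLt (Lib.PolyTime.Poly.const 0) (h.J.Dd (-1) hi hj))
        (Poly.decide_and ((h.K.upd hN hB 1 hi hj).bdd hN hB hN)
          ((h.J.upd hN hB (-1) hi hj).bdd hN hB hN))))) fun _ => Iff.rfl

theorem alg_le_findGreatest {e : ℕ} (he : e ≠ 0) (k n : ℕ) :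
    k ≤ Nat.findGreatest (fun m => m ^ e ≤ n) n ↔ k ^ e ≤ n := by
  refine ⟨fun h => ?_, fun h => Nat.le_findGreatest ((Nat.le_self_pow he k).trans h) h⟩
  exact (Nat.pow_le_pow_left h e).trans (Nat.findGreatest_spec (P := fun m => m ^ e ≤ n)
    (Nat.zero_le n) (by rw [zero_pow he]; exact Nat.zero_le n))

theorem alg_mOf (hn : Poly n) : Poly fun a => mOf (n a) :=
  Poly.of_le_test ((PB.size hn).mono fun _ => Nat.size_le_size (Nat.findGreatest_le _))
    (Poly.decide_congr (p := fun p : α × ℕ => p.2 ^ 4000 ≤ n p.1) (by fun_prop)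
      fun _ => (alg_le_findGreatest (by norm_num) _ _).symm)

theorem alg_ph {m N : α → ℕ} (hm : Poly m) (hN : Poly N) : Poly fun a => ph (m a) (N a) := by
  unfold ph
  fun_prop

theorem alg_K0 (hn : Poly n) (hb : PB n) (e : ℚ) :
    PM fun a => K0 (V := Fin (n a)) (ι := Fin (n a * d)) d ((n a * d) ^ 30) Fin.divNat e := by
  simp only [PM, algE, K0, Matrix.of_apply, alg_sumS (Finset.erase _ _), mem_erase, mem_univ,
    and_true, off0, plo, Fintype.card_fin, ne_eq, Fin.ext_iff, Fin.coe_divNat]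
  fun_prop

theorem alg_st0 (hn : Poly n) (hb : PB n) : PSt (n := n) (d := d) fun a => st0 (n a) d Fin.divNat := by
  refine ⟨?_, ?_, alg_K0 hn hb 1, alg_K0 hn hb (-1)⟩
  · simp only [PS, algS, st0, mem_univ]
    fun_prop
  · simp only [PG, algA, algE, st0, SimpleGraph.bot_adj]
    fun_prop

end fam

/-! ### one round -/

section round
variable {n d : ℕ}

/-- the pair may be chosen -/
def algQ (n d : ℕ) (st : St (Fin n) (Fin (n * d)) ℚ) (a b : Fin (n * d)) : Prop :=
  (ph (mOf n) st.S.card ≤ 3 ∧ Valid (n * d) Fin.divNat st a b ∧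
    ¬ ∃ a' b', Valid (n * d) Fin.divNat st a' b' ∧
      Phi (ph (mOf n) st.S.card) (mOf n) n d Fin.divNat (step ((n * d) ^ 30) Fin.divNat st a' b') <
      Phi (ph (mOf n) st.S.card) (mOf n) n d Fin.divNat (step ((n * d) ^ 30) Fin.divNat st a b)) ∨
  (¬ ph (mOf n) st.S.card ≤ 3 ∧ Simple Fin.divNat st a b)

/-- the result of choosing the pair -/
def algT (n d : ℕ) (st : St (Fin n) (Fin (n * d)) ℚ) (a b : Fin (n * d)) :
    St (Fin n) (Fin (n * d)) ℚ :=
  if ph (mOf n) st.S.card ≤ 3 then step ((n * d) ^ 30) Fin.divNat st a b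
  else finStep Fin.divNat st a b

/-- all possible results -/
def algAll (n d : ℕ) (st : St (Fin n) (Fin (n * d)) ℚ) : List AlgL :=
  (List.ofFn fun a => (List.ofFn fun b =>
    if algQ n d st a b then [algEnc (algT n d st a b)] else []).flatten).flatten

/-- one round on lists -/
def algNx (n d : ℕ) (s : AlgL) : AlgL := (algAll n d (algDec n (n * d) s)).headD s

theorem alg_mem_all {st : St (Fin n) (Fin (n * d)) ℚ} {s : AlgL} :
    s ∈ algAll n d st ↔ ∃ a b, algQ n d st a b ∧ s = algEnc (algT n d st a b) := by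
  simp only [algAll, List.mem_flatten, List.mem_ofFn]
  constructor
  · rintro ⟨_, ⟨a, rfl⟩, h⟩
    obtain ⟨_, h1, h2⟩ := List.mem_flatten.1 h
    obtain ⟨b, rfl⟩ := List.mem_ofFn.1 h1
    split_ifs at h2 with h3
    · exact ⟨a, b, h3, List.mem_singleton.1 h2⟩
    · exact absurd h2 List.not_mem_nil
  · rintro ⟨a, b, h, rfl⟩
    exact ⟨_, ⟨a, rfl⟩, List.mem_flatten.2 ⟨_, List.mem_ofFn.2 ⟨b, rfl⟩, by simp [h]⟩⟩

theorem algNx_cases (s : AlgL) :
    (∃ a b, algQ n d (algDec n (n * d) s) a b ∧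
      algNx n d s = algEnc (algT n d (algDec n (n * d) s) a b)) ∨
    ((¬ ∃ a b, algQ n d (algDec n (n * d) s) a b) ∧ algNx n d s = s) := by
  unfold algNx
  rcases h : algAll n d (algDec n (n * d) s) with _ | ⟨x, l⟩
  · refine Or.inr ⟨?_, rfl⟩
    rintro ⟨a, b, h1⟩
    have := alg_mem_all.2 ⟨a, b, h1, rfl⟩
    rw [h] at this
    exact List.not_mem_nil this
  · exact Or.inl (alg_mem_all.1 (by rw [h]; exact List.mem_cons_self))

theorem algNx_next (s : AlgL) :
    Next (mOf n) n d Fin.divNat (algDec n (n * d) s) (algDec n (n * d) (algNx n d s)) := by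
  have h := algNx_cases (n := n) (d := d) s
  generalize algNx n d s = s' at h ⊢
  set st := algDec n (n * d) s with hst
  unfold Next
  rcases h with ⟨a, b, h, rfl⟩ | ⟨h, rfl⟩
  · rw [algDec_enc, algT]
    rcases h with ⟨h1, h2, h3⟩ | ⟨h1, h2⟩
    · rw [if_pos h1, if_pos h1, if_pos ⟨a, b, h2⟩]
      exact ⟨a, b, h2, rfl, fun a' b' h4 => not_lt.1 fun h5 => h3 ⟨a', b', h4, h5⟩⟩
    · rw [if_neg h1, if_neg h1, if_pos ⟨a, b, h2⟩]
      exact ⟨a, b, h2, rfl⟩
  · split_ifs with h1 h2 h3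
    · exfalso
      obtain ⟨a, b, h2⟩ := h2
      obtain ⟨q, hq, hmin⟩ := Finset.exists_min_image
        (univ.filter fun q : Fin (n * d) × Fin (n * d) => Valid (n * d) Fin.divNat st q.1 q.2)
        (fun q => Phi (ph (mOf n) st.S.card) (mOf n) n d Fin.divNat
          (step ((n * d) ^ 30) Fin.divNat st q.1 q.2)) ⟨(a, b), by simpa using h2⟩
      refine h ⟨q.1, q.2, Or.inl ⟨h1, (mem_filter.1 hq).2, ?_⟩⟩
      rintro ⟨a', b', h4, h5⟩
      exact h5.not_ge (hmin (a', b') (by simpa using h4))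
    · rfl
    · obtain ⟨a, b, h3⟩ := h3
      exact absurd ⟨a, b, Or.inr ⟨h1, h3⟩⟩ h
    · rfl

end round

section poly
variable {α : Type} [PEnc α] {n : α → ℕ} {d : ℕ}
  {st : ∀ a, St (Fin (n a)) (Fin (n a * d)) ℚ} {i j : ∀ a, Fin (n a * d)}

theorem PSt.ph (hn : Poly n) (hb : PB n) (h : PSt st) :
    Poly fun a => ph (mOf (n a)) (st a).S.card :=
  alg_ph (alg_mOf hn) (h.S.card (by fun_prop) (by fun_prop))

theorem PSt.algQ (hn : Poly n) (hb : PB n) (h : PSt st) (hi : PI i) (hj : PI j) :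
    Poly fun a => decide (algQ (n a) d (st a) (i a) (j a)) := by
  have hp := Poly.decide_le (h.ph hn hb) (Lib.PolyTime.Poly.const 3)
  have hF := (h.step hn hb (M := fun a => (n a * d) ^ 30) (by fun_prop) hi hj).Phi hn hb
    (h.ph hn hb) (alg_mOf hn)
  unfold R62.algQ
  refine Poly.decide_or (Poly.decide_and hp (Poly.decide_and (h.valid hn hb hi hj)
    (Poly.decide_not ?_))) (Poly.decide_and (Poly.decide_not hp) (h.simple hi hj))
    (inst := fun _ => propDecidable _)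
  refine Poly.decide_exists_fin (by fun_prop) (by fun_prop)
    (Poly.decide_exists_fin (by fun_prop) (by fun_prop) ?_)
  have hg : Poly fun x : Σ p : (Σ a, Fin (n a * d)), Fin (n p.1 * d) => x.1.1 := by fun_prop
  have hi' : PI (N := fun x : Σ p : (Σ a, Fin (n a * d)), Fin (n p.1 * d) => n x.1.1 * d)
      fun x => x.1.2 := by unfold PI; fun_prop
  have hj' : PI (N := fun x : Σ p : (Σ a, Fin (n a * d)), Fin (n p.1 * d) => n x.1.1 * d)
      fun x => x.2 := by unfold PI; fun_prop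
  have hn' := hn.comp hg
  have hb' := hb.comp hg
  have h' := h.comp hg
  exact Poly.decide_and (h'.valid hn' hb' hi' hj') (Poly.decide_ratLt
    ((h'.step hn' hb' (M := fun x => (n x.1.1 * d) ^ 30) (by fun_prop) hi' hj').Phi hn' hb'
      (h'.ph hn' hb') (alg_mOf hn')) (hF.comp hg))

theorem PSt.algT (hn : Poly n) (hb : PB n) (h : PSt st) (hi : PI i) (hj : PI j) :
    Poly fun a => algEnc (algT (n a) d (st a) (i a) (j a)) :=
  (Poly.ite (Poly.decide_le (h.ph hn hb) (Lib.PolyTime.Poly.const 3))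
    (h.step hn hb (M := fun a => (n a * d) ^ 30) (by fun_prop) hi hj).enc
    (h.finStep hn hb hi hj).enc).congr fun _ => (apply_ite algEnc _ _ _).symm

theorem PSt.algAll (hn : Poly n) (hb : PB n) (h : PSt st) :
    Poly fun a => algAll (n a) d (st a) := by
  refine Poly.flatten (Poly.ofFn (by fun_prop) (by fun_prop)
    (Poly.flatten (Poly.ofFn (by fun_prop) (by fun_prop) ?_)))
  have hg : Poly fun x : Σ p : (Σ a, Fin (n a * d)), Fin (n p.1 * d) => x.1.1 := by fun_prop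
  have hi' : PI (N := fun x : Σ p : (Σ a, Fin (n a * d)), Fin (n p.1 * d) => n x.1.1 * d)
      fun x => x.1.2 := by unfold PI; fun_prop
  have hj' : PI (N := fun x : Σ p : (Σ a, Fin (n a * d)), Fin (n p.1 * d) => n x.1.1 * d)
      fun x => x.2 := by unfold PI; fun_prop
  have hn' := hn.comp hg
  have hb' := hb.comp hg
  have h' := h.comp hg
  exact Poly.ite (h'.algQ hn' hb' hi' hj') ((h'.algT hn' hb' hi' hj').cons (Lib.PolyTime.Poly.const []))
    (Lib.PolyTime.Poly.const [])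

theorem alg_polyNx (d : ℕ) : Poly fun p : Un × AlgL => algNx p.1.n d p.2 :=
  Poly.headD (PSt.algAll (by fun_prop) (by fun_prop)
    (alg_dec (n := fun p : Un × AlgL => p.1.n) (by fun_prop) (by fun_prop) (by fun_prop)))
    (by fun_prop)

end poly

/-! ### sizes -/

theorem alg_sz_ofFn {β : Type} [PEnc β] {N B : ℕ} {f : Fin N → β} (h : ∀ i, sz (f i) ≤ B) :
    sz (List.ofFn f) ≤ N * (B + 1) + 1 := by
  have := sz_list_le (l := List.ofFn f) (B := B) fun x hx => by
    obtain ⟨i, rfl⟩ := List.mem_ofFn.1 hx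
    exact h i
  rwa [List.length_ofFn] at this

theorem alg_sz_E {β : Type} [PEnc β] {N B : ℕ} {K : Fin N → Fin N → β} (h : ∀ i j, sz (K i j) ≤ B) :
    sz (algE K) ≤ N * (N * (B + 1) + 1 + 1) + 1 :=
  alg_sz_ofFn fun i => alg_sz_ofFn (h i)

theorem alg_sz_ent {β : Type} [PEnc β] {N : ℕ} (K : Fin N → Fin N → β) (i j : Fin N) :
    sz (K i j) ≤ sz (algE K) :=
  (sz_le_of_mem (List.mem_ofFn.2 ⟨j, rfl⟩)).trans
    (sz_le_of_mem (l := algE K) (List.mem_ofFn.2 ⟨i, rfl⟩))

theorem alg_sz_div {w : ℤ} {M W : ℕ} (hM : M ≠ 0) (h : |w| ≤ W) :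
    sz ((w : ℚ) / M) ≤ 8 * (W + M) + 16 := by
  refine PArith.sz_le _ _ ?_
  rw [ht_rat, ← Rat.mkRat_eq_div]
  have h1 : w.natAbs ≤ W := by rwa [← Int.natCast_natAbs, Nat.cast_le] at h
  exact (mkRat_ht_le w hM).trans ((Nat.add_le_add_right h1 M).trans Nat.lt_two_pow_self.le)

theorem alg_sz_rnd {N M B : ℕ} (hM : M ≠ 0) (S : Finset (Fin N)) {e : ℤ} (he : |e| ≤ 1)
    {K : Matrix (Fin N) (Fin N) ℚ} (hK : ∀ c f, |K c f| ≤ B) (c f : Fin N) :
    sz (rnd M S (e : ℚ) K c f) ≤ 8 * ((M + (N + 1) * (M * B + 1)) + M) + 16 := by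
  have h1 : ∀ c f, |⌊(M : ℚ) * K c f⌋| ≤ ((M * B + 1 : ℕ) : ℤ) := fun c f => by
    have h2 := abs_le.1 (hK c f)
    have h3 : (0 : ℚ) ≤ M := Nat.cast_nonneg M
    have h4 := Int.floor_le ((M : ℚ) * K c f)
    have h5 := Int.lt_floor_add_one ((M : ℚ) * K c f)
    have h6 := mul_le_mul_of_nonneg_left h2.1 h3
    have h7 := mul_le_mul_of_nonneg_left h2.2 h3
    rw [← Int.cast_le (R := ℚ)]
    push_cast
    rw [abs_le]
    constructor <;> linarith
  have hM' : (M : ℚ) ≠ 0 := Nat.cast_ne_zero.2 hM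
  simp only [rnd, Matrix.of_apply]
  split_ifs
  · have h2 : (e : ℚ) - ∑ g ∈ S.erase c, (⌊(M : ℚ) * K c g⌋ : ℚ) / M =
        ((e * M - ∑ g ∈ S.erase c, ⌊(M : ℚ) * K c g⌋ : ℤ) : ℚ) / M := by
      rw [← Finset.sum_div]
      push_cast
      field_simp
    rw [h2]
    refine alg_sz_div hM ((abs_sub _ _).trans ?_)
    have h3 : |e * (M : ℤ)| ≤ M := by
      rw [abs_mul, Nat.abs_cast]
      exact mul_le_of_le_one_left (Nat.cast_nonneg M) he
    have h4 : |∑ g ∈ S.erase c, ⌊(M : ℚ) * K c g⌋| ≤ (N + 1 : ℕ) * ((M * B + 1 : ℕ) : ℤ) := by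
      refine (abs_sum_le_sum_abs _ _).trans ((sum_le_card_nsmul _ _ _ fun g _ => h1 c g).trans ?_)
      rw [nsmul_eq_mul]
      have h5 : (S.erase c).card ≤ N + 1 := (card_le_univ _).trans (by simp)
      exact mul_le_mul_of_nonneg_right (Nat.cast_le.2 h5) (Nat.cast_nonneg _)
    rw [Nat.cast_add, Nat.cast_mul]
    exact add_le_add h3 h4
  · refine alg_sz_div hM ((h1 c f).trans (Nat.cast_le.2 ?_))
    nlinarith [Nat.zero_le (N * (M * B + 1))]
  · have := alg_sz_div (w := 0) (W := M + (N + 1) * (M * B + 1)) hM (by positivity)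
    rwa [Int.cast_zero, zero_div] at this

/-- bound for the size of the entries -/
def algB (n d : ℕ) : ℕ :=
  sz (algEnc (st0 n d Fin.divNat : St (Fin n) (Fin (n * d)) ℚ)) +
    (8 * (((n * d) ^ 30 + (n * d + 1) * ((n * d) ^ 30 * (n * d) + 1)) + (n * d) ^ 30) + 16)

/-- size invariant -/
def algI (n d : ℕ) (s : AlgL) : Prop :=
  ∃ st : St (Fin n) (Fin (n * d)) ℚ, s = algEnc st ∧ (∀ i j, sz (st.K i j) ≤ algB n d) ∧
    ∀ i j, sz (st.J i j) ≤ algB n d

theorem algI_init (n d : ℕ) :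
    algI n d (algEnc (st0 n d Fin.divNat : St (Fin n) (Fin (n * d)) ℚ)) := by
  refine ⟨_, rfl, fun i j => (alg_sz_ent _ i j).trans ?_, fun i j => (alg_sz_ent _ i j).trans ?_⟩
  · simp only [algB, algEnc, sz_pair]; omega
  · simp only [algB, algEnc, sz_pair]; omega

theorem algI_next {n d : ℕ} {s : AlgL} (h : algI n d s) : algI n d (algNx n d s) := by
  rcases algNx_cases (n := n) (d := d) s with ⟨a, b, h1, h2⟩ | ⟨-, h2⟩
  · obtain ⟨st, rfl, hK, hJ⟩ := h
    rw [algDec_enc] at h1 h2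
    refine ⟨_, h2, ?_⟩
    have hM : (n * d) ^ 30 ≠ 0 := pow_ne_zero _ (Fin.pos a).ne'
    rcases h1 with ⟨h1, h3, -⟩ | ⟨h1, -⟩
    · rw [algT, if_pos h1]
      refine ⟨fun i j => le_add_left ?_, fun i j => le_add_left ?_⟩
      · have := alg_sz_rnd hM (del st.S a b) (e := 1) (by norm_num) h3.2.2.2.1 i j
        rwa [Int.cast_one] at this
      · have := alg_sz_rnd hM (del st.S a b) (e := -1) (by norm_num) h3.2.2.2.2 i j
        rwa [Int.cast_neg, Int.cast_one] at this
    · rw [algT, if_neg h1]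
      exact ⟨hK, hJ⟩
  · rwa [h2]

theorem algI_sz {n d : ℕ} {s : AlgL} (h : algI n d s) :
    sz s ≤ (n * d * (3 + 1) + 1) + ((n * (n * (3 + 1) + 1 + 1) + 1) +
      (2 * (n * d * (n * d * (algB n d + 1) + 1 + 1) + 1) + 1) + 1) + 1 := by
  obtain ⟨st, rfl, hK, hJ⟩ := h
  have h1 : sz (algS st.S) ≤ _ := alg_sz_ofFn fun _ => sz_bool_le _
  have h2 : sz (algA st.G) ≤ _ := alg_sz_E fun _ _ => sz_bool_le _
  have h3 := alg_sz_E hK
  have h4 := alg_sz_E hJ
  simp only [algEnc, sz_pair]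
  omega

/-- the state after `t` rounds -/
def algRun (n d t : ℕ) : AlgL :=
  (algNx n d)^[t] (algEnc (st0 n d Fin.divNat : St (Fin n) (Fin (n * d)) ℚ))

theorem alg_polyRun (d : ℕ) : Poly fun u : Un => algRun u.n d (u.n * d) := by
  have h0 := (alg_st0 (n := fun u : Un => u.n) (d := d) (by fun_prop) (by fun_prop)).enc
  have hB : PB fun u : Un => algB u.n d := h0.pb_sz.add (by fun_prop)
  exact Poly.iterate_inv (h := fun u : Un => algNx u.n d) (by fun_prop) (by fun_prop) h0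
    (alg_polyNx d) (fun u => algI u.n d) (fun u => algI_init u.n d) (fun _ _ => algI_next)
    (by fun_prop) fun _ _ => algI_sz

/-- the output -/
def algOut (n : ℕ) (L : List (List Bool)) : List Bool :=
  (List.range (n * n)).map fun k => algG false L (k / n) (k % n)

theorem algOut_getD {n : ℕ} (L : List (List Bool)) (i j : Fin n) :
    (algOut n L).getD (i * n + j) false = algG false L i j := by
  have h1 : (i : ℕ) * n + j < n * n := by nlinarith [i.2, j.2]
  have h2 : ((i : ℕ) * n + j) / n = i := by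
    rw [add_comm, Nat.add_mul_div_right _ _ (Fin.pos i), Nat.div_eq_of_lt j.2, zero_add]
  have h3 : ((i : ℕ) * n + j) % n = j := by
    rw [add_comm, Nat.add_mul_mod_self_right, Nat.mod_eq_of_lt j.2]
  simp [algOut, h1, h2, h3]

theorem exists_alg (d : ℕ) (hd : 3 ≤ d) :
    ∃ F : List Bool → List Bool, Crest.Complexity.PolyTime F ∧ ∀ n : ℕ,
      ∃ seq : ℕ → St (Fin n) (Fin (n * d)) ℚ, seq 0 = st0 n d Fin.divNat ∧
        (∀ t, Next (mOf n) n d Fin.divNat (seq t) (seq (t + 1))) ∧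
        Crest.CombinatoricsR.GraphCode.adjGraph n (F (Crest.CombinatoricsR.GraphCode.unary n)) =
          (seq (n * d)).G := by
  refine ⟨fun w => algOut w.length (algRun w.length d (w.length * d)).2.1, Poly.polyTime ?_,
    fun n => ⟨fun t => algDec n (n * d) (algRun n d t), algDec_enc _, fun t => ?_, ?_⟩⟩
  · obtain ⟨r, hr, e⟩ := alg_gen ((alg_polyRun d).comp
      (g := fun w : List Bool => Un.mk w.length) (by fun_prop))
    simp only [algOut, algG, e]
    fun_prop
  · simp only [algRun, Function.iterate_succ_apply']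
    exact algNx_next _
  · ext i j
    simp only [Crest.CombinatoricsR.GraphCode.adjGraph, Crest.CombinatoricsR.GraphCode.unary,
      List.length_replicate, algOut_getD]
    rfl

end Crest.Agent.R62
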