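import Crest.Agent.R62.MomentB

/-! Auxiliary estimates for `beta_first`: pointwise bounds and norm tests. -/

set_option autoImplicit false
set_option linter.unusedSectionVars false
open Classical
open scoped Matrix
open Finset

noncomputable section
namespace Crest.Agent.R62.Beta1Aux

variable {ι : Type} [Fintype ι] [DecidableEq ι] {p e : ℝ} {S : Finset ι} {K : Matrix ι ι ℝ}

/-! ### pointwise bounds -/

theorem eta {e k D x v Δ : ℝ} (he : e = 1 ∨ e = -1) (hk : |k| ≤ Δ) (hD1 : 99 / 100 ≤ D)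
    (hD : |1 / D - 1| ≤ 3 * Δ) : |(v + (e - k) * x) / D - (e * x + v)| ≤ 5 * Δ * (|x| + |v|) := by
  have hD0 : 0 < D := by linarith
  have e1 : (v + (e - k) * x) / D - (e * x + v) = (e * x + v) * (1 / D - 1) - k * x * (1 / D) := by
    field_simp; ring
  have e2 : |e * x + v| ≤ |x| + |v| := by
    refine (abs_add_le _ _).trans ?_
    rcases he with rfl | rfl <;> simp
  have e3 : |1 / D| ≤ 2 := by
    rw [abs_of_pos (by positivity), div_le_iff₀ hD0]; linarith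
  have hΔ : 0 ≤ Δ := (abs_nonneg _).trans hk
  have e4 : |(e * x + v) * (1 / D - 1)| ≤ (|x| + |v|) * (3 * Δ) := by
    rw [abs_mul]; exact mul_le_mul e2 hD (abs_nonneg _) (by positivity)
  have e5 : |k * x * (1 / D)| ≤ Δ * |x| * 2 := by
    rw [abs_mul, abs_mul]
    exact mul_le_mul (mul_le_mul_of_nonneg_right hk (abs_nonneg _)) e3 (abs_nonneg _) (by positivity)
  rw [e1]
  refine (abs_sub _ _).trans ?_
  have : 0 ≤ Δ * |v| := by positivity
  nlinarith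

theorem sq_diff {e x v η Δ : ℝ} (he : e = 1 ∨ e = -1) (hΔ0 : 0 ≤ Δ) (hΔ : Δ ≤ 1 / 500)
    (hη : |η| ≤ 5 * Δ * (|x| + |v|)) :
    |(e * x + v + η) ^ 2 - x ^ 2| ≤ 11 * Δ * |x| ^ 2 + 3 * (|x| * |v|) + 3 * |v| ^ 2 := by
  have he2 : e ^ 2 = 1 := by rcases he with rfl | rfl <;> norm_num
  have e1 : (e * x + v + η) ^ 2 - x ^ 2 = 2 * (e * x) * (v + η) + (v + η) ^ 2 := by
    have : (e * x) ^ 2 = x ^ 2 := by rw [mul_pow, he2, one_mul]
    nlinarith
  have hx := abs_nonneg x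
  have hv := abs_nonneg v
  have e2 : |v + η| ≤ 101 / 100 * |v| + 5 * Δ * |x| := by
    have := abs_add_le v η
    have : Δ * |v| ≤ 1 / 500 * |v| := mul_le_mul_of_nonneg_right hΔ hv
    nlinarith
  have e3 : |e * x| = |x| := by rcases he with rfl | rfl <;> simp
  have e4 : |2 * (e * x) * (v + η)| ≤ 2 * |x| * (101 / 100 * |v| + 5 * Δ * |x|) := by
    rw [abs_mul, abs_mul, e3, abs_two]
    exact mul_le_mul_of_nonneg_left e2 (by positivity)
  have e5 : |(v + η) ^ 2| ≤ (101 / 100 * |v| + 5 * Δ * |x|) ^ 2 := by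
    rw [abs_pow]; exact pow_le_pow_left₀ (abs_nonneg _) e2 2
  have e6 : (101 / 100 * |v| + 5 * Δ * |x|) ^ 2 ≤ 2 * (101 / 100 * |v|) ^ 2 + 2 * (5 * Δ * |x|) ^ 2 := by
    nlinarith [sq_nonneg (101 / 100 * |v| - 5 * Δ * |x|)]
  have e7 : Δ * (Δ * |x| ^ 2) ≤ 1 / 500 * (Δ * |x| ^ 2) :=
    mul_le_mul_of_nonneg_right hΔ (by positivity)
  rw [e1]
  refine (abs_add_le _ _).trans ?_
  have : 0 ≤ |x| * |v| := by positivity
  have : 0 ≤ Δ * |x| ^ 2 := by positivity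
  have : 0 ≤ |v| ^ 2 := by positivity
  nlinarith

theorem rem_pt {e kab kaa kbb x y qa ua qab D : ℝ} (he : e = 1 ∨ e = -1) (h1 : |kab| ≤ 1 / 1000)
    (h2 : |kaa * kbb| ≤ 1 / 1000) (hD1 : 99 / 100 ≤ D)
    (hD : |1 / D - 1| ≤ 3 * (|kab| + |kaa * kbb|)) :
    |(2 * ((kbb * y + (e - kab) * x) / D) * qa + ((kbb * y + (e - kab) * x) / D) ^ 2 * ua +
        ((kbb * y + (e - kab) * x) / D) * ((kaa * x + (e - kab) * y) / D) * qab) -
      (2 * e * x * qa + 2 * kbb * y * qa + x ^ 2 * ua)| ≤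
      10 * (|qa| * (|kab| + |kaa * kbb|) * |x|) +
      10 * (|y| * |qa| * (|kab| + |kaa * kbb|) * |kbb|) +
      11 * (|x| ^ 2 * (|kab| + |kaa * kbb|) * |ua|) +
      3 * ((|y| * |ua|) * (|x| * |kbb|)) + 3 * ((|y| ^ 2 * |ua|) * |kbb| ^ 2) +
      2 * (|y| * |qab| * |x|) + 2 * (|x| ^ 2 * |qab| * |kaa|) + 2 * (|y| ^ 2 * |qab| * |kbb|) := by
  set Δ := |kab| + |kaa * kbb| with hΔ
  have hk : |kab| ≤ Δ := le_add_of_nonneg_right (abs_nonneg _)
  have hΔ0 : 0 ≤ Δ := by positivity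
  have hΔ1 : Δ ≤ 1 / 500 := by linarith
  have a1 := eta (x := x) (v := kbb * y) he hk hD1 hD
  have a2 := eta (x := y) (v := kaa * x) he hk hD1 hD
  set A := (kbb * y + (e - kab) * x) / D with hA
  set B := (kaa * x + (e - kab) * y) / D with hB
  have hex : ∀ t : ℝ, |e * t| = |t| := fun t => by rcases he with rfl | rfl <;> simp
  have a3 := sq_diff he hΔ0 hΔ1 a1
  have hAeq : e * x + kbb * y + (A - (e * x + kbb * y)) = A := by ring
  rw [hAeq] at a3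
  have hx := abs_nonneg x
  have hy := abs_nonneg y
  have haa := abs_nonneg kaa
  have hbb := abs_nonneg kbb
  have bA : |A| ≤ 101 / 100 * (|x| + |kbb| * |y|) := by
    have t1 : |A| ≤ |e * x + kbb * y| + |A - (e * x + kbb * y)| := by
      conv_lhs => rw [← hAeq]
      exact abs_add_le _ _
    have t2 := abs_add_le (e * x) (kbb * y)
    rw [hex] at t2
    rw [abs_mul] at t2 a1
    have : Δ * (|x| + |kbb| * |y|) ≤ 1 / 500 * (|x| + |kbb| * |y|) :=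
      mul_le_mul_of_nonneg_right hΔ1 (by positivity)
    linarith
  have bB : |B| ≤ 101 / 100 * (|y| + |kaa| * |x|) := by
    have hBeq : e * y + kaa * x + (B - (e * y + kaa * x)) = B := by ring
    have t1 : |B| ≤ |e * y + kaa * x| + |B - (e * y + kaa * x)| := by
      conv_lhs => rw [← hBeq]
      exact abs_add_le _ _
    have t2 := abs_add_le (e * y) (kaa * x)
    rw [hex] at t2
    rw [abs_mul] at t2 a2
    have : Δ * (|y| + |kaa| * |x|) ≤ 1 / 500 * (|y| + |kaa| * |x|) :=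
      mul_le_mul_of_nonneg_right hΔ1 (by positivity)
    linarith
  have bAB : |A * B| ≤ 2 * (|y| * |x|) + 2 * (|x| ^ 2 * |kaa|) + 2 * (|y| ^ 2 * |kbb|) := by
    rw [abs_mul]
    refine (mul_le_mul bA bB (abs_nonneg _) (by positivity)).trans ?_
    rw [abs_mul] at h2
    have t1 : |kaa| * |kbb| * (|y| * |x|) ≤ 1 / 1000 * (|y| * |x|) :=
      mul_le_mul_of_nonneg_right h2 (by positivity)
    have : 0 ≤ |y| * |x| := by positivity
    have : 0 ≤ |x| ^ 2 * |kaa| := by positivity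
    have : 0 ≤ |y| ^ 2 * |kbb| := by positivity
    nlinarith
  have e1 : (2 * A * qa + A ^ 2 * ua + A * B * qab) - (2 * e * x * qa + 2 * kbb * y * qa + x ^ 2 * ua) =
      2 * ((A - (e * x + kbb * y)) * qa) + (A ^ 2 - x ^ 2) * ua + A * B * qab := by ring
  rw [e1]
  have c1 : |2 * ((A - (e * x + kbb * y)) * qa)| ≤ 2 * (5 * Δ * (|x| + |kbb * y|) * |qa|) := by
    rw [abs_mul, abs_mul, abs_two]
    exact mul_le_mul_of_nonneg_left (mul_le_mul_of_nonneg_right a1 (abs_nonneg _)) (by norm_num)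
  have c2 : |(A ^ 2 - x ^ 2) * ua| ≤
      (11 * Δ * |x| ^ 2 + 3 * (|x| * |kbb * y|) + 3 * |kbb * y| ^ 2) * |ua| := by
    rw [abs_mul]; exact mul_le_mul_of_nonneg_right a3 (abs_nonneg _)
  have c3 : |A * B * qab| ≤
      (2 * (|y| * |x|) + 2 * (|x| ^ 2 * |kaa|) + 2 * (|y| ^ 2 * |kbb|)) * |qab| := by
    rw [abs_mul]; exact mul_le_mul_of_nonneg_right bAB (abs_nonneg _)
  refine ((abs_add_le _ _).trans (add_le_add ((abs_add_le _ _).trans (add_le_add c1 c2)) c3)).trans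
    (le_of_eq ?_)
  rw [abs_mul kbb y]
  ring

/-! ### norm tests with explicit bounds -/

omit [Fintype ι] [DecidableEq ι] in
theorem cs (S : Finset ι) (x y : ι → ℝ) {X Y : ℝ} (hX : 0 ≤ X) (hY : 0 ≤ Y)
    (hx : ∑ a ∈ S, x a ^ 2 ≤ X ^ 2) (hy : ∑ a ∈ S, y a ^ 2 ≤ Y ^ 2) :
    ∑ a ∈ S, x a * y a ≤ X * Y := by
  refine (le_abs_self _).trans (abs_le_of_sq_le_sq ?_ (by positivity))
  refine (Finset.sum_mul_sq_le_sq_mul_sq S x y).trans ?_
  rw [mul_pow]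
  exact mul_le_mul hx hy (by positivity) (by positivity)

omit [Fintype ι] [DecidableEq ι] in
theorem l1 (S : Finset ι) (x : ι → ℝ) {X s : ℝ} (hX : 0 ≤ X) (hs0 : 0 ≤ s) (hs : s ^ 2 = S.card)
    (hx : ∑ a ∈ S, x a ^ 2 ≤ X ^ 2) : ∑ a ∈ S, x a ≤ s * X := by
  have := cs S (fun _ => 1) x hs0 hX (by simp [hs]) hx
  simpa using this

theorem sqrt_le {a X : ℝ} (hX : 0 ≤ X) (h : a ≤ X ^ 2) : √a ≤ X := Real.sqrt_le_iff.2 ⟨hX, h⟩

theorem frob' (S : Finset ι) (M : ι → ι → ℝ) (x y : ι → ℝ) {F X Y : ℝ} (hF : 0 ≤ F) (hX : 0 ≤ X)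
    (hY : 0 ≤ Y) (hM : ∑ a ∈ S, ∑ b ∈ S, M a b ^ 2 ≤ F ^ 2)
    (hx : ∑ a ∈ S, x a ^ 2 ≤ X ^ 2) (hy : ∑ a ∈ S, y a ^ 2 ≤ Y ^ 2) :
    ∑ a ∈ S, ∑ b ∈ S, x a * M a b * y b ≤ F * X * Y := by
  refine (le_abs_self _).trans ((frob_test S M x y).trans ?_)
  exact mul_le_mul (mul_le_mul (sqrt_le hF hM) (sqrt_le hX hx) (Real.sqrt_nonneg _) hF)
    (sqrt_le hY hy) (Real.sqrt_nonneg _) (by positivity)

theorem row' (S : Finset ι) (M : ι → ι → ℝ) (x y : ι → ℝ) {ρ X Y : ℝ} (hρ : 0 ≤ ρ)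
    (hY : 0 ≤ Y) (hM : ∀ a ∈ S, ∑ b ∈ S, M a b ^ 2 ≤ ρ ^ 2)
    (hx : ∑ a ∈ S, |x a| ≤ X) (hy : ∑ a ∈ S, y a ^ 2 ≤ Y ^ 2) :
    |∑ a ∈ S, ∑ b ∈ S, x a * M a b * y b| ≤ X * ρ * Y := by
  refine (row_test S M ρ hρ hM x y).trans ?_
  have hX : 0 ≤ X := le_trans (by positivity) hx
  exact mul_le_mul (mul_le_mul_of_nonneg_right hx hρ) (sqrt_le hY hy) (Real.sqrt_nonneg _)
    (by positivity)

theorem op' {w : ι → ι → ℝ} {eF eE er : ℝ} (hw : Wt S K w eF eE er) (x y : ι → ℝ) {X Y : ℝ}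
    (hX : 0 ≤ X) (hY : 0 ≤ Y) (hx : ∑ a ∈ S, x a ^ 2 ≤ X ^ 2) (hy : ∑ a ∈ S, y a ^ 2 ≤ Y ^ 2) :
    |∑ a ∈ S, ∑ b ∈ S, x a * (1 - w a b) * y b| ≤ eE * X * Y := by
  refine (hw.op x y).trans ?_
  have := hw.eE_nonneg
  exact mul_le_mul (mul_le_mul_of_nonneg_left (sqrt_le hX hx) this) (sqrt_le hY hy)
    (Real.sqrt_nonneg _) (by positivity)

/-! ### sums of entries -/

omit [DecidableEq ι] in
theorem sumS (g : ι → ℝ) (hg : ∀ a, a ∉ S → g a = 0) : ∑ a ∈ S, g a = ∑ a, g a :=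
  Finset.sum_subset (Finset.subset_univ S) fun a _ ha => hg a ha

theorem K_zero (h : Good p S e K) (c : ι) {a : ι} (ha : a ∉ S) : K c a = 0 := by
  rw [h.symm, h.supp a c ha]

theorem Q_symm (h : Good p S e K) (a b : ι) : (K * K) a b = (K * K) b a := by
  have := h.pow_symm 2 a b
  rwa [pow_two] at this

theorem Q_zero (h : Good p S e K) (c : ι) {a : ι} (ha : a ∉ S) : (K * K) c a = 0 := by
  have := h.pow_supp (k := 2) (by norm_num) ha c
  rwa [pow_two, Q_symm h] at this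

theorem sum_K_sq (h : Good p S e K) (c : ι) : ∑ a ∈ S, K c a ^ 2 = bet K c := by
  rw [h.bet_eq, sumS _ fun a ha => by rw [K_zero h c ha]; ring]

theorem sum_Q_sq (h : Good p S e K) (c : ι) : ∑ a ∈ S, (K * K) c a ^ 2 = (K ^ 4) c c := by
  have := h.pow_diag 2 c
  rw [pow_two K] at this
  rw [sumS _ fun a ha => by rw [Q_zero h c ha]; ring]
  exact this.symm

theorem sum_KQ (h : Good p S e K) (c : ι) : ∑ a ∈ S, K c a * (K * K) c a = (K ^ 3) c c := by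
  rw [sumS _ fun a ha => by rw [K_zero h c ha]; ring, pow_three, Matrix.mul_apply]
  exact Finset.sum_congr rfl fun a _ => by rw [Q_symm h c a]

theorem sum_K (h : Good p S e K) {c : ι} (hc : c ∈ S) : ∑ a ∈ S, K c a = e := by
  have := h.pow_row (k := 1) le_rfl hc
  simpa using this

theorem e_sq (h : Good p S e K) : e ^ 2 = 1 := by
  rcases h.sign with rfl | rfl <;> norm_num

theorem sum_Q (h : Good p S e K) {c : ι} (hc : c ∈ S) : ∑ a ∈ S, (K * K) c a = 1 := by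
  have := h.pow_row (k := 2) (by norm_num) hc
  rwa [pow_two K, e_sq h] at this

theorem sum_u (h : Good p S e K) : ∑ a ∈ S, (bet K a - 1) = -yy S K := by
  rw [Finset.sum_sub_distrib, yy, h.Tr2_eq]
  simp

theorem sum_QQ (h : Good p S e K) : ∑ a ∈ S, ∑ b ∈ S, (K * K) a b ^ 2 = Tr 4 K := by
  rw [h.Tr_eq (by norm_num)]
  exact Finset.sum_congr rfl fun a _ => sum_Q_sq h a

theorem K4_le (h : Good p S e K) {L : ℝ} (ho : OpB K L) (a : ι) :
    (K ^ 4) a a ≤ L ^ 2 * bet K a := by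
  have := h.diag_succ ho 1 a
  simpa [bet, pow_two K] using this

end Crest.Agent.R62.Beta1Aux
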