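import Crest.Agent.R62.MomentB
import Crest.Agent.R62.Beta1Aux

/-! First-order part of the step inequality for `∑ (β_c - s₀)²`. -/

set_option autoImplicit false
set_option linter.unusedSectionVars false
open Classical
open scoped Matrix
open Finset

noncomputable section
namespace Crest.Agent.R62

namespace Beta1Aux

variable {ι : Type} [Fintype ι] [DecidableEq ι] {p e : ℝ} {S : Finset ι} {K : Matrix ι ι ℝ}

/-- half of the increment of `β_c` -/
def G (e : ℝ) (K : Matrix ι ι ℝ) (a b c : ι) : ℝ :=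
  2 * hA e K a b c * (K * K) c a + hA e K a b c ^ 2 * (bet K a - 1) +
    hA e K a b c * hB e K a b c * (K * K) a b

/-- its main part -/
def Mn (e : ℝ) (K : Matrix ι ι ℝ) (a b c : ι) : ℝ :=
  2 * e * K c b * (K * K) c a + 2 * K b b * K c a * (K * K) c a + K c b ^ 2 * (bet K a - 1)

/-- bound for the remainder -/
def Rem (K : Matrix ι ι ℝ) (a b c : ι) : ℝ :=
  10 * (|(K * K) c a| * (|K a b| + |K a a * K b b|) * |K c b|) +
  10 * (|K c a| * |(K * K) c a| * (|K a b| + |K a a * K b b|) * |K b b|) +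
  11 * (|K c b| ^ 2 * (|K a b| + |K a a * K b b|) * |bet K a - 1|) +
  3 * ((|K c a| * |bet K a - 1|) * (|K c b| * |K b b|)) +
  3 * ((|K c a| ^ 2 * |bet K a - 1|) * |K b b| ^ 2) +
  2 * (|K c a| * |(K * K) a b| * |K c b|) + 2 * (|K c b| ^ 2 * |(K * K) a b| * |K a a|) +
  2 * (|K c a| ^ 2 * |(K * K) a b| * |K b b|)

theorem Rem_nonneg (K : Matrix ι ι ℝ) (a b c : ι) : 0 ≤ Rem K a b c := by
  unfold Rem; positivity

theorem G_sub (h : Good p S e K) {a b : ι} (hab : Alw K a b) (c : ι) :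
    |G e K a b c - Mn e K a b c| ≤ Rem K a b c := by
  obtain ⟨d1, -, d3⟩ := hab.Dd_bound h.sign
  exact rem_pt h.sign hab.2.1 hab.2.2 d1 d3

theorem Dd_symm (h : Good p S e K) (a b : ι) : Dd e K b a = Dd e K a b := by
  unfold Dd; rw [h.symm b a]; ring

theorem bet_upd' (h : Good p S e K) {a b c : ι} (hab : Alw K a b) (hca : c ≠ a) (hcb : c ≠ b) :
    bet (upd e K a b) c - bet K c = G e K a b c + G e K b a c := by
  have d1 := (hab.Dd_bound h.sign).1
  rw [bet_upd h hab.1 hca hcb (by linarith)]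
  have e1 : hA e K b a c = hB e K a b c := by unfold hA hB; rw [Dd_symm h a b, h.symm b a]
  have e2 : hB e K b a c = hA e K a b c := by unfold hA hB; rw [Dd_symm h a b, h.symm b a]
  unfold G
  rw [e1, e2, Q_symm h b a]
  ring

/-- the norms used below -/
structure Nm (S : Finset ι) (K : Matrix ι ι ℝ) (s L lam r δ er : ℝ) : Prop where
  s0 : 0 ≤ s
  hs : s ^ 2 = S.card
  L0 : 0 ≤ L
  lam0 : 0 ≤ lam
  r1 : 1 ≤ r
  δ1 : 1 ≤ δ
  her : r + δ ^ 2 ≤ er
  d : ∑ a ∈ S, K a a ^ 2 ≤ δ ^ 2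
  u : ∑ a ∈ S, (bet K a - 1) ^ 2 ≤ lam ^ 2
  ΔF : ∑ a ∈ S, ∑ b ∈ S, (|K a b| + |K a a * K b b|) ^ 2 ≤ (3 * s) ^ 2
  Δr : ∀ a ∈ S, ∑ b ∈ S, (|K a b| + |K a a * K b b|) ^ 2 ≤ (2 * er) ^ 2
  QF : ∑ a ∈ S, ∑ b ∈ S, |(K * K) a b| ^ 2 ≤ (L ^ 2) ^ 2
  Qr : ∀ a ∈ S, ∑ b ∈ S, |(K * K) a b| ^ 2 ≤ (L * r) ^ 2
  umax : ∀ a, |bet K a - 1| ≤ 2 * r ^ 2
  beta : ∀ a, bet K a ≤ r ^ 2

theorem nm (h : Good p S e K) {s L lam r dd om ga δ er : ℝ} (hb : Bd S K s L lam r dd om ga)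
    (hδ : 1 ≤ δ) (hdd : dd ≤ δ) (hδs : δ ^ 2 ≤ s) (her : r + δ ^ 2 ≤ er) :
    Nm S K s L lam r δ er := by
  have hD : Dh K ≤ δ ^ 2 := hb.D.trans (pow_le_pow_left₀ hb.dd_nonneg hdd 2)
  have hD0 : 0 ≤ Dh K := by unfold Dh; positivity
  have hD2 : Dh K ^ 2 ≤ (δ ^ 2) ^ 2 := pow_le_pow_left₀ hD0 hD 2
  have hr := hb.r_ge
  have hs := hb.s_ge
  refine ⟨by linarith, hb.hs, by linarith [hb.L_ge], hb.lam_nonneg, hr, hδ, her,
    by rwa [← h.Dh_eq], hb.V, ?_, fun a _ => ?_, ?_, fun a _ => ?_, fun a => ?_, hb.beta⟩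
  · have := h.delta_frob
    have h2 : (δ ^ 2) ^ 2 ≤ s ^ 2 := pow_le_pow_left₀ (by positivity) hδs 2
    nlinarith [hb.T2]
  · have := h.delta_row a
    have h1 := hb.beta a
    have h2 : (r + δ ^ 2) ^ 2 ≤ er ^ 2 := pow_le_pow_left₀ (by positivity) her 2
    have : 0 ≤ r * δ ^ 2 := by positivity
    nlinarith
  · simp only [sq_abs]
    rw [sum_QQ h]
    have := hb.T4
    nlinarith
  · simp only [sq_abs]
    rw [sum_Q_sq h, mul_pow]
    exact (K4_le h hb.op a).trans (mul_le_mul_of_nonneg_left (hb.beta a) (by positivity))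
  · have h1 := hb.beta a
    have h2 := h.bet_nonneg a
    rw [abs_le]
    constructor <;> nlinarith

variable {s L lam r δ er P R : ℝ} {c : ι}

theorem rem_sum (h : Good p S e K) (n : Nm S K s L lam r δ er) (hP0 : 0 ≤ P) (hR0 : 0 ≤ R)
    (hP : bet K c = P ^ 2) (hR : (K ^ 4) c c = R ^ 2) :
    ∑ a ∈ S, ∑ b ∈ S, Rem K a b c ≤ 30 * (s * (P * R)) + 20 * (er * δ * (P * R)) +
      22 * (er * lam * P ^ 2) + 3 * (δ * lam * P ^ 2) + 6 * (δ ^ 2 * r ^ 2 * P ^ 2) +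
      2 * (L ^ 2 * P ^ 2) + 4 * (δ * L * r * P ^ 2) := by
  have s0 := n.s0
  have L0 := n.L0
  have lam0 := n.lam0
  have r0 : 0 ≤ r := by linarith [n.r1]
  have δ0 : 0 ≤ δ := by linarith [n.δ1]
  have er0 : 0 ≤ er := by nlinarith [n.her]
  have hk : ∑ a ∈ S, |K c a| ^ 2 ≤ P ^ 2 := by simp only [sq_abs]; rw [sum_K_sq h, hP]
  have hk' : ∑ a ∈ S, |(|K c a| ^ 2)| ≤ P ^ 2 := by simpa only [abs_pow, abs_abs] using hk
  have hq : ∑ a ∈ S, |(K * K) c a| ^ 2 ≤ R ^ 2 := by simp only [sq_abs]; rw [sum_Q_sq h, hR]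
  have hd : ∑ a ∈ S, |K a a| ^ 2 ≤ δ ^ 2 := by simpa only [sq_abs] using n.d
  have hu : ∑ a ∈ S, |bet K a - 1| ^ 2 ≤ lam ^ 2 := by simpa only [sq_abs] using n.u
  have hkq : ∑ a ∈ S, |(|K c a| * |(K * K) c a|)| ≤ P * R := by
    simp only [abs_mul, abs_abs]
    exact cs S _ _ hP0 hR0 hk hq
  have t1 := frob' S (fun a b => |K a b| + |K a a * K b b|) (fun a => |(K * K) c a|)
    (fun b => |K c b|) (by positivity) hR0 hP0 n.ΔF hq hk
  have t2 := (le_abs_self _).trans (row' S (fun a b => |K a b| + |K a a * K b b|)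
    (fun a => |K c a| * |(K * K) c a|) (fun b => |K b b|) (by positivity) δ0 n.Δr hkq hd)
  have t3 := (le_abs_self _).trans (row' S (fun b a => |K a b| + |K a a * K b b|)
    (fun b => |K c b| ^ 2) (fun a => |bet K a - 1|) (ρ := 2 * er) (by positivity) lam0
    (fun b hb => by
      refine le_trans (le_of_eq ?_) (n.Δr b hb)
      exact Finset.sum_congr rfl fun a _ => by rw [h.symm a b, mul_comm]) hk' hu)
  rw [Finset.sum_comm] at t3
  have t4 : ∑ a ∈ S, ∑ b ∈ S, (|K c a| * |bet K a - 1|) * (|K c b| * |K b b|) ≤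
      (P * lam) * (P * δ) := by
    rw [← Finset.sum_mul_sum]
    exact mul_le_mul (cs S _ _ hP0 lam0 hk hu) (cs S _ _ hP0 δ0 hk hd) (by positivity)
      (by positivity)
  have t5 : ∑ a ∈ S, ∑ b ∈ S, (|K c a| ^ 2 * |bet K a - 1|) * |K b b| ^ 2 ≤
      (P ^ 2 * (2 * r ^ 2)) * δ ^ 2 := by
    rw [← Finset.sum_mul_sum]
    refine mul_le_mul ?_ hd (by positivity) (by positivity)
    refine le_trans (Finset.sum_le_sum fun a _ =>
      mul_le_mul_of_nonneg_left (n.umax a) (by positivity)) ?_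
    rw [← Finset.sum_mul]
    exact mul_le_mul_of_nonneg_right hk (by positivity)
  have t6 := frob' S (fun a b => |(K * K) a b|) (fun a => |K c a|)
    (fun b => |K c b|) (by positivity) hP0 hP0 n.QF hk hk
  have t7 := (le_abs_self _).trans (row' S (fun b a => |(K * K) a b|)
    (fun b => |K c b| ^ 2) (fun a => |K a a|) (ρ := L * r) (by positivity) δ0
    (fun b hb => by
      refine le_trans (le_of_eq ?_) (n.Qr b hb)
      exact Finset.sum_congr rfl fun a _ => by rw [Q_symm h a b]) hk' hd)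
  rw [Finset.sum_comm] at t7
  have t8 := (le_abs_self _).trans (row' S (fun a b => |(K * K) a b|)
    (fun a => |K c a| ^ 2) (fun b => |K b b|) (by positivity) δ0 n.Qr hk' hd)
  simp only [Rem, Finset.sum_add_distrib, ← Finset.mul_sum]
  simp only [Finset.mul_sum]
  simp only [← Finset.mul_sum S _ (10 : ℝ), ← Finset.mul_sum S _ (11 : ℝ),
    ← Finset.mul_sum S _ (3 : ℝ), ← Finset.mul_sum S _ (2 : ℝ)]
  linarith

theorem main_sum (h : Good p S e K) (hc : c ∈ S) :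
    ∑ a ∈ S, ∑ b ∈ S, Mn e K a b c = 2 + 2 * Tr 1 K * (K ^ 3) c c - yy S K * bet K c := by
  have e1 : ∀ a b, Mn e K a b c = 2 * e * ((K * K) c a * K c b) +
      2 * ((K c a * (K * K) c a) * K b b) + (bet K a - 1) * K c b ^ 2 := fun a b => by
    unfold Mn; ring
  simp only [e1, Finset.sum_add_distrib, ← Finset.mul_sum, ← Finset.sum_mul]
  rw [sum_Q h hc, sum_K h hc, sum_KQ h, ← h.Tr1_eq, sum_u h, sum_K_sq h]
  have := e_sq h
  linear_combination 2 * this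

theorem bias_sum (h : Good p S e K) (n : Nm S K s L lam r δ er) {w : ι → ι → ℝ} {eF eE : ℝ}
    (hw : Wt S K w eF eE er) (hP0 : 0 ≤ P) (hR0 : 0 ≤ R)
    (hP : bet K c = P ^ 2) (hR : (K ^ 4) c c = R ^ 2) :
    |∑ a ∈ S, ∑ b ∈ S, (1 - w a b) * Mn e K a b c| ≤
      2 * (eE * (P * R)) + 2 * (er * δ * (P * R)) + er * lam * P ^ 2 := by
  have δ0 : 0 ≤ δ := by linarith [n.δ1]
  have hk : ∑ a ∈ S, K c a ^ 2 ≤ P ^ 2 := by rw [sum_K_sq h, hP]
  have hk' : ∑ a ∈ S, |K c a ^ 2| ≤ P ^ 2 := by simpa only [abs_pow, sq_abs] using hk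
  have hq : ∑ a ∈ S, (K * K) c a ^ 2 ≤ R ^ 2 := by rw [sum_Q_sq h, hR]
  have hkq : ∑ a ∈ S, |K c a * (K * K) c a| ≤ P * R := by
    simp only [abs_mul]
    exact cs S _ _ hP0 hR0 (by simpa only [sq_abs] using hk) (by simpa only [sq_abs] using hq)
  have t1 := op' hw (fun a => (K * K) c a) (fun b => K c b) hR0 hP0 hq hk
  have t2 := row' S (fun a b => 1 - w a b) (fun a => K c a * (K * K) c a) (fun b => K b b)
    hw.er_nonneg δ0 hw.row hkq n.d
  have t3 := row' S (fun b a => 1 - w a b) (fun b => K c b ^ 2) (fun a => bet K a - 1)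
    hw.er_nonneg n.lam0 (fun b hb => by
      refine le_trans (le_of_eq ?_) (hw.row b hb)
      exact Finset.sum_congr rfl fun a _ => by rw [hw.symm a b]) hk' n.u
  rw [Finset.sum_comm] at t3
  have e1 : ∑ a ∈ S, ∑ b ∈ S, (1 - w a b) * Mn e K a b c =
      2 * (e * ∑ a ∈ S, ∑ b ∈ S, (K * K) c a * (1 - w a b) * K c b) +
      2 * (∑ a ∈ S, ∑ b ∈ S, K c a * (K * K) c a * (1 - w a b) * K b b) +
      ∑ a ∈ S, ∑ b ∈ S, K c b ^ 2 * (1 - w a b) * (bet K a - 1) := by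
    simp only [Finset.mul_sum, ← Finset.sum_add_distrib]
    refine Finset.sum_congr rfl fun a _ => Finset.sum_congr rfl fun b _ => ?_
    unfold Mn; ring
  have hex : ∀ t : ℝ, |e * t| = |t| := fun t => by rcases h.sign with rfl | rfl <;> simp
  rw [e1]
  refine (abs_add_le _ _).trans ((add_le_add (abs_add_le _ _) le_rfl).trans ?_)
  rw [abs_mul, abs_mul 2, hex, abs_two]
  linarith

theorem Mn_abs (h : Good p S e K) (a b c : ι) : |Mn e K a b c| ≤
    2 * (|(K * K) c a| * |K c b|) + 2 * (|K c a| * |(K * K) c a| * |K b b|) +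
      |bet K a - 1| * |K c b| ^ 2 := by
  have he : |e| = 1 := by rcases h.sign with rfl | rfl <;> simp
  unfold Mn
  refine (abs_add_le _ _).trans ((add_le_add (abs_add_le _ _) le_rfl).trans (le_of_eq ?_))
  simp only [abs_mul, abs_pow, he, abs_two]
  ring

theorem drop_left (h : Good p S e K) (n : Nm S K s L lam r δ er) (hc : c ∈ S) (hP0 : 0 ≤ P)
    (hP : bet K c = P ^ 2) :
    ∑ b ∈ S, |Mn e K c b c| ≤ 4 * (s * er * P ^ 2) + δ * lam * P ^ 2 := by
  have s0 := n.s0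
  have lam0 := n.lam0
  have r0 : 0 ≤ r := by linarith [n.r1]
  have δ0 : 0 ≤ δ := by linarith [n.δ1]
  have hk : ∑ a ∈ S, |K c a| ^ 2 ≤ P ^ 2 := by simp only [sq_abs]; rw [sum_K_sq h, hP]
  have hd : ∑ a ∈ S, |K a a| ^ 2 ≤ δ ^ 2 := by simpa only [sq_abs] using n.d
  have hQ : |(K * K) c c| = P ^ 2 := by
    rw [← hP]; exact abs_of_nonneg (h.bet_nonneg c)
  have hPr : P ≤ r := abs_le_of_sq_le_sq' (hP ▸ n.beta c) r0 |>.2
  have hcc : |K c c| ≤ δ := abs_le_of_sq_le_sq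
    ((Finset.single_le_sum (f := fun a => K a a ^ 2) (fun a _ => sq_nonneg _) hc).trans n.d) δ0
  have huc : |bet K c - 1| ≤ lam := abs_le_of_sq_le_sq
    ((Finset.single_le_sum (f := fun a => (bet K a - 1) ^ 2) (fun a _ => sq_nonneg _) hc).trans n.u)
    lam0
  have t1 := l1 S (fun b => |K c b|) hP0 s0 n.hs hk
  have t2 := l1 S (fun b => |K b b|) δ0 s0 n.hs hd
  refine (Finset.sum_le_sum fun b _ => Mn_abs h c b c).trans ?_
  simp only [Finset.sum_add_distrib, ← Finset.mul_sum, hQ]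
  have a1 : P ^ 2 * ∑ b ∈ S, |K c b| ≤ P ^ 2 * (s * er) := by
    refine mul_le_mul_of_nonneg_left (t1.trans (mul_le_mul_of_nonneg_left ?_ s0)) (by positivity)
    nlinarith [n.her]
  have a2 : |K c c| * P ^ 2 * ∑ b ∈ S, |K b b| ≤ δ * P ^ 2 * (s * δ) :=
    mul_le_mul (mul_le_mul_of_nonneg_right hcc (by positivity)) t2 (by positivity) (by positivity)
  have a3 : |bet K c - 1| * ∑ b ∈ S, |K c b| ^ 2 ≤ lam * P ^ 2 :=
    mul_le_mul huc hk (by positivity) lam0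
  have a4 : s * P ^ 2 * δ ^ 2 ≤ s * P ^ 2 * er :=
    mul_le_mul_of_nonneg_left (by linarith [n.her]) (by positivity)
  have a5 : 1 * (lam * P ^ 2) ≤ δ * (lam * P ^ 2) := mul_le_mul_of_nonneg_right n.δ1 (by positivity)
  linarith

theorem drop_right (h : Good p S e K) (n : Nm S K s L lam r δ er) (hc : c ∈ S) (hP0 : 0 ≤ P)
    (hR0 : 0 ≤ R) (hP : bet K c = P ^ 2) (hR : (K ^ 4) c c = R ^ 2) :
    ∑ a ∈ S, |Mn e K a c c| ≤ 2 * (s * (P * R)) + 2 * (er * δ * (P * R)) + s * lam * K c c ^ 2 := by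
  have s0 := n.s0
  have lam0 := n.lam0
  have δ0 : 0 ≤ δ := by linarith [n.δ1]
  have er1 : 1 ≤ er := by nlinarith [n.her, n.r1]
  have hk : ∑ a ∈ S, |K c a| ^ 2 ≤ P ^ 2 := by simp only [sq_abs]; rw [sum_K_sq h, hP]
  have hq : ∑ a ∈ S, |(K * K) c a| ^ 2 ≤ R ^ 2 := by simp only [sq_abs]; rw [sum_Q_sq h, hR]
  have hu : ∑ a ∈ S, |bet K a - 1| ^ 2 ≤ lam ^ 2 := by simpa only [sq_abs] using n.u
  have hcc : |K c c| ≤ δ := abs_le_of_sq_le_sq
    ((Finset.single_le_sum (f := fun a => K a a ^ 2) (fun a _ => sq_nonneg _) hc).trans n.d) δ0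
  have hcP : |K c c| ≤ P := by
    have := (Finset.single_le_sum (f := fun a => |K c a| ^ 2) (fun a _ => sq_nonneg _) hc).trans hk
    exact (abs_le_of_sq_le_sq' this hP0).2
  have t1 := l1 S (fun a => |(K * K) c a|) hR0 s0 n.hs hq
  have t2 := cs S _ _ hP0 hR0 hk hq
  have t3 := l1 S (fun a => |bet K a - 1|) lam0 s0 n.hs hu
  refine (Finset.sum_le_sum fun a _ => Mn_abs h a c c).trans ?_
  simp only [Finset.sum_add_distrib, ← Finset.mul_sum, ← Finset.sum_mul, sq_abs]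
  have a1 : (∑ a ∈ S, |(K * K) c a|) * |K c c| ≤ s * R * P :=
    mul_le_mul t1 hcP (abs_nonneg _) (by positivity)
  have a2 : (∑ a ∈ S, |K c a| * |(K * K) c a|) * |K c c| ≤ P * R * δ :=
    mul_le_mul t2 hcc (abs_nonneg _) (by positivity)
  have a3 : (∑ a ∈ S, |bet K a - 1|) * K c c ^ 2 ≤ s * lam * K c c ^ 2 :=
    mul_le_mul_of_nonneg_right t3 (by positivity)
  have a4 : 1 * (P * R * δ) ≤ er * (P * R * δ) := mul_le_mul_of_nonneg_right er1 (by positivity)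
  linarith

theorem per_c (h : Good p S e K) (n : Nm S K s L lam r δ er) {w : ι → ι → ℝ} {eF eE : ℝ}
    (hw : Wt S K w eF eE er) (hsE : s ≤ eE) (hc : c ∈ S) (hP0 : 0 ≤ P) (hR0 : 0 ≤ R)
    (hP : bet K c = P ^ 2) (hR : (K ^ 4) c c = R ^ 2) :
    |∑ a ∈ S, ∑ b ∈ S, w a b * (if c ≠ a ∧ c ≠ b then G e K a b c else 0) -
      (2 + 2 * Tr 1 K * (K ^ 3) c c - yy S K * bet K c)| ≤
      100 * ((er * lam + s * er + δ * lam + δ ^ 2 * r ^ 2 + L ^ 2 + δ * L * r) * P ^ 2 +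
        (eE + er * δ) * (P * R) + s * lam * K c c ^ 2) := by
  have pt : ∀ a b, |w a b * (if c ≠ a ∧ c ≠ b then G e K a b c else 0) - w a b * Mn e K a b c| ≤
      5 / 4 * (Rem K a b c + (if c = a then |Mn e K a b c| else 0) +
        (if c = b then |Mn e K a b c| else 0)) := by
    intro a b
    have r0 := Rem_nonneg K a b c
    have i1 : 0 ≤ (if c = a then |Mn e K a b c| else 0) := by split_ifs <;> positivity
    have i2 : 0 ≤ (if c = b then |Mn e K a b c| else 0) := by split_ifs <;> positivity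
    by_cases h0 : w a b = 0
    · rw [h0]; simp only [zero_mul, sub_zero, abs_zero]; positivity
    rw [← mul_sub, abs_mul, abs_of_nonneg (hw.nonneg a b)]
    refine mul_le_mul (hw.le a b) ?_ (abs_nonneg _) (by norm_num)
    by_cases h1 : c ≠ a ∧ c ≠ b
    · rw [if_pos h1]
      linarith [G_sub h (hw.supp a b h0) c]
    · rw [if_neg h1, zero_sub, abs_neg]
      by_cases h2 : c = a
      · rw [if_pos h2]; linarith
      · have h3 : c = b := by tauto
        rw [if_pos h3]; linarith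
  have e1 : ∑ a ∈ S, ∑ b ∈ S, w a b * (if c ≠ a ∧ c ≠ b then G e K a b c else 0) -
      (2 + 2 * Tr 1 K * (K ^ 3) c c - yy S K * bet K c) =
      ∑ a ∈ S, ∑ b ∈ S, (w a b * (if c ≠ a ∧ c ≠ b then G e K a b c else 0) - w a b * Mn e K a b c)
        - ∑ a ∈ S, ∑ b ∈ S, (1 - w a b) * Mn e K a b c := by
    rw [← main_sum h hc]
    simp only [← Finset.sum_sub_distrib]
    exact Finset.sum_congr rfl fun a _ => Finset.sum_congr rfl fun b _ => by ring
  have e2 : |∑ a ∈ S, ∑ b ∈ S,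
      (w a b * (if c ≠ a ∧ c ≠ b then G e K a b c else 0) - w a b * Mn e K a b c)| ≤
      5 / 4 * (∑ a ∈ S, ∑ b ∈ S, Rem K a b c + ∑ b ∈ S, |Mn e K c b c| +
        ∑ a ∈ S, |Mn e K a c c|) := by
    refine (Finset.abs_sum_le_sum_abs _ _).trans ((Finset.sum_le_sum fun a _ =>
      (Finset.abs_sum_le_sum_abs _ _).trans (Finset.sum_le_sum fun b _ => pt a b)).trans
      (le_of_eq ?_))
    simp only [← Finset.mul_sum, Finset.sum_add_distrib]
    congr 2
    · congr 1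
      rw [Finset.sum_comm]
      exact Finset.sum_congr rfl fun b _ => by rw [Finset.sum_ite_eq, if_pos hc]
    · exact Finset.sum_congr rfl fun a _ => by rw [Finset.sum_ite_eq, if_pos hc]
  have t1 := rem_sum h n hP0 hR0 hP hR
  have t2 := bias_sum h n hw hP0 hR0 hP hR
  have t3 := drop_left h n hc hP0 hP
  have t4 := drop_right h n hc hP0 hR0 hP hR
  have s0 := n.s0
  have L0 := n.L0
  have lam0 := n.lam0
  have r0 : 0 ≤ r := by linarith [n.r1]
  have δ0 : 0 ≤ δ := by linarith [n.δ1]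
  have er0 := hw.er_nonneg
  have eE0 := hw.eE_nonneg
  have t5 : s * (P * R) ≤ eE * (P * R) := mul_le_mul_of_nonneg_right hsE (by positivity)
  have : 0 ≤ eE * (P * R) := by positivity
  have : 0 ≤ er * δ * (P * R) := by positivity
  have : 0 ≤ er * lam * P ^ 2 := by positivity
  have : 0 ≤ s * er * P ^ 2 := by positivity
  have : 0 ≤ δ * lam * P ^ 2 := by positivity
  have : 0 ≤ δ ^ 2 * r ^ 2 * P ^ 2 := by positivity
  have : 0 ≤ L ^ 2 * P ^ 2 := by positivity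
  have : 0 ≤ δ * L * r * P ^ 2 := by positivity
  have : 0 ≤ s * lam * K c c ^ 2 := by positivity
  rw [e1]
  refine (abs_sub _ _).trans ?_
  linarith

theorem lhs_eq (h : Good p S e K) {w : ι → ι → ℝ} {eF eE : ℝ} (hw : Wt S K w eF eE er)
    (f : ι → ℝ) :
    ∑ a ∈ S, ∑ b ∈ S, w a b * ∑ c ∈ del S a b, 2 * f c * (bet (upd e K a b) c - bet K c) =
      4 * ∑ c ∈ S, f c * ∑ a ∈ S, ∑ b ∈ S, w a b * (if c ≠ a ∧ c ≠ b then G e K a b c else 0) := by
  set F : ι → ι → ι → ℝ := fun a b c =>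
    f c * (w a b * (if c ≠ a ∧ c ≠ b then G e K a b c else 0)) with hF
  have e1 : ∀ a b, w a b * ∑ c ∈ del S a b, 2 * f c * (bet (upd e K a b) c - bet K c) =
      2 * ∑ c ∈ S, F a b c + 2 * ∑ c ∈ S, F b a c := by
    intro a b
    by_cases h0 : w a b = 0
    · have h1 : w b a = 0 := by rw [hw.symm, h0]
      simp [hF, h0, h1]
    have hdel : del S a b = S.filter fun c => c ≠ a ∧ c ≠ b := by
      ext c; simp only [del, Finset.mem_erase, Finset.mem_filter]; tauto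
    rw [hdel, Finset.sum_filter, Finset.mul_sum, Finset.mul_sum, Finset.mul_sum,
      ← Finset.sum_add_distrib]
    refine Finset.sum_congr rfl fun c _ => ?_
    simp only [hF]
    by_cases h1 : c ≠ a ∧ c ≠ b
    · rw [if_pos h1, if_pos h1, if_pos h1.symm, bet_upd' h (hw.supp a b h0) h1.1 h1.2, hw.symm b a]
      ring
    · rw [if_neg h1, if_neg h1, if_neg fun h2 => h1 h2.symm]
      ring
  simp only [e1, Finset.sum_add_distrib, ← Finset.mul_sum]
  rw [Finset.sum_comm (f := fun a b => ∑ c ∈ S, F b a c)]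
  have e2 : ∑ a ∈ S, ∑ b ∈ S, ∑ c ∈ S, F a b c =
      ∑ c ∈ S, f c * ∑ a ∈ S, ∑ b ∈ S, w a b * (if c ≠ a ∧ c ≠ b then G e K a b c else 0) := by
    simp only [Finset.mul_sum]
    rw [Finset.sum_comm (s := S) (t := S) (f := fun c a => ∑ b ∈ S,
      f c * (w a b * (if c ≠ a ∧ c ≠ b then G e K a b c else 0)))]
    exact Finset.sum_congr rfl fun a _ => Finset.sum_comm
  rw [e2]
  ring

end Beta1Aux

open Beta1Aux in
theorem beta_first : ∃ C : ℝ, 0 < C ∧ ∀ {ι : Type} [Fintype ι] [DecidableEq ι] {p e : ℝ} {S : Finset ι} {K : Matrix ι ι ℝ}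
      {s L lam r dd om ga : ℝ}, Good p S e K → Bd S K s L lam r dd om ga →
      ∀ {w : ι → ι → ℝ} {eF eE er ε δ u : ℝ} (f : ι → ℝ), Wt S K w eF eE er → 0 ≤ ε →
      1 ≤ δ → dd ≤ δ → δ ^ 2 ≤ s → s ≤ eE → r + δ ^ 2 ≤ er → 0 ≤ u → ∑ c ∈ S, f c ^ 2 ≤ u ^ 2 →
      1 ≤ ε * s * u → eE * ga ≤ ε * s ^ 2 * u → ga * er * δ ≤ ε * s ^ 2 * u →
      om * er * lam ≤ ε * s ^ 2 * u → om * L ^ 2 ≤ ε * s ^ 2 * u → om * δ * lam ≤ ε * s ^ 2 * u →
      om * δ ^ 2 * r ^ 2 ≤ ε * s ^ 2 * u → om * δ * L * r ≤ ε * s ^ 2 * u →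
      om * s * er ≤ ε * s ^ 2 * u → δ ^ 2 * s * lam ≤ ε * s ^ 2 * u →
      ∑ a ∈ S, ∑ b ∈ S, w a b * ∑ c ∈ del S a b, 2 * f c * (bet (upd e K a b) c - bet K c) ≤
        8 * Tr 1 K * ∑ c ∈ S, f c * (K ^ 3) c c - 4 * yy S K * ∑ c ∈ S, f c * bet K c
        + C * ε * s ^ 2 * u ^ 2 := by
  refine ⟨3608, by norm_num, ?_⟩
  intro ι _ _ p e S K s L lam r dd om ga h hb w eF eE er ε δ u f hw hε hδ hdd hδs hsE her hu hf
    g0 g1 g2 g3 g4 g5 g6 g7 g8 g9
  have n := nm h hb hδ hdd hδs her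
  have s0 := n.s0
  have L0 := n.L0
  have lam0 := n.lam0
  have r0 : 0 ≤ r := by linarith [n.r1]
  have δ0 : 0 ≤ δ := by linarith [n.δ1]
  have er0 := hw.er_nonneg
  have eE0 := hw.eE_nonneg
  have k4 : ∀ c, 0 ≤ (K ^ 4) c c := fun c => by rw [← sum_Q_sq h]; positivity
  set A := er * lam + s * er + δ * lam + δ ^ 2 * r ^ 2 + L ^ 2 + δ * L * r with hA
  set B := eE + er * δ with hB
  have A0 : 0 ≤ A := by positivity
  have B0 : 0 ≤ B := by positivity
  have hf' : ∑ c ∈ S, |f c| ^ 2 ≤ u ^ 2 := by simpa only [sq_abs] using hf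
  have key : ∀ c ∈ S, f c * ∑ a ∈ S, ∑ b ∈ S, w a b * (if c ≠ a ∧ c ≠ b then G e K a b c else 0) ≤
      2 * f c + 2 * Tr 1 K * (f c * (K ^ 3) c c) - yy S K * (f c * bet K c) +
      100 * (A * (|f c| * bet K c) + B * (|f c| * (√(bet K c) * √((K ^ 4) c c))) +
        s * lam * (|f c| * K c c ^ 2)) := by
    intro c hc
    have t := per_c h n hw hsE hc (Real.sqrt_nonneg (bet K c)) (Real.sqrt_nonneg ((K ^ 4) c c))
      (Real.sq_sqrt (h.bet_nonneg c)).symm (Real.sq_sqrt (k4 c)).symm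
    rw [Real.sq_sqrt (h.bet_nonneg c)] at t
    have t' := (le_abs_self _).trans ((abs_mul (f c) _).trans_le
      (mul_le_mul_of_nonneg_left t (abs_nonneg _)))
    linarith
  have b1 : ∑ c ∈ S, f c ≤ s * u := l1 S f hu s0 n.hs hf
  have b2 : ∑ c ∈ S, |f c| * bet K c ≤ u * om :=
    cs S _ _ hu hb.om_nonneg hf' (by simpa [Vs] using hb.W)
  have b3 : ∑ c ∈ S, |f c| * (√(bet K c) * √((K ^ 4) c c)) ≤ u * ga := by
    refine cs S _ _ hu hb.ga_nonneg hf' (le_trans ?_ hb.G)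
    simp only [mul_pow, Real.sq_sqrt (h.bet_nonneg _), Real.sq_sqrt (k4 _)]
    exact Finset.sum_le_sum_of_subset_of_nonneg (Finset.subset_univ S) fun c _ _ =>
      mul_nonneg (h.bet_nonneg c) (k4 c)
  have b4 : ∑ c ∈ S, |f c| * K c c ^ 2 ≤ u * δ ^ 2 := by
    refine le_trans (Finset.sum_le_sum fun c hc => mul_le_mul_of_nonneg_right
      (show |f c| ≤ u from abs_le_of_sq_le_sq ((Finset.single_le_sum (f := fun a => f a ^ 2)
        (fun a _ => sq_nonneg _) hc).trans hf) hu) (sq_nonneg _)) ?_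
    rw [← Finset.mul_sum]
    exact mul_le_mul_of_nonneg_left n.d hu
  have tot := Finset.sum_le_sum key
  simp only [Finset.sum_add_distrib, Finset.sum_sub_distrib, ← Finset.mul_sum] at tot
  rw [lhs_eq h hw f]
  have c1 : A * ∑ c ∈ S, |f c| * bet K c ≤ u * (6 * (ε * s ^ 2 * u)) := by
    refine (mul_le_mul_of_nonneg_left b2 A0).trans ?_
    have : om * A ≤ 6 * (ε * s ^ 2 * u) := by rw [hA]; linarith
    have := mul_le_mul_of_nonneg_left this hu
    linarith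
  have c2 : B * ∑ c ∈ S, |f c| * (√(bet K c) * √((K ^ 4) c c)) ≤ u * (2 * (ε * s ^ 2 * u)) := by
    refine (mul_le_mul_of_nonneg_left b3 B0).trans ?_
    have : ga * B ≤ 2 * (ε * s ^ 2 * u) := by rw [hB]; linarith
    have := mul_le_mul_of_nonneg_left this hu
    linarith
  have c3 : s * lam * ∑ c ∈ S, |f c| * K c c ^ 2 ≤ u * (ε * s ^ 2 * u) := by
    refine (mul_le_mul_of_nonneg_left b4 (by positivity)).trans ?_
    have := mul_le_mul_of_nonneg_left g9 hu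
    linarith
  have c4 : s * u * 1 ≤ s * u * (ε * s * u) := mul_le_mul_of_nonneg_left g0 (by positivity)
  linarith

end Crest.Agent.R62
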