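import Crest.Agent.R62.MomentB

/-! Pointwise inequalities for the second-order part of the step inequality for `∑ (β_c - s₀)²`. -/

set_option autoImplicit false

namespace Crest.Agent.R62

theorem beta2_h {D kab e kb x y : ℝ} (hD : 99 / 100 ≤ D) (hk : |kab| ≤ 1 / 1000)
    (he : e = 1 ∨ e = -1) :
    ((kb * x + (e - kab) * y) / D) ^ 2 ≤ 26 / 25 * y ^ 2 + 110 * (kb ^ 2 * x ^ 2) := by
  have hD0 : 0 < D := by linarith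
  have h1 : (e - kab) ^ 2 ≤ (1001 / 1000) ^ 2 := by
    rw [abs_le] at hk
    rcases he with rfl | rfl <;> nlinarith
  have h2 : (kb * x + (e - kab) * y) ^ 2 ≤
      101 / 100 * ((e - kab) ^ 2 * y ^ 2) + 101 * (kb ^ 2 * x ^ 2) := by
    nlinarith [sq_nonneg (10 * (kb * x) - (e - kab) * y / 10)]
  have h3 : (e - kab) ^ 2 * y ^ 2 ≤ (1001 / 1000) ^ 2 * y ^ 2 := by gcongr
  have h4 : (99 / 100 : ℝ) ^ 2 ≤ D ^ 2 := by gcongr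
  rw [div_pow, div_le_iff₀ (by positivity)]
  have h5 : (26 / 25 * y ^ 2 + 110 * (kb ^ 2 * x ^ 2)) * (99 / 100 : ℝ) ^ 2 ≤
      (26 / 25 * y ^ 2 + 110 * (kb ^ 2 * x ^ 2)) * D ^ 2 := by gcongr
  nlinarith [sq_nonneg y, mul_nonneg (sq_nonneg kb) (sq_nonneg x)]

theorem beta2_six (m t1 t2 t3 t4 t5 : ℝ) : (m + (t1 + t2 + t3 + t4 + t5)) ^ 2 ≤
    101 / 100 * m ^ 2 + 505 * (t1 ^ 2 + t2 ^ 2 + t3 ^ 2 + t4 ^ 2 + t5 ^ 2) := by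
  have h1 : ∀ t : ℝ, (m + t) ^ 2 ≤ 101 / 100 * m ^ 2 + 101 * t ^ 2 := fun t => by
    nlinarith [sq_nonneg (m / 10 - 10 * t)]
  have h2 : (t1 + t2 + t3 + t4 + t5) ^ 2 ≤ 5 * (t1 ^ 2 + t2 ^ 2 + t3 ^ 2 + t4 ^ 2 + t5 ^ 2) := by
    nlinarith [sq_nonneg (t1 - t2), sq_nonneg (t1 - t3), sq_nonneg (t1 - t4), sq_nonneg (t1 - t5),
      sq_nonneg (t2 - t3), sq_nonneg (t2 - t4), sq_nonneg (t2 - t5), sq_nonneg (t3 - t4),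
      sq_nonneg (t3 - t5), sq_nonneg (t4 - t5)]
  linarith [h1 (t1 + t2 + t3 + t4 + t5)]

/-- one half of the pointwise bound -/
noncomputable def beta2G (Z x y kb ba bb bc Qa : ℝ) : ℝ :=
  11 / 10 * ((ba - 1) ^ 2 * y ^ 4) + 10 ^ 7 * (x ^ 2 * (ba - 1) ^ 2 * y ^ 2 + x ^ 2 * y ^ 2
    + kb ^ 2 * (Z * x ^ 2 * (ba - 1) ^ 2) + Qa ^ 2 * y ^ 2 + kb ^ 2 * (x ^ 2 * bc * ba)
    + kb ^ 2 * bb * (x ^ 4 * ba))

theorem beta2_pt {Z x y ka kb ba bb bc Qa Qb Qab h k : ℝ}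
    (hh : h ^ 2 ≤ 26 / 25 * y ^ 2 + 110 * (kb ^ 2 * x ^ 2))
    (hk : k ^ 2 ≤ 26 / 25 * x ^ 2 + 110 * (ka ^ 2 * y ^ 2))
    (hab : |ka * kb| ≤ 1 / 1000) (hP : kb ^ 2 * x ^ 2 ≤ Z) (hR : ka ^ 2 * y ^ 2 ≤ Z)
    (hba : 0 ≤ ba) (hbb : 0 ≤ bb)
    (hQa : Qa ^ 2 ≤ bc * ba) (hQb : Qb ^ 2 ≤ bc * bb) (hQab : Qab ^ 2 ≤ ba * bb) :
    (2 * (h * Qa + k * Qb) + h ^ 2 * (ba - 1) + k ^ 2 * (bb - 1) + 2 * h * k * Qab) ^ 2 ≤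
      beta2G Z x y kb ba bb bc Qa + beta2G Z y x ka bb ba bc Qb := by
  set P := kb ^ 2 * x ^ 2 with hPd
  set R := ka ^ 2 * y ^ 2 with hRd
  have hP0 : 0 ≤ P := by positivity
  have hR0 : 0 ≤ R := by positivity
  set ua := ba - 1 with hua
  set ub := bb - 1 with hub
  have e1 : |h ^ 2 * ua| ≤ 26 / 25 * y ^ 2 * |ua| + 110 * P * |ua| := by
    rw [abs_mul, abs_of_nonneg (sq_nonneg h), ← add_mul]
    gcongr
  have e2 : |k ^ 2 * ub| ≤ 26 / 25 * x ^ 2 * |ub| + 110 * R * |ub| := by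
    rw [abs_mul, abs_of_nonneg (sq_nonneg k), ← add_mul]
    gcongr
  have e3 : |2 * (h * Qa + k * Qb) + h ^ 2 * ua + k ^ 2 * ub + 2 * h * k * Qab| ≤
      26 / 25 * (y ^ 2 * |ua| + x ^ 2 * |ub|) + (110 * P * |ua| + 110 * R * |ub| + |2 * h * Qa|
        + |2 * k * Qb| + |2 * h * k * Qab|) := by
    rw [abs_le] at e1 e2 ⊢
    have a1 := le_abs_self (2 * h * Qa)
    have a2 := le_abs_self (2 * k * Qb)
    have a3 := le_abs_self (2 * h * k * Qab)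
    have b1 := neg_abs_le (2 * h * Qa)
    have b2 := neg_abs_le (2 * k * Qb)
    have b3 := neg_abs_le (2 * h * k * Qab)
    constructor <;> linarith only [e1.1, e1.2, e2.1, e2.2, a1, a2, a3, b1, b2, b3]
  have e4 := (sq_le_sq' (by linarith only [e3, neg_abs_le (2 * (h * Qa + k * Qb) + h ^ 2 * ua
    + k ^ 2 * ub + 2 * h * k * Qab)]) ((le_abs_self _).trans e3)).trans (beta2_six _ _ _ _ _ _)
  refine e4.trans ?_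
  simp only [mul_pow, sq_abs]
  have m1 : (y ^ 2 * |ua| + x ^ 2 * |ub|) ^ 2 ≤ ua ^ 2 * y ^ 4 + ub ^ 2 * x ^ 4
      + x ^ 2 * ua ^ 2 * y ^ 2 + y ^ 2 * ub ^ 2 * x ^ 2 := by
    have h1 : 2 * (|ua| * |ub|) ≤ ua ^ 2 + ub ^ 2 := by
      linarith only [sq_nonneg (|ua| - |ub|), sq_abs ua, sq_abs ub]
    have h2 : x ^ 2 * y ^ 2 * (2 * (|ua| * |ub|)) ≤ x ^ 2 * y ^ 2 * (ua ^ 2 + ub ^ 2) := by gcongr
    have h3 : (y ^ 2 * |ua| + x ^ 2 * |ub|) ^ 2 = |ua| ^ 2 * y ^ 4 + |ub| ^ 2 * x ^ 4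
      + x ^ 2 * y ^ 2 * (2 * (|ua| * |ub|)) := by ring
    rw [h3, sq_abs, sq_abs]
    linarith only [h2]
  have m2 : P ^ 2 * ua ^ 2 ≤ kb ^ 2 * (Z * x ^ 2 * ua ^ 2) := by
    have : P * P * ua ^ 2 ≤ Z * P * ua ^ 2 := by gcongr
    calc P ^ 2 * ua ^ 2 = P * P * ua ^ 2 := by ring
      _ ≤ Z * P * ua ^ 2 := this
      _ = _ := by rw [hPd]; ring
  have m3 : R ^ 2 * ub ^ 2 ≤ ka ^ 2 * (Z * y ^ 2 * ub ^ 2) := by
    have : R * R * ub ^ 2 ≤ Z * R * ub ^ 2 := by gcongr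
    calc R ^ 2 * ub ^ 2 = R * R * ub ^ 2 := by ring
      _ ≤ Z * R * ub ^ 2 := this
      _ = _ := by rw [hRd]; ring
  have m4 : h ^ 2 * Qa ^ 2 ≤ 26 / 25 * (Qa ^ 2 * y ^ 2) + 110 * (kb ^ 2 * (x ^ 2 * bc * ba)) := by
    have h1 : h ^ 2 * Qa ^ 2 ≤ (26 / 25 * y ^ 2 + 110 * P) * Qa ^ 2 := by gcongr
    have h2 : P * Qa ^ 2 ≤ P * (bc * ba) := by gcongr
    have h3 : P * (bc * ba) = kb ^ 2 * (x ^ 2 * bc * ba) := by rw [hPd]; ring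
    linarith only [h1, h2, h3]
  have m5 : k ^ 2 * Qb ^ 2 ≤ 26 / 25 * (Qb ^ 2 * x ^ 2) + 110 * (ka ^ 2 * (y ^ 2 * bc * bb)) := by
    have h1 : k ^ 2 * Qb ^ 2 ≤ (26 / 25 * x ^ 2 + 110 * R) * Qb ^ 2 := by gcongr
    have h2 : R * Qb ^ 2 ≤ R * (bc * bb) := by gcongr
    have h3 : R * (bc * bb) = ka ^ 2 * (y ^ 2 * bc * bb) := by rw [hRd]; ring
    linarith only [h1, h2, h3]
  have m6 : h ^ 2 * k ^ 2 * Qab ^ 2 ≤ 2 * (x ^ 2 * y ^ 2 + y ^ 2 * x ^ 2 + x ^ 2 * ua ^ 2 * y ^ 2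
      + y ^ 2 * ub ^ 2 * x ^ 2) + 115 * (kb ^ 2 * bb * (x ^ 4 * ba) + ka ^ 2 * ba * (y ^ 4 * bb)) := by
    have h1 : h ^ 2 * k ^ 2 ≤ (26 / 25 * y ^ 2 + 110 * P) * (26 / 25 * x ^ 2 + 110 * R) := by gcongr
    have h2 : (ka * kb) ^ 2 ≤ (1 / 1000) ^ 2 := by
      rw [← sq_abs]; gcongr
    have h3 : P * R ≤ (1 / 1000) ^ 2 * (x ^ 2 * y ^ 2) := by
      calc P * R = (ka * kb) ^ 2 * (x ^ 2 * y ^ 2) := by rw [hPd, hRd]; ring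
        _ ≤ _ := by gcongr
    have hxy : 0 ≤ x ^ 2 * y ^ 2 := by positivity
    have hxP : 0 ≤ x ^ 2 * P := by positivity
    have hyR : 0 ≤ y ^ 2 * R := by positivity
    have h4 : h ^ 2 * k ^ 2 ≤ 2 * (x ^ 2 * y ^ 2) + 115 * (x ^ 2 * P + y ^ 2 * R) := by
      linarith only [h1, h3, hxy, hxP, hyR]
    have h5 : h ^ 2 * k ^ 2 * Qab ^ 2 ≤
        (2 * (x ^ 2 * y ^ 2) + 115 * (x ^ 2 * P + y ^ 2 * R)) * (ba * bb) := by gcongr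
    have h6 : ba * bb ≤ 2 + ua ^ 2 + ub ^ 2 := by
      rw [hua, hub]
      linarith only [sq_nonneg (ba - bb), sq_nonneg (ba - 2), sq_nonneg (bb - 2)]
    have h7 : x ^ 2 * y ^ 2 * (ba * bb) ≤ x ^ 2 * y ^ 2 * (2 + ua ^ 2 + ub ^ 2) := by gcongr
    have h8 : (x ^ 2 * P + y ^ 2 * R) * (ba * bb) =
        kb ^ 2 * bb * (x ^ 4 * ba) + ka ^ 2 * ba * (y ^ 4 * bb) := by rw [hPd, hRd]; ring
    linarith only [h5, h7, h8]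
  have hZ : 0 ≤ Z := hP0.trans hP
  have hca : 0 ≤ bc * ba := (sq_nonneg _).trans hQa
  have hcb : 0 ≤ bc * bb := (sq_nonneg _).trans hQb
  have p1 : 0 ≤ ua ^ 2 * y ^ 4 := by positivity
  have p2 : 0 ≤ ub ^ 2 * x ^ 4 := by positivity
  have p3 : 0 ≤ x ^ 2 * ua ^ 2 * y ^ 2 := by positivity
  have p4 : 0 ≤ y ^ 2 * ub ^ 2 * x ^ 2 := by positivity
  have p5 : 0 ≤ x ^ 2 * y ^ 2 := by positivity
  have p6 : 0 ≤ y ^ 2 * x ^ 2 := by positivity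
  have p7 : 0 ≤ kb ^ 2 * (Z * x ^ 2 * ua ^ 2) := by positivity
  have p8 : 0 ≤ ka ^ 2 * (Z * y ^ 2 * ub ^ 2) := by positivity
  have p9 : 0 ≤ Qa ^ 2 * y ^ 2 := by positivity
  have p10 : 0 ≤ Qb ^ 2 * x ^ 2 := by positivity
  have p11 : 0 ≤ kb ^ 2 * (x ^ 2 * bc * ba) := by rw [mul_assoc]; positivity
  have p12 : 0 ≤ ka ^ 2 * (y ^ 2 * bc * bb) := by rw [mul_assoc]; positivity
  have p13 : 0 ≤ kb ^ 2 * bb * (x ^ 4 * ba) := by positivity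
  have p14 : 0 ≤ ka ^ 2 * ba * (y ^ 4 * bb) := by positivity
  unfold beta2G
  rw [← hua, ← hub]
  linarith only [m1, m2, m3, m4, m5, m6, p1, p2, p3, p4, p5, p6, p7, p8, p9, p10, p11, p12, p13,
    p14]

end Crest.Agent.R62
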