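import Crest.Agent.R62.MomentB
import Crest.Agent.R62.Beta2Aux

/-! Second-order part of the step inequality for `∑ (β_c - s₀)²`. -/

set_option autoImplicit false
open Classical
open scoped Matrix
open Finset

noncomputable section
namespace Crest.Agent.R62

section aux
variable {ι : Type} [Fintype ι] [DecidableEq ι] {p e : ℝ} {S : Finset ι} {K : Matrix ι ι ℝ}

omit [Fintype ι] [DecidableEq ι] in
theorem beta2_L0 (g : ι → ℝ) (f : ι → ι → ℝ) :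
    ∑ a ∈ S, ∑ b ∈ S, ∑ c ∈ S, g a * f b c = (∑ a ∈ S, g a) * ∑ b ∈ S, ∑ c ∈ S, f b c := by
  rw [Finset.sum_mul]
  simp only [Finset.mul_sum]

omit [Fintype ι] [DecidableEq ι] in
theorem beta2_L1 (g : ι → ℝ) (f : ι → ι → ℝ) :
    ∑ a ∈ S, ∑ b ∈ S, ∑ c ∈ S, g b * f a c = (∑ b ∈ S, g b) * ∑ a ∈ S, ∑ c ∈ S, f a c := by
  rw [Finset.sum_comm]
  exact beta2_L0 g f

omit [Fintype ι] [DecidableEq ι] in
theorem beta2_L2 (f h : ι → ι → ℝ) :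
    ∑ a ∈ S, ∑ b ∈ S, ∑ c ∈ S, f a c * h b c = ∑ a ∈ S, ∑ c ∈ S, f a c * ∑ b ∈ S, h b c := by
  refine Finset.sum_congr rfl fun a _ => ?_
  rw [Finset.sum_comm]
  simp only [Finset.mul_sum]

theorem beta2_row (h : Good p S e K) (c : ι) : ∑ b ∈ S, K c b ^ 2 ≤ bet K c := by
  rw [h.bet_eq]
  exact Finset.sum_le_sum_of_subset_of_nonneg (Finset.subset_univ _) fun _ _ _ => sq_nonneg _

theorem beta2_col (h : Good p S e K) (a : ι) : ∑ c ∈ S, K c a ^ 2 ≤ bet K a := by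
  simp only [h.symm _ a]
  exact beta2_row h a

theorem beta2_Qrow (h : Good p S e K) (c : ι) : ∑ a ∈ S, (K * K) c a ^ 2 ≤ (K ^ 4) c c := by
  have := h.pow_diag 2 c
  rw [show 2 * 2 = 4 from rfl, pow_two K] at this
  rw [this]
  exact Finset.sum_le_sum_of_subset_of_nonneg (Finset.subset_univ _) fun _ _ _ => sq_nonneg _

theorem beta2_Q (h : Good p S e K) (a b : ι) : (K * K) a b ^ 2 ≤ bet K a * bet K b := by
  have := h.pow_entry 1 1 a b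
  rw [show 1 + 1 = 2 from rfl, show 2 * 1 = 2 from rfl, pow_two K] at this
  exact this

omit [Fintype ι] [DecidableEq ι] in
theorem beta2_cs (f g : ι → ℝ) {A B M : ℝ} (hM : 0 ≤ M) (hf : ∑ c ∈ S, f c ^ 2 ≤ A)
    (hg : ∑ c ∈ S, g c ^ 2 ≤ B) (hAB : A * B ≤ M ^ 2) : ∑ c ∈ S, f c * g c ≤ M := by
  have h1 := Finset.sum_mul_sq_le_sq_mul_sq S f g
  have h2 : (0 : ℝ) ≤ ∑ c ∈ S, f c ^ 2 := Finset.sum_nonneg fun _ _ => sq_nonneg _
  have h3 : (0 : ℝ) ≤ ∑ c ∈ S, g c ^ 2 := Finset.sum_nonneg fun _ _ => sq_nonneg _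
  have h4 : (∑ c ∈ S, f c ^ 2) * ∑ c ∈ S, g c ^ 2 ≤ A * B :=
    mul_le_mul hf hg h3 (h2.trans hf)
  exact le_trans (le_abs_self _) (abs_le_of_sq_le_sq (h1.trans (h4.trans hAB)) hM)

theorem beta2_P (h : Good p S e K) (hS : 4 ≤ (S.card : ℝ)) {δ : ℝ} (hδ : 1 ≤ δ)
    (hD : Dh K ≤ δ ^ 2) {a b c : ι} (ha : a ∈ S) (hc : c ∈ S)
    (hab : |K a a * K b b| ≤ 1 / 1000) :
    K b b ^ 2 * K c a ^ 2 ≤ 18 * δ ^ 2 * (1 + |K c c|) := by
  have h1 := h.entry_sq ha hc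
  have hp : p ≤ 3 / 4 := by nlinarith [h.p_sq, h.p_nonneg]
  have hp0 := h.p_nonneg
  have hN : 1 / (S.card : ℝ) ≤ 1 / 4 := by gcongr
  have hN0 : 0 ≤ 1 / (S.card : ℝ) := by positivity
  have hN2 : 101 / (S.card : ℝ) ^ 2 ≤ 101 / 4 ^ 2 := by gcongr
  have h2 : (|K a a| + p + 1 / S.card) * (|K c c| + p + 1 / S.card) ≤
      (1 + |K a a|) * (1 + |K c c|) := by
    refine mul_le_mul (by linarith) (by linarith) (by positivity) (by positivity)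
  have h3 : (1 : ℝ) ≤ (1 + |K a a|) * (1 + |K c c|) := by
    nlinarith [abs_nonneg (K a a), abs_nonneg (K c c),
      mul_nonneg (abs_nonneg (K a a)) (abs_nonneg (K c c))]
  have h4 : K c a ^ 2 ≤ 9 * ((1 + |K a a|) * (1 + |K c c|)) := by linarith
  have h5 : K b b ^ 2 ≤ δ ^ 2 := by
    refine le_trans ?_ hD
    unfold Dh
    exact Finset.single_le_sum (f := fun c => K c c ^ 2) (fun _ _ => sq_nonneg _) (mem_univ b)
  have h6 : |K b b| ≤ δ := abs_le_of_sq_le_sq h5 (by linarith)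
  have h7 : K b b ^ 2 * (1 + |K a a|) ≤ 2 * δ ^ 2 := by
    have e1 : K b b ^ 2 * |K a a| = |K b b| * |K a a * K b b| := by
      rw [abs_mul, ← sq_abs (K b b)]; ring
    have e2 : |K b b| * |K a a * K b b| ≤ δ * (1 / 1000) := by gcongr
    nlinarith
  calc K b b ^ 2 * K c a ^ 2 ≤ K b b ^ 2 * (9 * ((1 + |K a a|) * (1 + |K c c|))) := by gcongr
    _ = 9 * (K b b ^ 2 * (1 + |K a a|)) * (1 + |K c c|) := by ring
    _ ≤ 9 * (2 * δ ^ 2) * (1 + |K c c|) := by gcongr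
    _ = _ := by ring

/-- the half bound, as a function of the indices -/
theorem beta2_step (h : Good p S e K) (hS : 4 ≤ (S.card : ℝ)) {δ : ℝ} (hδ : 1 ≤ δ)
    (hD : Dh K ≤ δ ^ 2) {a b c : ι} (ha : a ∈ S) (hb : b ∈ S) (hc : c ∈ del S a b)
    (hab : Alw K a b) :
    (bet (upd e K a b) c - bet K c) ^ 2 ≤
      beta2G (18 * δ ^ 2 * (1 + |K c c|)) (K c a) (K c b) (K b b) (bet K a) (bet K b) (bet K c)
        ((K * K) c a) +
      beta2G (18 * δ ^ 2 * (1 + |K c c|)) (K c b) (K c a) (K a a) (bet K b) (bet K a) (bet K c)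
        ((K * K) c b) := by
  simp only [del, Finset.mem_erase] at hc
  have hDd := (Alw.Dd_bound h.sign hab).1
  rw [bet_upd h hab.1 hc.2.1 hc.1 (by linarith)]
  refine beta2_pt (beta2_h hDd hab.2.1 h.sign) (beta2_h hDd hab.2.1 h.sign) hab.2.2
    (beta2_P h hS hδ hD ha hc.2.2 hab.2.2)
    (beta2_P h hS hδ hD hb hc.2.2 (by rw [mul_comm]; exact hab.2.2))
    (h.bet_nonneg a) (h.bet_nonneg b) (beta2_Q h c a) (beta2_Q h c b) (beta2_Q h a b)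

theorem beta2G_nonneg {Z x y kb ba bb bc Qa : ℝ} (hZ : 0 ≤ Z) (ha : 0 ≤ ba) (hb : 0 ≤ bb)
    (hc : 0 ≤ bc) : 0 ≤ beta2G Z x y kb ba bb bc Qa := by
  unfold beta2G
  positivity

theorem beta2_reduce (h : Good p S e K) (hS : 4 ≤ (S.card : ℝ)) {δ : ℝ} (hδ : 1 ≤ δ)
    (hD : Dh K ≤ δ ^ 2) {w : ι → ι → ℝ} (hw1 : ∀ a b, w a b ≤ 5 / 4)
    (hw2 : ∀ a b, w a b ≠ 0 → Alw K a b) :
    ∑ a ∈ S, ∑ b ∈ S, w a b * ∑ c ∈ del S a b, (bet (upd e K a b) c - bet K c) ^ 2 ≤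
      5 / 2 * ∑ a ∈ S, ∑ b ∈ S, ∑ c ∈ S,
        beta2G (18 * δ ^ 2 * (1 + |K c c|)) (K c a) (K c b) (K b b) (bet K a) (bet K b) (bet K c)
          ((K * K) c a) := by
  set G : ι → ι → ι → ℝ := fun a b c =>
    beta2G (18 * δ ^ 2 * (1 + |K c c|)) (K c a) (K c b) (K b b) (bet K a) (bet K b) (bet K c)
      ((K * K) c a) with hG
  have hG0 : ∀ a b c, 0 ≤ G a b c := fun a b c =>
    beta2G_nonneg (by positivity) (h.bet_nonneg _) (h.bet_nonneg _) (h.bet_nonneg _)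
  have h1 : ∀ a ∈ S, ∀ b ∈ S, w a b * ∑ c ∈ del S a b, (bet (upd e K a b) c - bet K c) ^ 2 ≤
      5 / 4 * (∑ c ∈ S, G a b c + ∑ c ∈ S, G b a c) := by
    intro a ha b hb
    have h0 : 0 ≤ ∑ c ∈ S, G a b c + ∑ c ∈ S, G b a c :=
      add_nonneg (Finset.sum_nonneg fun _ _ => hG0 _ _ _) (Finset.sum_nonneg fun _ _ => hG0 _ _ _)
    by_cases hw : w a b = 0
    · rw [hw, zero_mul]
      positivity
    refine mul_le_mul (hw1 a b) ?_ (Finset.sum_nonneg fun _ _ => sq_nonneg _) (by norm_num)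
    rw [← Finset.sum_add_distrib]
    refine le_trans (Finset.sum_le_sum fun c hc => beta2_step h hS hδ hD ha hb hc (hw2 a b hw)) ?_
    refine Finset.sum_le_sum_of_subset_of_nonneg ?_ fun c _ _ => add_nonneg (hG0 a b c) (hG0 b a c)
    exact (Finset.erase_subset _ _).trans (Finset.erase_subset _ _)
  refine le_trans (Finset.sum_le_sum fun a ha => Finset.sum_le_sum fun b hb => h1 a ha b hb) ?_
  simp only [← Finset.mul_sum, Finset.sum_add_distrib]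
  rw [Finset.sum_comm (f := fun a b => ∑ c ∈ S, G b a c)]
  linarith

theorem beta2_sums (h : Good p S e K) {s L lam r dd om ga δ X : ℝ} (hb : Bd S K s L lam r dd om ga)
    (hδ : 1 ≤ δ) (hdd : dd ≤ δ) (H1 : lam ^ 2 * δ * r * om ≤ X) (H2 : δ ^ 4 * r ^ 2 * lam ^ 2 ≤ X)
    (H3 : δ ^ 6 * r * lam ^ 2 ≤ X) (H4 : ga ^ 2 ≤ X) (H5 : δ ^ 4 * r ^ 2 * om ^ 2 ≤ X) :
    ∑ a ∈ S, ∑ b ∈ S, ∑ c ∈ S,
        beta2G (18 * δ ^ 2 * (1 + |K c c|)) (K c a) (K c b) (K b b) (bet K a) (bet K b) (bet K c)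
          ((K * K) c a) ≤ 11 / 10 * (51 / 100 * (Tr 2 K * Vs 1 S K)) + 10 ^ 10 * X := by
  have hS : 4 ≤ (S.card : ℝ) := by nlinarith [hb.hs, hb.s_ge]
  have hD : Dh K ≤ δ ^ 2 := hb.D.trans (by have := hb.dd_nonneg; gcongr)
  have hr := hb.r_ge
  have hom := hb.om_nonneg
  have hlam := hb.lam_nonneg
  have hδ0 : 0 ≤ δ := by linarith
  have hr0 : 0 ≤ r := by linarith
  have hbn := h.bet_nonneg
  have hV : ∑ a ∈ S, (bet K a - 1) ^ 2 ≤ lam ^ 2 := hb.V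
  have hW : ∑ a ∈ S, bet K a ^ 2 ≤ om ^ 2 := by simpa [Vs] using hb.W
  have hDh : ∑ b ∈ S, K b b ^ 2 ≤ δ ^ 2 := h.Dh_eq ▸ hD
  have hX : 0 ≤ X := (sq_nonneg _).trans H4
  have hra : ∀ a, ∑ c ∈ S, (K c a ^ 2) ^ 2 ≤ 20 * δ ^ 2 * bet K a := by
    intro a
    calc ∑ c ∈ S, (K c a ^ 2) ^ 2 ≤ ∑ c ∈ S, 20 * δ ^ 2 * K c a ^ 2 :=
          Finset.sum_le_sum fun c _ => by
            rw [sq (K c a ^ 2)]
            exact mul_le_mul_of_nonneg_right (h.entry_le hS hδ hD a c) (sq_nonneg _)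
      _ ≤ _ := by
          rw [← Finset.mul_sum]
          exact mul_le_mul_of_nonneg_left (beta2_col h a) (by positivity)
  have hra' : ∀ a, ∑ c ∈ S, (K c a ^ 2) ^ 2 ≤ 20 * δ ^ 2 * r ^ 2 := fun a =>
    (hra a).trans (mul_le_mul_of_nonneg_left (hb.beta a) (by positivity))
  -- the seven sums
  have S0 : ∑ a ∈ S, ∑ b ∈ S, ∑ c ∈ S, (bet K a - 1) ^ 2 * K c b ^ 4 ≤
      51 / 100 * (Tr 2 K * Vs 1 S K) + 3000 * X := by
    rw [beta2_L0 (fun a => (bet K a - 1) ^ 2) (fun b c => K c b ^ 4)]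
    have h1 := h.F4_le hb hδ hdd
    have h2 : (0 : ℝ) ≤ ∑ a ∈ S, (bet K a - 1) ^ 2 := Finset.sum_nonneg fun _ _ => sq_nonneg _
    have h3 : (∑ a ∈ S, (bet K a - 1) ^ 2) * (δ * om + δ ^ 2 * r ^ 2 + 1) ≤
        lam ^ 2 * (δ * om + δ ^ 2 * r ^ 2 + 1) := by gcongr
    have h4 : lam ^ 2 * (δ * om) * 1 ≤ lam ^ 2 * (δ * om) * r := by gcongr
    have h5 : (1 : ℝ) ≤ δ ^ 2 := one_le_pow₀ hδ
    have h6 : (1 : ℝ) ≤ r ^ 2 := one_le_pow₀ hr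
    have h7 : lam ^ 2 * (δ ^ 2 * r ^ 2) * 1 ≤ lam ^ 2 * (δ ^ 2 * r ^ 2) * δ ^ 2 := by gcongr
    have h8 : lam ^ 2 * (1 * 1) ≤ lam ^ 2 * (δ ^ 2 * r ^ 2) := by gcongr
    have h9 := mul_le_mul_of_nonneg_left h1 h2
    change _ ≤ 51 / 100 * (Tr 2 K * ∑ a ∈ S, (bet K a - 1) ^ 2) + 3000 * X
    linarith only [h3, h4, h7, h8, h9, H1, H2]
  have S1 : ∑ a ∈ S, ∑ b ∈ S, ∑ c ∈ S, K c a ^ 2 * (bet K a - 1) ^ 2 * K c b ^ 2 ≤ 5 * X := by
    rw [beta2_L2 (fun a c => K c a ^ 2 * (bet K a - 1) ^ 2) (fun b c => K c b ^ 2)]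
    have h1 : ∀ a, ∑ c ∈ S, K c a ^ 2 * bet K c ≤ 5 * δ * r * om := fun a =>
      beta2_cs (fun c => K c a ^ 2) (fun c => bet K c) (by positivity) (hra' a) hW (by
        have : 0 ≤ δ ^ 2 * r ^ 2 * om ^ 2 := by positivity
        linarith only [this])
    calc _ ≤ ∑ a ∈ S, (bet K a - 1) ^ 2 * (5 * δ * r * om) := by
          refine Finset.sum_le_sum fun a _ => le_trans ?_
            (mul_le_mul_of_nonneg_left (h1 a) (sq_nonneg _))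
          rw [Finset.mul_sum]
          refine Finset.sum_le_sum fun c _ => ?_
          have := mul_le_mul_of_nonneg_left (beta2_row h c)
            (show 0 ≤ K c a ^ 2 * (bet K a - 1) ^ 2 by positivity)
          linarith only [this]
      _ ≤ lam ^ 2 * (5 * δ * r * om) := by
          rw [← Finset.sum_mul]
          gcongr
      _ ≤ _ := by linarith only [H1]
  have hom2 : om ^ 2 ≤ δ ^ 2 * r ^ 2 * om ^ 2 := by
    have h5 : (1 : ℝ) ≤ δ ^ 2 := one_le_pow₀ hδ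
    have h6 : (1 : ℝ) ≤ r ^ 2 := one_le_pow₀ hr
    have : 1 * 1 * om ^ 2 ≤ δ ^ 2 * r ^ 2 * om ^ 2 := by gcongr
    linarith only [this]
  have hom3 : δ ^ 2 * r ^ 2 * om ^ 2 ≤ X := by
    have h5 : (1 : ℝ) ≤ δ ^ 2 := one_le_pow₀ hδ
    have : 1 * (δ ^ 2 * r ^ 2 * om ^ 2) ≤ δ ^ 2 * (δ ^ 2 * r ^ 2 * om ^ 2) := by gcongr
    linarith only [this, H5]
  have S2 : ∑ a ∈ S, ∑ b ∈ S, ∑ c ∈ S, K c a ^ 2 * K c b ^ 2 ≤ X := by
    rw [beta2_L2 (fun a c => K c a ^ 2) (fun b c => K c b ^ 2), Finset.sum_comm]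
    refine le_trans (Finset.sum_le_sum fun c _ => ?_) (hW.trans (hom2.trans hom3))
    rw [← Finset.sum_mul, sq (bet K c)]
    exact mul_le_mul (beta2_row h c) (beta2_row h c) (Finset.sum_nonneg fun _ _ => sq_nonneg _)
      (hbn c)
  have S3 : ∑ a ∈ S, ∑ b ∈ S, ∑ c ∈ S,
      K b b ^ 2 * (18 * δ ^ 2 * (1 + |K c c|) * K c a ^ 2 * (bet K a - 1) ^ 2) ≤ 108 * X := by
    rw [beta2_L1 (fun b => K b b ^ 2)
      (fun a c => 18 * δ ^ 2 * (1 + |K c c|) * K c a ^ 2 * (bet K a - 1) ^ 2)]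
    have h1 : ∀ a, ∑ c ∈ S, K c a ^ 2 * |K c c| ≤ 5 * δ ^ 2 * r := fun a =>
      beta2_cs (fun c => K c a ^ 2) (fun c => |K c c|) (B := δ ^ 2) (by positivity) (hra' a)
        (by simpa only [sq_abs] using hDh) (by
          have : 0 ≤ δ ^ 4 * r ^ 2 := by positivity
          linarith only [this])
    have h2 : ∀ a, ∑ c ∈ S, 18 * δ ^ 2 * (1 + |K c c|) * K c a ^ 2 * (bet K a - 1) ^ 2 ≤
        (bet K a - 1) ^ 2 * (18 * δ ^ 2 * (r ^ 2 + 5 * δ ^ 2 * r)) := by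
      intro a
      have e : ∑ c ∈ S, 18 * δ ^ 2 * (1 + |K c c|) * K c a ^ 2 * (bet K a - 1) ^ 2 =
          (bet K a - 1) ^ 2 * (18 * δ ^ 2 *
            (∑ c ∈ S, K c a ^ 2 + ∑ c ∈ S, K c a ^ 2 * |K c c|)) := by
        rw [← Finset.sum_add_distrib, Finset.mul_sum, Finset.mul_sum]
        exact Finset.sum_congr rfl fun c _ => by ring
      rw [e]
      have := (beta2_col h a).trans (hb.beta a)
      have := h1 a
      gcongr
    have h3 : ∑ a ∈ S, ∑ c ∈ S, 18 * δ ^ 2 * (1 + |K c c|) * K c a ^ 2 * (bet K a - 1) ^ 2 ≤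
        lam ^ 2 * (18 * δ ^ 2 * (r ^ 2 + 5 * δ ^ 2 * r)) := by
      refine le_trans (Finset.sum_le_sum fun a _ => h2 a) ?_
      rw [← Finset.sum_mul]
      gcongr
    have h4 := mul_le_mul hDh h3
      (Finset.sum_nonneg fun _ _ => Finset.sum_nonneg fun _ _ => by positivity) (sq_nonneg _)
    linarith only [h4, H2, H3]
  have S4 : ∑ a ∈ S, ∑ b ∈ S, ∑ c ∈ S, (K * K) c a ^ 2 * K c b ^ 2 ≤ X := by
    rw [beta2_L2 (fun a c => (K * K) c a ^ 2) (fun b c => K c b ^ 2), Finset.sum_comm]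
    have h4 : ∀ c, 0 ≤ (K ^ 4) c c := fun c =>
      (Finset.sum_nonneg fun _ _ => sq_nonneg _).trans (beta2_Qrow h c)
    refine le_trans ?_ (hb.G.trans H4)
    refine le_trans (Finset.sum_le_sum fun c _ => ?_)
      (Finset.sum_le_sum_of_subset_of_nonneg (Finset.subset_univ S)
        fun c _ _ => mul_nonneg (hbn c) (h4 c))
    rw [← Finset.sum_mul, mul_comm]
    exact mul_le_mul (beta2_row h c) (beta2_Qrow h c) (Finset.sum_nonneg fun _ _ => sq_nonneg _)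
      (hbn c)
  have S5 : ∑ a ∈ S, ∑ b ∈ S, ∑ c ∈ S, K b b ^ 2 * (K c a ^ 2 * bet K c * bet K a) ≤ X := by
    rw [beta2_L1 (fun b => K b b ^ 2) (fun a c => K c a ^ 2 * bet K c * bet K a)]
    have h1 : ∑ a ∈ S, ∑ c ∈ S, K c a ^ 2 * bet K a ^ 2 ≤ r ^ 2 * om ^ 2 := by
      calc _ ≤ ∑ a ∈ S, r ^ 2 * bet K a ^ 2 := Finset.sum_le_sum fun a _ => by
            rw [← Finset.sum_mul]
            exact mul_le_mul_of_nonneg_right ((beta2_col h a).trans (hb.beta a)) (sq_nonneg _)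
        _ ≤ _ := by
            rw [← Finset.mul_sum]
            gcongr
    have h2 : ∑ a ∈ S, ∑ c ∈ S, K c a ^ 2 * bet K c ^ 2 ≤ r ^ 2 * om ^ 2 := by
      rw [Finset.sum_comm]
      simp only [h.symm _ _] at h1 ⊢
      refine le_trans (le_of_eq ?_) h1
      exact Finset.sum_congr rfl fun a _ => Finset.sum_congr rfl fun c _ => by rw [h.symm]
    have h3 : ∑ a ∈ S, ∑ c ∈ S, K c a ^ 2 * bet K c * bet K a ≤
        ∑ a ∈ S, ∑ c ∈ S, (1 / 2 * (K c a ^ 2 * bet K a ^ 2) + 1 / 2 * (K c a ^ 2 * bet K c ^ 2)) :=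
      Finset.sum_le_sum fun a _ => Finset.sum_le_sum fun c _ => by
        have := mul_nonneg (sq_nonneg (K c a)) (sq_nonneg (bet K a - bet K c))
        linarith only [this]
    simp only [Finset.sum_add_distrib, ← Finset.mul_sum] at h3
    have h4 : ∑ a ∈ S, ∑ c ∈ S, K c a ^ 2 * bet K c * bet K a ≤ r ^ 2 * om ^ 2 := by
      linarith only [h1, h2, h3]
    have h5 := mul_le_mul hDh h4
      (Finset.sum_nonneg fun a _ => Finset.sum_nonneg fun c _ =>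
        mul_nonneg (mul_nonneg (sq_nonneg _) (hbn c)) (hbn a)) (sq_nonneg _)
    linarith only [h5, hom3]
  have S6 : ∑ a ∈ S, ∑ b ∈ S, ∑ c ∈ S, K b b ^ 2 * bet K b * (K c a ^ 4 * bet K a) ≤ 20 * X := by
    rw [beta2_L1 (fun b => K b b ^ 2 * bet K b) (fun a c => K c a ^ 4 * bet K a)]
    have h1 : ∑ b ∈ S, K b b ^ 2 * bet K b ≤ δ ^ 2 * r ^ 2 := by
      calc _ ≤ ∑ b ∈ S, K b b ^ 2 * r ^ 2 := Finset.sum_le_sum fun b _ =>
            mul_le_mul_of_nonneg_left (hb.beta b) (sq_nonneg _)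
        _ ≤ _ := by
            rw [← Finset.sum_mul]
            gcongr
    have h2 : ∑ a ∈ S, ∑ c ∈ S, K c a ^ 4 * bet K a ≤ 20 * δ ^ 2 * om ^ 2 := by
      calc _ ≤ ∑ a ∈ S, 20 * δ ^ 2 * bet K a ^ 2 := Finset.sum_le_sum fun a _ => by
            rw [← Finset.sum_mul]
            have h3 := mul_le_mul_of_nonneg_right (hra a) (hbn a)
            simp only [← pow_mul] at h3
            linarith only [h3]
        _ ≤ _ := by
            rw [← Finset.mul_sum]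
            gcongr
    have h5 := mul_le_mul h1 h2
      (Finset.sum_nonneg fun a _ => Finset.sum_nonneg fun c _ =>
        mul_nonneg (by positivity) (hbn a)) (by positivity)
    linarith only [h5, H5]
  have key : ∀ (f0 f1 f2 f3 f4 f5 f6 : ι → ι → ι → ℝ),
      ∑ a ∈ S, ∑ b ∈ S, ∑ c ∈ S, (11 / 10 * f0 a b c + 10 ^ 7 *
        (f1 a b c + f2 a b c + f3 a b c + f4 a b c + f5 a b c + f6 a b c)) =
      11 / 10 * ∑ a ∈ S, ∑ b ∈ S, ∑ c ∈ S, f0 a b c + 10 ^ 7 *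
        (∑ a ∈ S, ∑ b ∈ S, ∑ c ∈ S, f1 a b c + ∑ a ∈ S, ∑ b ∈ S, ∑ c ∈ S, f2 a b c
          + ∑ a ∈ S, ∑ b ∈ S, ∑ c ∈ S, f3 a b c + ∑ a ∈ S, ∑ b ∈ S, ∑ c ∈ S, f4 a b c
          + ∑ a ∈ S, ∑ b ∈ S, ∑ c ∈ S, f5 a b c + ∑ a ∈ S, ∑ b ∈ S, ∑ c ∈ S, f6 a b c) := by
    intro f0 f1 f2 f3 f4 f5 f6
    simp only [Finset.sum_add_distrib, ← Finset.mul_sum]
  unfold beta2G
  rw [key]
  linarith only [S0, S1, S2, S3, S4, S5, S6, hX]

end aux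

theorem beta_second : ∃ C : ℝ, 0 < C ∧ ∀ {ι : Type} [Fintype ι] [DecidableEq ι] {p e : ℝ} {S : Finset ι} {K : Matrix ι ι ℝ}
      {s L lam r dd om ga : ℝ}, Good p S e K → Bd S K s L lam r dd om ga →
      ∀ {w : ι → ι → ℝ} {ε δ u : ℝ}, (∀ a b, 0 ≤ w a b) → (∀ a b, w a b ≤ 5 / 4) →
      (∀ a b, w a b ≠ 0 → Alw K a b) → 0 ≤ ε → 1 ≤ δ → dd ≤ δ →
      lam ^ 2 * δ * r * om ≤ ε * s ^ 2 * u ^ 2 → δ ^ 4 * r ^ 2 * lam ^ 2 ≤ ε * s ^ 2 * u ^ 2 →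
      δ ^ 6 * r * lam ^ 2 ≤ ε * s ^ 2 * u ^ 2 → ga ^ 2 ≤ ε * s ^ 2 * u ^ 2 →
      δ ^ 4 * r ^ 2 * om ^ 2 ≤ ε * s ^ 2 * u ^ 2 →
      ∑ a ∈ S, ∑ b ∈ S, w a b * ∑ c ∈ del S a b, (bet (upd e K a b) c - bet K c) ^ 2 ≤
        8 / 5 * Tr 2 K * Vs 1 S K + C * ε * s ^ 2 * u ^ 2 := by
  refine ⟨10 ^ 11, by norm_num, ?_⟩
  intro ι _ _ p e S K s L lam r dd om ga h hb w ε δ u _ hw1 hw2 _ hδ hdd H1 H2 H3 H4 H5
  have hS : 4 ≤ (S.card : ℝ) := by nlinarith [hb.hs, hb.s_ge]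
  have hD : Dh K ≤ δ ^ 2 := hb.D.trans (by have := hb.dd_nonneg; gcongr)
  have h1 := beta2_reduce h hS hδ hD hw1 hw2
  have h2 := beta2_sums h hb hδ hdd H1 H2 H3 H4 H5
  have hX : 0 ≤ ε * s ^ 2 * u ^ 2 := (sq_nonneg _).trans H4
  have hT : 0 ≤ Tr 2 K * Vs 1 S K := by
    refine mul_nonneg ?_ (Finset.sum_nonneg fun _ _ => sq_nonneg _)
    rw [h.Tr2_eq]
    exact Finset.sum_nonneg fun c _ => h.bet_nonneg c
  linarith only [h1, h2, hX, hT]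

end Crest.Agent.R62
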