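import Crest.Agent.R62.Defs

/-! Rational runs are real runs. -/

set_option autoImplicit false
open Classical
open scoped Matrix
open Finset

noncomputable section
namespace Crest.Agent.R62

variable {V ι : Type} [Fintype V] [Fintype ι] [DecidableEq ι]

namespace CastAux

/-- entrywise cast -/
abbrev cm (K : Matrix ι ι ℚ) : Matrix ι ι ℝ := K.map fun x => (x : ℝ)

omit [Fintype ι] [DecidableEq ι] in
theorem cm_apply (K : Matrix ι ι ℚ) (a b : ι) : cm K a b = (K a b : ℝ) := rfl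

omit [DecidableEq ι] in
theorem cm_mul (K L : Matrix ι ι ℚ) : cm K * cm L = cm (K * L) :=
  (Matrix.map_mul (f := Rat.castHom ℝ)).symm

theorem cm_pow (K : Matrix ι ι ℚ) (k : ℕ) : cm K ^ k = cm (K ^ k) :=
  (map_pow (Rat.castHom ℝ).mapMatrix K k).symm

omit [DecidableEq ι] in
theorem cm_trace (K : Matrix ι ι ℚ) : (cm K).trace = (K.trace : ℚ) := by
  simp only [Matrix.trace, Matrix.diag_apply, cm_apply, Rat.cast_sum]

omit [Fintype ι] in
theorem cm_add_idS (J : Matrix ι ι ℚ) (S : Finset ι) : cm J + idS S = cm (J + idS S) := by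
  ext a b
  simp only [Matrix.add_apply, cm_apply, idS, Matrix.diagonal_apply, Rat.cast_add]
  split_ifs <;> simp

theorem Tr_cm (k : ℕ) (K : Matrix ι ι ℚ) : Tr k (cm K) = (Tr k K : ℚ) := by
  rw [Tr, cm_pow, cm_trace, Tr]

theorem bet_cm (K : Matrix ι ι ℚ) (c : ι) : bet (cm K) c = (bet K c : ℚ) := by
  rw [bet, cm_mul, cm_apply, bet]

theorem Vs_cm (s0 : ℚ) (S : Finset ι) (K : Matrix ι ι ℚ) :
    Vs (s0 : ℝ) S (cm K) = (Vs s0 S K : ℚ) := by
  simp only [Vs, bet_cm, Rat.cast_sum, Rat.cast_pow, Rat.cast_sub]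

theorem Vs1_cm (S : Finset ι) (K : Matrix ι ι ℚ) : Vs 1 S (cm K) = (Vs 1 S K : ℚ) := by
  rw [← Vs_cm, Rat.cast_one]

theorem Vs0_cm (S : Finset ι) (K : Matrix ι ι ℚ) : Vs 0 S (cm K) = (Vs 0 S K : ℚ) := by
  rw [← Vs_cm, Rat.cast_zero]

theorem Dh_cm (K : Matrix ι ι ℚ) : Dh (cm K) = (Dh K : ℚ) := by
  simp only [Dh, cm_apply, Rat.cast_sum, Rat.cast_pow]

theorem Zz_cm (S : Finset ι) (K J : Matrix ι ι ℚ) : Zz S (cm K) (cm J) = (Zz S K J : ℚ) := by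
  rw [Zz, cm_add_idS, cm_mul, cm_mul, cm_trace, Zz]

theorem yy_cm (S : Finset ι) (K : Matrix ι ι ℚ) : yy S (cm K) = (yy S K : ℚ) := by
  rw [yy, Tr_cm, yy, Rat.cast_sub, Rat.cast_natCast]

theorem hub_cast (x : ℚ) : ((hub x : ℚ) : ℝ) = hub (x : ℝ) := by
  have h0 : (x : ℝ) ≤ 0 ↔ x ≤ 0 := Rat.cast_nonpos
  have h1 : (x : ℝ) ≤ 1 ↔ x ≤ 1 := by exact_mod_cast Iff.rfl
  simp only [hub, h0, h1]
  split_ifs <;> push_cast <;> rfl

/-- cast of the parameters -/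
abbrev pc (P : Par ℚ) : Par ℝ :=
  ⟨P.E4, P.EV, P.ED, P.z, P.c1, P.w1, P.c2, P.w2, P.c3, P.w3, P.f4, P.c4, P.w4, P.f5, P.c5, P.w5,
    P.c6, P.w6⟩

theorem PhiA_cm (P : Par ℚ) (S : Finset ι) (K J : Matrix ι ι ℚ) :
    PhiA (pc P) S (cm K) (cm J) = (PhiA P S K J : ℚ) := by
  simp only [PhiA, Tr_cm, Vs1_cm, Dh_cm, Zz_cm, yy_cm, Rat.cast_add, Rat.cast_div, Rat.cast_mul,
    hub_cast, Rat.cast_sub, Rat.cast_neg]

theorem par0_cast (m n d N : ℕ) : par0 (m : ℝ) n d N = pc (par0 (m : ℚ) n d N) := by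
  simp only [par0, pc, G1]
  push_cast
  rfl

theorem par1_cast (m n d N : ℕ) : par1 (m : ℝ) n d N = pc (par1 (m : ℚ) n d N) := by
  simp only [par1, pc, G1, y2]
  push_cast
  rfl

theorem par2_cast (m n d N : ℕ) : par2 (m : ℝ) n d N = pc (par2 (m : ℚ) n d N) := by
  simp only [par2, pc, G1, y2]
  push_cast
  rfl

theorem PhiC_cm (m : ℕ) (S : Finset ι) (K : Matrix ι ι ℚ) :
    PhiC (m : ℝ) S (cm K) = (PhiC (m : ℚ) S K : ℚ) := by
  simp only [PhiC, Tr_cm, Vs0_cm, Dh_cm, E2, EW, EDc, E1p, E1m, Rat.cast_add, hub_cast]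
  push_cast
  rfl

omit [Fintype ι] [DecidableEq ι] in
theorem Dd_cm (e : ℚ) (K : Matrix ι ι ℚ) (a b : ι) : Dd (e : ℝ) (cm K) a b = (Dd e K a b : ℚ) := by
  simp only [Dd, cm_apply]
  push_cast
  rfl

omit [Fintype ι] in
theorem upd_cm (e : ℚ) (K : Matrix ι ι ℚ) (a b : ι) : upd (e : ℝ) (cm K) a b = cm (upd e K a b) := by
  ext c f
  simp only [upd, Matrix.of_apply, cm_apply, Dd_cm]
  split_ifs <;> push_cast <;> rfl

omit [Fintype ι] in
theorem rnd_cm (M : ℕ) (S : Finset ι) (e : ℚ) (K : Matrix ι ι ℚ) :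
    rnd M S (e : ℝ) (cm K) = cm (rnd M S e K) := by
  have h : ∀ x : ℚ, ⌊(M : ℝ) * (x : ℝ)⌋ = ⌊(M : ℚ) * x⌋ := fun x => by
    rw [← Rat.floor_cast (α := ℝ)]
    push_cast
    rfl
  ext c f
  simp only [rnd, Matrix.of_apply, cm_apply, h]
  split_ifs <;> push_cast <;> rfl

theorem K0_cm (d M : ℕ) (vx : ι → V) (e : ℚ) : cm (K0 d M vx e) = K0 d M vx (e : ℝ) := by
  have h : ∀ a b, ((off0 d M vx e a b : ℚ) : ℝ) = off0 d M vx (e : ℝ) a b := fun a b => by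
    simp only [off0, plo]
    split_ifs <;> push_cast <;> rfl
  ext a b
  simp only [K0, Matrix.of_apply, cm_apply]
  split_ifs
  · simp only [Rat.cast_sub, Rat.cast_sum, h]
  · exact h a b

end CastAux

open CastAux

theorem Phi_toR (j m n d : ℕ) (vx : ι → V) (st : St V ι ℚ) :
    Phi j m n d vx st.toR = ((Phi j m n d vx st : ℚ) : ℝ) := by
  have e1 : st.toR.S = st.S := rfl
  have e2 : st.toR.G = st.G := rfl
  have e3 : st.toR.K = cm st.K := rfl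
  have e4 : st.toR.J = cm st.J := rfl
  unfold Phi
  rw [e1, e2, e3, e4]
  split
  · rw [par0_cast, PhiA_cm, PhiA_cm, Rat.cast_add]
  · rw [par1_cast, PhiA_cm, PhiA_cm, Rat.cast_add]
  · rw [par2_cast, PhiA_cm, PhiA_cm, Rat.cast_add]
  · rw [PhiC_cm, PhiC_cm]
    simp only [XX, EX]
    push_cast
    rfl

theorem step_toR (M : ℕ) (vx : ι → V) (st : St V ι ℚ) (a b : ι) :
    (step M vx st a b).toR = step M vx st.toR a b := by
  have h1 := rnd_cm M (del st.S a b) 1 (upd 1 st.K a b)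
  have h2 := rnd_cm M (del st.S a b) (-1) (upd (-1) st.J a b)
  rw [← upd_cm] at h1 h2
  rw [Rat.cast_neg] at h2
  rw [Rat.cast_one] at h1 h2
  exact congrArg₂ (St.mk _ _) h1.symm h2.symm

theorem valid_toR (B : ℕ) (vx : ι → V) (st : St V ι ℚ) (a b : ι) :
    Valid B vx st.toR a b ↔ Valid B vx st a b := by
  have h1 := Dd_cm 1 st.K a b
  have h2 := Dd_cm (-1) st.J a b
  have h3 := upd_cm 1 st.K a b
  have h4 := upd_cm (-1) st.J a b
  rw [Rat.cast_neg] at h2 h4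
  rw [Rat.cast_one] at h1 h2 h3 h4
  have h5 : ∀ x : ℚ, |(x : ℝ)| ≤ B ↔ |x| ≤ B := fun x => by exact_mod_cast Iff.rfl
  have e3 : st.toR.K = cm st.K := rfl
  have e4 : st.toR.J = cm st.J := rfl
  unfold Valid
  rw [e3, e4, h1, h2, h3, h4]
  simp only [cm_apply, h5, Rat.cast_pos]
  rfl

theorem st0_toR (n d : ℕ) (vx : ι → V) : (st0 n d vx : St V ι ℚ).toR = st0 n d vx := by
  have h1 := K0_cm d ((n * d) ^ 30) vx 1
  have h2 := K0_cm d ((n * d) ^ 30) vx (-1)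
  rw [Rat.cast_neg] at h2
  rw [Rat.cast_one] at h1 h2
  exact congrArg₂ (St.mk _ _) h1 h2

theorem Next.toR {m n d : ℕ} {vx : ι → V} {st st' : St V ι ℚ} (h : Next m n d vx st st') :
    Next m n d vx st.toR st'.toR := by
  have e1 : st.toR.S = st.S := rfl
  have e2 : ∀ a b, Simple vx st.toR a b ↔ Simple vx st a b := fun _ _ => Iff.rfl
  unfold Next at h ⊢
  simp only [e1, e2, valid_toR]
  split_ifs at h ⊢
  · obtain ⟨a, b, h1, rfl, h2⟩ := h
    refine ⟨a, b, h1, step_toR _ _ _ _ _, fun a' b' h' => ?_⟩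
    rw [← step_toR, Phi_toR, Phi_toR, Rat.cast_le]
    exact h2 a' b' h'
  · rw [h]
  · obtain ⟨a, b, h1, rfl⟩ := h
    exact ⟨a, b, h1, rfl⟩
  · rw [h]

end Crest.Agent.R62
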