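import Crest.Agent.R62.MomentB

/-! Auxiliary estimates for `D_step`. -/

set_option autoImplicit false
open Classical
open scoped Matrix
open Finset

noncomputable section
namespace Crest.Agent.R62

/-- first-order pointwise estimate -/
theorem DStep_first {e ka kb κ x y kc q : ℝ} (he : e = 1 ∨ e = -1)
    (hq1 : |q - 1| ≤ 3 * (|κ| + |ka * kb|)) (hq0 : 0 ≤ q) (hq2 : q ≤ 100 / 99) :
    2 * kc * ((kb * x ^ 2 + ka * y ^ 2 + 2 * (e - κ) * (x * y)) * q) ≤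
      2 * kc * (kb * x ^ 2 + ka * y ^ 2 + 2 * e * (x * y))
        + 2 * |kc| * ((|κ| + |ka * kb|) * (3 * (|kb| * x ^ 2) + 3 * (|ka| * y ^ 2) + 9 * (|x| * |y|))) := by
  set d := |κ| + |ka * kb| with hd
  have hd0 : |κ| ≤ d := by rw [hd]; linarith [abs_nonneg (ka * kb)]
  have he1 : |e| = 1 := by rcases he with rfl | rfl <;> simp
  have hm : |kb * x ^ 2 + ka * y ^ 2 + 2 * e * (x * y)| ≤ |kb| * x ^ 2 + |ka| * y ^ 2 + 2 * (|x| * |y|) := by
    calc _ ≤ |kb * x ^ 2| + |ka * y ^ 2| + |2 * e * (x * y)| := abs_add_three _ _ _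
      _ = _ := by simp [abs_mul, he1]
  have hxy : 0 ≤ |x| * |y| := by positivity
  have h1 : |(kb * x ^ 2 + ka * y ^ 2 + 2 * e * (x * y)) * (q - 1)| ≤
      (|kb| * x ^ 2 + |ka| * y ^ 2 + 2 * (|x| * |y|)) * (3 * d) := by
    rw [abs_mul]
    exact mul_le_mul hm hq1 (abs_nonneg _) (by positivity)
  have h2 : |2 * κ * (x * y) * q| ≤ 3 * d * (|x| * |y|) := by
    have : |2 * κ * (x * y) * q| = 2 * |κ| * q * (|x| * |y|) := by
      simp only [abs_mul, abs_of_nonneg hq0, abs_two]; ring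
    rw [this]
    refine mul_le_mul_of_nonneg_right ?_ hxy
    nlinarith [abs_nonneg κ]
  have h3 : |(kb * x ^ 2 + ka * y ^ 2 + 2 * (e - κ) * (x * y)) * q
      - (kb * x ^ 2 + ka * y ^ 2 + 2 * e * (x * y))| ≤
      d * (3 * (|kb| * x ^ 2) + 3 * (|ka| * y ^ 2) + 9 * (|x| * |y|)) := by
    have : (kb * x ^ 2 + ka * y ^ 2 + 2 * (e - κ) * (x * y)) * q
      - (kb * x ^ 2 + ka * y ^ 2 + 2 * e * (x * y)) =
        (kb * x ^ 2 + ka * y ^ 2 + 2 * e * (x * y)) * (q - 1) - 2 * κ * (x * y) * q := by ring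
    rw [this]
    calc _ ≤ _ := abs_sub _ _
      _ ≤ _ := add_le_add h1 h2
      _ = _ := by ring
  have h4 := abs_mul kc ((kb * x ^ 2 + ka * y ^ 2 + 2 * (e - κ) * (x * y)) * q
      - (kb * x ^ 2 + ka * y ^ 2 + 2 * e * (x * y)))
  have h5 := le_abs_self (kc * ((kb * x ^ 2 + ka * y ^ 2 + 2 * (e - κ) * (x * y)) * q
      - (kb * x ^ 2 + ka * y ^ 2 + 2 * e * (x * y))))
  have h6 := mul_le_mul_of_nonneg_left h3 (abs_nonneg kc)
  linarith

/-- second-order pointwise estimate -/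
theorem DStep_second {e ka kb κ x y q : ℝ} (he : e = 1 ∨ e = -1)
    (hκ : |κ| ≤ 1 / 1000) (hk : |ka * kb| ≤ 1 / 1000) (hq0 : 0 ≤ q) (hq2 : q ≤ 100 / 99) :
    ((kb * x ^ 2 + ka * y ^ 2 + 2 * (e - κ) * (x * y)) * q) ^ 2 ≤
      43 / 40 * (kb ^ 2 * x ^ 4 + ka ^ 2 * y ^ 4) + 150 * (x ^ 2 * y ^ 2) := by
  have hxy : 0 ≤ x ^ 2 * y ^ 2 := by positivity
  have hA : (kb * x ^ 2 + ka * y ^ 2) ^ 2 ≤ kb ^ 2 * x ^ 4 + ka ^ 2 * y ^ 4 + x ^ 2 * y ^ 2 := by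
    have h1 : ka * kb ≤ 1 / 1000 := (le_abs_self _).trans hk
    have : (kb * x ^ 2 + ka * y ^ 2) ^ 2 =
        kb ^ 2 * x ^ 4 + ka ^ 2 * y ^ 4 + 2 * (ka * kb) * (x ^ 2 * y ^ 2) := by ring
    rw [this]
    nlinarith
  have hB : (2 * (e - κ) * (x * y)) ^ 2 ≤ 5 * (x ^ 2 * y ^ 2) := by
    have h1 : (e - κ) ^ 2 ≤ 5 / 4 := by
      obtain ⟨h1, h2⟩ := abs_le.mp hκ
      rcases he with rfl | rfl <;> nlinarith
    have : (2 * (e - κ) * (x * y)) ^ 2 = 4 * (e - κ) ^ 2 * (x ^ 2 * y ^ 2) := by ring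
    rw [this]
    nlinarith
  have hAB : (kb * x ^ 2 + ka * y ^ 2 + 2 * (e - κ) * (x * y)) ^ 2 ≤
      21 / 20 * (kb * x ^ 2 + ka * y ^ 2) ^ 2 + 21 * (2 * (e - κ) * (x * y)) ^ 2 := by
    nlinarith [sq_nonneg ((kb * x ^ 2 + ka * y ^ 2) - 20 * (2 * (e - κ) * (x * y)))]
  have hq : q ^ 2 ≤ 1021 / 1000 := by nlinarith
  have hP : 0 ≤ kb ^ 2 * x ^ 4 + ka ^ 2 * y ^ 4 := by positivity
  rw [mul_pow]
  calc _ ≤ (21 / 20 * (kb ^ 2 * x ^ 4 + ka ^ 2 * y ^ 4) + 107 * (x ^ 2 * y ^ 2)) * (1021 / 1000) := by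
        refine mul_le_mul (by linarith) hq (sq_nonneg _) (by positivity)
    _ ≤ _ := by nlinarith

/-- the removed diagonal terms -/
theorem DStep_end {e ka kb κ : ℝ} (he : e = 1 ∨ e = -1) :
    -(2 * ka * (kb * ka ^ 2 + ka * κ ^ 2 + 2 * e * (ka * κ))) ≤ 6 * (|κ| + |ka * kb|) * ka ^ 2 := by
  have h1 : -(ka * kb + κ ^ 2 + 2 * e * κ) ≤ 3 * (|κ| + |ka * kb|) := by
    have := neg_abs_le (ka * kb)
    have := neg_abs_le κ
    have := le_abs_self κ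
    have := abs_nonneg (ka * kb)
    have := abs_nonneg κ
    rcases he with rfl | rfl <;> nlinarith [sq_nonneg κ]
  have : -(2 * ka * (kb * ka ^ 2 + ka * κ ^ 2 + 2 * e * (ka * κ))) =
      2 * (-(ka * kb + κ ^ 2 + 2 * e * κ)) * ka ^ 2 := by ring
  rw [this]
  nlinarith [sq_nonneg ka]

variable {ι : Type} [Fintype ι] [DecidableEq ι] {p e : ℝ} {S : Finset ι} {K : Matrix ι ι ℝ}

/-- main first-order term -/
def DStep_F (S : Finset ι) (e : ℝ) (K : Matrix ι ι ℝ) (a b : ι) : ℝ :=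
  ∑ c ∈ S, 2 * K c c * (K b b * K c a ^ 2 + K a a * K c b ^ 2 + 2 * e * (K c a * K c b))

/-- `δ'` -/
def DStep_d (K : Matrix ι ι ℝ) (a b : ι) : ℝ := |K a b| + |K a a * K b b|

/-- remainder -/
def DStep_R (S : Finset ι) (K : Matrix ι ι ℝ) (a b : ι) : ℝ :=
  6 * DStep_d K a b * K a a ^ 2 + 6 * DStep_d K a b * K b b ^ 2 +
    ∑ c ∈ S, (2 * |K c c| * (DStep_d K a b *
        (3 * (|K b b| * K c a ^ 2) + 3 * (|K a a| * K c b ^ 2) + 9 * (|K c a| * |K c b|)))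
      + (43 / 40 * (K b b ^ 2 * K c a ^ 4 + K a a ^ 2 * K c b ^ 4) + 150 * (K c a ^ 2 * K c b ^ 2)))

omit [Fintype ι] [DecidableEq ι] in
theorem DStep_d_nonneg (a b : ι) : 0 ≤ DStep_d K a b := by unfold DStep_d; positivity

omit [Fintype ι] [DecidableEq ι] in
theorem DStep_R_nonneg (a b : ι) : 0 ≤ DStep_R S K a b := by
  have := DStep_d_nonneg (K := K) a b
  unfold DStep_R
  refine add_nonneg (by positivity) (Finset.sum_nonneg fun c _ => by positivity)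

omit [Fintype ι] in
theorem DStep_sum_del {a b : ι} (ha : a ∈ S) (hb : b ∈ S) (hab : a ≠ b) (f : ι → ℝ) :
    ∑ c ∈ del S a b, f c = ∑ c ∈ S, f c - f a - f b := by
  unfold del
  rw [Finset.sum_erase_eq_sub (Finset.mem_erase.mpr ⟨hab.symm, hb⟩), Finset.sum_erase_eq_sub ha]

theorem DStep_pair (h : Good p S e K) {a b : ι} (ha : a ∈ S) (hb : b ∈ S) (hA : Alw K a b) :
    Dh (upd e K a b) - Dh K ≤ -K a a ^ 2 - K b b ^ 2 + DStep_F S e K a b + DStep_R S K a b := by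
  obtain ⟨hD1, hD2, hD3⟩ := hA.Dd_bound h.sign
  obtain ⟨hab, hκ, hk⟩ := hA
  have hDpos : 0 < Dd e K a b := by linarith
  have hq0 : 0 ≤ 1 / Dd e K a b := by positivity
  have hq2 : 1 / Dd e K a b ≤ 100 / 99 := by
    rw [div_le_iff₀ hDpos]; linarith
  rw [Dh_upd h ha hb hab]
  have hpt : ∀ c ∈ del S a b,
      2 * K c c * (upd e K a b c c - K c c) + (upd e K a b c c - K c c) ^ 2 ≤
        2 * K c c * (K b b * K c a ^ 2 + K a a * K c b ^ 2 + 2 * e * (K c a * K c b)) +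
        (2 * |K c c| * (DStep_d K a b *
          (3 * (|K b b| * K c a ^ 2) + 3 * (|K a a| * K c b ^ 2) + 9 * (|K c a| * |K c b|)))
        + (43 / 40 * (K b b ^ 2 * K c a ^ 4 + K a a ^ 2 * K c b ^ 4)
          + 150 * (K c a ^ 2 * K c b ^ 2))) := by
    intro c hc
    have hcb : c ≠ b := (Finset.mem_erase.mp hc).1
    have hca : c ≠ a := (Finset.mem_erase.mp (Finset.mem_erase.mp hc).2).1
    have hΔ : upd e K a b c c - K c c =
        (K b b * K c a ^ 2 + K a a * K c b ^ 2 + 2 * (e - K a b) * (K c a * K c b)) *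
          (1 / Dd e K a b) := by
      rw [upd_diag h hca hcb, R62.hA, R62.hB]; ring
    rw [hΔ]
    have h1 := DStep_first (kc := K c c) (x := K c a) (y := K c b) h.sign hD3 hq0 hq2
    have h2 := DStep_second (x := K c a) (y := K c b) h.sign hκ hk hq0 hq2
    unfold DStep_d
    linarith
  have hs := Finset.sum_le_sum hpt
  rw [Finset.sum_add_distrib, Finset.sum_add_distrib (s := del S a b),
    DStep_sum_del ha hb hab (fun c => 2 * K c c *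
      (K b b * K c a ^ 2 + K a a * K c b ^ 2 + 2 * e * (K c a * K c b)))] at hs
  have hsub : del S a b ⊆ S := (Finset.erase_subset _ _).trans (Finset.erase_subset _ _)
  have hd := DStep_d_nonneg (K := K) a b
  have hR := Finset.sum_le_sum_of_subset_of_nonneg (f := fun c =>
      (2 * |K c c| * (DStep_d K a b *
          (3 * (|K b b| * K c a ^ 2) + 3 * (|K a a| * K c b ^ 2) + 9 * (|K c a| * |K c b|)))
        + (43 / 40 * (K b b ^ 2 * K c a ^ 4 + K a a ^ 2 * K c b ^ 4)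
          + 150 * (K c a ^ 2 * K c b ^ 2)))) hsub (fun c _ _ => by positivity)
  have e1 := DStep_end (ka := K a a) (kb := K b b) (κ := K a b) h.sign
  have e2 := DStep_end (ka := K b b) (kb := K a a) (κ := K a b) h.sign
  rw [mul_comm (K b b) (K a a)] at e2
  rw [Finset.sum_add_distrib]
  unfold DStep_F DStep_R
  rw [h.symm b a] at hs
  unfold DStep_d at hs hR ⊢
  linarith

theorem DStep_bet (h : Good p S e K) (c : ι) : ∑ a ∈ S, K c a ^ 2 = bet K c := by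
  rw [h.bet_eq]
  exact (SpecA.sum_eq_of_supp S _ fun b hb => by rw [h.symm c b, h.supp b c hb]; simp).symm

theorem DStep_row (h : Good p S e K) {c : ι} (hc : c ∈ S) : ∑ a ∈ S, K c a = e := by
  rw [← h.row c hc]
  exact (SpecA.sum_eq_of_supp S _ fun b hb => by rw [h.symm c b, h.supp b c hb]).symm

variable {s L lam r dd om ga : ℝ}

theorem DStep_cs (h : Good p S e K) (hb : Bd S K s L lam r dd om ga) :
    ∑ c ∈ S, |K c c| * bet K c ≤ dd * om := by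
  have h1 := Finset.sum_mul_sq_le_sq_mul_sq S (fun c => |K c c|) (fun c => bet K c)
  have h2 : ∑ c ∈ S, |K c c| ^ 2 ≤ dd ^ 2 := by
    simp only [sq_abs]; rw [← h.Dh_eq]; exact hb.D
  have h3 : ∑ c ∈ S, bet K c ^ 2 ≤ om ^ 2 := by
    have := hb.W
    simpa [Vs] using this
  have h4 : (∑ c ∈ S, |K c c| * bet K c) ^ 2 ≤ (dd * om) ^ 2 := by
    rw [mul_pow]
    exact h1.trans (mul_le_mul h2 h3 (Finset.sum_nonneg fun _ _ => sq_nonneg _) (sq_nonneg _))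
  exact (abs_le_of_sq_le_sq' h4 (mul_nonneg hb.dd_nonneg hb.om_nonneg)).2

theorem DStep_sqrtD (h : Good p S e K) (hb : Bd S K s L lam r dd om ga) :
    √(∑ b ∈ S, K b b ^ 2) ≤ dd := by
  rw [← h.Dh_eq]
  exact Real.sqrt_le_iff.mpr ⟨hb.dd_nonneg, hb.D⟩

theorem DStep_Dh_nonneg (h : Good p S e K) : 0 ≤ Dh K := by
  rw [h.Dh_eq]; exact Finset.sum_nonneg fun _ _ => sq_nonneg _

variable {w : ι → ι → ℝ} {eF eE er : ℝ}

/-- removal term -/
theorem DStep_removal (h : Good p S e K) (hb : Bd S K s L lam r dd om ga) (hw : Wt S K w eF eE er) :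
    ∑ a ∈ S, ∑ b ∈ S, w a b * (-K a a ^ 2 - K b b ^ 2) ≤ -2 * (s ^ 2 - s * er) * Dh K := by
  have hs0 : 0 ≤ s := by linarith [hb.s_ge]
  have h1 : (s ^ 2 - s * er) * Dh K ≤ ∑ a ∈ S, ∑ b ∈ S, w a b * K a a ^ 2 := by
    rw [h.Dh_eq, Finset.mul_sum]
    refine Finset.sum_le_sum fun a ha => ?_
    rw [← Finset.sum_mul]
    refine mul_le_mul_of_nonneg_right ?_ (sq_nonneg _)
    have := (abs_le.mp (hw.row_sum hs0 hb.hs ha)).1
    rw [hb.hs]; linarith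
  have h2 : ∑ a ∈ S, ∑ b ∈ S, w a b * K b b ^ 2 = ∑ a ∈ S, ∑ b ∈ S, w a b * K a a ^ 2 := by
    rw [Finset.sum_comm]
    exact Finset.sum_congr rfl fun a _ => Finset.sum_congr rfl fun b _ => by rw [hw.symm]
  have h3 : ∑ a ∈ S, ∑ b ∈ S, w a b * (-K a a ^ 2 - K b b ^ 2) =
      -(∑ a ∈ S, ∑ b ∈ S, w a b * K a a ^ 2) - ∑ a ∈ S, ∑ b ∈ S, w a b * K b b ^ 2 := by
    rw [← Finset.sum_neg_distrib, ← Finset.sum_sub_distrib]
    refine Finset.sum_congr rfl fun a _ => ?_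
    rw [← Finset.sum_neg_distrib, ← Finset.sum_sub_distrib]
    exact Finset.sum_congr rfl fun b _ => by ring
  rw [h3, h2]; linarith

/-- the `ℓ¹` norm of `g_a = ∑_c |K_cc| K_ca²` -/
theorem DStep_g1 (h : Good p S e K) (hb : Bd S K s L lam r dd om ga) :
    ∑ a ∈ S, ∑ c ∈ S, |K c c| * K c a ^ 2 ≤ dd * om := by
  rw [Finset.sum_comm]
  simp only [← Finset.mul_sum, DStep_bet h]
  exact DStep_cs h hb

theorem DStep_f1 (h : Good p S e K) (hb : Bd S K s L lam r dd om ga) :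
    ∑ a ∈ S, |∑ c ∈ S, K c c * K c a ^ 2| ≤ dd * om := by
  refine le_trans (Finset.sum_le_sum fun a _ => ?_) (DStep_g1 h hb)
  refine (Finset.abs_sum_le_sum_abs _ _).trans (le_of_eq (Finset.sum_congr rfl fun c _ => ?_))
  rw [abs_mul, abs_of_nonneg (sq_nonneg (K c a))]

/-- rank-one part of the main term -/
theorem DStep_main1 (h : Good p S e K) (hb : Bd S K s L lam r dd om ga) (hw : Wt S K w eF eE er)
    {t : ℝ} (ht : |Tr 1 K| ≤ t) :
    ∑ a ∈ S, ∑ b ∈ S, (∑ c ∈ S, K c c * K c a ^ 2) * w a b * K b b ≤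
      dd * om * t + dd * om * er * dd := by
  have hdo : 0 ≤ dd * om := mul_nonneg hb.dd_nonneg hb.om_nonneg
  have h1 := row_test S (fun a b => 1 - w a b) er hw.er_nonneg hw.row
    (fun a => ∑ c ∈ S, K c c * K c a ^ 2) (fun b => K b b)
  have h2 : (∑ a ∈ S, |∑ c ∈ S, K c c * K c a ^ 2|) * er * √(∑ b ∈ S, K b b ^ 2) ≤
      dd * om * er * dd :=
    mul_le_mul (mul_le_mul_of_nonneg_right (DStep_f1 h hb) hw.er_nonneg) (DStep_sqrtD h hb)
      (Real.sqrt_nonneg _) (mul_nonneg hdo hw.er_nonneg)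
  have h3 : ∑ a ∈ S, ∑ b ∈ S, (∑ c ∈ S, K c c * K c a ^ 2) * w a b * K b b =
      (∑ a ∈ S, ∑ c ∈ S, K c c * K c a ^ 2) * Tr 1 K -
        ∑ a ∈ S, ∑ b ∈ S, (∑ c ∈ S, K c c * K c a ^ 2) * (1 - w a b) * K b b := by
    rw [h.Tr1_eq, Finset.sum_mul_sum, ← Finset.sum_sub_distrib]
    refine Finset.sum_congr rfl fun a _ => ?_
    rw [← Finset.sum_sub_distrib]
    exact Finset.sum_congr rfl fun b _ => by ring
  have h4 : |(∑ a ∈ S, ∑ c ∈ S, K c c * K c a ^ 2) * Tr 1 K| ≤ dd * om * t := by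
    rw [abs_mul]
    exact mul_le_mul ((Finset.abs_sum_le_sum_abs _ _).trans (DStep_f1 h hb)) ht (abs_nonneg _) hdo
  rw [h3]
  linarith [(abs_le.mp h4).2, (abs_le.mp (h1.trans h2)).1]

/-- bilinear part of the main term -/
theorem DStep_main2 (h : Good p S e K) (hb : Bd S K s L lam r dd om ga) (hw : Wt S K w eF eE er)
    {t : ℝ} (ht : |Tr 1 K| ≤ t) :
    |∑ c ∈ S, K c c * ∑ a ∈ S, ∑ b ∈ S, K c a * w a b * K c b| ≤ t + eE * (dd * om) := by
  have he2 : e * e = 1 := by rcases h.sign with rfl | rfl <;> norm_num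
  have h1 : ∀ c ∈ S, ∑ a ∈ S, ∑ b ∈ S, K c a * w a b * K c b =
      1 - ∑ a ∈ S, ∑ b ∈ S, K c a * (1 - w a b) * K c b := by
    intro c hc
    rw [← he2]
    nth_rewrite 1 [← DStep_row h hc]
    nth_rewrite 1 [← DStep_row h hc]
    rw [he2, Finset.sum_mul_sum, ← Finset.sum_sub_distrib]
    refine Finset.sum_congr rfl fun a _ => ?_
    rw [← Finset.sum_sub_distrib]
    exact Finset.sum_congr rfl fun b _ => by ring
  have h2 : ∑ c ∈ S, K c c * ∑ a ∈ S, ∑ b ∈ S, K c a * w a b * K c b =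
      Tr 1 K - ∑ c ∈ S, K c c * ∑ a ∈ S, ∑ b ∈ S, K c a * (1 - w a b) * K c b := by
    rw [h.Tr1_eq, ← Finset.sum_sub_distrib]
    exact Finset.sum_congr rfl fun c hc => by rw [h1 c hc]; ring
  have h3 : |∑ c ∈ S, K c c * ∑ a ∈ S, ∑ b ∈ S, K c a * (1 - w a b) * K c b| ≤ eE * (dd * om) := by
    refine (Finset.abs_sum_le_sum_abs _ _).trans ?_
    refine le_trans (Finset.sum_le_sum (g := fun c => eE * (|K c c| * bet K c)) fun c _ => ?_) ?_
    · rw [abs_mul]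
      have := hw.op (fun a => K c a) (fun a => K c a)
      rw [mul_assoc eE, Real.mul_self_sqrt (Finset.sum_nonneg fun _ _ => sq_nonneg _),
        DStep_bet h] at this
      calc _ ≤ |K c c| * (eE * bet K c) := mul_le_mul_of_nonneg_left this (abs_nonneg _)
        _ = _ := by ring
    · rw [← Finset.mul_sum]
      exact mul_le_mul_of_nonneg_left (DStep_cs h hb) hw.eE_nonneg
  rw [h2]
  exact (abs_sub _ _).trans (add_le_add ht h3)

theorem DStep_main (h : Good p S e K) (hb : Bd S K s L lam r dd om ga) (hw : Wt S K w eF eE er)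
    {t : ℝ} (ht : |Tr 1 K| ≤ t) :
    ∑ a ∈ S, ∑ b ∈ S, w a b * DStep_F S e K a b ≤
      4 * (dd * om * t + dd * om * er * dd) + 4 * (t + eE * (dd * om)) := by
  have h1 := DStep_main1 h hb hw ht
  have h2 := DStep_main2 h hb hw ht
  have h3 : ∑ a ∈ S, ∑ b ∈ S, (∑ c ∈ S, K c c * K c b ^ 2) * w a b * K a a =
      ∑ a ∈ S, ∑ b ∈ S, (∑ c ∈ S, K c c * K c a ^ 2) * w a b * K b b := by
    rw [Finset.sum_comm]
    exact Finset.sum_congr rfl fun a _ => Finset.sum_congr rfl fun b _ => by rw [hw.symm]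
  have h4 : ∑ c ∈ S, K c c * ∑ a ∈ S, ∑ b ∈ S, K c a * w a b * K c b =
      ∑ a ∈ S, ∑ b ∈ S, ∑ c ∈ S, K c c * (K c a * w a b * K c b) := by
    simp only [Finset.mul_sum]
    rw [Finset.sum_comm]
    exact Finset.sum_congr rfl fun a _ => Finset.sum_comm
  have h5 : ∑ a ∈ S, ∑ b ∈ S, w a b * DStep_F S e K a b =
      2 * (∑ a ∈ S, ∑ b ∈ S, (∑ c ∈ S, K c c * K c a ^ 2) * w a b * K b b) +
      2 * (∑ a ∈ S, ∑ b ∈ S, (∑ c ∈ S, K c c * K c b ^ 2) * w a b * K a a) +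
      4 * e * ∑ a ∈ S, ∑ b ∈ S, ∑ c ∈ S, K c c * (K c a * w a b * K c b) := by
    simp only [DStep_F, Finset.mul_sum, Finset.sum_mul, ← Finset.sum_add_distrib]
    refine Finset.sum_congr rfl fun a _ => Finset.sum_congr rfl fun b _ =>
      Finset.sum_congr rfl fun c _ => by ring
  rw [h5, h3, ← h4]
  obtain ⟨h6, h7⟩ := abs_le.mp h2
  rcases h.sign with rfl | rfl <;> linarith

omit [DecidableEq ι] in
theorem DStep_d_symm (h : Good p S e K) (a b : ι) : DStep_d K a b = DStep_d K b a := by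
  unfold DStep_d; rw [h.symm a b, mul_comm]

theorem DStep_Dh_sq (h : Good p S e K) (hb : Bd S K s L lam r dd om ga) {δ : ℝ} (hdd : dd ≤ δ) :
    Dh K ^ 2 ≤ (δ ^ 2) ^ 2 := by
  have h1 : dd ^ 2 ≤ δ ^ 2 := pow_le_pow_left₀ hb.dd_nonneg hdd 2
  exact pow_le_pow_left₀ (DStep_Dh_nonneg h) (hb.D.trans h1) 2

theorem DStep_d_row (h : Good p S e K) (hb : Bd S K s L lam r dd om ga) {δ : ℝ} (hdd : dd ≤ δ)
    (her : r + δ ^ 2 ≤ er) : ∀ a ∈ S, ∑ b ∈ S, DStep_d K a b ^ 2 ≤ (2 * er) ^ 2 := by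
  intro a _
  have h1 := h.delta_row a
  have h2 := DStep_Dh_sq h hb hdd
  have h3 := hb.beta a
  have hr : 0 ≤ r := by linarith [hb.r_ge]
  have h4 : (r + δ ^ 2) ^ 2 ≤ er ^ 2 := pow_le_pow_left₀ (by positivity) her 2
  have h5 : 0 ≤ r * δ ^ 2 := by positivity
  unfold DStep_d
  nlinarith [sq_nonneg er]

theorem DStep_d_frob (h : Good p S e K) (hb : Bd S K s L lam r dd om ga) {δ : ℝ} (hdd : dd ≤ δ)
    (hδs : δ ^ 2 ≤ s) (hsE : s ≤ eE) :
    √(∑ a ∈ S, ∑ b ∈ S, DStep_d K a b ^ 2) ≤ 3 * eE := by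
  have h1 := h.delta_frob
  have h2 := DStep_Dh_sq h hb hdd
  have h3 := hb.T2
  have hs : 0 ≤ s := by linarith [hb.s_ge]
  have h4 : (δ ^ 2) ^ 2 ≤ s ^ 2 := pow_le_pow_left₀ (sq_nonneg _) hδs 2
  have h5 : s ^ 2 ≤ eE ^ 2 := pow_le_pow_left₀ hs hsE 2
  refine Real.sqrt_le_iff.mpr ⟨by linarith, ?_⟩
  unfold DStep_d
  nlinarith [sq_nonneg eE]

theorem DStep_rem1 (h : Good p S e K) (hb : Bd S K s L lam r dd om ga) {δ : ℝ} (hdd : dd ≤ δ)
    (her : r + δ ^ 2 ≤ er) :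
    ∑ a ∈ S, ∑ b ∈ S, DStep_d K a b * K a a ^ 2 ≤ dd ^ 2 * (2 * er) * s := by
  have her0 : 0 ≤ er := by nlinarith [hb.r_ge, sq_nonneg δ]
  have hs : 0 ≤ s := by linarith [hb.s_ge]
  have h1 := row_test S (DStep_d K) (2 * er) (by positivity) (DStep_d_row h hb hdd her)
    (fun a => K a a ^ 2) (fun _ => 1)
  have h2 : √(∑ _b ∈ S, (1 : ℝ) ^ 2) = s := by
    simp only [one_pow, Finset.sum_const, nsmul_eq_mul, mul_one]
    rw [← hb.hs, Real.sqrt_sq hs]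
  have h3 : ∑ a ∈ S, |K a a ^ 2| ≤ dd ^ 2 := by
    simp only [abs_pow, sq_abs]; rw [← h.Dh_eq]; exact hb.D
  rw [h2] at h1
  have h4 : ∑ a ∈ S, ∑ b ∈ S, DStep_d K a b * K a a ^ 2 =
      ∑ a ∈ S, ∑ b ∈ S, K a a ^ 2 * DStep_d K a b * 1 :=
    Finset.sum_congr rfl fun a _ => Finset.sum_congr rfl fun b _ => by ring
  rw [h4]
  refine (le_abs_self _).trans (h1.trans ?_)
  exact mul_le_mul_of_nonneg_right (mul_le_mul_of_nonneg_right h3 (by positivity)) hs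

theorem DStep_rem2 (h : Good p S e K) (hb : Bd S K s L lam r dd om ga) {δ : ℝ} (hdd : dd ≤ δ)
    (her : r + δ ^ 2 ≤ er) :
    ∑ a ∈ S, ∑ b ∈ S, ∑ c ∈ S, |K c c| * (DStep_d K a b * (|K b b| * K c a ^ 2)) ≤
      dd * om * (2 * er) * dd := by
  have her0 : 0 ≤ er := by nlinarith [hb.r_ge, sq_nonneg δ]
  have hdo : 0 ≤ dd * om := mul_nonneg hb.dd_nonneg hb.om_nonneg
  have h1 := row_test S (DStep_d K) (2 * er) (by positivity) (DStep_d_row h hb hdd her)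
    (fun a => ∑ c ∈ S, |K c c| * K c a ^ 2) (fun b => |K b b|)
  have h2 : ∑ a ∈ S, |∑ c ∈ S, (|K c c|) * K c a ^ 2| ≤ dd * om := by
    refine le_trans (le_of_eq (Finset.sum_congr rfl fun a _ => ?_)) (DStep_g1 h hb)
    exact abs_of_nonneg (Finset.sum_nonneg fun c _ => by positivity)
  have h3 : √(∑ b ∈ S, |K b b| ^ 2) ≤ dd := by
    simp only [sq_abs]; exact DStep_sqrtD h hb
  have h4 : ∑ a ∈ S, ∑ b ∈ S, ∑ c ∈ S, |K c c| * (DStep_d K a b * (|K b b| * K c a ^ 2)) =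
      ∑ a ∈ S, ∑ b ∈ S, (∑ c ∈ S, |K c c| * K c a ^ 2) * DStep_d K a b * |K b b| := by
    simp only [Finset.sum_mul]
    exact Finset.sum_congr rfl fun a _ => Finset.sum_congr rfl fun b _ =>
      Finset.sum_congr rfl fun c _ => by ring
  rw [h4]
  refine (le_abs_self _).trans (h1.trans ?_)
  exact mul_le_mul (mul_le_mul_of_nonneg_right h2 (by positivity)) h3 (Real.sqrt_nonneg _)
    (by positivity)

theorem DStep_rem3 (h : Good p S e K) (hb : Bd S K s L lam r dd om ga) {δ : ℝ} (hdd : dd ≤ δ)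
    (hδs : δ ^ 2 ≤ s) (hsE : s ≤ eE) :
    ∑ a ∈ S, ∑ b ∈ S, ∑ c ∈ S, |K c c| * (DStep_d K a b * (|K c a| * |K c b|)) ≤
      3 * eE * (dd * om) := by
  have hE : 0 ≤ eE := by linarith [hb.s_ge]
  have h4 : ∑ a ∈ S, ∑ b ∈ S, ∑ c ∈ S, |K c c| * (DStep_d K a b * (|K c a| * |K c b|)) =
      ∑ c ∈ S, |K c c| * ∑ a ∈ S, ∑ b ∈ S, |K c a| * DStep_d K a b * |K c b| := by
    simp only [Finset.mul_sum]
    rw [Finset.sum_comm (s := S) (t := S) (f := fun c a => ∑ b ∈ S,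
      |K c c| * (|K c a| * DStep_d K a b * |K c b|))]
    refine Finset.sum_congr rfl fun a _ => ?_
    rw [Finset.sum_comm]
    exact Finset.sum_congr rfl fun c _ => Finset.sum_congr rfl fun b _ => by ring
  rw [h4]
  refine le_trans (Finset.sum_le_sum (g := fun c => 3 * eE * (|K c c| * bet K c)) fun c _ => ?_) ?_
  · have h1 := frob_test S (DStep_d K) (fun a => |K c a|) (fun a => |K c a|)
    rw [mul_assoc (√_), Real.mul_self_sqrt (Finset.sum_nonneg fun _ _ => sq_nonneg _)] at h1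
    simp only [sq_abs, DStep_bet h] at h1
    have h2 := mul_le_mul_of_nonneg_right (DStep_d_frob h hb hdd hδs hsE) (h.bet_nonneg c)
    calc _ ≤ |K c c| * (3 * eE * bet K c) :=
          mul_le_mul_of_nonneg_left ((le_abs_self _).trans (h1.trans h2)) (abs_nonneg _)
      _ = _ := by ring
  · rw [← Finset.mul_sum]
    exact mul_le_mul_of_nonneg_left (DStep_cs h hb) (by positivity)

theorem DStep_rem4 (h : Good p S e K) :
    ∑ a ∈ S, ∑ b ∈ S, ∑ c ∈ S, K b b ^ 2 * K c a ^ 4 = (∑ a ∈ S, ∑ c ∈ S, K c a ^ 4) * Dh K := by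
  rw [h.Dh_eq, Finset.sum_mul_sum]
  refine Finset.sum_congr rfl fun a _ => Finset.sum_congr rfl fun b _ => ?_
  rw [← Finset.mul_sum, mul_comm]

theorem DStep_rem5 (h : Good p S e K) :
    ∑ a ∈ S, ∑ b ∈ S, ∑ c ∈ S, K c a ^ 2 * K c b ^ 2 = Vs 0 S K := by
  have h1 : Vs 0 S K = ∑ c ∈ S, ∑ a ∈ S, ∑ b ∈ S, K c a ^ 2 * K c b ^ 2 := by
    unfold Vs
    refine Finset.sum_congr rfl fun c _ => ?_
    rw [← Finset.sum_mul_sum, DStep_bet h]; ring
  rw [h1, Finset.sum_comm (s := S) (t := S) (f := fun c a => ∑ b ∈ S, K c a ^ 2 * K c b ^ 2)]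
  exact Finset.sum_congr rfl fun a _ => Finset.sum_comm

theorem DStep_rem (h : Good p S e K) (hb : Bd S K s L lam r dd om ga) {δ : ℝ} (hdd : dd ≤ δ)
    (hδs : δ ^ 2 ≤ s) (hsE : s ≤ eE) (her : r + δ ^ 2 ≤ er) :
    ∑ a ∈ S, ∑ b ∈ S, DStep_R S K a b ≤
      12 * (dd ^ 2 * (2 * er) * s) + 12 * (dd * om * (2 * er) * dd) + 18 * (3 * eE * (dd * om))
        + 43 / 20 * ((∑ a ∈ S, ∑ c ∈ S, K c a ^ 4) * Dh K) + 150 * om ^ 2 := by
  have h1 := DStep_rem1 h hb hdd her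
  have h2 := DStep_rem2 h hb hdd her
  have h3 := DStep_rem3 h hb hdd hδs hsE
  have h4 := DStep_rem4 h
  have h5 := DStep_rem5 h
  have h6 := hb.W
  have h1' : ∑ a ∈ S, ∑ b ∈ S, DStep_d K a b * K b b ^ 2 =
      ∑ a ∈ S, ∑ b ∈ S, DStep_d K a b * K a a ^ 2 := by
    rw [Finset.sum_comm]
    exact Finset.sum_congr rfl fun a _ => Finset.sum_congr rfl fun b _ => by rw [DStep_d_symm h]
  have h2' : ∑ a ∈ S, ∑ b ∈ S, ∑ c ∈ S, |K c c| * (DStep_d K a b * (|K a a| * K c b ^ 2)) =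
      ∑ a ∈ S, ∑ b ∈ S, ∑ c ∈ S, |K c c| * (DStep_d K a b * (|K b b| * K c a ^ 2)) := by
    rw [Finset.sum_comm]
    exact Finset.sum_congr rfl fun a _ => Finset.sum_congr rfl fun b _ => by rw [DStep_d_symm h]
  have h4' : ∑ a ∈ S, ∑ b ∈ S, ∑ c ∈ S, K a a ^ 2 * K c b ^ 4 =
      ∑ a ∈ S, ∑ b ∈ S, ∑ c ∈ S, K b b ^ 2 * K c a ^ 4 := Finset.sum_comm
  have key : ∑ a ∈ S, ∑ b ∈ S, DStep_R S K a b =
      6 * (∑ a ∈ S, ∑ b ∈ S, DStep_d K a b * K a a ^ 2) +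
      6 * (∑ a ∈ S, ∑ b ∈ S, DStep_d K a b * K b b ^ 2) +
      (6 * (∑ a ∈ S, ∑ b ∈ S, ∑ c ∈ S, |K c c| * (DStep_d K a b * (|K b b| * K c a ^ 2))) +
      6 * (∑ a ∈ S, ∑ b ∈ S, ∑ c ∈ S, |K c c| * (DStep_d K a b * (|K a a| * K c b ^ 2))) +
      18 * (∑ a ∈ S, ∑ b ∈ S, ∑ c ∈ S, |K c c| * (DStep_d K a b * (|K c a| * |K c b|))) +
      43 / 40 * (∑ a ∈ S, ∑ b ∈ S, ∑ c ∈ S, K b b ^ 2 * K c a ^ 4) +
      43 / 40 * (∑ a ∈ S, ∑ b ∈ S, ∑ c ∈ S, K a a ^ 2 * K c b ^ 4) +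
      150 * (∑ a ∈ S, ∑ b ∈ S, ∑ c ∈ S, K c a ^ 2 * K c b ^ 2)) := by
    simp only [DStep_R, Finset.mul_sum, ← Finset.sum_add_distrib]
    refine Finset.sum_congr rfl fun a _ => Finset.sum_congr rfl fun b _ => ?_
    congr 1
    · ring
    · exact Finset.sum_congr rfl fun c _ => by ring
  rw [key, h1', h2', h4', h4, h5]
  linarith

end Crest.Agent.R62
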