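import Crest.Agent.R62.MomentB
import Crest.Agent.R62.DStepAux

/-! Step inequality for `D̂ = ∑ K_cc²`. -/

set_option autoImplicit false
open Classical
open scoped Matrix
open Finset

noncomputable section
namespace Crest.Agent.R62

theorem D_step : ∃ C : ℝ, 0 < C ∧ ∀ {ι : Type} [Fintype ι] [DecidableEq ι] {p e : ℝ} {S : Finset ι} {K : Matrix ι ι ℝ}
      {s L lam r dd om ga : ℝ}, Good p S e K → Bd S K s L lam r dd om ga →
      ∀ {w : ι → ι → ℝ} {eF eE er ε δ t : ℝ}, Wt S K w eF eE er → 0 ≤ ε →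
      1 ≤ δ → dd ≤ δ → δ ^ 2 ≤ s → s ≤ eE → r + δ ^ 2 ≤ er → |Tr 1 K| ≤ t →
      om * er ≤ ε * s ^ 2 → δ * om ≤ ε * s ^ 2 → δ ^ 2 * r ^ 2 ≤ ε * s ^ 2 → er ≤ ε * s →
      t * om ≤ ε * dd * s ^ 2 → t ≤ ε * dd ^ 2 * s ^ 2 → eE * om ≤ ε * dd * s ^ 2 →
      om ^ 2 ≤ ε * dd ^ 2 * s ^ 2 →
      ∑ a ∈ S, ∑ b ∈ S, w a b * (Dh (upd e K a b) - Dh K) ≤
        -2 * s ^ 2 * Dh K + 8 / 5 * Tr 2 K * Dh K + C * ε * s ^ 2 * dd ^ 2 := by
  refine ⟨10000, by norm_num, ?_⟩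
  intro ι _ _ p e S K s L lam r dd om ga h hb w eF eE er ε δ t hw hε hδ hdd hδs hsE her ht
    H1 H2 H3 H4 H5 H6 H7 H8
  have hs : 0 ≤ s := by linarith [hb.s_ge]
  have hdd0 := hb.dd_nonneg
  have hom := hb.om_nonneg
  have hD0 := DStep_Dh_nonneg h
  have hD := hb.D
  have hT2 : 0 ≤ Tr 2 K := SpecA.Tr2_nonneg h
  have hpair : ∑ a ∈ S, ∑ b ∈ S, w a b * (Dh (upd e K a b) - Dh K) ≤
      ∑ a ∈ S, ∑ b ∈ S, w a b * (-K a a ^ 2 - K b b ^ 2) +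
        ∑ a ∈ S, ∑ b ∈ S, w a b * DStep_F S e K a b + 5 / 4 * ∑ a ∈ S, ∑ b ∈ S, DStep_R S K a b := by
    simp only [Finset.mul_sum, ← Finset.sum_add_distrib]
    refine Finset.sum_le_sum fun a ha => Finset.sum_le_sum fun b hb' => ?_
    have hR := DStep_R_nonneg (S := S) (K := K) a b
    by_cases hw0 : w a b = 0
    · rw [hw0]; linarith
    · have h1 := mul_le_mul_of_nonneg_left (DStep_pair h ha hb' (hw.supp a b hw0)) (hw.nonneg a b)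
      have h2 := mul_le_mul_of_nonneg_right (hw.le a b) hR
      linarith
  have hA := DStep_removal h hb hw
  have hB := DStep_main h hb hw ht
  have hC := DStep_rem h hb hdd hδs hsE her
  have hF := h.F4_le hb hδ hdd
  have hr := hb.r_ge
  have h1 : 1 ≤ ε * s ^ 2 := by
    have : 1 ≤ δ ^ 2 * r ^ 2 := one_le_mul_of_one_le_of_one_le (one_le_pow₀ hδ) (one_le_pow₀ hr)
    linarith
  have hF' : ∑ a ∈ S, ∑ c ∈ S, K c a ^ 4 ≤ 51 / 100 * Tr 2 K + 3000 * (ε * s ^ 2) := by linarith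
  have hFD := mul_le_mul_of_nonneg_right hF' hD0
  have hX : ε * s ^ 2 * Dh K ≤ ε * s ^ 2 * dd ^ 2 := mul_le_mul_of_nonneg_left hD (by linarith)
  have hTD : 0 ≤ Tr 2 K * Dh K := mul_nonneg hT2 hD0
  have e1 : s * er * Dh K ≤ ε * s ^ 2 * dd ^ 2 := by
    have : s * er ≤ ε * s ^ 2 := by nlinarith
    exact mul_le_mul this hD hD0 (by linarith)
  have e2 : dd * om * t ≤ ε * s ^ 2 * dd ^ 2 := by nlinarith [mul_le_mul_of_nonneg_left H5 hdd0]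
  have e3 : dd * om * er * dd ≤ ε * s ^ 2 * dd ^ 2 := by
    nlinarith [mul_le_mul_of_nonneg_left H1 (sq_nonneg dd)]
  have e4 : eE * (dd * om) ≤ ε * s ^ 2 * dd ^ 2 := by nlinarith [mul_le_mul_of_nonneg_left H7 hdd0]
  have e5 : dd ^ 2 * (2 * er) * s ≤ 2 * (ε * s ^ 2 * dd ^ 2) := by
    nlinarith [mul_le_mul_of_nonneg_left H4 (mul_nonneg (sq_nonneg dd) hs)]
  have e6 : t ≤ ε * s ^ 2 * dd ^ 2 := by linarith
  have e7 : om ^ 2 ≤ ε * s ^ 2 * dd ^ 2 := by linarith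
  have e0 : 0 ≤ ε * s ^ 2 * dd ^ 2 := by positivity
  linarith

end Crest.Agent.R62
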