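import Mathlib

/-!
# Row 62 (S0084): definitions.

Half-edges `ι`, vertex map `vx : ι → V`, free half-edges `S`.  For a sign `e = ±1` the matrix `K`
(supported on `S × S`, symmetric, row sums `e`) is the "boundary matrix" of the partial graph with
virtual trees at spectral parameter `2√(d-1)`.  Gluing `a, b` is the Schur-complement map `upd`.
-/

set_option autoImplicit false
open Classical
open scoped Matrix
open Finset

noncomputable section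
namespace Crest.Agent.R62

section alg
variable {ι : Type} [Fintype ι] [DecidableEq ι] {𝕜 : Type} [Field 𝕜]

/-- identity on `S` -/
def idS (S : Finset ι) : Matrix ι ι 𝕜 := Matrix.diagonal fun i => if i ∈ S then 1 else 0

/-- `D = -det (eσ - [K])` -/
def Dd (e : 𝕜) (K : Matrix ι ι 𝕜) (a b : ι) : 𝕜 :=
  1 - 2 * e * K a b - K a a * K b b + K a b ^ 2

/-- gluing the half-edges `a`, `b`: `K' = K_rr + K_rE (eσ - K_EE)⁻¹ K_Er` -/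
def upd (e : 𝕜) (K : Matrix ι ι 𝕜) (a b : ι) : Matrix ι ι 𝕜 := Matrix.of fun c f =>
  if c = a ∨ c = b ∨ f = a ∨ f = b then 0 else
    K c f + (K b b * (K c a * K a f) + K a a * (K c b * K b f)
      + (e - K a b) * (K c a * K b f + K c b * K a f)) / Dd e K a b

def del (S : Finset ι) (a b : ι) : Finset ι := (S.erase a).erase b

def Tr (k : ℕ) (K : Matrix ι ι 𝕜) : 𝕜 := (K ^ k).trace
def bet (K : Matrix ι ι 𝕜) (c : ι) : 𝕜 := (K * K) c c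
/-- `Vs 1 = V = ∑ (β-1)²`, `Vs 0 = W = ∑ β²` -/
def Vs (s0 : 𝕜) (S : Finset ι) (K : Matrix ι ι 𝕜) : 𝕜 := ∑ c ∈ S, (bet K c - s0) ^ 2
def Dh (K : Matrix ι ι 𝕜) : 𝕜 := ∑ c, K c c ^ 2
def Zz (S : Finset ι) (K J : Matrix ι ι 𝕜) : 𝕜 := (K * K * (J + idS S)).trace
/-- `y = N - T₂` -/
def yy (S : Finset ι) (K : Matrix ι ι 𝕜) : 𝕜 := (S.card : 𝕜) - Tr 2 K

/-- Taylor coefficients of the Moebius transform `(K - s)(1 - sK)⁻¹` -/
def RR (S : Finset ι) (K : Matrix ι ι 𝕜) : ℕ → Matrix ι ι 𝕜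
  | 0 => K
  | 1 => K * K - idS S
  | (k + 2) => K ^ (k + 3) - K ^ (k + 1)

/-- main part of the increment of the `k`-th moment (divided by `k`) -/
def ff (S : Finset ι) (e : 𝕜) (K : Matrix ι ι 𝕜) (k : ℕ) (a b : ι) : 𝕜 :=
  2 * e * RR S K k a b + ∑ i ∈ range (k + 1), RR S K i a a * RR S K (k - i) b b

/-- off-diagonal products -/
def oo (S : Finset ι) (K : Matrix ι ι 𝕜) (k : ℕ) (a b : ι) : 𝕜 :=
  ∑ i ∈ range (k + 1), RR S K i a b * RR S K (k - i) a b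

/-- `x_k = D_k / D` -/
def xx (S : Finset ι) (e : 𝕜) (K : Matrix ι ι 𝕜) (k : ℕ) (a b : ι) : 𝕜 :=
  (oo S K k a b - ff S e K k a b) / Dd e K a b

/-- `a_k = T_k - [k even] N` -/
def aa (S : Finset ι) (K : Matrix ι ι 𝕜) (k : ℕ) : 𝕜 :=
  Tr k K - if Even k then (S.card : 𝕜) else 0

/-- the two entries of `h = X (K_ca, K_cb)` -/
def hA (e : 𝕜) (K : Matrix ι ι 𝕜) (a b c : ι) : 𝕜 :=
  (K b b * K c a + (e - K a b) * K c b) / Dd e K a b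
def hB (e : 𝕜) (K : Matrix ι ι 𝕜) (a b c : ι) : 𝕜 :=
  (K a a * K c b + (e - K a b) * K c a) / Dd e K a b

/-- the `2 × 2` block of `M` at `(a, b)` -/
def blk (M : Matrix ι ι 𝕜) (a b : ι) : Matrix (Fin 2) (Fin 2) 𝕜 := !![M a a, M a b; M b a, M b b]
def sig : Matrix (Fin 2) (Fin 2) 𝕜 := !![0, 1; 1, 0]
/-- `X = (eσ - [K])⁻¹` -/
def Xm (e : 𝕜) (K : Matrix ι ι 𝕜) (a b : ι) : Matrix (Fin 2) (Fin 2) 𝕜 :=
  (Dd e K a b)⁻¹ • !![K b b, e - K a b; e - K a b, K a a]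

end alg

section ord
variable {V ι : Type} [Fintype V] [Fintype ι] [DecidableEq ι]
variable {𝕜 : Type} [Field 𝕜] [LinearOrder 𝕜] [IsStrictOrderedRing 𝕜]

/-- Huber function -/
def hub (x : 𝕜) : 𝕜 := if x ≤ 0 then 0 else if x ≤ 1 then x ^ 2 / 2 else x - 1 / 2

/-- rounding: off-diagonal entries are rounded down to the grid `1/M`, the diagonal restores the
row sums `e` (so the change is a graph Laplacian, positive semidefinite) -/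
def rnd [FloorRing 𝕜] (M : ℕ) (S : Finset ι) (e : 𝕜) (K : Matrix ι ι 𝕜) : Matrix ι ι 𝕜 :=
  Matrix.of fun c f => if c ∈ S ∧ f ∈ S then
    (if c = f then e - ∑ g ∈ S.erase c, (⌊(M : 𝕜) * K c g⌋ : 𝕜) / M else (⌊(M : 𝕜) * K c f⌋ : 𝕜) / M)
    else 0

/-- ordered pairs of distinct free half-edges at the same vertex -/
def Xs (vx : ι → V) (S : Finset ι) : ℕ :=
  ((S ×ˢ S).filter fun q => q.1 ≠ q.2 ∧ vx q.1 = vx q.2).card
/-- ordered pairs of free half-edges at adjacent vertices -/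
def Xa (vx : ι → V) (G : SimpleGraph V) (S : Finset ι) : ℕ :=
  ((S ×ˢ S).filter fun q => G.Adj (vx q.1) (vx q.2)).card
/-- conflict relation: gluing would not give a simple graph -/
def Conf (vx : ι → V) (G : SimpleGraph V) (a b : ι) : Prop := vx a = vx b ∨ G.Adj (vx a) (vx b)

structure St (V ι 𝕜 : Type) where
  S : Finset ι
  G : SimpleGraph V
  K : Matrix ι ι 𝕜
  J : Matrix ι ι 𝕜

structure Par (𝕜 : Type) where
  (E4 EV ED z c1 w1 c2 w2 c3 w3 f4 c4 w4 f5 c5 w5 c6 w6 : 𝕜)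

def PhiA (P : Par 𝕜) (S : Finset ι) (K J : Matrix ι ι 𝕜) : 𝕜 :=
  Tr 4 K / P.E4 + Vs 1 S K / P.EV + Dh K / P.ED + P.z * Zz S K J
  + hub ((Tr 1 K - P.c1) / P.w1) + hub ((-Tr 1 K - P.c2) / P.w2) + hub ((P.c3 - yy S K) / P.w3)
  + P.f4 * hub ((yy S K - P.c4) / P.w4) + P.f5 * hub ((P.c5 - Tr 3 K) / P.w5)
  + hub ((Tr 3 K - P.c6) / P.w6)

/-- `G₁ = θ n / m^3220`, `θ = m^700` -/
def G1 (m n : 𝕜) : 𝕜 := m ^ 700 * n / m ^ 3220
def y2 (m n : 𝕜) : 𝕜 := G1 m n * n / m ^ 2760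

/-- phase 0: tilt -/
def par0 (m n d N : 𝕜) : Par 𝕜 where
  E4 := m ^ 4792
  EV := m ^ 2560
  ED := m ^ 600
  z := 1 / (m ^ 740 * N)
  c1 := G1 m n / 25 - m ^ 700 * n / 2 * (1 / N - 1 / (n * d))
  w1 := G1 m n / 25
  c2 := m ^ 1492
  w2 := m ^ 1492
  c3 := -m ^ 2696
  w3 := m ^ 2696
  f4 := 1
  c4 := m ^ 2696
  w4 := m ^ 2696
  f5 := 1
  c5 := 2 * n
  w5 := n / 10
  c6 := d ^ 2 * n
  w6 := n / 10

/-- phase 1: coasting, `y` grows -/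
def par1 (m n d N : 𝕜) : Par 𝕜 where
  E4 := m ^ 5252
  EV := m ^ 2760
  ED := m ^ 604
  z := 0
  c1 := -(3 / 10) * G1 m n
  w1 := G1 m n / 15
  c2 := 3 * m ^ 1492
  w2 := m ^ 1492
  c3 := -(5 / 2) * m ^ 2696 + G1 m n * n / 5 * (1 / N - 2 / m ^ 3220)
  w3 := y2 m n / 30
  f4 := 1
  c4 := m ^ 2739
  w4 := m ^ 2739
  f5 := 1
  c5 := 9 / 5 * n
  w5 := n / 10
  c6 := (d ^ 2 + 1) * n
  w6 := n / 10

/-- phase 2: escape along the logistic curve -/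
def par2 (m n d N : 𝕜) : Par 𝕜 where
  E4 := m ^ 5312
  EV := m ^ 2820
  ED := m ^ 608
  z := 0
  c1 := 0
  w1 := m ^ 1312
  c2 := 5 * m ^ 1492
  w2 := m ^ 1492
  c3 := N * (y2 m n / 10) / (N + y2 m n / 10)
  w3 := m ^ 2680
  f4 := 0
  c4 := 0
  w4 := 1
  f5 := 0
  c5 := 0
  w5 := 1
  c6 := (d ^ 2 + 2) * n
  w6 := n / 10

def E2 (m N : 𝕜) : 𝕜 := (N / m ^ 1358 + 1 / 2) ^ 2
def EW (m N : 𝕜) : 𝕜 := (N / m ^ 1288 + m ^ 20) ^ 2
def EDc (m N : 𝕜) : 𝕜 := N / m ^ 2090 + 1 / m ^ 6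
def E1p (m N : 𝕜) : 𝕜 := N / m ^ 1350 + m ^ 1280
def E1m (m N : 𝕜) : 𝕜 := N / m ^ 1207 + m ^ 1280
def EX (m N : 𝕜) : 𝕜 := N ^ 2 / m ^ 2695

/-- phase 3: decay -/
def PhiC (m : 𝕜) (S : Finset ι) (K : Matrix ι ι 𝕜) : 𝕜 :=
  (Tr 2 K - 1) / E2 m S.card + Vs 0 S K / EW m S.card + Dh K / EDc m S.card
  + hub (Tr 1 K / E1p m S.card - 1) + hub (-Tr 1 K / E1m m S.card - 1)

def XX (m d : 𝕜) (vx : ι → V) (G : SimpleGraph V) (S : Finset ι) : 𝕜 :=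
  (Xa vx G S : 𝕜) + d * m ^ 2 * (Xs vx S : 𝕜)

/-- the potential of phase `j` -/
def Phi (j : ℕ) (m n d : ℕ) (vx : ι → V) (st : St V ι 𝕜) : 𝕜 :=
  match j with
  | 0 => PhiA (par0 (m : 𝕜) n d st.S.card) st.S st.K st.J + PhiA (par0 (m : 𝕜) n d st.S.card) st.S st.J st.K
  | 1 => PhiA (par1 (m : 𝕜) n d st.S.card) st.S st.K st.J + PhiA (par1 (m : 𝕜) n d st.S.card) st.S st.J st.K
  | 2 => PhiA (par2 (m : 𝕜) n d st.S.card) st.S st.K st.J + PhiA (par2 (m : 𝕜) n d st.S.card) st.S st.J st.K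
  | _ => PhiC (m : 𝕜) st.S st.K + PhiC (m : 𝕜) st.S st.J + XX (m : 𝕜) d vx st.G st.S / EX (m : 𝕜) st.S.card

/-- the phase as a function of the number `N` of free half-edges -/
def ph (m N : ℕ) : ℕ :=
  if m ^ 3220 < N then 0 else if m ^ 2760 < N then 1 else if m ^ 2700 < N then 2
  else if m ^ 1320 < N then 3 else 4

def rawStep (vx : ι → V) (st : St V ι 𝕜) (a b : ι) : St V ι 𝕜 :=
  ⟨del st.S a b, st.G ⊔ SimpleGraph.edge (vx a) (vx b), upd 1 st.K a b, upd (-1) st.J a b⟩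

def step [FloorRing 𝕜] (M : ℕ) (vx : ι → V) (st : St V ι 𝕜) (a b : ι) : St V ι 𝕜 :=
  ⟨del st.S a b, st.G ⊔ SimpleGraph.edge (vx a) (vx b),
    rnd M (del st.S a b) 1 (upd 1 st.K a b), rnd M (del st.S a b) (-1) (upd (-1) st.J a b)⟩

/-- final phase: the matrices are no longer updated -/
def finStep (vx : ι → V) (st : St V ι 𝕜) (a b : ι) : St V ι 𝕜 :=
  ⟨del st.S a b, st.G ⊔ SimpleGraph.edge (vx a) (vx b), st.K, st.J⟩

def Simple (vx : ι → V) (st : St V ι 𝕜) (a b : ι) : Prop :=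
  a ∈ st.S ∧ b ∈ st.S ∧ ¬ Conf vx st.G a b

def Valid (B : ℕ) (vx : ι → V) (st : St V ι 𝕜) (a b : ι) : Prop :=
  Simple vx st a b ∧ 0 < Dd 1 st.K a b ∧ 0 < Dd (-1) st.J a b ∧
    (∀ c f, |upd 1 st.K a b c f| ≤ B) ∧ (∀ c f, |upd (-1) st.J a b c f| ≤ B)

/-- one round of the greedy algorithm, as a relation -/
def Next [FloorRing 𝕜] (m n d : ℕ) (vx : ι → V) (st st' : St V ι 𝕜) : Prop :=
  if ph m st.S.card ≤ 3 then
    (if ∃ a b, Valid (n * d) vx st a b then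
      ∃ a b, Valid (n * d) vx st a b ∧ st' = step ((n * d) ^ 30) vx st a b ∧
        ∀ a' b', Valid (n * d) vx st a' b' →
          Phi (ph m st.S.card) m n d vx st' ≤
            Phi (ph m st.S.card) m n d vx (step ((n * d) ^ 30) vx st a' b')
     else st' = st)
  else
    (if ∃ a b, Simple vx st a b then ∃ a b, Simple vx st a b ∧ st' = finStep vx st a b
     else st' = st)

/-- rational lower approximation of `p = 1/√(d-1)` -/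
def plo (d M : ℕ) : 𝕜 := (Nat.sqrt (M ^ 2 * (d - 1)) : 𝕜) / ((M : 𝕜) * ((d : 𝕜) - 1))

def off0 (d M : ℕ) (vx : ι → V) (e : 𝕜) (a b : ι) : 𝕜 :=
  if vx a = vx b then plo d M * (1 - ((d : 𝕜) - 1) / Fintype.card ι) + e / Fintype.card ι
  else e / Fintype.card ι - (plo d M + 1 / M) * ((d : 𝕜) - 1) / Fintype.card ι

def K0 (d M : ℕ) (vx : ι → V) (e : 𝕜) : Matrix ι ι 𝕜 := Matrix.of fun a b =>
  if a = b then e - ∑ g ∈ univ.erase a, off0 d M vx e a g else off0 d M vx e a b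

def st0 (n d : ℕ) (vx : ι → V) : St V ι 𝕜 :=
  ⟨univ, ⊥, K0 d ((n * d) ^ 30) vx 1, K0 d ((n * d) ^ 30) vx (-1)⟩

end ord

/-- `m = ⌊n^{1/4000}⌋` -/
def mOf (n : ℕ) : ℕ := Nat.findGreatest (fun m => m ^ 4000 ≤ n) n

def St.toR {V ι : Type} (st : St V ι ℚ) : St V ι ℝ :=
  ⟨st.S, st.G, st.K.map (fun x => (x : ℝ)), st.J.map (fun x => (x : ℝ))⟩

section analysis
variable {V ι : Type} [Fintype V] [Fintype ι] [DecidableEq ι]

/-- structural invariant of one boundary matrix -/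
structure Good (p : ℝ) (S : Finset ι) (e : ℝ) (K : Matrix ι ι ℝ) : Prop where
  p_nonneg : 0 ≤ p
  p_sq : p ^ 2 ≤ 1 / 2
  sign : e = 1 ∨ e = -1
  symm : ∀ a b, K a b = K b a
  supp : ∀ a b, a ∉ S → K a b = 0
  row : ∀ a ∈ S, ∑ b, K a b = e
  psd0 : ∀ z : ι → ℝ, (∀ h, h ∉ S → z h = 0) → ∑ h, z h = 0 → 0 ≤ z ⬝ᵥ (K *ᵥ z) + p * (z ⬝ᵥ z)

/-- operator norm bound -/
def OpB (K : Matrix ι ι ℝ) (L : ℝ) : Prop :=
  ∀ x : ι → ℝ, ∑ a, (K *ᵥ x) a ^ 2 ≤ L ^ 2 * ∑ a, x a ^ 2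

/-- size bounds for one boundary matrix: `N = s²`, `‖K‖ ≤ L`, `T₄ ≤ L⁴`, `V ≤ lam²`, `β ≤ r²`,
`D̂ ≤ dd²`, `W ≤ om²`, `∑ β (K⁴)_cc ≤ ga²` -/
structure Bd (S : Finset ι) (K : Matrix ι ι ℝ) (s L lam r dd om ga : ℝ) : Prop where
  hs : s ^ 2 = S.card
  s_ge : 2 ≤ s
  L_ge : 1 ≤ L
  r_ge : 1 ≤ r
  lam_nonneg : 0 ≤ lam
  dd_nonneg : 0 ≤ dd
  om_nonneg : 0 ≤ om
  ga_nonneg : 0 ≤ ga
  T2 : Tr 2 K ≤ 2 * s ^ 2
  T4 : Tr 4 K ≤ L ^ 4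
  op : OpB K L
  V : Vs 1 S K ≤ lam ^ 2
  beta : ∀ c, bet K c ≤ r ^ 2
  D : Dh K ≤ dd ^ 2
  W : Vs 0 S K ≤ om ^ 2
  G : ∑ c, bet K c * (K ^ 4) c c ≤ ga ^ 2

/-- the extra hypotheses of the moment lemma -/
structure BdA (s L lam r dd : ℝ) : Prop where
  h1 : dd ^ 2 * lam ^ 2 ≤ L ^ 3
  h2 : dd ≤ L
  h3 : lam ^ 2 ≤ L ^ 3
  h4 : lam * r ≤ L ^ 2
  h5 : s ≤ L ^ 2
  h6 : dd ^ 2 ≤ s
  h7 : L ≤ s

/-- allowed pairs -/
def Alw (K : Matrix ι ι ℝ) (a b : ι) : Prop :=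
  a ≠ b ∧ |K a b| ≤ 1 / 1000 ∧ |K a a * K b b| ≤ 1 / 1000

/-- weights on ordered pairs, close to uniform: `E = 1 - w` has Frobenius norm `≤ eF`, operator norm
`≤ eE` and rows of `ℓ²` norm `≤ er` on `S × S` -/
structure Wt (S : Finset ι) (K : Matrix ι ι ℝ) (w : ι → ι → ℝ) (eF eE er : ℝ) : Prop where
  nonneg : ∀ a b, 0 ≤ w a b
  le : ∀ a b, w a b ≤ 5 / 4
  symm : ∀ a b, w a b = w b a
  supp : ∀ a b, w a b ≠ 0 → Alw K a b
  eF_nonneg : 0 ≤ eF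
  eE_nonneg : 0 ≤ eE
  er_nonneg : 0 ≤ er
  frob : ∑ a ∈ S, ∑ b ∈ S, (1 - w a b) ^ 2 ≤ eF ^ 2
  op : ∀ x y : ι → ℝ, |∑ a ∈ S, ∑ b ∈ S, x a * (1 - w a b) * y b| ≤
    eE * √(∑ a ∈ S, x a ^ 2) * √(∑ b ∈ S, y b ^ 2)
  row : ∀ a ∈ S, ∑ b ∈ S, (1 - w a b) ^ 2 ≤ er ^ 2

/-- truncation of `K` to good rows and small entries -/
def Qm (θ : ℝ) (K J : Matrix ι ι ℝ) (a b : ι) : ℝ :=
  if bet K a ≤ 2 ∧ bet J a ≤ 2 ∧ bet K b ≤ 2 ∧ bet J b ≤ 2 ∧ 8 * θ * |K a b| ≤ 1 then K a b else 0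

/-- the tilted weights (`K` has sign `e`, `J` has sign `-e`) -/
def wt (conf : ι → ι → Prop) (θ e : ℝ) (K J : Matrix ι ι ℝ) (a b : ι) : ℝ :=
  if ¬ conf a b ∧ Alw K a b ∧ Alw J a b then 1 - θ * e * (Qm θ K J a b - Qm θ J K a b) else 0

/-- degree in the classical sense -/
def dg (G : SimpleGraph V) (v : V) : ℕ := (univ.filter fun u => G.Adj v u).card
/-- adjacency quadratic form -/
def aq (G : SimpleGraph V) (x : V → ℝ) : ℝ := ∑ u, ∑ v, if G.Adj u v then x u * x v else 0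

def yv (vx : ι → V) (S : Finset ι) (x : V → ℝ) : ι → ℝ := fun h => if h ∈ S then x (vx h) else 0
def pp (d : ℕ) : ℝ := 1 / √((d : ℝ) - 1)
def Bq (d : ℕ) (e : ℝ) (G : SimpleGraph V) (x : V → ℝ) : ℝ :=
  2 * √((d : ℝ) - 1) * (x ⬝ᵥ x) - e * aq G x

def Fq (d : ℕ) (e : ℝ) (vx : ι → V) (G : SimpleGraph V) (S : Finset ι) (K : Matrix ι ι ℝ)
    (x : V → ℝ) (z : ι → ℝ) : ℝ :=
  Bq d e G x - pp d * (yv vx S x ⬝ᵥ yv vx S x - (∑ h, yv vx S x h) ^ 2 / S.card)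
    - e * (∑ h, yv vx S x h) ^ 2 / S.card - 2 * (z ⬝ᵥ yv vx S x)
    + (z ⬝ᵥ (K *ᵥ z) + pp d * (z ⬝ᵥ z)) / (1 - pp d ^ 2)

/-- positivity invariant -/
def PDInv (d : ℕ) (e : ℝ) (vx : ι → V) (G : SimpleGraph V) (S : Finset ι) (K : Matrix ι ι ℝ) : Prop :=
  ∀ x : V → ℝ, ∑ v, x v = 0 → ∀ z : ι → ℝ, (∀ h, h ∉ S → z h = 0) → ∑ h, z h = 0 →
    0 ≤ Fq d e vx G S K x z ∧ (x ≠ 0 → 0 < Fq d e vx G S K x z)

/-- positivity invariant of the final phase -/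
def FinInv (d : ℕ) (e : ℝ) (vx : ι → V) (G : SimpleGraph V) (S : Finset ι) : Prop :=
  ∀ x : V → ℝ, ∑ v, x v = 0 → x ≠ 0 →
    0 < Bq d e G x - e * (∑ h, yv vx S x h) ^ 2 / S.card
      - (yv vx S x ⬝ᵥ yv vx S x - (∑ h, yv vx S x h) ^ 2 / S.card)

/-- combinatorial invariant: `n` vertices, `d` half-edges at each, degree + free half-edges = `d` -/
structure GInv (n d : ℕ) (vx : ι → V) (G : SimpleGraph V) (S : Finset ι) : Prop where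
  cardV : Fintype.card V = n
  fib : ∀ v, (univ.filter fun h => vx h = v).card = d
  deg : ∀ v, dg G v + (S.filter fun h => vx h = v).card = d

/-- everything the step theorems assume about a state -/
structure Base (n d : ℕ) (vx : ι → V) (st : St V ι ℝ) : Prop where
  gK : Good (pp d) st.S 1 st.K
  gJ : Good (pp d) st.S (-1) st.J
  gi : GInv n d vx st.G st.S

/-- `m` is the scale of `n` -/
def Scale (m n : ℕ) : Prop := m ^ 4000 ≤ n ∧ n ≤ 2 * m ^ 4000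

end analysis

end Crest.Agent.R62
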