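import Crest.Agent.R62.MomentA

/-! Norm bounds for the pair functions `ff`, `oo`. -/

set_option autoImplicit false
open Classical
open scoped Matrix
open Finset

noncomputable section
namespace Crest.Agent.R62

namespace LemA1

set_option linter.unusedSectionVars false

variable {ι : Type} [Fintype ι] [DecidableEq ι] {p e : ℝ} {S : Finset ι} {K : Matrix ι ι ℝ}
  {s L lam r dd om ga : ℝ}

omit [Fintype ι] [DecidableEq ι] in
lemma cs2 (S : Finset ι) (f g : ι → ι → ℝ) :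
    (∑ a ∈ S, ∑ b ∈ S, f a b * g a b) ^ 2 ≤
      (∑ a ∈ S, ∑ b ∈ S, f a b ^ 2) * ∑ a ∈ S, ∑ b ∈ S, g a b ^ 2 := by
  have := Finset.sum_mul_sq_le_sq_mul_sq (S ×ˢ S) (fun q => f q.1 q.2) (fun q => g q.1 q.2)
  simpa only [Finset.sum_product] using this

omit [Fintype ι] [DecidableEq ι] in
lemma sub_sq2 (S : Finset ι) (f g : ι → ι → ℝ) :
    ∑ a ∈ S, ∑ b ∈ S, (f a b - g a b) ^ 2 ≤
      2 * ∑ a ∈ S, ∑ b ∈ S, f a b ^ 2 + 2 * ∑ a ∈ S, ∑ b ∈ S, g a b ^ 2 := by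
  simp only [Finset.mul_sum, ← Finset.sum_add_distrib]
  refine Finset.sum_le_sum fun a _ => Finset.sum_le_sum fun b _ => ?_
  nlinarith [sq_nonneg (f a b + g a b)]

omit [Fintype ι] [DecidableEq ι] in
lemma sub_sq1 (S : Finset ι) (f g : ι → ℝ) :
    ∑ a ∈ S, (f a - g a) ^ 2 ≤ 2 * ∑ a ∈ S, f a ^ 2 + 2 * ∑ a ∈ S, g a ^ 2 := by
  simp only [Finset.mul_sum, ← Finset.sum_add_distrib]
  refine Finset.sum_le_sum fun a _ => ?_
  nlinarith [sq_nonneg (f a + g a)]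

omit [Fintype ι] [DecidableEq ι] in
lemma nn2 (S : Finset ι) (f : ι → ι → ℝ) : 0 ≤ ∑ a ∈ S, ∑ b ∈ S, f a b ^ 2 :=
  Finset.sum_nonneg fun _ _ => Finset.sum_nonneg fun _ _ => sq_nonneg _

omit [Fintype ι] [DecidableEq ι] in
lemma nn1 (S : Finset ι) (f : ι → ℝ) : 0 ≤ ∑ a ∈ S, f a ^ 2 :=
  Finset.sum_nonneg fun _ _ => sq_nonneg _

lemma row_sq (h : Good p S e K) {k : ℕ} (hk : 1 ≤ k) (a : ι) :
    ∑ b ∈ S, (K ^ k) a b ^ 2 = (K ^ (2 * k)) a a := by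
  rw [h.pow_diag]
  refine Finset.sum_subset (Finset.subset_univ _) fun b _ hb => ?_
  rw [h.pow_symm, h.pow_supp hk hb]
  simp

lemma frob (h : Good p S e K) {k : ℕ} (hk : 1 ≤ k) :
    ∑ a ∈ S, ∑ b ∈ S, (K ^ k) a b ^ 2 = Tr (2 * k) K := by
  rw [h.Tr_eq (by omega)]
  exact Finset.sum_congr rfl fun a _ => row_sq h hk a

lemma s2_le (hb : Bd S K s L lam r dd om ga) (ha : BdA s L lam r dd) : s ^ 2 ≤ L ^ 4 := by
  have h0 : 0 ≤ s := by linarith [hb.s_ge]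
  calc s ^ 2 ≤ (L ^ 2) ^ 2 := pow_le_pow_left₀ h0 ha.h5 2
    _ = L ^ 4 := by ring

lemma F1 (h : Good p S e K) (hb : Bd S K s L lam r dd om ga) :
    ∑ a ∈ S, ∑ b ∈ S, (K ^ 1) a b ^ 2 ≤ 2 * s ^ 2 := by
  rw [frob h le_rfl]; exact hb.T2

lemma F2 (h : Good p S e K) (hb : Bd S K s L lam r dd om ga) :
    ∑ a ∈ S, ∑ b ∈ S, (K ^ 2) a b ^ 2 ≤ L ^ 4 := by
  rw [frob h (by norm_num)]; exact hb.T4

lemma Fk (h : Good p S e K) (hb : Bd S K s L lam r dd om ga) (k : ℕ) :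
    ∑ a ∈ S, ∑ b ∈ S, (K ^ (k + 2)) a b ^ 2 ≤ L ^ (2 * k + 4) := by
  rw [frob h (by omega)]
  induction k with
  | zero => exact hb.T4
  | succ k ih =>
    have h1 := h.Tr_succ hb.op (k + 2)
    have h2 : 2 * (k + 1 + 2) = 2 * (k + 2) + 2 := by ring
    rw [h2]
    calc _ ≤ L ^ 2 * L ^ (2 * k + 4) :=
          h1.trans (mul_le_mul_of_nonneg_left ih (sq_nonneg _))
      _ = _ := by ring

lemma RR0 : RR S K 0 = K ^ 1 := by simp [RR]
lemma RR1 : RR S K 1 = K ^ 2 - idS S := by simp [RR, sq]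
lemma RR2 : RR S K 2 = K ^ 3 - K ^ 1 := rfl
lemma RR3 : RR S K 3 = K ^ 4 - K ^ 2 := rfl
lemma RR4 : RR S K 4 = K ^ 5 - K ^ 3 := rfl

lemma bet_eq (c : ι) : bet K c = (K ^ 2) c c := by rw [bet, sq]

lemma idS_frob : ∑ a ∈ S, ∑ b ∈ S, (idS S : Matrix ι ι ℝ) a b ^ 2 = S.card := by
  have : ∀ a ∈ S, ∑ b ∈ S, (idS S : Matrix ι ι ℝ) a b ^ 2 = 1 := by
    intro a ha
    rw [Finset.sum_eq_single a]
    · simp [idS, ha]
    · intro b _ hb
      simp [idS, Matrix.diagonal_apply_ne _ hb.symm]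
    · intro h; exact absurd ha h
  rw [Finset.sum_congr rfl this]
  simp

lemma RR_frob (h : Good p S e K) (hb : Bd S K s L lam r dd om ga) (ha : BdA s L lam r dd)
    (k : ℕ) (h1 : 1 ≤ k) (h4 : k ≤ 4) :
    ∑ a ∈ S, ∑ b ∈ S, RR S K k a b ^ 2 ≤ 9 * L ^ (2 * k + 2) := by
  have hL := hb.L_ge
  have hs := s2_le hb ha
  have f1 := F1 h hb
  have f2 := F2 h hb
  have f3 : ∑ a ∈ S, ∑ b ∈ S, (K ^ 3) a b ^ 2 ≤ L ^ 6 := Fk h hb 1
  have f4 : ∑ a ∈ S, ∑ b ∈ S, (K ^ 4) a b ^ 2 ≤ L ^ 8 := Fk h hb 2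
  have f5 : ∑ a ∈ S, ∑ b ∈ S, (K ^ 5) a b ^ 2 ≤ L ^ 10 := Fk h hb 3
  have p46 : L ^ 4 ≤ L ^ 6 := pow_le_pow_right₀ hL (by norm_num)
  have p68 : L ^ 6 ≤ L ^ 8 := pow_le_pow_right₀ hL (by norm_num)
  have p810 : L ^ 8 ≤ L ^ 10 := pow_le_pow_right₀ hL (by norm_num)
  have p4 : 0 ≤ L ^ 4 := by positivity
  interval_cases k
  · have := sub_sq2 S (fun a b => (K ^ 2) a b) (fun a b => (idS S : Matrix ι ι ℝ) a b)
    rw [idS_frob, ← hb.hs] at this
    simp only [RR1, Matrix.sub_apply, Nat.reduceMul, Nat.reduceAdd]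
    linarith
  · have := sub_sq2 S (fun a b => (K ^ 3) a b) (fun a b => (K ^ 1) a b)
    simp only [RR2, Matrix.sub_apply, Nat.reduceMul, Nat.reduceAdd]
    linarith
  · have := sub_sq2 S (fun a b => (K ^ 4) a b) (fun a b => (K ^ 2) a b)
    simp only [RR3, Matrix.sub_apply, Nat.reduceMul, Nat.reduceAdd]
    linarith
  · have := sub_sq2 S (fun a b => (K ^ 5) a b) (fun a b => (K ^ 3) a b)
    simp only [RR4, Matrix.sub_apply, Nat.reduceMul, Nat.reduceAdd]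
    linarith

lemma K4_nonneg (h : Good p S e K) (c : ι) : 0 ≤ (K ^ 4) c c := by
  have := h.pow_diag 2 c
  norm_num at this
  rw [this]
  exact nn1 _ _

lemma K4_le (h : Good p S e K) (hb : Bd S K s L lam r dd om ga) (c : ι) :
    (K ^ 4) c c ≤ L ^ 2 * bet K c := by
  rw [bet_eq]
  exact h.diag_succ hb.op 1 c

lemma G_le (h : Good p S e K) (hb : Bd S K s L lam r dd om ga) :
    ∑ c ∈ S, bet K c * (K ^ 4) c c ≤ 2 * L ^ 4 + 4 * L ^ 2 * lam ^ 2 := by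
  have h1 := h.G_le hb.op
  have h2 : ∑ c ∈ S, bet K c * (K ^ 4) c c ≤ ∑ c, bet K c * (K ^ 4) c c :=
    Finset.sum_le_sum_of_subset_of_nonneg (Finset.subset_univ _) fun c _ _ =>
      mul_nonneg (h.bet_nonneg c) (K4_nonneg h c)
  have h3 := mul_le_mul_of_nonneg_left hb.V (by positivity : 0 ≤ 4 * L ^ 2)
  linarith [hb.T4]

lemma D3 (h : Good p S e K) (hb : Bd S K s L lam r dd om ga) :
    ∑ c ∈ S, (K ^ 3) c c ^ 2 ≤ 2 * L ^ 4 + 4 * L ^ 2 * lam ^ 2 := by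
  refine le_trans (Finset.sum_le_sum fun c _ => ?_) (G_le h hb)
  rw [bet_eq]
  exact h.pow_entry 1 2 c c

lemma D4 (h : Good p S e K) (hb : Bd S K s L lam r dd om ga) :
    ∑ c ∈ S, (K ^ 4) c c ^ 2 ≤ L ^ 2 * (2 * L ^ 4 + 4 * L ^ 2 * lam ^ 2) := by
  refine le_trans ?_ (mul_le_mul_of_nonneg_left (G_le h hb) (sq_nonneg L))
  rw [Finset.mul_sum]
  refine Finset.sum_le_sum fun c _ => ?_
  have := mul_le_mul_of_nonneg_right (K4_le h hb c) (K4_nonneg h c)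
  nlinarith

lemma D5 (h : Good p S e K) (hb : Bd S K s L lam r dd om ga) :
    ∑ c ∈ S, (K ^ 5) c c ^ 2 ≤ L ^ 2 * (L ^ 2 * (2 * L ^ 4 + 4 * L ^ 2 * lam ^ 2)) := by
  refine le_trans ?_ (mul_le_mul_of_nonneg_left (D4 h hb) (sq_nonneg L))
  rw [Finset.mul_sum]
  refine Finset.sum_le_sum fun c _ => ?_
  have h1 : |(K ^ 5) c c| ≤ L * (K ^ 4) c c := h.diag_odd (by linarith [hb.L_ge]) hb.op 2 c
  have h2 := pow_le_pow_left₀ (abs_nonneg _) h1 2
  rw [sq_abs, mul_pow] at h2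
  exact h2

lemma d0 (h : Good p S e K) (hb : Bd S K s L lam r dd om ga) :
    ∑ c ∈ S, RR S K 0 c c ^ 2 ≤ dd ^ 2 := by
  have := hb.D
  rw [h.Dh_eq] at this
  exact this

lemma RR1_diag {c : ι} (hc : c ∈ S) : RR S K 1 c c = bet K c - 1 := by
  simp [RR, bet, idS, hc]

lemma RR1_off {a b : ι} (hab : a ≠ b) : RR S K 1 a b = (K ^ 2) a b := by
  simp [RR1, idS, Matrix.diagonal_apply_ne _ hab]

lemma d1 (hb : Bd S K s L lam r dd om ga) : ∑ c ∈ S, RR S K 1 c c ^ 2 ≤ lam ^ 2 := by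
  refine le_trans (le_of_eq ?_) hb.V
  exact Finset.sum_congr rfl fun c hc => by rw [RR1_diag hc]

lemma dk (h : Good p S e K) (hb : Bd S K s L lam r dd om ga) (ha : BdA s L lam r dd)
    (k : ℕ) (h4 : k ≤ 3) :
    ∑ c ∈ S, RR S K (k + 1) c c ^ 2 ≤ 16 * (L ^ (2 * k) * (L ^ 2 + lam ^ 2)) := by
  have hL := hb.L_ge
  have hs := s2_le hb ha
  have hdd : dd ^ 2 ≤ L ^ 2 := pow_le_pow_left₀ hb.dd_nonneg ha.h2 2
  have p24 : L ^ 2 ≤ L ^ 4 := pow_le_pow_right₀ hL (by norm_num)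
  have p46 : L ^ 4 ≤ L ^ 6 := pow_le_pow_right₀ hL (by norm_num)
  have p68 : L ^ 6 ≤ L ^ 8 := pow_le_pow_right₀ hL (by norm_num)
  have p2 : 1 ≤ L ^ 2 := one_le_pow₀ hL
  have hl : 0 ≤ lam ^ 2 := sq_nonneg _
  have q02 : lam ^ 2 ≤ L ^ 2 * lam ^ 2 := le_mul_of_one_le_left hl p2
  have q24 : L ^ 2 * lam ^ 2 ≤ L ^ 4 * lam ^ 2 := mul_le_mul_of_nonneg_right p24 hl
  have q46 : L ^ 4 * lam ^ 2 ≤ L ^ 6 * lam ^ 2 := mul_le_mul_of_nonneg_right p46 hl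
  have e3 := D3 h hb
  have e4 := D4 h hb
  have e5 := D5 h hb
  interval_cases k
  · have := d1 hb
    norm_num
    linarith
  · have h1 := sub_sq1 S (fun c => (K ^ 3) c c) (fun c => (K ^ 1) c c)
    have h2 := d0 h hb
    rw [RR0] at h2
    simp only [Nat.reduceAdd, Nat.reduceMul, RR2, Matrix.sub_apply]
    nlinarith
  · have h1 := sub_sq1 S (fun c => (K ^ 4) c c) (fun c => (K ^ 2) c c)
    have h2 := h.W_le
    have h3 : Vs 0 S K = ∑ c ∈ S, (K ^ 2) c c ^ 2 := by simp [Vs, bet_eq]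
    rw [h3, ← hb.hs] at h2
    have h5 := hb.V
    simp only [Nat.reduceAdd, Nat.reduceMul, RR3, Matrix.sub_apply]
    nlinarith
  · have h1 := sub_sq1 S (fun c => (K ^ 5) c c) (fun c => (K ^ 3) c c)
    simp only [Nat.reduceAdd, Nat.reduceMul, RR4, Matrix.sub_apply]
    nlinarith

lemma d0k (h : Good p S e K) (hb : Bd S K s L lam r dd om ga) (ha : BdA s L lam r dd)
    (k : ℕ) (h4 : k ≤ 3) :
    (∑ c ∈ S, RR S K 0 c c ^ 2) * ∑ c ∈ S, RR S K (k + 1) c c ^ 2 ≤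
      1024 * L ^ (2 * (k + 1) + 2) := by
  have hL := hb.L_ge
  have hdd : dd ^ 2 ≤ L ^ 2 := pow_le_pow_left₀ hb.dd_nonneg ha.h2 2
  have p34 : L ^ 3 ≤ L ^ 4 := pow_le_pow_right₀ hL (by norm_num)
  have h1 : dd ^ 2 * (L ^ 2 + lam ^ 2) ≤ 2 * L ^ 4 := by
    have := mul_le_mul_of_nonneg_right hdd (sq_nonneg L)
    nlinarith [ha.h1]
  have hp : 0 ≤ L ^ (2 * k) := by positivity
  calc _ ≤ dd ^ 2 * (16 * (L ^ (2 * k) * (L ^ 2 + lam ^ 2))) :=
        mul_le_mul (d0 h hb) (dk h hb ha k h4) (nn1 _ _) (sq_nonneg _)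
    _ = 16 * L ^ (2 * k) * (dd ^ 2 * (L ^ 2 + lam ^ 2)) := by ring
    _ ≤ 16 * L ^ (2 * k) * (2 * L ^ 4) := mul_le_mul_of_nonneg_left h1 (by positivity)
    _ = 32 * L ^ (2 * (k + 1) + 2) := by ring
    _ ≤ _ := mul_le_mul_of_nonneg_right (by norm_num) (by positivity)

lemma dk' (h : Good p S e K) (hb : Bd S K s L lam r dd om ga) (ha : BdA s L lam r dd)
    (k : ℕ) (h4 : k ≤ 3) :
    ∑ c ∈ S, RR S K (k + 1) c c ^ 2 ≤ 32 * L ^ (2 * k + 3) := by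
  have hL := hb.L_ge
  have p23 : L ^ 2 ≤ L ^ 3 := pow_le_pow_right₀ hL (by norm_num)
  have h1 : L ^ 2 + lam ^ 2 ≤ 2 * L ^ 3 := by linarith [ha.h3]
  calc _ ≤ 16 * (L ^ (2 * k) * (L ^ 2 + lam ^ 2)) := dk h hb ha k h4
    _ ≤ 16 * (L ^ (2 * k) * (2 * L ^ 3)) := by gcongr
    _ = _ := by ring

lemma dij (h : Good p S e K) (hb : Bd S K s L lam r dd om ga) (ha : BdA s L lam r dd)
    (i j : ℕ) (h1 : 1 ≤ i + j) (h4 : i + j ≤ 4) :
    (∑ a ∈ S, RR S K i a a ^ 2) * (∑ b ∈ S, RR S K j b b ^ 2) ≤ 1024 * L ^ (2 * (i + j) + 2) := by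
  have hL := hb.L_ge
  rcases i with _ | i
  · obtain ⟨j, rfl⟩ : ∃ j', j = j' + 1 := ⟨j - 1, by omega⟩
    rw [zero_add]
    exact d0k h hb ha j (by omega)
  rcases j with _ | j
  · rw [mul_comm, add_zero]
    exact d0k h hb ha i (by omega)
  calc _ ≤ (32 * L ^ (2 * i + 3)) * (32 * L ^ (2 * j + 3)) :=
        mul_le_mul (dk' h hb ha i (by omega)) (dk' h hb ha j (by omega)) (nn1 _ _) (by positivity)
    _ = _ := by ring

lemma e_sq (h : Good p S e K) : e ^ 2 = 1 := by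
  rcases h.sign with h | h <;> rw [h] <;> norm_num

lemma ff_frob (h : Good p S e K) (hb : Bd S K s L lam r dd om ga) (ha : BdA s L lam r dd)
    (k : ℕ) (h1 : 1 ≤ k) (h4 : k ≤ 4) :
    ∑ a ∈ S, ∑ b ∈ S, ff S e K k a b ^ 2 ≤ 300 ^ 2 * L ^ (2 * k + 2) := by
  have hL := hb.L_ge
  have hpt : ∀ a b, ff S e K k a b ^ 2 ≤ 8 * RR S K k a b ^ 2 +
      10 * ∑ i ∈ range (k + 1), RR S K i a a ^ 2 * RR S K (k - i) b b ^ 2 := by
    intro a b
    have h2 := sq_sum_le_card_mul_sum_sq (s := range (k + 1))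
      (f := fun i => RR S K i a a * RR S K (k - i) b b)
    have h3 : ((range (k + 1)).card : ℝ) ≤ 5 := by
      rw [Finset.card_range]; exact_mod_cast (by omega : k + 1 ≤ 5)
    have h5 := mul_le_mul_of_nonneg_right h3
      (nn1 (range (k + 1)) fun i => RR S K i a a * RR S K (k - i) b b)
    simp only [mul_pow] at h2 h5
    have h6 := e_sq h
    rw [ff]
    set x := RR S K k a b
    set y := ∑ i ∈ range (k + 1), RR S K i a a * RR S K (k - i) b b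
    have h7 : (2 * e * x + y) ^ 2 ≤ 8 * (e ^ 2 * x ^ 2) + 2 * y ^ 2 := by
      nlinarith [sq_nonneg (2 * e * x - y)]
    rw [h6] at h7
    linarith
  have h2 : ∑ a ∈ S, ∑ b ∈ S, ∑ i ∈ range (k + 1), RR S K i a a ^ 2 * RR S K (k - i) b b ^ 2 ≤
      5 * (1024 * L ^ (2 * k + 2)) := by
    calc _ = ∑ i ∈ range (k + 1),
          (∑ a ∈ S, RR S K i a a ^ 2) * (∑ b ∈ S, RR S K (k - i) b b ^ 2) := by
          simp only [Finset.sum_mul_sum]
          rw [Finset.sum_comm (s := range (k + 1))]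
          refine Finset.sum_congr rfl fun a _ => ?_
          rw [Finset.sum_comm]
      _ ≤ ∑ _i ∈ range (k + 1), 1024 * L ^ (2 * k + 2) := by
          refine Finset.sum_le_sum fun i hi => ?_
          have hi' : i + (k - i) = k := by have := Finset.mem_range.1 hi; omega
          have := dij h hb ha i (k - i) (by omega) (by omega)
          rwa [hi'] at this
      _ ≤ _ := by
          rw [Finset.sum_const, Finset.card_range, nsmul_eq_mul]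
          refine mul_le_mul_of_nonneg_right ?_ (by positivity)
          exact_mod_cast (by omega : k + 1 ≤ 5)
  have h3 := RR_frob h hb ha k h1 h4
  have hp : 0 ≤ L ^ (2 * k + 2) := by positivity
  calc _ ≤ ∑ a ∈ S, ∑ b ∈ S, (8 * RR S K k a b ^ 2 +
        10 * ∑ i ∈ range (k + 1), RR S K i a a ^ 2 * RR S K (k - i) b b ^ 2) :=
        Finset.sum_le_sum fun a _ => Finset.sum_le_sum fun b _ => hpt a b
    _ = 8 * ∑ a ∈ S, ∑ b ∈ S, RR S K k a b ^ 2 + 10 * ∑ a ∈ S, ∑ b ∈ S,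
        ∑ i ∈ range (k + 1), RR S K i a a ^ 2 * RR S K (k - i) b b ^ 2 := by
        simp only [Finset.sum_add_distrib, ← Finset.mul_sum]
    _ ≤ _ := by linarith

omit [Fintype ι] [DecidableEq ι] in
lemma bias (S : Finset ι) (w F : ι → ι → ℝ) :
    |∑ a ∈ S, ∑ b ∈ S, w a b * F a b - ∑ a ∈ S, ∑ b ∈ S, F a b| =
      |∑ a ∈ S, ∑ b ∈ S, (1 - w a b) * F a b| := by
  rw [abs_sub_comm]
  congr 1
  simp only [← Finset.sum_sub_distrib, sub_mul, one_mul]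

variable {w : ι → ι → ℝ} {eF eE er : ℝ}

lemma op_prod (hw : Wt S K w eF eE er) (x y : ι → ℝ) {B : ℝ} (hB : 0 ≤ B)
    (hxy : (∑ a ∈ S, x a ^ 2) * (∑ b ∈ S, y b ^ 2) ≤ B ^ 2) :
    |∑ a ∈ S, ∑ b ∈ S, (1 - w a b) * (x a * y b)| ≤ eE * B := by
  have h1 := hw.op x y
  rw [mul_assoc, ← Real.sqrt_mul (nn1 _ _)] at h1
  have h2 := (Real.sqrt_le_left hB).2 hxy
  have h3 : ∑ a ∈ S, ∑ b ∈ S, (1 - w a b) * (x a * y b) =
      ∑ a ∈ S, ∑ b ∈ S, x a * (1 - w a b) * y b :=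
    Finset.sum_congr rfl fun a _ => Finset.sum_congr rfl fun b _ => by ring
  rw [h3]
  exact h1.trans (mul_le_mul_of_nonneg_left h2 hw.eE_nonneg)

lemma op_mat (hw : Wt S K w eF eE er) (X Y : ι → ι → ℝ) {B : ℝ} (hB : 0 ≤ B)
    (hxy : (∑ a ∈ S, ∑ b ∈ S, X a b ^ 2) * (∑ a ∈ S, ∑ b ∈ S, Y a b ^ 2) ≤ B ^ 2) :
    |∑ a ∈ S, ∑ b ∈ S, (1 - w a b) * ∑ c ∈ S, X a c * Y c b| ≤ eE * B := by
  have h3 : ∑ a ∈ S, ∑ b ∈ S, (1 - w a b) * ∑ c ∈ S, X a c * Y c b =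
      ∑ c ∈ S, ∑ a ∈ S, ∑ b ∈ S, X a c * (1 - w a b) * Y c b := by
    rw [Finset.sum_comm (s := S) (t := S)
      (f := fun c a => ∑ b ∈ S, X a c * (1 - w a b) * Y c b)]
    refine Finset.sum_congr rfl fun a _ => ?_
    rw [Finset.sum_comm]
    refine Finset.sum_congr rfl fun b _ => ?_
    rw [Finset.mul_sum]
    exact Finset.sum_congr rfl fun c _ => by ring
  rw [h3]
  have h4 := Real.sum_sqrt_mul_sqrt_le S (f := fun c => ∑ a ∈ S, X a c ^ 2)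
    (g := fun c => ∑ b ∈ S, Y c b ^ 2) (fun _ => nn1 _ _) (fun _ => nn1 _ _)
  rw [Finset.sum_comm (f := fun c a => X a c ^ 2), ← Real.sqrt_mul (nn2 _ _)] at h4
  have h2 := (Real.sqrt_le_left hB).2 hxy
  calc _ ≤ ∑ c ∈ S, |∑ a ∈ S, ∑ b ∈ S, X a c * (1 - w a b) * Y c b| :=
        Finset.abs_sum_le_sum_abs _ _
    _ ≤ ∑ c ∈ S, eE * (√(∑ a ∈ S, X a c ^ 2) * √(∑ b ∈ S, Y c b ^ 2)) :=
        Finset.sum_le_sum fun c _ => by
          rw [← mul_assoc]; exact hw.op (fun a => X a c) (fun b => Y c b)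
    _ ≤ _ := by
        rw [← Finset.mul_sum]
        exact mul_le_mul_of_nonneg_left (h4.trans h2) hw.eE_nonneg

lemma pow_add_apply (h : Good p S e K) (i : ℕ) {j : ℕ} (hj : 1 ≤ j) (a b : ι) :
    (K ^ (i + j)) a b = ∑ c ∈ S, (K ^ i) a c * (K ^ j) c b := by
  rw [pow_add, Matrix.mul_apply]
  refine (Finset.sum_subset (Finset.subset_univ _) fun c _ hc => ?_).symm
  rw [h.pow_supp hj hc, mul_zero]

lemma ff4 (h : Good p S e K) (hb : Bd S K s L lam r dd om ga) (ha : BdA s L lam r dd)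
    (hw : Wt S K w eF eE er) :
    |∑ a ∈ S, ∑ b ∈ S, (1 - w a b) * ff S e K 4 a b| ≤ 200 * eE * L ^ 5 := by
  have hL := hb.L_ge
  have hs := s2_le hb ha
  have f1 := F1 h hb
  have f2 := F2 h hb
  have f3 : ∑ a ∈ S, ∑ b ∈ S, (K ^ 3) a b ^ 2 ≤ L ^ 6 := Fk h hb 1
  have p810 : L ^ 8 ≤ L ^ 10 := pow_le_pow_right₀ hL (by norm_num)
  have h5 : |∑ a ∈ S, ∑ b ∈ S, (1 - w a b) * (K ^ 5) a b| ≤ eE * L ^ 5 := by
    simp only [show ∀ a b, (K ^ 5) a b = _ from pow_add_apply h 2 (j := 3) (by norm_num)]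
    refine op_mat hw (fun a b => (K ^ 2) a b) (fun a b => (K ^ 3) a b) (by positivity) ?_
    calc _ ≤ L ^ 4 * L ^ 6 := mul_le_mul f2 f3 (nn2 _ _) (by positivity)
      _ = _ := by ring
  have h3 : |∑ a ∈ S, ∑ b ∈ S, (1 - w a b) * (K ^ 3) a b| ≤ eE * (2 * L ^ 5) := by
    simp only [show ∀ a b, (K ^ 3) a b = _ from pow_add_apply h 1 (j := 2) (by norm_num)]
    refine op_mat hw (fun a b => (K ^ 1) a b) (fun a b => (K ^ 2) a b) (by positivity) ?_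
    calc _ ≤ (2 * L ^ 4) * L ^ 4 := mul_le_mul (by linarith) f2 (nn2 _ _) (by positivity)
      _ = 2 * L ^ 8 := by ring
      _ ≤ 4 * L ^ 10 := by nlinarith [show 0 ≤ L ^ 8 by positivity]
      _ = _ := by ring
  have hi : ∀ i ∈ range 5, |∑ a ∈ S, ∑ b ∈ S, (1 - w a b) * (RR S K i a a * RR S K (4 - i) b b)| ≤
      eE * (32 * L ^ 5) := by
    intro i hi
    have hi' : i + (4 - i) = 4 := by have := Finset.mem_range.1 hi; omega
    refine op_prod hw (fun a => RR S K i a a) (fun b => RR S K (4 - i) b b) (by positivity) ?_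
    have := dij h hb ha i (4 - i) (by omega) (by omega)
    rw [hi'] at this
    calc _ ≤ _ := this
      _ = _ := by ring
  have hsum : ∑ a ∈ S, ∑ b ∈ S, (1 - w a b) * ff S e K 4 a b =
      2 * e * (∑ a ∈ S, ∑ b ∈ S, (1 - w a b) * (K ^ 5) a b -
        ∑ a ∈ S, ∑ b ∈ S, (1 - w a b) * (K ^ 3) a b) +
      ∑ i ∈ range 5, ∑ a ∈ S, ∑ b ∈ S, (1 - w a b) * (RR S K i a a * RR S K (4 - i) b b) := by
    rw [Finset.sum_comm (s := range 5), ← Finset.sum_sub_distrib, Finset.mul_sum,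
      ← Finset.sum_add_distrib]
    refine Finset.sum_congr rfl fun a _ => ?_
    rw [Finset.sum_comm (s := range 5), ← Finset.sum_sub_distrib, Finset.mul_sum,
      ← Finset.sum_add_distrib]
    refine Finset.sum_congr rfl fun b _ => ?_
    rw [← Finset.mul_sum, ff, RR4, Matrix.sub_apply]
    ring
  have he : |e| = 1 := by rcases h.sign with h | h <;> rw [h] <;> norm_num
  have h6 : |∑ i ∈ range 5, ∑ a ∈ S, ∑ b ∈ S, (1 - w a b) * (RR S K i a a * RR S K (4 - i) b b)| ≤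
      5 * (eE * (32 * L ^ 5)) := by
    refine (Finset.abs_sum_le_sum_abs _ _).trans ((Finset.sum_le_sum hi).trans (le_of_eq ?_))
    simp
  rw [hsum]
  refine (abs_add_le _ _).trans ?_
  rw [abs_mul, abs_mul, he, abs_two]
  have h7 := abs_sub (∑ a ∈ S, ∑ b ∈ S, (1 - w a b) * (K ^ 5) a b)
    (∑ a ∈ S, ∑ b ∈ S, (1 - w a b) * (K ^ 3) a b)
  have h8 : 0 ≤ eE * L ^ 5 := mul_nonneg hw.eE_nonneg (by positivity)
  nlinarith

lemma Fij (h : Good p S e K) (hb : Bd S K s L lam r dd om ga) (ha : BdA s L lam r dd)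
    (i j : ℕ) (h1 : 1 ≤ i + j) (h4 : i + j ≤ 4) :
    (∑ a ∈ S, ∑ b ∈ S, RR S K i a b ^ 2) * (∑ a ∈ S, ∑ b ∈ S, RR S K j a b ^ 2) ≤
      (9 * s * L ^ (i + j + 1)) ^ 2 := by
  have hL := hb.L_ge
  have f0 : ∑ a ∈ S, ∑ b ∈ S, RR S K 0 a b ^ 2 ≤ 9 * s ^ 2 := by
    rw [RR0]
    linarith [F1 h hb, sq_nonneg s]
  have h0 : ∀ k, 1 ≤ k → k ≤ 4 → (∑ a ∈ S, ∑ b ∈ S, RR S K 0 a b ^ 2) *
      (∑ a ∈ S, ∑ b ∈ S, RR S K k a b ^ 2) ≤ (9 * s * L ^ (k + 1)) ^ 2 := by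
    intro k hk1 hk4
    calc _ ≤ (9 * s ^ 2) * (9 * L ^ (2 * k + 2)) :=
          mul_le_mul f0 (RR_frob h hb ha k hk1 hk4) (nn2 _ _) (by positivity)
      _ = _ := by ring
  rcases Nat.eq_zero_or_pos i with rfl | hi
  · rw [zero_add]
    exact h0 j (by omega) (by omega)
  rcases Nat.eq_zero_or_pos j with rfl | hj
  · rw [mul_comm, add_zero]
    exact h0 i hi (by omega)
  have hLs : L ^ 2 ≤ s ^ 2 := pow_le_pow_left₀ (by linarith) ha.h7 2
  calc _ ≤ (9 * L ^ (2 * i + 2)) * (9 * L ^ (2 * j + 2)) :=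
        mul_le_mul (RR_frob h hb ha i hi (by omega)) (RR_frob h hb ha j hj (by omega)) (nn2 _ _)
          (by positivity)
    _ = L ^ 2 * (9 * L ^ (i + j + 1)) ^ 2 := by ring
    _ ≤ s ^ 2 * (9 * L ^ (i + j + 1)) ^ 2 := mul_le_mul_of_nonneg_right hLs (sq_nonneg _)
    _ = _ := by ring

lemma oo_l1 (h : Good p S e K) (hb : Bd S K s L lam r dd om ga) (ha : BdA s L lam r dd)
    (k : ℕ) (h1 : 1 ≤ k) (h4 : k ≤ 4) :
    ∑ a ∈ S, ∑ b ∈ S, |oo S K k a b| ≤ 45 * s * L ^ (k + 1) := by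
  have hL := hb.L_ge
  have hs := hb.s_ge
  have hi : ∀ i ∈ range (k + 1), ∑ a ∈ S, ∑ b ∈ S, |RR S K i a b| * |RR S K (k - i) a b| ≤
      9 * s * L ^ (k + 1) := by
    intro i hi
    have hi' : i + (k - i) = k := by have := Finset.mem_range.1 hi; omega
    have h2 := cs2 S (fun a b => |RR S K i a b|) (fun a b => |RR S K (k - i) a b|)
    simp only [sq_abs] at h2
    have h3 := Fij h hb ha i (k - i) (by omega) (by omega)
    rw [hi'] at h3
    exact le_of_sq_le_sq (h2.trans h3) (by positivity)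
  calc _ ≤ ∑ a ∈ S, ∑ b ∈ S, ∑ i ∈ range (k + 1), |RR S K i a b| * |RR S K (k - i) a b| := by
        refine Finset.sum_le_sum fun a _ => Finset.sum_le_sum fun b _ => ?_
        simp only [← abs_mul]
        exact Finset.abs_sum_le_sum_abs _ _
    _ = ∑ i ∈ range (k + 1), ∑ a ∈ S, ∑ b ∈ S, |RR S K i a b| * |RR S K (k - i) a b| := by
        rw [Finset.sum_comm (s := range (k + 1))]
        refine Finset.sum_congr rfl fun a _ => ?_
        rw [Finset.sum_comm]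
    _ ≤ ∑ _i ∈ range (k + 1), 9 * s * L ^ (k + 1) := Finset.sum_le_sum hi
    _ ≤ 5 * (9 * s * L ^ (k + 1)) := by
        rw [Finset.sum_const, Finset.card_range, nsmul_eq_mul]
        refine mul_le_mul_of_nonneg_right ?_ (by positivity)
        exact_mod_cast (by omega : k + 1 ≤ 5)
    _ = _ := by ring

lemma K2Y (h : Good p S e K) (Y : ι → ι → ℝ) (hY : ∀ a b, Y a b = Y b a) {M : ℝ} (hM : 0 ≤ M)
    (hrow : ∀ a ∈ S, ∑ b ∈ S, Y a b ^ 2 ≤ M) :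
    ∑ a ∈ S, ∑ b ∈ S, (K ^ 2) a b ^ 2 * Y a b ^ 2 ≤
      4 * ∑ a ∈ S, ∑ b ∈ S, Y a b ^ 2 + 4 * M * Vs 1 S K := by
  refine le_trans ?_ (h.bad2 (fun a => ∑ b ∈ S, Y a b ^ 2) M hM (fun _ _ => nn1 _ _) hrow)
  have h1 : ∑ a ∈ S, ∑ b ∈ S, bet K b ^ 2 * Y a b ^ 2 =
      ∑ a ∈ S, ∑ b ∈ S, bet K a ^ 2 * Y a b ^ 2 := by
    rw [Finset.sum_comm]
    exact Finset.sum_congr rfl fun a _ => Finset.sum_congr rfl fun b _ => by rw [hY]
  have h2 : ∑ a ∈ S, ∑ b ∈ S, 2 * ((K ^ 2) a b ^ 2 * Y a b ^ 2) ≤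
      ∑ a ∈ S, ∑ b ∈ S, (bet K a ^ 2 * Y a b ^ 2 + bet K b ^ 2 * Y a b ^ 2) := by
    refine Finset.sum_le_sum fun a _ => Finset.sum_le_sum fun b _ => ?_
    have h3 : (K ^ 2) a b ^ 2 ≤ bet K a * bet K b := by
      rw [bet_eq, bet_eq]
      exact h.pow_entry 1 1 a b
    have h4 : 2 * (K ^ 2) a b ^ 2 ≤ bet K a ^ 2 + bet K b ^ 2 := by
      nlinarith [sq_nonneg (bet K a - bet K b)]
    have := mul_le_mul_of_nonneg_right h4 (sq_nonneg (Y a b))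
    linarith
  simp only [Finset.sum_add_distrib, ← Finset.mul_sum] at h2
  simp only [← Finset.mul_sum] at h1
  linarith

lemma rV (hb : Bd S K s L lam r dd om ga) (ha : BdA s L lam r dd) : r ^ 2 * Vs 1 S K ≤ L ^ 4 := by
  have h1 := mul_le_mul_of_nonneg_left hb.V (sq_nonneg r)
  have h2 := pow_le_pow_left₀ (mul_nonneg hb.lam_nonneg (by linarith [hb.r_ge])) ha.h4 2
  nlinarith

lemma K2_four (h : Good p S e K) (hb : Bd S K s L lam r dd om ga) (ha : BdA s L lam r dd) :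
    ∑ a ∈ S, ∑ b ∈ S, (K ^ 2) a b ^ 2 * (K ^ 2) a b ^ 2 ≤ 8 * L ^ 6 := by
  have hL := hb.L_ge
  have h1 := K2Y h (fun a b => (K ^ 2) a b) (h.pow_symm 2) (M := L ^ 2 * r ^ 2) (by positivity) fun a _ => by
    rw [row_sq h (by norm_num)]
    exact (K4_le h hb a).trans (mul_le_mul_of_nonneg_left (hb.beta a) (sq_nonneg _))
  have h2 := mul_le_mul_of_nonneg_left (rV hb ha) (sq_nonneg L)
  have p46 : L ^ 4 ≤ L ^ 6 := pow_le_pow_right₀ hL (by norm_num)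
  have f2 := F2 h hb
  nlinarith

lemma K2_R2 (h : Good p S e K) (hb : Bd S K s L lam r dd om ga) (ha : BdA s L lam r dd) :
    ∑ a ∈ S, ∑ b ∈ S, (K ^ 2) a b ^ 2 * RR S K 2 a b ^ 2 ≤ 52 * L ^ 8 := by
  have hL := hb.L_ge
  have p4 : 1 ≤ L ^ 4 := one_le_pow₀ hL
  have h1 := K2Y h (fun a b => RR S K 2 a b) (fun a b => by
      rw [RR2, Matrix.sub_apply, Matrix.sub_apply, h.pow_symm 3, h.pow_symm 1])
    (M := 4 * L ^ 4 * r ^ 2) (by positivity) fun a _ => by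
      have h1 := sub_sq1 S (fun b => (K ^ 3) a b) (fun b => (K ^ 1) a b)
      rw [row_sq h (by norm_num), row_sq h le_rfl] at h1
      have h2 : (K ^ (2 * 3)) a a ≤ L ^ 2 * (K ^ 4) a a := h.diag_succ hb.op 2 a
      have h3 := mul_le_mul_of_nonneg_left (K4_le h hb a) (sq_nonneg L)
      have h4 : (K ^ (2 * 1)) a a = bet K a := (bet_eq a).symm
      have h5 := mul_le_mul_of_nonneg_left (hb.beta a) (by positivity : 0 ≤ L ^ 4)
      have h6 : bet K a ≤ L ^ 4 * bet K a := le_mul_of_one_le_left (h.bet_nonneg a) p4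
      simp only [RR2, Matrix.sub_apply]
      nlinarith
  have h2 := mul_le_mul_of_nonneg_left (rV hb ha) (by positivity : 0 ≤ L ^ 4)
  have p68 : L ^ 6 ≤ L ^ 8 := pow_le_pow_right₀ hL (by norm_num)
  have f2 : ∑ a ∈ S, ∑ b ∈ S, RR S K 2 a b ^ 2 ≤ 9 * L ^ 6 :=
    RR_frob h hb ha 2 (by norm_num) (by norm_num)
  nlinarith

lemma alw_sq {a b : ι} (h : Alw K a b) : K a b ^ 2 ≤ 1 := by
  have := abs_le.1 h.2.1
  nlinarith

lemma oo_l2 (h : Good p S e K) (hb : Bd S K s L lam r dd om ga) (ha : BdA s L lam r dd)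
    (k : ℕ) (h1 : 1 ≤ k) (h3 : k ≤ 3) :
    ∑ a ∈ S, ∑ b ∈ S, (if Alw K a b then oo S K k a b ^ 2 else 0) ≤ 1000 * L ^ (2 * k + 2) := by
  have hL := hb.L_ge
  have hF := RR_frob h hb ha k h1 (by omega)
  have hp : 0 ≤ L ^ (2 * k + 2) := by positivity
  have h0 : RR S K 0 = K := rfl
  interval_cases k
  · calc _ ≤ ∑ a ∈ S, ∑ b ∈ S, 4 * RR S K 1 a b ^ 2 := by
          refine Finset.sum_le_sum fun a _ => Finset.sum_le_sum fun b _ => ?_
          split_ifs with hab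
          · have h2 := mul_le_mul_of_nonneg_right (alw_sq hab) (sq_nonneg (RR S K 1 a b))
            simp only [oo, Finset.sum_range_succ, Finset.range_zero, Finset.sum_empty, h0,
              Nat.reduceSub]
            nlinarith
          · positivity
      _ ≤ _ := by
          simp only [← Finset.mul_sum]
          linarith
  · calc _ ≤ ∑ a ∈ S, ∑ b ∈ S,
          (8 * RR S K 2 a b ^ 2 + 2 * ((K ^ 2) a b ^ 2 * (K ^ 2) a b ^ 2)) := by
          refine Finset.sum_le_sum fun a _ => Finset.sum_le_sum fun b _ => ?_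
          split_ifs with hab
          · have h2 := mul_le_mul_of_nonneg_right (alw_sq hab) (sq_nonneg (RR S K 2 a b))
            simp only [oo, Finset.sum_range_succ, Finset.range_zero, Finset.sum_empty, h0,
              Nat.reduceSub, RR1_off hab.1]
            nlinarith [sq_nonneg (2 * K a b * RR S K 2 a b - (K ^ 2) a b ^ 2)]
          · positivity
      _ ≤ _ := by
          have := K2_four h hb ha
          simp only [Finset.sum_add_distrib, ← Finset.mul_sum]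
          norm_num at hF hp ⊢
          linarith
  · calc _ ≤ ∑ a ∈ S, ∑ b ∈ S,
          (8 * RR S K 3 a b ^ 2 + 8 * ((K ^ 2) a b ^ 2 * RR S K 2 a b ^ 2)) := by
          refine Finset.sum_le_sum fun a _ => Finset.sum_le_sum fun b _ => ?_
          split_ifs with hab
          · have h2 := mul_le_mul_of_nonneg_right (alw_sq hab) (sq_nonneg (RR S K 3 a b))
            simp only [oo, Finset.sum_range_succ, Finset.range_zero, Finset.sum_empty, h0,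
              Nat.reduceSub, RR1_off hab.1]
            nlinarith [sq_nonneg (K a b * RR S K 3 a b - (K ^ 2) a b * RR S K 2 a b)]
          · positivity
      _ ≤ _ := by
          have := K2_R2 h hb ha
          simp only [Finset.sum_add_distrib, ← Finset.mul_sum]
          norm_num at hF hp ⊢
          linarith

lemma four3 (x y z : ℝ) : (x - y - z) ^ 4 ≤ 27 * (x ^ 4 + y ^ 4 + z ^ 4) := by
  have h1 : (x - y - z) ^ 2 ≤ 3 * (x ^ 2 + y ^ 2 + z ^ 2) := by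
    nlinarith [sq_nonneg (x + y), sq_nonneg (x + z), sq_nonneg (y - z)]
  have h2 := pow_le_pow_left₀ (sq_nonneg _) h1 2
  nlinarith [sq_nonneg (x ^ 2 - y ^ 2), sq_nonneg (x ^ 2 - z ^ 2), sq_nonneg (y ^ 2 - z ^ 2)]

lemma oo_l4 (h : Good p S e K) (hb : Bd S K s L lam r dd om ga) (ha : BdA s L lam r dd) :
    ∑ a ∈ S, ∑ b ∈ S, (if Alw K a b then (oo S K 1 a b - ff S e K 1 a b) ^ 4 else 0) ≤
      60000 * L ^ 6 := by
  have hL := hb.L_ge
  have h0 : RR S K 0 = K := rfl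
  have hA : ∑ a ∈ S, K a a ^ 4 ≤ (dd ^ 2) ^ 2 := by
    have h1 := Finset.sum_sq_le_sq_sum_of_nonneg (s := S) (f := fun a => K a a ^ 2)
      fun _ _ => sq_nonneg _
    have h2 := pow_le_pow_left₀ (nn1 _ _) (d0 h hb) 2
    simp only [← pow_mul, h0] at h1 h2 ⊢
    exact h1.trans h2
  have hB : ∑ a ∈ S, RR S K 1 a a ^ 4 ≤ (lam ^ 2) ^ 2 := by
    have h1 := Finset.sum_sq_le_sq_sum_of_nonneg (s := S) (f := fun a => RR S K 1 a a ^ 2)
      fun _ _ => sq_nonneg _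
    have h2 := pow_le_pow_left₀ (nn1 _ _) (d1 hb) 2
    simp only [← pow_mul] at h1 h2 ⊢
    exact h1.trans h2
  have hAB : (∑ a ∈ S, K a a ^ 4) * ∑ a ∈ S, RR S K 1 a a ^ 4 ≤ L ^ 6 := by
    calc _ ≤ (dd ^ 2) ^ 2 * (lam ^ 2) ^ 2 :=
          mul_le_mul hA hB (Finset.sum_nonneg fun _ _ => by positivity) (by positivity)
      _ = (dd ^ 2 * lam ^ 2) ^ 2 := by ring
      _ ≤ (L ^ 3) ^ 2 := pow_le_pow_left₀ (by positivity) ha.h1 2
      _ = _ := by ring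
  have hBA := hAB
  rw [mul_comm] at hBA
  rw [Finset.sum_mul_sum] at hAB hBA
  have h4 := K2_four h hb ha
  calc _ ≤ ∑ a ∈ S, ∑ b ∈ S, (6912 * ((K ^ 2) a b ^ 2 * (K ^ 2) a b ^ 2) +
        27 * (K a a ^ 4 * RR S K 1 b b ^ 4) + 27 * (RR S K 1 a a ^ 4 * K b b ^ 4)) := by
        refine Finset.sum_le_sum fun a _ => Finset.sum_le_sum fun b _ => ?_
        split_ifs with hab
        · have h1 := four3 (2 * (K a b - e) * (K ^ 2) a b) (K a a * RR S K 1 b b)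
            (RR S K 1 a a * K b b)
          have h2 : (K a b - e) ^ 2 ≤ 4 := by
            nlinarith [alw_sq hab, e_sq h, sq_nonneg (K a b + e)]
          have h3 := mul_le_mul_of_nonneg_right (pow_le_pow_left₀ (sq_nonneg _) h2 2)
            (by positivity : 0 ≤ (K ^ 2) a b ^ 4)
          have h5 : oo S K 1 a b - ff S e K 1 a b = 2 * (K a b - e) * (K ^ 2) a b -
              K a a * RR S K 1 b b - RR S K 1 a a * K b b := by
            simp only [oo, ff, Finset.sum_range_succ, Finset.range_zero, Finset.sum_empty, h0,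
              Nat.reduceSub, RR1_off hab.1]
            ring
          rw [h5]
          nlinarith
        · positivity
    _ ≤ _ := by
        simp only [Finset.sum_add_distrib, ← Finset.mul_sum] at hAB hBA ⊢
        nlinarith [show 0 ≤ L ^ 6 by positivity]

end LemA1

/-- Frobenius norms of `R_k` and norms of their diagonals -/
theorem RR_norms : ∃ C : ℝ, 0 < C ∧ ∀ {ι : Type} [Fintype ι] [DecidableEq ι] {p e : ℝ} {S : Finset ι} {K : Matrix ι ι ℝ}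
      {s L lam r dd om ga : ℝ}, Good p S e K → Bd S K s L lam r dd om ga → BdA s L lam r dd →
      (∀ k, 1 ≤ k → k ≤ 4 → ∑ a ∈ S, ∑ b ∈ S, RR S K k a b ^ 2 ≤ C * L ^ (2 * k + 2)) ∧
      (∀ i j, 1 ≤ i + j → i + j ≤ 4 →
        (∑ a ∈ S, RR S K i a a ^ 2) * (∑ b ∈ S, RR S K j b b ^ 2) ≤ C * L ^ (2 * (i + j) + 2)) := by
  refine ⟨1024, by norm_num, fun h hb ha => ⟨fun k h1 h4 => ?_, LemA1.dij h hb ha⟩⟩
  have := hb.L_ge
  exact (LemA1.RR_frob h hb ha k h1 h4).trans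
    (mul_le_mul_of_nonneg_right (by norm_num) (by positivity))

theorem ff_norm : ∃ C : ℝ, 0 < C ∧ ∀ {ι : Type} [Fintype ι] [DecidableEq ι] {p e : ℝ} {S : Finset ι} {K : Matrix ι ι ℝ}
      {s L lam r dd om ga : ℝ}, Good p S e K → Bd S K s L lam r dd om ga → BdA s L lam r dd →
      ∀ k, 1 ≤ k → k ≤ 4 → ∑ a ∈ S, ∑ b ∈ S, ff S e K k a b ^ 2 ≤ C * L ^ (2 * k + 2) := by
  exact ⟨300 ^ 2, by norm_num, fun h hb ha => LemA1.ff_frob h hb ha⟩

/-- bias of `ff k` under the weights, Frobenius version -/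
theorem ff_avg : ∃ C : ℝ, 0 < C ∧ ∀ {ι : Type} [Fintype ι] [DecidableEq ι] {p e : ℝ} {S : Finset ι} {K : Matrix ι ι ℝ}
      {s L lam r dd om ga : ℝ}, Good p S e K → Bd S K s L lam r dd om ga → BdA s L lam r dd →
      ∀ {w : ι → ι → ℝ} {eF eE er : ℝ}, Wt S K w eF eE er → ∀ k, 1 ≤ k → k ≤ 4 →
      |∑ a ∈ S, ∑ b ∈ S, w a b * ff S e K k a b
        - ∑ i ∈ range (k + 1), (RR S K i).trace * (RR S K (k - i)).trace| ≤ C * eF * L ^ (k + 1) := by
  refine ⟨300, by norm_num, fun {ι} _ _ {p e S K s L lam r dd om ga} h hb ha {w eF eE er} hw k h1 h4 => ?_⟩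
  have hL := hb.L_ge
  have heF := hw.eF_nonneg
  rw [← ff_sum h h1, LemA1.bias]
  refine abs_le_of_sq_le_sq ?_ (by positivity)
  calc _ ≤ _ := LemA1.cs2 S (fun a b => 1 - w a b) (ff S e K k)
    _ ≤ eF ^ 2 * (300 ^ 2 * L ^ (2 * k + 2)) :=
        mul_le_mul hw.frob (LemA1.ff_frob h hb ha k h1 h4) (LemA1.nn2 _ _) (sq_nonneg _)
    _ = _ := by ring

/-- bias of `ff 4` under the weights, operator norm version -/
theorem ff4_avg : ∃ C : ℝ, 0 < C ∧ ∀ {ι : Type} [Fintype ι] [DecidableEq ι] {p e : ℝ} {S : Finset ι} {K : Matrix ι ι ℝ}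
      {s L lam r dd om ga : ℝ}, Good p S e K → Bd S K s L lam r dd om ga → BdA s L lam r dd →
      ∀ {w : ι → ι → ℝ} {eF eE er : ℝ}, Wt S K w eF eE er →
      |∑ a ∈ S, ∑ b ∈ S, w a b * ff S e K 4 a b
        - ∑ i ∈ range 5, (RR S K i).trace * (RR S K (4 - i)).trace| ≤ C * eE * L ^ 5 := by
  refine ⟨200, by norm_num, fun {ι} _ _ {p e S K s L lam r dd om ga} h hb ha {w eF eE er} hw => ?_⟩
  rw [← ff_sum h (k := 4) (by norm_num), LemA1.bias]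
  exact LemA1.ff4 h hb ha hw

/-- `oo`: `ℓ¹` bound for `k ≤ 4`, `ℓ²` bound on allowed pairs for `k ≤ 3`, `ℓ⁴` bound for `k = 1` -/
theorem oo_norm : ∃ C : ℝ, 0 < C ∧ ∀ {ι : Type} [Fintype ι] [DecidableEq ι] {p e : ℝ} {S : Finset ι} {K : Matrix ι ι ℝ}
      {s L lam r dd om ga : ℝ}, Good p S e K → Bd S K s L lam r dd om ga → BdA s L lam r dd →
      (∀ k, 1 ≤ k → k ≤ 4 → ∑ a ∈ S, ∑ b ∈ S, |oo S K k a b| ≤ C * s * L ^ (k + 1)) ∧
      (∀ k, 1 ≤ k → k ≤ 3 →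
        ∑ a ∈ S, ∑ b ∈ S, (if Alw K a b then oo S K k a b ^ 2 else 0) ≤ C * L ^ (2 * k + 2)) ∧
      (∑ a ∈ S, ∑ b ∈ S, (if Alw K a b then (oo S K 1 a b - ff S e K 1 a b) ^ 4 else 0) ≤ C * L ^ 6) := by
  refine ⟨60000, by norm_num, fun {ι} _ _ {p e S K s L lam r dd om ga} h hb ha =>
    ⟨fun k h1 h4 => ?_, fun k h1 h3 => ?_, LemA1.oo_l4 h hb ha⟩⟩
  · have hL := hb.L_ge
    have hs := hb.s_ge
    refine (LemA1.oo_l1 h hb ha k h1 h4).trans ?_
    gcongr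
    norm_num
  · have hL := hb.L_ge
    exact (LemA1.oo_l2 h hb ha k h1 h3).trans
      (mul_le_mul_of_nonneg_right (by norm_num) (by positivity))

end Crest.Agent.R62
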