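import Crest.Agent.R62.Weights
import Crest.Agent.R62.LemA1

/-! The tilt pushes `T₁` down, for both signs. -/

set_option autoImplicit false
open Classical
open scoped Matrix
open Finset

noncomputable section
namespace Crest.Agent.R62

section aux
variable {ι : Type} [Fintype ι] [DecidableEq ι] {p e e' : ℝ} {S : Finset ι} {K X : Matrix ι ι ℝ}

theorem Gain_R1 (K : Matrix ι ι ℝ) {a : ι} (ha : a ∈ S) (b : ι) :
    RR S K 1 a b = (K * K) a b - if a = b then 1 else 0 := by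
  simp [RR, idS, Matrix.diagonal_apply, ha]

theorem Gain_R1_symm (hK : Good p S e K) {a b : ι} (ha : a ∈ S) (hb : b ∈ S) :
    RR S K 1 a b = RR S K 1 b a := by
  rw [Gain_R1 K ha, Gain_R1 K hb, ← pow_two, hK.pow_symm 2 a b]
  simp only [eq_comm]

theorem Gain_row (hK : Good p S e K) (hX : Good p S e' X) {L : ℝ} (hL : 1 ≤ L) (ho : OpB K L)
    {a : ι} (ha : a ∈ S) :
    ∑ b ∈ S, |X a b| * |RR S K 1 a b| ≤ L * (bet X a + bet K a + 1) := by
  have hL0 : 0 < L := by linarith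
  have h1 : ∀ b ∈ S, |X a b| * |RR S K 1 a b| ≤
      L / 2 * X a b ^ 2 + (K ^ 2) a b ^ 2 / (2 * L) + if a = b then |X a a| else 0 := by
    intro b _
    rw [Gain_R1 K ha, ← pow_two]
    have e1 : |X a b| * |(K ^ 2) a b| ≤ L / 2 * X a b ^ 2 + (K ^ 2) a b ^ 2 / (2 * L) := by
      rw [← sq_abs (X a b), ← sq_abs ((K ^ 2) a b), ← sub_nonneg]
      have : L / 2 * |X a b| ^ 2 + |(K ^ 2) a b| ^ 2 / (2 * L) - |X a b| * |(K ^ 2) a b| =
          (L * |X a b| - |(K ^ 2) a b|) ^ 2 / (2 * L) := by field_simp; ring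
      rw [this]; positivity
    split_ifs with h
    · subst h
      have := abs_sub ((K ^ 2) a a) 1
      rw [abs_one] at this
      nlinarith [abs_nonneg (X a a)]
    · simpa using e1
  refine (sum_le_sum h1).trans ?_
  rw [sum_add_distrib, sum_add_distrib, ← mul_sum, ← sum_div, sum_ite_eq, if_pos ha]
  have h2 : ∑ b ∈ S, X a b ^ 2 ≤ bet X a := by
    rw [hX.bet_eq]; exact sum_le_univ_sum_of_nonneg fun _ => sq_nonneg _
  have h3 : ∑ b ∈ S, (K ^ 2) a b ^ 2 ≤ L ^ 2 * bet K a := by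
    refine (sum_le_univ_sum_of_nonneg fun _ => sq_nonneg _).trans ?_
    rw [← hK.pow_diag 2 a]
    simpa [bet, pow_two] using hK.diag_succ ho 1 a
  have h4 : X a a ^ 2 ≤ bet X a := by
    rw [hX.bet_eq]; exact single_le_sum (f := fun b => X a b ^ 2) (fun _ _ => sq_nonneg _) (mem_univ a)
  have h5 : (∑ b ∈ S, (K ^ 2) a b ^ 2) / (2 * L) ≤ L / 2 * bet K a := by
    rw [div_le_iff₀ (by positivity)]; nlinarith
  have h6 : |X a a| ≤ (1 + bet X a) / 2 := by nlinarith [sq_abs (X a a), sq_nonneg (|X a a| - 1)]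
  have := hX.bet_nonneg a
  have := hK.bet_nonneg a
  nlinarith

theorem Gain_trunc (hK : Good p S e K) (hX : Good p S e' X) {L θ s lam : ℝ} (hL : 1 ≤ L)
    (ho : OpB K L) (hθ : 0 ≤ θ) (h2 : Tr 2 X ≤ 2 * s ^ 2) (g : ι → Prop) (u : ι → ℝ)
    (hg : ∀ a, g a → bet K a ≤ 2)
    (hu0 : ∀ a, 0 ≤ u a) (hu : ∀ a, ¬ g a → bet X a + bet K a + 1 ≤ 5 * u a)
    (hus : ∑ a ∈ S, u a ≤ 2 * lam ^ 2) (Q : ι → ι → ℝ)
    (hQ : ∀ a b, Q a b = X a b ∨ (Q a b = 0 ∧ (¬ g a ∨ ¬ g b ∨ 1 < 8 * θ * |X a b|))) :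
    |∑ a ∈ S, ∑ b ∈ S, (X a b - Q a b) * RR S K 1 a b| ≤ 48 * (θ * s ^ 2 + L * lam ^ 2) := by
  set F : ι → ι → ℝ := fun a b => if g a then 0 else |X a b| * |RR S K 1 a b| with hF
  have hF0 : ∀ a b, 0 ≤ F a b := fun a b => by simp only [hF]; split_ifs <;> positivity
  have h1 : ∀ a ∈ S, ∀ b ∈ S, |(X a b - Q a b) * RR S K 1 a b| ≤
      F a b + F b a + 24 * θ * X a b ^ 2 := by
    intro a ha b hb
    have p1 := hF0 a b
    have p2 := hF0 b a
    have p3 : 0 ≤ 24 * θ * X a b ^ 2 := by positivity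
    rcases hQ a b with h | ⟨h, h'⟩
    · rw [h, sub_self, zero_mul, abs_zero]; positivity
    rw [h, sub_zero, abs_mul]
    by_cases ga : g a
    swap
    · have : F a b = |X a b| * |RR S K 1 a b| := by simp [hF, ga]
      linarith
    by_cases gb : g b
    swap
    · have : F b a = |X a b| * |RR S K 1 a b| := by
        simp [hF, gb, hX.symm b a, Gain_R1_symm hK hb ha]
      linarith
    have h8 : 1 < 8 * θ * |X a b| := by tauto
    have e1 : (K * K) a b ^ 2 ≤ 2 ^ 2 := by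
      have := hK.pow_entry 1 1 a b
      simp only [mul_one, one_add_one_eq_two, pow_two K] at this
      have a1 := hg a ga; have a2 := hg b gb
      have a3 := hK.bet_nonneg a; have a4 := hK.bet_nonneg b
      unfold bet at a1 a2 a3 a4
      nlinarith
    have e2 : |RR S K 1 a b| ≤ 3 := by
      rw [Gain_R1 K ha]
      have := abs_le_of_sq_le_sq' e1 (by norm_num)
      rw [abs_le]; split_ifs <;> constructor <;> linarith [this.1, this.2]
    have e3 : |X a b| ≤ 8 * θ * X a b ^ 2 := by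
      rw [← sq_abs]; nlinarith [abs_nonneg (X a b)]
    nlinarith [abs_nonneg (X a b)]
  have h3 : ∑ a ∈ S, ∑ b ∈ S, F a b ≤ 10 * (L * lam ^ 2) := by
    have : ∀ a ∈ S, ∑ b ∈ S, F a b ≤ 5 * L * u a := by
      intro a ha
      have := hu0 a
      by_cases ga : g a
      · simp only [hF, ga, if_true, sum_const_zero]; positivity
      · simp only [hF, ga, if_false]
        refine (Gain_row hK hX hL ho ha).trans ?_
        have := hu a ga
        nlinarith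
    refine (sum_le_sum this).trans ?_
    rw [← mul_sum]; nlinarith
  refine (abs_sum_le_sum_abs _ _).trans ((sum_le_sum fun a ha =>
    (abs_sum_le_sum_abs _ _).trans (sum_le_sum (h1 a ha))).trans ?_)
  simp only [sum_add_distrib, ← mul_sum]
  rw [sum_comm (f := fun a b => F b a), ← hX.Tr2_eq']
  have : 0 ≤ L * lam ^ 2 := by positivity
  nlinarith

end aux

/-- truncation error -/
theorem trunc_err : ∃ C : ℝ, 0 < C ∧ ∀ {ι : Type} [Fintype ι] [DecidableEq ι] {p e : ℝ} {S : Finset ι} {K J : Matrix ι ι ℝ}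
      {s L lam r dd om ga : ℝ}, Good p S e K → Good p S (-e) J → Bd S K s L lam r dd om ga →
      Bd S J s L lam r dd om ga → ∀ {θ : ℝ}, 0 ≤ θ →
      |∑ a ∈ S, ∑ b ∈ S, (K a b - Qm θ K J a b) * RR S K 1 a b| ≤ C * (θ * s ^ 2 + L * lam ^ 2) ∧
      |∑ a ∈ S, ∑ b ∈ S, (J a b - Qm θ J K a b) * RR S K 1 a b| ≤ C * (θ * s ^ 2 + L * lam ^ 2) := by
  refine ⟨48, by norm_num, ?_⟩
  intro ι _ _ p e S K J s L lam r dd om ga hK hJ bK bJ θ hθ
  have hus : ∑ a ∈ S, ((bet K a - 1) ^ 2 + (bet J a - 1) ^ 2) ≤ 2 * lam ^ 2 := by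
    have h1 := bK.V; have h2 := bJ.V
    unfold Vs at h1 h2
    rw [sum_add_distrib]; linarith
  have hb : ∀ a, ¬ (bet K a ≤ 2 ∧ bet J a ≤ 2) → 1 ≤ (bet K a - 1) ^ 2 + (bet J a - 1) ^ 2 := by
    intro a h
    rw [not_and_or, not_le, not_le] at h
    rcases h with h | h <;> nlinarith [sq_nonneg (bet K a - 1), sq_nonneg (bet J a - 1)]
  constructor
  · refine Gain_trunc hK hK bK.L_ge bK.op hθ bK.T2 (fun a => bet K a ≤ 2 ∧ bet J a ≤ 2)
      (fun a => (bet K a - 1) ^ 2 + (bet J a - 1) ^ 2) (fun a h => h.1) (fun a => by positivity)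
      (fun a h => ?_) hus _ (fun a b => ?_)
    · nlinarith [hb a h, sq_nonneg (bet K a - 2), sq_nonneg (bet J a - 1)]
    · unfold Qm; split_ifs with h
      · exact Or.inl rfl
      · refine Or.inr ⟨rfl, ?_⟩
        rw [← not_le]; tauto
  · refine Gain_trunc hK hJ bK.L_ge bK.op hθ bJ.T2 (fun a => bet K a ≤ 2 ∧ bet J a ≤ 2)
      (fun a => (bet K a - 1) ^ 2 + (bet J a - 1) ^ 2) (fun a h => h.1) (fun a => by positivity)
      (fun a h => ?_) hus _ (fun a b => ?_)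
    · nlinarith [hb a h, sq_nonneg (bet K a - 2), sq_nonneg (bet J a - 2)]
    · unfold Qm; split_ifs with h
      · exact Or.inl rfl
      · refine Or.inr ⟨rfl, ?_⟩
        rw [← not_le]; tauto

section aux2
variable {ι : Type} [Fintype ι] [DecidableEq ι] {p e e' : ℝ} {S : Finset ι} {K X : Matrix ι ι ℝ}

theorem Gain_inner (K : Matrix ι ι ℝ) (hX : Good p S e' X) :
    ∑ a ∈ S, ∑ b ∈ S, X a b * RR S K 1 a b = (K * K * X).trace - Tr 1 X := by
  have h1 : (K * K * X).trace = ∑ a ∈ S, ∑ b ∈ S, X a b * (K * K) a b := by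
    simp only [Matrix.trace, Matrix.diag, Matrix.mul_apply (M := K * K) (N := X)]
    symm
    rw [← sum_subset (subset_univ S) (fun a _ ha => sum_eq_zero fun b _ => by
      rw [hX.symm b a, hX.supp a b ha, mul_zero])]
    refine sum_congr rfl fun a _ => ?_
    rw [← sum_subset (subset_univ S) (fun b _ hb => by rw [hX.supp b a hb, mul_zero])]
    exact sum_congr rfl fun b _ => by rw [hX.symm b a, mul_comm]
  rw [h1, hX.Tr1_eq, ← sum_sub_distrib]
  refine sum_congr rfl fun a ha => ?_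
  simp only [Gain_R1 K ha, mul_sub, sum_sub_distrib, mul_ite, mul_one, mul_zero, sum_ite_eq,
    if_pos ha]

theorem Gain_Zz (hK : Good p S e K) (J : Matrix ι ι ℝ) :
    Zz S K J = (K * K * J).trace + Tr 2 K := by
  rw [Zz, mul_add, Matrix.trace_add, hK.Tr2_eq]
  congr 1
  simp only [Matrix.trace, Matrix.diag, idS, Matrix.mul_diagonal, mul_ite, mul_one, mul_zero]
  rw [← sum_filter]
  simp [bet]

omit [DecidableEq ι] in
theorem Gain_Qm_le {θ : ℝ} (hθ : 0 ≤ θ) (K J : Matrix ι ι ℝ) (a b : ι) :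
    |θ * Qm θ K J a b| ≤ 1 / 8 := by
  unfold Qm; split_ifs with h
  · rw [abs_mul, abs_of_nonneg hθ]; linarith [h.2.2.2.2]
  · simp

theorem Gain_prod {s L lam r dd om ga θ : ℝ} {Y : Matrix ι ι ℝ} (hK : Good p S e K)
    (bK : Bd S K s L lam r dd om ga) (hX : Good p S e' X) (ho : OpB X L) (hθ : 0 ≤ θ)
    (hθL : θ ≤ L) :
    |∑ a ∈ S, ∑ b ∈ S, K a a * Qm θ X Y a b * RR S K 1 b b| ≤ 17 * (L * dd * lam) ∧
    |∑ a ∈ S, ∑ b ∈ S, RR S K 1 a a * Qm θ X Y a b * K b b| ≤ 17 * (L * dd * lam) := by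
  have hL := bK.L_ge
  have hd := bK.dd_nonneg
  have hl := bK.lam_nonneg
  have h1 : √(∑ a ∈ S, K a a ^ 2) ≤ dd := Real.sqrt_le_iff.2 ⟨hd, hK.Dh_eq ▸ bK.D⟩
  have h2 : √(∑ a ∈ S, RR S K 1 a a ^ 2) ≤ lam := by
    refine Real.sqrt_le_iff.2 ⟨hl, le_trans (le_of_eq ?_) bK.V⟩
    exact sum_congr rfl fun a ha => by rw [Gain_R1 K ha, if_pos rfl, bet]
  constructor
  · refine (Qm_op hX (by linarith) ho hθ _ _).trans ?_
    calc _ ≤ (17 * L) * dd * lam := by gcongr; linarith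
      _ = _ := by ring
  · refine (Qm_op hX (by linarith) ho hθ _ _).trans ?_
    calc _ ≤ (17 * L) * lam * dd := by gcongr; linarith
      _ = _ := by ring

theorem Gain_T1 {s L lam r dd om ga : ℝ} (hK : Good p S e K) (bK : Bd S K s L lam r dd om ga)
    (hA : BdA s L lam r dd) : |Tr 1 K| ≤ s ^ 2 := by
  have h1 := hK.Tr1_sq
  have h2 := bK.D
  have h3 : dd ^ 2 ≤ s ^ 2 := pow_le_pow_left₀ bK.dd_nonneg (hA.h2.trans hA.h7) 2
  rw [← bK.hs] at h1
  refine abs_le.2 (abs_le_of_sq_le_sq' ?_ (sq_nonneg s))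
  nlinarith [sq_nonneg s]

end aux2

theorem gain (κ : ℝ) : ∃ C : ℝ, 0 < C ∧ ∀ {ι : Type} [Fintype ι] [DecidableEq ι] {p e : ℝ} {S : Finset ι} {K J : Matrix ι ι ℝ}
      {s L lam r dd om ga : ℝ}, Good p S e K → Good p S (-e) J → Bd S K s L lam r dd om ga →
      Bd S J s L lam r dd om ga → BdA s L lam r dd →
      ∀ {conf : ι → ι → Prop} {θ : ℝ}, (∀ a b, conf a b → conf b a) →
      (∀ a, ((S.filter fun b => conf a b).card : ℝ) ≤ κ) → 0 ≤ θ → θ ≤ L →
      ∑ a ∈ S, ∑ b ∈ S, wt conf θ e K J a b * ff S e K 1 a b ≤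
        -2 * Tr 1 K * yy S K - 2 * θ * Tr 3 K + 2 * θ * Zz S K J
        + C * (θ * (s ^ 2 + θ * s ^ 2 + L * lam ^ 2 + L * dd * lam) + s * L ^ 2) := by
  obtain ⟨C1, hC1, H1⟩ := trunc_err
  obtain ⟨C2, hC2, H2⟩ := wt_props κ
  obtain ⟨C3, hC3, H3⟩ := ff_avg
  obtain ⟨C4, hC4, H4⟩ := ff_norm
  refine ⟨4 * C1 + 68 + C3 * C2 + C2 * (C4 + 1), by positivity, ?_⟩
  intro ι _ _ p e S K J s L lam r dd om ga hK hJ bK bJ hA conf θ hc hκ hθ hθL
  have hL := bK.L_ge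
  have hs := bK.s_ge
  have hd := bK.dd_nonneg
  have hl := bK.lam_nonneg
  have he : e * e = 1 := by rcases hK.sign with h | h <;> simp [h]
  have he' : |e| = 1 := by rcases hK.sign with h | h <;> simp [h]
  have W0 := H2 hK hJ bK bJ hc hκ le_rfl (by linarith) hA.h6
  have A1 := (abs_le.1 (H3 hK bK hA W0 1 le_rfl (by norm_num))).2
  obtain ⟨t0, t1, -⟩ := RR_trace hK
  simp only [sum_range_succ, range_zero, sum_empty, zero_add, Nat.sub_zero, Nat.sub_self, t0, t1,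
    add_zero, mul_one] at A1
  have A2 := H4 hK bK hA 1 le_rfl (by norm_num)
  set w0 := wt conf 0 e K J with hw0
  set D : ι → ι → ℝ := fun a b => θ * e * (Qm θ K J a b - Qm θ J K a b) with hD
  have hw : ∀ a b, wt conf θ e K J a b = w0 a b * (1 - D a b) := fun a b => by
    simp only [hw0, hD, wt]; split_ifs <;> simp
  have hD1 : ∀ a b, |D a b| ≤ 1 := fun a b => by
    have : D a b = e * (θ * Qm θ K J a b - θ * Qm θ J K a b) := by simp only [hD]; ring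
    rw [this, abs_mul, he', one_mul]
    linarith [abs_sub (θ * Qm θ K J a b) (θ * Qm θ J K a b), Gain_Qm_le hθ K J a b,
      Gain_Qm_le hθ J K a b]
  have A3 : ∑ a ∈ S, ∑ b ∈ S, (1 - w0 a b) * (D a b * ff S e K 1 a b) ≤
      C2 * (C4 + 1) * (s * L ^ 2) := by
    rw [← sum_product']
    refine (abs_le_of_sq_le_sq' ((sum_mul_sq_le_sq_mul_sq _ _ _).trans ?_) (by positivity)).2
    have b1 : ∑ q ∈ S ×ˢ S, (1 - w0 q.1 q.2) ^ 2 ≤ (C2 * s) ^ 2 := by
      rw [sum_product' (f := fun a b => (1 - w0 a b) ^ 2)]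
      simpa using W0.frob
    have b2 : ∑ q ∈ S ×ˢ S, (D q.1 q.2 * ff S e K 1 q.1 q.2) ^ 2 ≤ (C4 + 1) ^ 2 * L ^ 4 := by
      rw [sum_product' (f := fun a b => (D a b * ff S e K 1 a b) ^ 2)]
      refine le_trans (sum_le_sum fun a _ => sum_le_sum fun b _ => ?_) (A2.trans ?_)
      · rw [mul_pow]
        exact mul_le_of_le_one_left (sq_nonneg _) ((sq_le_one_iff_abs_le_one _).2 (hD1 a b))
      · have : C4 ≤ (C4 + 1) ^ 2 := by nlinarith
        norm_num; gcongr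
    calc _ ≤ (C2 * s) ^ 2 * ((C4 + 1) ^ 2 * L ^ 4) :=
          mul_le_mul b1 b2 (sum_nonneg fun _ _ => sq_nonneg _) (sq_nonneg _)
      _ = _ := by ring
  obtain ⟨B1, B2⟩ := H1 hK hJ bK bJ hθ
  obtain ⟨P1, P2⟩ := Gain_prod (Y := J) hK bK hK bK.op hθ hθL
  obtain ⟨P3, P4⟩ := Gain_prod (Y := K) hK bK hJ bJ.op hθ hθL
  have I1 := Gain_inner K hK
  have I2 := Gain_inner K hJ
  have I3 := Gain_Zz hK J
  have I4 : (K * K * K).trace = Tr 3 K := by simp [Tr, pow_succ]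
  have T1 := Gain_T1 hK bK hA
  have T2 := Gain_T1 hJ bJ hA
  have T3 : 0 ≤ Tr 2 K := by rw [hK.Tr2_eq']; positivity
  have key : ∑ a ∈ S, ∑ b ∈ S, wt conf θ e K J a b * ff S e K 1 a b =
      ∑ a ∈ S, ∑ b ∈ S, w0 a b * ff S e K 1 a b
      + ∑ a ∈ S, ∑ b ∈ S, (1 - w0 a b) * (D a b * ff S e K 1 a b)
      + θ * (-2 * ∑ a ∈ S, ∑ b ∈ S, K a b * RR S K 1 a b
        + 2 * ∑ a ∈ S, ∑ b ∈ S, J a b * RR S K 1 a b
        + 2 * ∑ a ∈ S, ∑ b ∈ S, (K a b - Qm θ K J a b) * RR S K 1 a b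
        - 2 * ∑ a ∈ S, ∑ b ∈ S, (J a b - Qm θ J K a b) * RR S K 1 a b
        - e * (∑ a ∈ S, ∑ b ∈ S, K a a * Qm θ K J a b * RR S K 1 b b
          + ∑ a ∈ S, ∑ b ∈ S, RR S K 1 a a * Qm θ K J a b * K b b
          - ∑ a ∈ S, ∑ b ∈ S, K a a * Qm θ J K a b * RR S K 1 b b
          - ∑ a ∈ S, ∑ b ∈ S, RR S K 1 a a * Qm θ J K a b * K b b)) := by
    simp only [mul_sum, ← sum_add_distrib, ← sum_sub_distrib]
    refine sum_congr rfl fun a _ => sum_congr rfl fun b _ => ?_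
    have hf : ff S e K 1 a b = 2 * e * RR S K 1 a b + K a a * RR S K 1 b b
        + RR S K 1 a a * K b b := by
      simp only [ff, sum_range_succ, range_zero, sum_empty, zero_add, Nat.sub_zero, Nat.sub_self]
      rw [show RR S K 0 = K from rfl]; ring
    rw [hw, hf]
    simp only [hD]
    linear_combination (-2 * θ * (Qm θ K J a b - Qm θ J K a b) * RR S K 1 a b) * he
  rw [key, I1, I2, I4]
  generalize ∑ a ∈ S, ∑ b ∈ S, K a a * Qm θ K J a b * RR S K 1 b b = x1 at P1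
  generalize ∑ a ∈ S, ∑ b ∈ S, RR S K 1 a a * Qm θ K J a b * K b b = x2 at P2
  generalize ∑ a ∈ S, ∑ b ∈ S, K a a * Qm θ J K a b * RR S K 1 b b = x3 at P3
  generalize ∑ a ∈ S, ∑ b ∈ S, RR S K 1 a a * Qm θ J K a b * K b b = x4 at P4
  generalize ∑ a ∈ S, ∑ b ∈ S, (K a b - Qm θ K J a b) * RR S K 1 a b = e1 at B1
  generalize ∑ a ∈ S, ∑ b ∈ S, (J a b - Qm θ J K a b) * RR S K 1 a b = e2 at B2
  have P5 : -(e * (x1 + x2 - x3 - x4)) ≤ 68 * (L * dd * lam) := by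
    refine (neg_le_abs _).trans ?_
    rw [abs_mul, he', one_mul, abs_le]
    rw [abs_le] at P1 P2 P3 P4
    constructor <;> linarith [P1.1, P1.2, P2.1, P2.2, P3.1, P3.2, P4.1, P4.2]
  set U := s ^ 2 + θ * s ^ 2 + L * lam ^ 2 + L * dd * lam with hU
  have u1 : 0 ≤ θ * s ^ 2 := by positivity
  have u2 : 0 ≤ L * lam ^ 2 := by positivity
  have u3 : 0 ≤ L * dd * lam := by positivity
  have u4 : 0 ≤ s ^ 2 := by positivity
  have u5 : C1 * (θ * s ^ 2 + L * lam ^ 2) ≤ C1 * U := by gcongr; linarith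
  have Q1 : -2 * (Tr 3 K - Tr 1 K) + 2 * ((K * K * J).trace - Tr 1 J) + 2 * e1 - 2 * e2
      - e * (x1 + x2 - x3 - x4) ≤ -2 * Tr 3 K + 2 * Zz S K J + (4 * C1 + 68) * U := by
    rw [abs_le] at T1 T2 B1 B2
    linarith [T1.1, T1.2, T2.1, T2.2, B1.1, B1.2, B2.1, B2.2]
  have Q2 := mul_le_mul_of_nonneg_left Q1 hθ
  have v1 : 0 ≤ θ * U := by positivity
  have v2 : 0 ≤ s * L ^ 2 := by positivity
  have v3 : 0 ≤ (C3 * C2 + C2 * (C4 + 1)) * (θ * U) := by positivity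
  have v4 : 0 ≤ (4 * C1 + 68) * (s * L ^ 2) := by positivity
  rw [show L ^ (1 + 1) = L ^ 2 from rfl] at A1
  clear_value U
  linarith

end Crest.Agent.R62
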