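import Crest.Agent.R62.Spec

/-! Exact increments of diagonal entries, row norms, `T₂` and `Z` (all checked numerically). -/

set_option autoImplicit false
open Classical
open scoped Matrix
open Finset

noncomputable section
namespace Crest.Agent.R62

variable {ι : Type} [Fintype ι] [DecidableEq ι] {p e : ℝ} {S : Finset ι} {K J : Matrix ι ι ℝ}

theorem MomentB_sum_del {a b : ι} (ha : a ∈ S) (hb : b ∈ S) (hab : a ≠ b) (F : ι → ℝ) :
    ∑ c ∈ S, F c = F a + F b + ∑ c ∈ del S a b, F c := by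
  rw [del, add_assoc, Finset.add_sum_erase _ _ (Finset.mem_erase.2 ⟨hab.symm, hb⟩),
    Finset.add_sum_erase _ _ ha]

theorem MomentB_e_sq (h : Good p S e K) : e * e = 1 := by
  rcases h.sign with rfl | rfl <;> norm_num

theorem card_del {a b : ι} (ha : a ∈ S) (hb : b ∈ S) (hab : a ≠ b) :
    ((del S a b).card : ℝ) = S.card - 2 := by
  have := MomentB_sum_del ha hb hab fun _ => 1
  simp only [Finset.sum_const, nsmul_eq_mul, mul_one] at this
  linarith

theorem upd_diag (h : Good p S e K) {a b c : ι} (hca : c ≠ a) (hcb : c ≠ b) :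
    upd e K a b c c - K c c = hA e K a b c * K c a + hB e K a b c * K c b := by
  simp only [upd, Matrix.of_apply, hca, hcb, or_self, if_false, hA, hB, h.symm a c, h.symm b c]
  ring

theorem bet_upd (h : Good p S e K) {a b c : ι} (hab : a ≠ b) (hca : c ≠ a) (hcb : c ≠ b)
    (hD : Dd e K a b ≠ 0) :
    bet (upd e K a b) c - bet K c =
      2 * (hA e K a b c * (K * K) c a + hB e K a b c * (K * K) c b)
      + hA e K a b c ^ 2 * (bet K a - 1) + hB e K a b c ^ 2 * (bet K b - 1)
      + 2 * hA e K a b c * hB e K a b c * (K * K) a b := by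
  have he := MomentB_e_sq h
  set g : ι → ℝ := fun f => K c f + hA e K a b c * K a f + hB e K a b c * K b f with hg
  have h1 : ∀ f, upd e K a b c f * upd e K a b f c = g f ^ 2 -
      ((if f = a then g f ^ 2 else 0) + if f = b then g f ^ 2 else 0) := by
    intro f
    by_cases hfa : f = a
    · subst hfa
      simp [upd, hab]
    by_cases hfb : f = b
    · subst hfb
      simp [upd, hfa]
    simp only [upd, Matrix.of_apply, hca, hcb, hfa, hfb, or_self, if_false, hg, hA, hB,
      h.symm f c, h.symm f a, h.symm f b, h.symm a c, h.symm b c]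
    ring
  have h2 : g a = e * hB e K a b c := by
    simp only [hg, hA, hB, h.symm b a]
    field_simp
    simp only [Dd]
    linear_combination (-K c a) * he
  have h3 : g b = e * hA e K a b c := by
    simp only [hg, hA, hB]
    field_simp
    simp only [Dd]
    linear_combination (-K c b) * he
  have h4 : ∑ f, g f ^ 2 = bet K c + 2 * (hA e K a b c * (K * K) c a + hB e K a b c * (K * K) c b)
      + hA e K a b c ^ 2 * bet K a + hB e K a b c ^ 2 * bet K b
      + 2 * hA e K a b c * hB e K a b c * (K * K) a b := by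
    simp only [bet, Matrix.mul_apply, Finset.mul_sum, mul_add, ← Finset.sum_add_distrib]
    refine Finset.sum_congr rfl fun f _ => ?_
    simp only [hg, h.symm f c, h.symm f a, h.symm f b]
    ring
  have h5 : bet (upd e K a b) c = ∑ f, g f ^ 2 - (g a ^ 2 + g b ^ 2) := by
    rw [bet, Matrix.mul_apply, Finset.sum_congr rfl fun f _ => h1 f, Finset.sum_sub_distrib,
      Finset.sum_add_distrib, Finset.sum_ite_eq', Finset.sum_ite_eq']
    simp
  rw [h5, h4, h2, h3]
  linear_combination (-(hA e K a b c ^ 2 + hB e K a b c ^ 2)) * he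

theorem Dh_upd (h : Good p S e K) {a b : ι} (ha : a ∈ S) (hb : b ∈ S) (hab : a ≠ b) :
    Dh (upd e K a b) - Dh K = -K a a ^ 2 - K b b ^ 2 + ∑ c ∈ del S a b,
      (2 * K c c * (upd e K a b c c - K c c) + (upd e K a b c c - K c c) ^ 2) := by
  have h1 : Dh (upd e K a b) - Dh K = ∑ c ∈ S, (upd e K a b c c ^ 2 - K c c ^ 2) := by
    rw [Dh, Dh, ← Finset.sum_sub_distrib]
    symm
    refine Finset.sum_subset (Finset.subset_univ _) fun c _ hc => ?_
    simp [upd, h.supp c _ hc]
  rw [h1, MomentB_sum_del ha hb hab]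
  congr 1
  · simp [upd]
    ring
  · refine Finset.sum_congr rfl fun c _ => ?_
    ring

theorem Vs_upd (s0 : ℝ) {a b : ι} (ha : a ∈ S) (hb : b ∈ S) (hab : a ≠ b) :
    Vs s0 (del S a b) (upd e K a b) - Vs s0 S K = -(bet K a - s0) ^ 2 - (bet K b - s0) ^ 2
      + ∑ c ∈ del S a b, (2 * (bet K c - s0) * (bet (upd e K a b) c - bet K c)
        + (bet (upd e K a b) c - bet K c) ^ 2) := by
  rw [Vs, Vs, MomentB_sum_del ha hb hab]
  have : ∑ c ∈ del S a b, (2 * (bet K c - s0) * (bet (upd e K a b) c - bet K c)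
      + (bet (upd e K a b) c - bet K c) ^ 2) = ∑ c ∈ del S a b, (bet (upd e K a b) c - s0) ^ 2 -
      ∑ c ∈ del S a b, (bet K c - s0) ^ 2 := by
    rw [← Finset.sum_sub_distrib]
    refine Finset.sum_congr rfl fun c _ => ?_
    ring
  rw [this]
  ring

/-- the two coordinate vectors -/
def MomentB_C (a b : ι) : Matrix ι (Fin 2) ℝ := Matrix.of fun i j => if i = ![a, b] j then 1 else 0

/-- the projection killing the coordinates `a`, `b` -/
def MomentB_P (a b : ι) : Matrix ι ι ℝ := Matrix.diagonal fun i => if i = a ∨ i = b then 0 else 1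

/-- `A = K C - e C σ` -/
def MomentB_A (e : ℝ) (K : Matrix ι ι ℝ) (a b : ι) : Matrix ι (Fin 2) ℝ :=
  K * MomentB_C a b - e • (MomentB_C a b * (sig : Matrix (Fin 2) (Fin 2) ℝ))

theorem MomentB_mul_C {κ : Type} (R : Matrix κ ι ℝ) (a b : ι) (c : κ) (j : Fin 2) :
    (R * MomentB_C a b) c j = R c (![a, b] j) := by
  simp [MomentB_C, Matrix.mul_apply]

theorem MomentB_C_mul {κ : Type} (R : Matrix ι κ ℝ) (a b : ι) (c : κ) (j : Fin 2) :
    ((MomentB_C a b)ᵀ * R) j c = R (![a, b] j) c := by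
  simp [MomentB_C, Matrix.mul_apply]

theorem MomentB_blk (M : Matrix ι ι ℝ) (a b : ι) :
    blk M a b = (MomentB_C a b)ᵀ * (M * MomentB_C a b) := by
  ext i j
  rw [MomentB_C_mul, MomentB_mul_C]
  fin_cases i <;> fin_cases j <;> rfl

theorem MomentB_CC {a b : ι} (hab : a ≠ b) : (MomentB_C a b)ᵀ * MomentB_C a b = 1 := by
  ext i j
  rw [MomentB_C_mul]
  fin_cases i <;> fin_cases j <;> simp [MomentB_C, hab, hab.symm]

theorem MomentB_P_eq {a b : ι} (hab : a ≠ b) :
    MomentB_P a b = 1 - MomentB_C a b * (MomentB_C a b)ᵀ := by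
  ext i j
  simp only [MomentB_P, MomentB_C, Matrix.diagonal_apply, Matrix.sub_apply, Matrix.one_apply,
    Matrix.mul_apply, Fin.sum_univ_two, Matrix.transpose_apply, Matrix.of_apply,
    Matrix.cons_val_zero, Matrix.cons_val_one]
  by_cases hij : i = j
  · subst hij
    by_cases h1 : i = a
    · subst h1
      simp [hab]
    · by_cases h2 : i = b
      · subst h2
        simp [h1]
      · simp [h1, h2]
  · by_cases h1 : i = a
    · subst h1
      simp [hab, hij, Ne.symm hij]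
    · by_cases h2 : i = b
      · subst h2
        simp [h1, hij, Ne.symm hij]
      · simp [h1, h2, hij]

theorem MomentB_PP (a b : ι) : MomentB_P a b * MomentB_P a b = MomentB_P a b := by
  rw [MomentB_P, Matrix.diagonal_mul_diagonal]
  congr 1
  funext i
  split_ifs <;> simp

theorem MomentB_upd (e : ℝ) (K : Matrix ι ι ℝ) (a b : ι) :
    upd e K a b = MomentB_P a b *
      (K + K * MomentB_C a b * Xm e K a b * ((MomentB_C a b)ᵀ * K)) * MomentB_P a b := by
  ext c f
  rw [MomentB_P, Matrix.mul_diagonal, Matrix.diagonal_mul, Matrix.add_apply, Matrix.mul_apply]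
  simp only [Fin.sum_univ_two, Matrix.mul_apply (M := K * MomentB_C a b), MomentB_mul_C,
    MomentB_C_mul, upd, Matrix.of_apply, Xm, Matrix.smul_apply, smul_eq_mul]
  by_cases h1 : c = a ∨ c = b
  · rw [if_pos h1, if_pos (by tauto)]
    simp
  by_cases h2 : f = a ∨ f = b
  · rw [if_pos h2, if_pos (by tauto)]
    simp
  rw [if_neg h1, if_neg h2, if_neg (by tauto)]
  simp only [Matrix.cons_val', Matrix.cons_val_zero, Matrix.cons_val_one, Matrix.cons_val_fin_one]
  ring

theorem MomentB_kX (h : Good p S e K) {a b : ι} (hD : Dd e K a b ≠ 0) :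
    blk K a b * Xm e K a b = e • ((sig : Matrix (Fin 2) (Fin 2) ℝ) * Xm e K a b) - 1 := by
  have he := MomentB_e_sq h
  have hd : (Dd e K a b)⁻¹ * (1 - 2 * e * K a b - K a a * K b b + K a b ^ 2) = 1 :=
    inv_mul_cancel₀ hD
  ext i j
  fin_cases i <;> fin_cases j <;>
    simp [blk, Xm, sig, Matrix.mul_apply, Fin.sum_univ_two, h.symm b a] <;>
    first | ring1 | linear_combination (-1 : ℝ) * hd - (Dd e K a b)⁻¹ * he

theorem MomentB_Xk (h : Good p S e K) {a b : ι} (hD : Dd e K a b ≠ 0) :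
    Xm e K a b * blk K a b = e • (Xm e K a b * (sig : Matrix (Fin 2) (Fin 2) ℝ)) - 1 := by
  have he := MomentB_e_sq h
  have hd : (Dd e K a b)⁻¹ * (1 - 2 * e * K a b - K a a * K b b + K a b ^ 2) = 1 :=
    inv_mul_cancel₀ hD
  ext i j
  fin_cases i <;> fin_cases j <;>
    simp [blk, Xm, sig, Matrix.mul_apply, Fin.sum_univ_two, h.symm b a] <;>
    first | ring1 | linear_combination (-1 : ℝ) * hd - (Dd e K a b)⁻¹ * he

theorem MomentB_CAX (h : Good p S e K) {a b : ι} (hab : a ≠ b) (hD : Dd e K a b ≠ 0) :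
    (MomentB_C a b)ᵀ * (MomentB_A e K a b * Xm e K a b) = -1 := by
  rw [← Matrix.mul_assoc, MomentB_A, Matrix.mul_sub, ← MomentB_blk, Matrix.mul_smul,
    ← Matrix.mul_assoc, MomentB_CC hab, Matrix.one_mul, Matrix.sub_mul, MomentB_kX h hD,
    Matrix.smul_mul]
  abel

theorem MomentB_PM (h : Good p S e K) {a b : ι} (hab : a ≠ b) (hD : Dd e K a b ≠ 0) :
    MomentB_P a b * (K + K * MomentB_C a b * Xm e K a b * ((MomentB_C a b)ᵀ * K)) =
      K + MomentB_A e K a b * (Xm e K a b * ((MomentB_C a b)ᵀ * K)) := by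
  have h1 : (MomentB_C a b)ᵀ * (K * MomentB_C a b * Xm e K a b * ((MomentB_C a b)ᵀ * K)) =
      e • ((sig : Matrix (Fin 2) (Fin 2) ℝ) * (Xm e K a b * ((MomentB_C a b)ᵀ * K))) -
        (MomentB_C a b)ᵀ * K := by
    rw [← Matrix.mul_assoc (MomentB_C a b)ᵀ, ← Matrix.mul_assoc (MomentB_C a b)ᵀ,
      ← MomentB_blk, MomentB_kX h hD, Matrix.sub_mul, Matrix.one_mul, Matrix.smul_mul,
      Matrix.mul_assoc]
  rw [MomentB_P_eq hab, Matrix.sub_mul, Matrix.one_mul, Matrix.mul_assoc (MomentB_C a b),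
    Matrix.mul_add, h1, MomentB_A, Matrix.sub_mul, Matrix.smul_mul]
  simp only [Matrix.mul_add, Matrix.mul_sub, Matrix.mul_smul, Matrix.mul_assoc]
  abel

theorem MomentB_tr {κ : Type} [Fintype κ] (A : Matrix ι κ ℝ) (M : Matrix κ ι ℝ) :
    (A * M).trace = (M * A).trace := Matrix.trace_mul_comm A M

theorem MomentB_sig_sq : (sig : Matrix (Fin 2) (Fin 2) ℝ) * sig = 1 := by
  ext i j
  fin_cases i <;> fin_cases j <;> simp [sig, Matrix.mul_apply, Fin.sum_univ_two]

theorem MomentB_bm (e : ℝ) (R K : Matrix ι ι ℝ) (a b : ι) :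
    blk (R * K) a b - e • (blk R a b * sig) = (MomentB_C a b)ᵀ * (R * MomentB_A e K a b) := by
  simp only [MomentB_blk, MomentB_A, Matrix.mul_sub, Matrix.mul_smul, Matrix.mul_assoc]

theorem T2_upd (h : Good p S e K) {a b : ι} (hab : a ≠ b) (hD : Dd e K a b ≠ 0) :
    Tr 2 (upd e K a b) - Tr 2 K =
      ((Xm e K a b - e • sig) * (Xm e K a b - e • sig)).trace
      - 2 * (Xm e K a b * Xm e K a b * blk (K * K) a b).trace
      + (Xm e K a b * blk (K * K) a b * (Xm e K a b * blk (K * K) a b)).trace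
      + 2 * (Xm e K a b * blk (K * K * K) a b).trace := by
  have he := MomentB_e_sq h
  set C := MomentB_C a b with hC
  set A := MomentB_A e K a b with hA
  set X := Xm e K a b with hX
  have h1 : Tr 2 (upd e K a b) =
      ((K + A * (X * (Cᵀ * K))) * (K + A * (X * (Cᵀ * K)))).trace := by
    rw [Tr, sq, MomentB_upd, ← MomentB_PM h hab hD, ← hC, ← hX]
    generalize K + K * C * X * (Cᵀ * K) = M
    rw [← Matrix.mul_assoc, Matrix.trace_mul_comm]
    simp only [← Matrix.mul_assoc, MomentB_PP]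
    rw [Matrix.mul_assoc _ (MomentB_P a b) (MomentB_P a b), MomentB_PP]
  have h2 : (K * (A * (X * (Cᵀ * K)))).trace = (X * (Cᵀ * (K * K * A))).trace := by
    rw [← Matrix.mul_assoc, MomentB_tr]
    simp only [Matrix.mul_assoc]
  have h3 : (A * (X * (Cᵀ * K)) * K).trace = (X * (Cᵀ * (K * K * A))).trace := by
    rw [Matrix.trace_mul_comm, h2]
  have h4 : (A * (X * (Cᵀ * K)) * (A * (X * (Cᵀ * K)))).trace =
      (X * (Cᵀ * (K * A)) * (X * (Cᵀ * (K * A)))).trace := by
    rw [Matrix.mul_assoc, MomentB_tr]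
    simp only [Matrix.mul_assoc]
  have h5 : X * (Cᵀ * (K * A)) = X * blk (K * K) a b - (X - e • sig) := by
    rw [hC, hA, ← MomentB_bm, Matrix.mul_sub, Matrix.mul_smul, ← Matrix.mul_assoc,
      MomentB_Xk h hD, Matrix.sub_mul, Matrix.smul_mul, Matrix.mul_assoc, MomentB_sig_sq,
      Matrix.mul_one, Matrix.one_mul, smul_sub, smul_smul, he, one_smul]
  have h6 : X * (Cᵀ * (K * K * A)) = X * blk (K * K * K) a b - e • (X * blk (K * K) a b * sig) := by
    rw [hC, hA, ← MomentB_bm, Matrix.mul_sub, Matrix.mul_smul, ← Matrix.mul_assoc]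
  rw [h1, Tr, sq K, Matrix.add_mul, Matrix.mul_add, Matrix.mul_add, Matrix.trace_add,
    Matrix.trace_add, Matrix.trace_add, h2, h3, h4, h5, h6]
  generalize blk (K * K) a b = k2
  generalize blk (K * K * K) a b = k3
  have h7 : (X * k2 * sig).trace = (sig * (X * k2)).trace := Matrix.trace_mul_comm _ _
  have h8 : (X * k2 * X).trace = (X * (X * k2)).trace := Matrix.trace_mul_comm _ _
  simp only [Matrix.mul_sub, Matrix.sub_mul, Matrix.trace_sub, Matrix.trace_smul, Matrix.mul_smul,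
    Matrix.smul_mul, smul_eq_mul, h7, h8, Matrix.mul_assoc X X k2]
  ring

/-- `[U] - e [W] σ` -/
def bm (e : ℝ) (U W : Matrix ι ι ℝ) (a b : ι) : Matrix (Fin 2) (Fin 2) ℝ :=
  blk U a b - e • (blk W a b * sig)

theorem MomentB_key (K Q J : Matrix ι ι ℝ) (C A A' : Matrix ι (Fin 2) ℝ)
    (X Y : Matrix (Fin 2) (Fin 2) ℝ) (h : Cᵀ * (A * X) = -1) :
    ((K + A * (X * (Cᵀ * K))) * (K + A * (X * (Cᵀ * K))) *
      (Q + (A' * (Y * (Cᵀ * J)) - C * Cᵀ))).trace - (K * K * Q).trace =
      (X * (Cᵀ * (K * K * Q * A))).trace + (X * (Cᵀ * (K * Q * K * A))).trace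
      + ((Y * (Cᵀ * (J * K * K * A'))).trace - (Cᵀ * (K * K * C)).trace)
      + (X * (Cᵀ * (K * A)) * X * (Cᵀ * (K * Q * A))).trace
      + ((X * (Cᵀ * (K * K * A')) * Y * (Cᵀ * (J * A))).trace + (Cᵀ * (K * K * C)).trace)
      + ((X * (Cᵀ * (K * A')) * Y * (Cᵀ * (J * K * A))).trace
          - (X * (Cᵀ * (K * C)) * (Cᵀ * (K * A))).trace)
      + ((X * (Cᵀ * (K * A)) * X * (Cᵀ * (K * A')) * Y * (Cᵀ * (J * A))).trace
          + (Cᵀ * (K * A) * X * (Cᵀ * (K * C))).trace) := by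
  have h' : ∀ {κ : Type} (M : Matrix (Fin 2) κ ℝ), Cᵀ * (A * (X * M)) = -M := by
    intro κ M
    rw [← Matrix.mul_assoc A, ← Matrix.mul_assoc, h, Matrix.neg_mul, Matrix.one_mul]
  have t1 : (A * (X * (Cᵀ * (K * (K * Q))))).trace = (X * (Cᵀ * (K * (K * (Q * A))))).trace := by
    rw [MomentB_tr]
    simp only [Matrix.mul_assoc]
  have t2 : (K * (A * (X * (Cᵀ * (K * Q))))).trace = (X * (Cᵀ * (K * (Q * (K * A))))).trace := by
    rw [← Matrix.mul_assoc, MomentB_tr]
    simp only [Matrix.mul_assoc]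
  have t3 : (K * (K * (A' * (Y * (Cᵀ * J))))).trace = (Y * (Cᵀ * (J * (K * (K * A'))))).trace := by
    rw [← Matrix.mul_assoc, ← Matrix.mul_assoc, MomentB_tr]
    simp only [Matrix.mul_assoc]
  have t3' : (K * (K * (C * Cᵀ))).trace = (Cᵀ * (K * (K * C))).trace := by
    rw [← Matrix.mul_assoc, ← Matrix.mul_assoc, MomentB_tr]
    simp only [Matrix.mul_assoc]
  have t4 : (A * (X * (Cᵀ * (K * (A * (X * (Cᵀ * (K * Q)))))))).trace =
      (X * (Cᵀ * (K * (A * (X * (Cᵀ * (K * (Q * A)))))))).trace := by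
    rw [MomentB_tr]
    simp only [Matrix.mul_assoc]
  have t5 : (A * (X * (Cᵀ * (K * (K * (A' * (Y * (Cᵀ * J)))))))).trace =
      (X * (Cᵀ * (K * (K * (A' * (Y * (Cᵀ * (J * A)))))))).trace := by
    rw [MomentB_tr]
    simp only [Matrix.mul_assoc]
  have t5' : (A * (X * (Cᵀ * (K * (K * (C * Cᵀ)))))).trace = -(Cᵀ * (K * (K * C))).trace := by
    rw [← Matrix.trace_neg, ← h' (Cᵀ * (K * (K * C))), Matrix.trace_mul_comm Cᵀ]
    simp only [Matrix.mul_assoc]
  have t6 : (K * (A * (X * (Cᵀ * (K * (A' * (Y * (Cᵀ * J)))))))).trace =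
      (X * (Cᵀ * (K * (A' * (Y * (Cᵀ * (J * (K * A)))))))).trace := by
    rw [← Matrix.mul_assoc, MomentB_tr]
    simp only [Matrix.mul_assoc]
  have t6' : (K * (A * (X * (Cᵀ * (K * (C * Cᵀ)))))).trace =
      (X * (Cᵀ * (K * (C * (Cᵀ * (K * A)))))).trace := by
    rw [← Matrix.mul_assoc, MomentB_tr]
    simp only [Matrix.mul_assoc]
  have t7 : (A * (X * (Cᵀ * (K * (A * (X * (Cᵀ * (K * (A' * (Y * (Cᵀ * J))))))))))).trace =
      (X * (Cᵀ * (K * (A * (X * (Cᵀ * (K * (A' * (Y * (Cᵀ * (J * A))))))))))).trace := by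
    rw [MomentB_tr]
    simp only [Matrix.mul_assoc]
  have t7' : (A * (X * (Cᵀ * (K * (A * (X * (Cᵀ * (K * (C * Cᵀ))))))))).trace =
      -(Cᵀ * (K * (A * (X * (Cᵀ * (K * C)))))).trace := by
    rw [← Matrix.trace_neg, ← h' (Cᵀ * (K * (A * (X * (Cᵀ * (K * C)))))),
      Matrix.trace_mul_comm Cᵀ]
    simp only [Matrix.mul_assoc]
  simp only [Matrix.mul_add, Matrix.add_mul, Matrix.mul_sub, Matrix.trace_add, Matrix.trace_sub,
    Matrix.mul_assoc, t1, t2, t3, t3', t4, t5, t5', t6, t6', t7, t7']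
  ring

theorem MomentB_P_idS {a b : ι} (S : Finset ι) :
    (idS (del S a b) : Matrix ι ι ℝ) = MomentB_P a b * idS S * MomentB_P a b := by
  rw [MomentB_P, idS, idS, Matrix.diagonal_mul_diagonal, Matrix.diagonal_mul_diagonal]
  congr 1
  funext i
  simp only [del, Finset.mem_erase]
  by_cases h1 : i = a <;> by_cases h2 : i = b <;> simp [h1, h2]

theorem MomentB_C_idS {a b : ι} (ha : a ∈ S) (hb : b ∈ S) :
    (MomentB_C a b)ᵀ * (idS S : Matrix ι ι ℝ) = (MomentB_C a b)ᵀ := by
  ext j c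
  rw [idS, Matrix.mul_diagonal]
  simp only [Matrix.transpose_apply, MomentB_C, Matrix.of_apply]
  split_ifs with h1 h2
  · simp
  · exact absurd (by rw [h1]; fin_cases j <;> simpa) h2
  · simp
  · simp

theorem Zz_upd (hK : Good p S e K) (hJ : Good p S (-e) J) {a b : ι} (ha : a ∈ S) (hb : b ∈ S)
    (hab : a ≠ b) (hD : Dd e K a b ≠ 0) (hD' : Dd (-e) J a b ≠ 0) :
    Zz (del S a b) (upd e K a b) (upd (-e) J a b) - Zz S K J =
      (Xm e K a b * bm e (K * K * (J + idS S) * K) (K * K * (J + idS S)) a b).trace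
      + (Xm e K a b * bm e (K * (J + idS S) * K * K) (K * (J + idS S) * K) a b).trace
      + ((Xm (-e) J a b * bm (-e) (J * K * K * J) (J * K * K) a b).trace - (blk (K * K) a b).trace)
      + (Xm e K a b * bm e (K * K) K a b * Xm e K a b
          * bm e (K * (J + idS S) * K) (K * (J + idS S)) a b).trace
      + ((Xm e K a b * bm (-e) (K * K * J) (K * K) a b * Xm (-e) J a b * bm e (J * K) J a b).trace
          + (blk (K * K) a b).trace)
      + ((Xm e K a b * bm (-e) (K * J) K a b * Xm (-e) J a b * bm e (J * K * K) (J * K) a b).trace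
          - (Xm e K a b * blk K a b * bm e (K * K) K a b).trace)
      + ((Xm e K a b * bm e (K * K) K a b * Xm e K a b * bm (-e) (K * J) K a b * Xm (-e) J a b
            * bm e (J * K) J a b).trace
          + (bm e (K * K) K a b * Xm e K a b * blk K a b).trace) := by
  have h1 : Zz (del S a b) (upd e K a b) (upd (-e) J a b) =
      ((K + MomentB_A e K a b * (Xm e K a b * ((MomentB_C a b)ᵀ * K))) *
        (K + MomentB_A e K a b * (Xm e K a b * ((MomentB_C a b)ᵀ * K))) *
        ((J + idS S) + (MomentB_A (-e) J a b * (Xm (-e) J a b * ((MomentB_C a b)ᵀ * J)) -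
          MomentB_C a b * (MomentB_C a b)ᵀ))).trace := by
    have h2 : (J + idS S) + (MomentB_A (-e) J a b * (Xm (-e) J a b * ((MomentB_C a b)ᵀ * J)) -
        MomentB_C a b * (MomentB_C a b)ᵀ) = MomentB_P a b *
        ((J + J * MomentB_C a b * Xm (-e) J a b * ((MomentB_C a b)ᵀ * J)) + idS S) := by
      rw [Matrix.mul_add, MomentB_PM hJ hab hD', MomentB_P_eq hab, Matrix.sub_mul, Matrix.one_mul,
        Matrix.mul_assoc, MomentB_C_idS ha hb]
      abel
    rw [h2, ← MomentB_PM hK hab hD, Zz, MomentB_upd e, MomentB_upd (-e), MomentB_P_idS]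
    generalize K + K * MomentB_C a b * Xm e K a b * ((MomentB_C a b)ᵀ * K) = M
    generalize J + J * MomentB_C a b * Xm (-e) J a b * ((MomentB_C a b)ᵀ * J) = M'
    have hP : ∀ N : Matrix ι ι ℝ, MomentB_P a b * (MomentB_P a b * N) = MomentB_P a b * N :=
      fun N => by rw [← Matrix.mul_assoc, MomentB_PP]
    rw [← Matrix.add_mul, ← Matrix.mul_add, ← Matrix.mul_assoc, Matrix.trace_mul_comm]
    simp only [Matrix.mul_assoc, hP]
  rw [h1, Zz, MomentB_key _ _ _ _ _ _ _ _ (MomentB_CAX hK hab hD)]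
  simp only [bm, MomentB_bm]
  simp only [MomentB_blk]

end Crest.Agent.R62
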