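import Crest.Agent.R62.PDFin
import Crest.Agent.R62.MomentB

/-! The Huber function, generic averaging lemmas, the conflict counts. -/

set_option autoImplicit false
open Classical
open scoped Matrix
open Finset

noncomputable section
namespace Crest.Agent.R62

theorem hub_nonneg (x : ℝ) : 0 ≤ hub x := by
  unfold hub
  split_ifs <;> nlinarith
theorem hub_of_nonpos {x : ℝ} (h : x ≤ 0) : hub x = 0 := by
  unfold hub
  rw [if_pos h]
theorem le_of_hub_le {x : ℝ} (h : hub x ≤ 1) : x ≤ 3 / 2 := by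
  unfold hub at h
  split_ifs at h <;> linarith
theorem hub_mono {x y : ℝ} (h : x ≤ y) : hub x ≤ hub y := by
  unfold hub
  split_ifs <;> nlinarith
theorem hub_lip (x y : ℝ) : hub x ≤ hub y + |x - y| := by
  unfold hub
  rcases abs_cases (x - y) with ⟨h1, h2⟩ | ⟨h1, h2⟩ <;> rw [h1] <;> split_ifs <;> nlinarith
/-- there is a slope `g ∈ [0,1]`, zero when `x ≤ 0`, with a quadratic upper expansion -/
theorem hub_taylor (x : ℝ) : ∃ g : ℝ, 0 ≤ g ∧ g ≤ 1 ∧ (x ≤ 0 → g = 0) ∧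
    ∀ h, hub (x + h) ≤ hub x + g * h + h ^ 2 / 2 := by
  by_cases h0 : x ≤ 0
  · refine ⟨0, le_rfl, zero_le_one, fun _ => rfl, fun h => ?_⟩
    unfold hub
    rw [if_pos h0]
    split_ifs <;> nlinarith [sq_nonneg h, sq_nonneg (h - 1)]
  · by_cases h1 : x ≤ 1
    · refine ⟨x, by linarith, h1, fun h => absurd h h0, fun h => ?_⟩
      unfold hub
      rw [if_neg h0, if_pos h1]
      split_ifs <;> nlinarith [sq_nonneg (x + h), sq_nonneg (x + h - 1)]
    · refine ⟨1, zero_le_one, le_rfl, fun h => absurd h h0, fun h => ?_⟩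
      unfold hub
      rw [if_neg h0, if_neg h1]
      split_ifs <;> nlinarith [sq_nonneg h, sq_nonneg (h + 1), sq_nonneg (x + h - 1)]

variable {V ι : Type} [Fintype V] [Fintype ι] [DecidableEq ι]

/-- averaging a Huber term: the increment is at most `F + R` on the support of `w` -/
theorem hub_avg (S : Finset ι) (w : ι → ι → ℝ) (hw0 : ∀ a b, 0 ≤ w a b) (hw1 : ∀ a b, w a b ≤ 5 / 4)
    (x : ℝ) (x' F R : ι → ι → ℝ) (α β γ : ℝ) (hα : 0 ≤ α)
    (hx : ∀ a ∈ S, ∀ b ∈ S, w a b ≠ 0 → x' a b ≤ x + F a b + R a b)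
    (hF : 0 < x → ∑ a ∈ S, ∑ b ∈ S, w a b * F a b ≤ α)
    (hF2 : ∑ a ∈ S, ∑ b ∈ S, F a b ^ 2 ≤ β)
    (hR : ∑ a ∈ S, ∑ b ∈ S, (if w a b ≠ 0 then |R a b| else 0) ≤ γ) :
    ∑ a ∈ S, ∑ b ∈ S, w a b * (hub (x' a b) - hub x) ≤ α + β + 2 * γ := by
  obtain ⟨g, hg0, hg1, hgx, hg⟩ := hub_taylor x
  have key : ∀ a ∈ S, ∀ b ∈ S, w a b * (hub (x' a b) - hub x) ≤
      g * (w a b * F a b) + F a b ^ 2 + 2 * (if w a b ≠ 0 then |R a b| else 0) := by
    intro a ha b hb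
    by_cases h0 : w a b = 0
    · simp only [h0, zero_mul, mul_zero, ne_eq, not_true_eq_false, if_false, zero_add, add_zero]
      positivity
    · rw [if_pos h0]
      have h1 := hub_mono (hx a ha b hb h0)
      have h2 := hub_lip (x + F a b + R a b) (x + F a b)
      rw [add_sub_cancel_left] at h2
      have h3 := hg (F a b)
      have h4 : hub (x' a b) - hub x ≤ g * F a b + F a b ^ 2 / 2 + |R a b| := by linarith
      have h5 := mul_le_mul_of_nonneg_left h4 (hw0 a b)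
      have h6 := mul_le_mul_of_nonneg_right (hw1 a b) (sq_nonneg (F a b))
      have h7 := mul_le_mul_of_nonneg_right (hw1 a b) (abs_nonneg (R a b))
      nlinarith [sq_nonneg (F a b), abs_nonneg (R a b)]
  have h1 : ∑ a ∈ S, ∑ b ∈ S, w a b * (hub (x' a b) - hub x) ≤
      g * (∑ a ∈ S, ∑ b ∈ S, w a b * F a b) + ∑ a ∈ S, ∑ b ∈ S, F a b ^ 2
        + 2 * ∑ a ∈ S, ∑ b ∈ S, (if w a b ≠ 0 then |R a b| else 0) := by
    simp only [Finset.mul_sum, ← Finset.sum_add_distrib]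
    exact Finset.sum_le_sum fun a ha => Finset.sum_le_sum fun b hb => key a ha b hb
  have h2 : g * (∑ a ∈ S, ∑ b ∈ S, w a b * F a b) ≤ α := by
    rcases le_or_gt x 0 with h | h
    · rw [hgx h, zero_mul]
      exact hα
    · have := mul_le_mul_of_nonneg_left (hF h) hg0
      nlinarith
  linarith

/-- averaging a linear term `q / E` whose envelope shrinks at most at rate `ρ / N` -/
theorem lin_avg (S : Finset ι) (w : ι → ι → ℝ) (hw0 : ∀ a b, 0 ≤ w a b) (q E E' ρ η A : ℝ)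
    (q' : ι → ι → ℝ) (hS : 0 < (S.card : ℝ)) (hq : 0 ≤ q) (hE : 0 < E) (hE' : 0 < E') (hρ : 0 ≤ ρ)
    (hη : 0 ≤ η) (hEE : E * (1 - ρ / S.card) ≤ E') (hE2 : E ≤ 2 * E') (hqE : q ≤ E)
    (hZ : ∑ a ∈ S, ∑ b ∈ S, w a b ≤ (1 + η) * (S.card : ℝ) ^ 2)
    (hA : 0 ≤ A) (h : ∑ a ∈ S, ∑ b ∈ S, w a b * (q' a b - q) ≤ -ρ * S.card * q + A * S.card * E) :
    ∑ a ∈ S, ∑ b ∈ S, w a b * (q' a b / E' - q / E) ≤ 2 * (A + ρ * η) * S.card := by
  have h1 : ∀ a b, w a b * (q' a b / E' - q / E) ≤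
      E'⁻¹ * (w a b * (q' a b - q)) + (q * ρ / (S.card * E')) * w a b := by
    intro a b
    have h2 : q / E' - q / E ≤ q * ρ / (S.card * E') := by
      have h3 : q / E' - q / E = q * (E - E') / (E * E') := by field_simp
      have h4 : q * ρ / (S.card * E') = q * (E * (ρ / S.card)) / (E * E') := by field_simp
      rw [h3, h4]
      refine div_le_div_of_nonneg_right (mul_le_mul_of_nonneg_left (by linarith) hq) (by positivity)
    have h5 : q' a b / E' - q / E = E'⁻¹ * (q' a b - q) + (q / E' - q / E) := by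
      field_simp
      ring
    rw [h5]
    nlinarith [mul_le_mul_of_nonneg_left h2 (hw0 a b)]
  have h2 : ∑ a ∈ S, ∑ b ∈ S, w a b * (q' a b / E' - q / E) ≤
      E'⁻¹ * (∑ a ∈ S, ∑ b ∈ S, w a b * (q' a b - q))
        + (q * ρ / (S.card * E')) * ∑ a ∈ S, ∑ b ∈ S, w a b := by
    simp only [Finset.mul_sum, ← Finset.sum_add_distrib]
    exact Finset.sum_le_sum fun a _ => Finset.sum_le_sum fun b _ => h1 a b
  have h3 := mul_le_mul_of_nonneg_left h (inv_pos.2 hE').le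
  have h4 := mul_le_mul_of_nonneg_left hZ (by positivity : 0 ≤ q * ρ / (S.card * E'))
  have h5 : E'⁻¹ * (-ρ * S.card * q + A * S.card * E)
      + q * ρ / (S.card * E') * ((1 + η) * (S.card : ℝ) ^ 2)
      = S.card * (A * E + ρ * η * q) / E' := by
    field_simp
    ring
  have h6 : S.card * (A * E + ρ * η * q) / E' ≤ 2 * (A + ρ * η) * S.card := by
    rw [div_le_iff₀ hE']
    have h7 : A * E ≤ A * (2 * E') := mul_le_mul_of_nonneg_left hE2 hA
    have h8 : ρ * η * q ≤ ρ * η * (2 * E') :=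
      mul_le_mul_of_nonneg_left (hqE.trans hE2) (mul_nonneg hρ hη)
    nlinarith [mul_le_mul_of_nonneg_left (add_le_add h7 h8) hS.le]
  linarith

/-- from an averaged inequality to a pair -/
theorem exists_of_avg (S : Finset ι) (w : ι → ι → ℝ) (hw0 : ∀ a b, 0 ≤ w a b) (Φ A : ℝ)
    (Φ' : ι → ι → ℝ) (hS : 0 < (S.card : ℝ)) (hA : 0 ≤ A)
    (hZ : (S.card : ℝ) ^ 2 / 2 ≤ ∑ a ∈ S, ∑ b ∈ S, w a b)
    (h : ∑ a ∈ S, ∑ b ∈ S, w a b * (Φ' a b - Φ) ≤ A * S.card) :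
    ∃ a ∈ S, ∃ b ∈ S, w a b ≠ 0 ∧ Φ' a b ≤ Φ + 2 * A / S.card := by
  by_contra hc
  push Not at hc
  have hpos : ∃ a ∈ S, ∃ b ∈ S, w a b ≠ 0 := by
    by_contra h0
    push Not at h0
    rw [Finset.sum_eq_zero fun a ha => Finset.sum_eq_zero fun b hb => h0 a ha b hb] at hZ
    have : 0 < (S.card : ℝ) ^ 2 / 2 := by positivity
    linarith
  obtain ⟨a0, ha0, b0, hb0, h0⟩ := hpos
  have hle : ∀ a ∈ S, ∀ b ∈ S, w a b * (2 * A / S.card) ≤ w a b * (Φ' a b - Φ) := by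
    intro a ha b hb
    by_cases h1 : w a b = 0
    · simp [h1]
    · exact mul_le_mul_of_nonneg_left (by linarith [hc a ha b hb h1]) (hw0 a b)
  have hlt : ∑ a ∈ S, ∑ b ∈ S, w a b * (2 * A / S.card) <
      ∑ a ∈ S, ∑ b ∈ S, w a b * (Φ' a b - Φ) := by
    refine Finset.sum_lt_sum (fun a ha => Finset.sum_le_sum fun b hb => hle a ha b hb) ⟨a0, ha0, ?_⟩
    refine Finset.sum_lt_sum (fun b hb => hle a0 ha0 b hb) ⟨b0, hb0, ?_⟩
    exact mul_lt_mul_of_pos_left (by linarith [hc a0 ha0 b0 hb0 h0])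
      (lt_of_le_of_ne (hw0 a0 b0) (Ne.symm h0))
  simp only [← Finset.sum_mul] at hlt
  have h2 := mul_le_mul_of_nonneg_right hZ (by positivity : 0 ≤ 2 * A / S.card)
  have h3 : (S.card : ℝ) ^ 2 / 2 * (2 * A / S.card) = A * S.card := by field_simp
  linarith

omit [Fintype V] [Fintype ι] in
theorem Hub_Xs_eq (vx : ι → V) (S : Finset ι) :
    (Xs vx S : ℝ) = ∑ a ∈ S, ∑ c ∈ S, if a ≠ c ∧ vx a = vx c then 1 else 0 := by
  rw [Xs, Finset.natCast_card_filter, Finset.sum_product]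

omit [Fintype V] [Fintype ι] [DecidableEq ι] in
theorem Hub_Xa_eq (vx : ι → V) (G : SimpleGraph V) (S : Finset ι) :
    (Xa vx G S : ℝ) = ∑ a ∈ S, ∑ c ∈ S, if G.Adj (vx a) (vx c) then 1 else 0 := by
  rw [Xa, Finset.natCast_card_filter, Finset.sum_product]

omit [Fintype ι] in
theorem Hub_sum_del1 {S : Finset ι} {a b : ι} (ha : a ∈ S) (hb : b ∈ S) (hab : a ≠ b) (φ : ι → ℝ) :
    ∑ c ∈ del S a b, φ c = ∑ c ∈ S, φ c - φ a - φ b := by
  rw [del, Finset.sum_erase_eq_sub (Finset.mem_erase.2 ⟨hab.symm, hb⟩), Finset.sum_erase_eq_sub ha]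

omit [Fintype ι] in
theorem Hub_sum_del2 {S : Finset ι} {a b : ι} (ha : a ∈ S) (hb : b ∈ S) (hab : a ≠ b)
    (φ : ι → ι → ℝ) (hs : ∀ c f, φ c f = φ f c) (haa : φ a a = 0) (hbb : φ b b = 0)
    (h0 : φ a b = 0) : ∑ c ∈ del S a b, ∑ f ∈ del S a b, φ c f =
      ∑ c ∈ S, ∑ f ∈ S, φ c f - 2 * ∑ f ∈ S, φ a f - 2 * ∑ f ∈ S, φ b f := by
  simp only [Hub_sum_del1 ha hb hab, Finset.sum_sub_distrib, haa, hbb, h0, hs b a]
  have h1 : ∑ c ∈ S, φ c a = ∑ f ∈ S, φ a f := Finset.sum_congr rfl fun c _ => hs c a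
  have h2 : ∑ c ∈ S, φ c b = ∑ f ∈ S, φ b f := Finset.sum_congr rfl fun c _ => hs c b
  rw [h1, h2]
  ring

omit [Fintype V] [Fintype ι] in
theorem Hub_Xs_del {vx : ι → V} {G : SimpleGraph V} {S : Finset ι} {a b : ι} (ha : a ∈ S)
    (hb : b ∈ S) (hc : ¬ Conf vx G a b) : (Xs vx (del S a b) : ℝ) = Xs vx S
      - 2 * (∑ c ∈ S, if a ≠ c ∧ vx a = vx c then 1 else 0)
      - 2 * (∑ c ∈ S, if b ≠ c ∧ vx b = vx c then 1 else 0) := by
  have h1 : vx a ≠ vx b := fun h => hc (Or.inl h)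
  have hab : a ≠ b := fun h => h1 (by rw [h])
  rw [Hub_Xs_eq, Hub_Xs_eq]
  refine Hub_sum_del2 ha hb hab (fun a c => if a ≠ c ∧ vx a = vx c then 1 else 0) ?_ ?_ ?_ ?_
  · intro c f
    simp only [ne_comm (a := c), eq_comm (a := vx c)]
  · simp
  · simp
  · simp [h1]

omit [Fintype V] [Fintype ι] in
theorem Hub_Xa_del {vx : ι → V} {G : SimpleGraph V} {S : Finset ι} {a b : ι} (ha : a ∈ S)
    (hb : b ∈ S) (hc : ¬ Conf vx G a b) :
    (Xa vx (G ⊔ SimpleGraph.edge (vx a) (vx b)) (del S a b) : ℝ) ≤ Xa vx G S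
      - 2 * (∑ c ∈ S, if G.Adj (vx a) (vx c) then 1 else 0)
      - 2 * (∑ c ∈ S, if G.Adj (vx b) (vx c) then 1 else 0)
      + 2 * ((∑ c ∈ S, if a ≠ c ∧ vx a = vx c then 1 else 0) *
        (∑ c ∈ S, if b ≠ c ∧ vx b = vx c then 1 else 0)) := by
  have h1 : vx a ≠ vx b := fun h => hc (Or.inl h)
  have h2 : ¬ G.Adj (vx a) (vx b) := fun h => hc (Or.inr h)
  have hab : a ≠ b := fun h => h1 (by rw [h])
  rw [Hub_Xa_eq vx G S, ← Hub_sum_del2 ha hb hab (fun a c => if G.Adj (vx a) (vx c) then 1 else 0)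
    (fun c f => by simp only [G.adj_comm (vx c)]) (by simp) (by simp) (by simp [h2])]
  set A : ι → ℝ := fun c => if a ≠ c ∧ vx a = vx c then 1 else 0 with hA
  set B : ι → ℝ := fun c => if b ≠ c ∧ vx b = vx c then 1 else 0 with hB
  have hA0 : ∀ c, 0 ≤ A c := fun c => by simp only [hA]; split_ifs <;> norm_num
  have hB0 : ∀ c, 0 ≤ B c := fun c => by simp only [hB]; split_ifs <;> norm_num
  have hsub : del S a b ⊆ S := (Finset.erase_subset _ _).trans (Finset.erase_subset _ _)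
  have h3 : ∑ c ∈ del S a b, A c ≤ ∑ c ∈ S, A c :=
    Finset.sum_le_sum_of_subset_of_nonneg hsub fun c _ _ => hA0 c
  have h4 : ∑ c ∈ del S a b, B c ≤ ∑ c ∈ S, B c :=
    Finset.sum_le_sum_of_subset_of_nonneg hsub fun c _ _ => hB0 c
  have h5 : (∑ c ∈ del S a b, A c) * (∑ c ∈ del S a b, B c) ≤ (∑ c ∈ S, A c) * ∑ c ∈ S, B c :=
    mul_le_mul h3 h4 (Finset.sum_nonneg fun c _ => hB0 c) (Finset.sum_nonneg fun c _ => hA0 c)
  have h6 : (Xa vx (G ⊔ SimpleGraph.edge (vx a) (vx b)) (del S a b) : ℝ) ≤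
      (∑ c ∈ del S a b, ∑ f ∈ del S a b, if G.Adj (vx c) (vx f) then (1 : ℝ) else 0)
        + (∑ c ∈ del S a b, A c) * (∑ c ∈ del S a b, B c)
        + (∑ c ∈ del S a b, B c) * (∑ c ∈ del S a b, A c) := by
    rw [Hub_Xa_eq]
    simp only [Finset.sum_mul_sum, ← Finset.sum_add_distrib]
    refine Finset.sum_le_sum fun c hc' => Finset.sum_le_sum fun f hf => ?_
    simp only [del, Finset.mem_erase] at hc' hf
    have h7 := mul_nonneg (hA0 c) (hB0 f)
    have h8 := mul_nonneg (hB0 c) (hA0 f)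
    by_cases h9 : G.Adj (vx c) (vx f)
    · rw [if_pos h9]
      split_ifs <;> linarith
    · rw [if_neg h9]
      split_ifs with h10
      · rcases (SimpleGraph.sup_adj _ _ _ _).1 h10 with h11 | h11
        · exact absurd h11 h9
        · rcases ((SimpleGraph.edge_adj _ _ _ _).1 h11).1 with ⟨h12, h13⟩ | ⟨h12, h13⟩
          · have e1 : A c = 1 := if_pos ⟨hc'.2.1.symm, h12.symm⟩
            have e2 : B f = 1 := if_pos ⟨hf.1.symm, h13.symm⟩
            rw [e1, e2]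
            linarith
          · have e1 : B c = 1 := if_pos ⟨hc'.1.symm, h12.symm⟩
            have e2 : A f = 1 := if_pos ⟨hf.2.1.symm, h13.symm⟩
            rw [e1, e2]
            linarith
      · linarith
  linarith [mul_comm (∑ c ∈ del S a b, B c) (∑ c ∈ del S a b, A c)]

/-- step inequality for the conflict count `X = X_a + d μ² X_s` -/
theorem X_step {n d : ℕ} {vx : ι → V} {G : SimpleGraph V} {S : Finset ι} (hG : GInv n d vx G S)
    {K : Matrix ι ι ℝ} {w : ι → ι → ℝ} {eF eE er s μ : ℝ} (hw : Wt S K w eF eE er)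
    (hc : ∀ a b, w a b ≠ 0 → ¬ Conf vx G a b) (hs0 : 0 ≤ s) (hs : s ^ 2 = S.card) (hμ : 1 ≤ μ)
    (her : er ≤ s / μ ^ 2) :
    ∑ a ∈ S, ∑ b ∈ S, w a b * (XX μ d vx (G ⊔ SimpleGraph.edge (vx a) (vx b)) (del S a b) - XX μ d vx G S)
      ≤ -4 * S.card * XX μ d vx G S + 10 / μ ^ 2 * S.card * XX μ d vx G S := by
  set sa : ι → ℝ := fun a => ∑ c ∈ S, if a ≠ c ∧ vx a = vx c then 1 else 0 with hsa
  set ta : ι → ℝ := fun a => ∑ c ∈ S, if G.Adj (vx a) (vx c) then 1 else 0 with hta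
  have hsa0 : ∀ a, 0 ≤ sa a := fun a => Finset.sum_nonneg fun c _ => by split_ifs <;> norm_num
  have hta0 : ∀ a, 0 ≤ ta a := fun a => Finset.sum_nonneg fun c _ => by split_ifs <;> norm_num
  have hsad : ∀ a, sa a ≤ d := by
    intro a
    have h1 : (d : ℝ) = ∑ c, if vx c = vx a then 1 else 0 := by
      rw [← hG.fib (vx a), Finset.natCast_card_filter]
    rw [h1]
    refine (Finset.sum_le_sum fun c _ => ?_).trans
      (Finset.sum_le_sum_of_subset_of_nonneg (Finset.subset_univ S)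
        fun c _ _ => by split_ifs <;> norm_num)
    by_cases h2 : a ≠ c ∧ vx a = vx c
    · rw [if_pos h2, if_pos h2.2.symm]
    · rw [if_neg h2]
      split_ifs <;> norm_num
  have hμ0 : 0 < μ ^ 2 := by positivity
  set X := XX μ d vx G S with hX
  set xa : ι → ℝ := fun a => ta a + d * μ ^ 2 * sa a with hxa
  have hxa0 : ∀ a, 0 ≤ xa a := fun a => by
    have := hsa0 a
    have := hta0 a
    simp only [hxa]
    positivity
  have hXsum : X = ∑ a ∈ S, xa a := by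
    simp only [hX, XX, Hub_Xs_eq, Hub_Xa_eq, hxa, Finset.sum_add_distrib, ← Finset.mul_sum]
    rfl
  have hXs : d * μ ^ 2 * ∑ a ∈ S, sa a ≤ X := by
    rw [hXsum, Finset.mul_sum]
    exact Finset.sum_le_sum fun a _ => by simp only [hxa]; linarith [hta0 a]
  have hX0 : 0 ≤ X := by
    rw [hXsum]
    exact Finset.sum_nonneg fun a _ => hxa0 a
  have key : ∀ a ∈ S, ∀ b ∈ S, w a b * (XX μ d vx (G ⊔ SimpleGraph.edge (vx a) (vx b)) (del S a b)
      - X) ≤ -2 * (xa a * w a b) + -2 * (xa b * w b a) + 5 / 2 * d * sa a := by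
    intro a ha b hb
    have h5 : 0 ≤ 5 / 2 * d * sa a := by
      have := hsa0 a
      positivity
    by_cases h0 : w a b = 0
    · rw [← hw.symm a b, h0]
      simpa using h5
    · have h1 := Hub_Xs_del ha hb (hc a b h0)
      have h2 := Hub_Xa_del ha hb (hc a b h0)
      have h3 : XX μ d vx (G ⊔ SimpleGraph.edge (vx a) (vx b)) (del S a b) - X ≤
          -2 * xa a - 2 * xa b + 2 * (sa a * sa b) := by
        simp only [hX, XX, hxa, h1]
        simp only [hsa, hta]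
        linarith
      have h4 := mul_le_mul_of_nonneg_left h3 (hw.nonneg a b)
      have h6 : w a b * (sa a * sa b) ≤ 5 / 4 * (sa a * d) :=
        mul_le_mul (hw.le a b) (mul_le_mul_of_nonneg_left (hsad b) (hsa0 a))
          (mul_nonneg (hsa0 a) (hsa0 b)) (by norm_num)
      rw [← hw.symm a b]
      nlinarith
  have hrow : (S.card - S.card / μ ^ 2) * X ≤ ∑ a ∈ S, ∑ b ∈ S, xa a * w a b := by
    rw [hXsum, Finset.mul_sum]
    refine Finset.sum_le_sum fun a ha => ?_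
    rw [← Finset.mul_sum, mul_comm]
    refine mul_le_mul_of_nonneg_left ?_ (hxa0 a)
    have h1 := (abs_le.1 (hw.row_sum hs0 hs ha)).1
    have h2 : s * er ≤ S.card / μ ^ 2 := by
      rw [← hs]
      calc s * er ≤ s * (s / μ ^ 2) := mul_le_mul_of_nonneg_left her hs0
        _ = s ^ 2 / μ ^ 2 := by ring
    linarith
  have h1 : ∑ a ∈ S, ∑ b ∈ S, w a b * (XX μ d vx (G ⊔ SimpleGraph.edge (vx a) (vx b)) (del S a b)
      - X) ≤ -2 * (∑ a ∈ S, ∑ b ∈ S, xa a * w a b) + -2 * (∑ a ∈ S, ∑ b ∈ S, xa b * w b a)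
        + ∑ a ∈ S, ∑ _b ∈ S, 5 / 2 * d * sa a := by
    simp only [Finset.mul_sum, ← Finset.sum_add_distrib]
    exact Finset.sum_le_sum fun a ha => Finset.sum_le_sum fun b hb => key a ha b hb
  have h2 : ∑ a ∈ S, ∑ b ∈ S, xa b * w b a = ∑ a ∈ S, ∑ b ∈ S, xa a * w a b := Finset.sum_comm
  have h3 : ∑ a ∈ S, ∑ _b ∈ S, 5 / 2 * d * sa a = 5 / 2 * S.card * (d * ∑ a ∈ S, sa a) := by
    simp only [Finset.sum_const, nsmul_eq_mul, Finset.mul_sum]
    exact Finset.sum_congr rfl fun a _ => by ring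
  have h4 : d * ∑ a ∈ S, sa a ≤ X / μ ^ 2 := by
    rw [le_div_iff₀ hμ0]
    linarith
  have h5 := mul_le_mul_of_nonneg_left h4 (by positivity : (0 : ℝ) ≤ 5 / 2 * S.card)
  have h6 : 0 ≤ S.card * (X / μ ^ 2) := by positivity
  rw [h2, h3] at h1
  have e1 : (S.card - S.card / μ ^ 2) * X = S.card * X - S.card * (X / μ ^ 2) := by ring
  have e2 : 10 / μ ^ 2 * S.card * X = 10 * (S.card * (X / μ ^ 2)) := by ring
  rw [e1] at hrow
  rw [e2]
  linarith

end Crest.Agent.R62
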