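import Crest.Agent.R62.Round

/-! The initial potential is small. -/

set_option autoImplicit false
open Classical
open scoped Matrix
open Finset

noncomputable section
namespace Crest.Agent.R62

section
variable {V ι : Type} [Fintype V] [Fintype ι] [DecidableEq ι] {n d : ℕ} {vx : ι → V}

/-- the matrix with eigenvalues `α`, `β`, `γ` on the three isotypic components -/
def InitM (d : ℕ) (vx : ι → V) (α β γ : ℝ) : Matrix ι ι ℝ := Matrix.of fun a b =>
  (if a = b then α else 0) + (if vx a = vx b then (β - α) / d else 0) + (γ - β) / Fintype.card ι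

omit [DecidableEq ι] in
theorem Init_fib (h : GInv n d vx ⊥ univ) (v : V) (c : ℝ) :
    ∑ g, (if vx g = v then c else 0) = d * c := by
  rw [← Finset.sum_filter, Finset.sum_const, nsmul_eq_mul, h.fib v]

theorem InitM_mul (h : GInv n d vx ⊥ univ) (hd : 3 ≤ d) (hn : 1 ≤ n) (α β γ α' β' γ' : ℝ) :
    InitM d vx α β γ * InitM d vx α' β' γ' = InitM d vx (α * α') (β * β') (γ * γ') := by
  have hd0 : (d : ℝ) ≠ 0 := by positivity
  have hN : (Fintype.card ι : ℝ) ≠ 0 := by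
    rw [h.card_ι]; push_cast; positivity
  ext a b
  simp only [Matrix.mul_apply, InitM, Matrix.of_apply, add_mul, mul_add, Finset.sum_add_distrib]
  have e1 : ∑ g, (if a = g then α else 0) * (if g = b then α' else 0) =
      if a = b then α * α' else 0 := by simp
  have e2 : ∑ g, (if vx a = vx g then (β - α) / d else 0) * (if g = b then α' else 0) =
      if vx a = vx b then (β - α) / d * α' else 0 := by simp
  have e3 : ∑ g, (γ - β) / Fintype.card ι * (if g = b then α' else 0) =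
      (γ - β) / Fintype.card ι * α' := by simp
  have e4 : ∑ g, (if a = g then α else 0) * (if vx g = vx b then (β' - α') / d else 0) =
      if vx a = vx b then α * ((β' - α') / d) else 0 := by
    simp only [ite_mul, zero_mul, Finset.sum_ite_eq, mem_univ, if_true]
    split_ifs <;> simp
  have e5 : ∑ g, (if vx a = vx g then (β - α) / d else 0) *
      (if vx g = vx b then (β' - α') / d else 0) =
      if vx a = vx b then d * ((β - α) / d * ((β' - α') / d)) else 0 := by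
    split_ifs with hab
    · rw [← Init_fib h (vx b)]
      refine Finset.sum_congr rfl fun g _ => ?_
      by_cases hg : vx g = vx b
      · simp [hg, hab]
      · simp [hg]
    · refine Finset.sum_eq_zero fun g _ => ?_
      by_cases hg : vx g = vx b
      · simp [hg, hab]
      · simp [hg]
  have e6 : ∑ g, (γ - β) / Fintype.card ι * (if vx g = vx b then (β' - α') / d else 0) =
      (γ - β) / Fintype.card ι * (d * ((β' - α') / d)) := by
    rw [← Finset.mul_sum, Init_fib h]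
  have e7 : ∑ g, (if a = g then α else 0) * ((γ' - β') / Fintype.card ι) =
      α * ((γ' - β') / Fintype.card ι) := by simp
  have e8 : ∑ g, (if vx a = vx g then (β - α) / d else 0) * ((γ' - β') / Fintype.card ι) =
      d * ((β - α) / d) * ((γ' - β') / Fintype.card ι) := by
    rw [← Finset.sum_mul, ← Init_fib h (vx a)]
    simp only [eq_comm]
  have e9 : ∑ _g : ι, (γ - β) / Fintype.card ι * ((γ' - β') / Fintype.card ι) =
      Fintype.card ι * ((γ - β) / Fintype.card ι * ((γ' - β') / Fintype.card ι)) := by simp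
  rw [e1, e2, e3, e4, e5, e6, e7, e8, e9]
  split_ifs <;> field_simp <;> ring

omit [Fintype V] in
theorem InitM_diag (α β γ : ℝ) (a : ι) :
    InitM d vx α β γ a a = α + (β - α) / d + (γ - β) / Fintype.card ι := by
  simp [InitM]

theorem InitM_trace (h : GInv n d vx ⊥ univ) (hd : 3 ≤ d) (hn : 1 ≤ n) (α β γ : ℝ) :
    (InitM d vx α β γ).trace = n * d * α + n * (β - α) + (γ - β) := by
  have hd0 : (d : ℝ) ≠ 0 := by positivity
  have hn0 : (n : ℝ) ≠ 0 := by positivity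
  simp only [Matrix.trace, Matrix.diag_apply, InitM_diag, Finset.sum_const, nsmul_eq_mul,
    Finset.card_univ, h.card_ι]
  push_cast
  field_simp

omit [Fintype V] in
theorem Init_Kex (hd : 3 ≤ d) (e : ℝ) :
    Kex d vx e = InitM d vx (-pp d) √((d : ℝ) - 1) e := by
  obtain ⟨h0, -, h2, h3⟩ := pp_facts hd
  have hd0 : (d : ℝ) ≠ 0 := by positivity
  have h4 : (√((d : ℝ) - 1) - -pp d) / d = pp d := by
    rw [div_eq_iff hd0]
    apply mul_left_cancel₀ h0.ne'
    nlinarith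
  ext a b
  simp only [Kex, InitM, Matrix.of_apply, h4]
  split_ifs <;> ring

omit [Fintype V] in
theorem Init_add_id (α β γ : ℝ) :
    InitM d vx α β γ + idS univ = InitM d vx (α + 1) (β + 1) (γ + 1) := by
  ext a b
  simp only [InitM, idS, Matrix.add_apply, Matrix.of_apply, Matrix.diagonal_apply, mem_univ,
    if_true, add_sub_add_right_eq_sub]
  split_ifs <;> ring

theorem Init_num1 {n d p q e e' : ℝ} (hd : 3 ≤ d) (hn : 128 * d ^ 2 ≤ n) (p0 : 0 < p)
    (p1 : p ^ 2 ≤ 1 / 2) (p3 : p * q = 1) (hq2 : q ^ 2 = d - 1) (hq0 : 0 ≤ q)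
    (he : -1 ≤ e ∧ e ≤ 1) (he' : e' ≤ 1) :
    1 ≤ q ∧ q ≤ d - 1 ∧ (2 - d) ^ 2 ≤ d ^ 2 ∧ (e - q) ^ 2 ≤ d ^ 2 ∧
    n * (1 - p) + (n - 1) * ((d - 1) * (q + 1)) + (e' + 1) ≤ 2 * d ^ 2 * (n * d) ∧
    n * p ^ 2 + (n - 1) * (d - 1) ^ 2 + 1 ≤ d ^ 2 * n ∧
    (n - 1) * ((d - 1) * q) - n * p + e - d ^ 2 * n ≤ 0 ∧
    2 * n - ((n - 1) * ((d - 1) * q) - n * p + e) ≤ 0 := by
  have hq1 : 1.414 ≤ q := by
    by_contra hc
    nlinarith
  have hqd : q ≤ d - 1 := by nlinarith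
  have hp1 : p ≤ 0.7073 := by nlinarith
  have hd9 : 9 ≤ d ^ 2 := by nlinarith
  have hn0 : 0 < n := by linarith
  refine ⟨by linarith, hqd, by nlinarith, by nlinarith [he.1, he.2], ?_, ?_, ?_, ?_⟩
  · have h1 : (n - 1) * ((d - 1) * (q + 1)) ≤ n * (d * d) :=
      mul_le_mul (by linarith) (mul_le_mul (by linarith) (by linarith) (by linarith) (by linarith))
        (mul_nonneg (by linarith) (by linarith)) hn0.le
    have h2 : n * (1 - p) ≤ n * 1 := mul_le_mul_of_nonneg_left (by linarith) hn0.le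
    have h3 : n * (d * d) * 3 ≤ n * (d * d) * d :=
      mul_le_mul_of_nonneg_left hd (by positivity)
    have h4 : n * 9 ≤ n * d ^ 2 := mul_le_mul_of_nonneg_left hd9 hn0.le
    nlinarith
  · have h1 : n * p ^ 2 ≤ n * (1 / 2) := mul_le_mul_of_nonneg_left p1 hn0.le
    have h2 : n * 3 ≤ n * d := mul_le_mul_of_nonneg_left hd hn0.le
    nlinarith [sq_nonneg (d - 1)]
  · have h1 : (d - 1) * q ≤ (d - 1) * (d - 1) := mul_le_mul_of_nonneg_left hqd (by linarith)
    have h2 : (n - 1) * ((d - 1) * q) ≤ n * ((d - 1) * (d - 1)) :=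
      mul_le_mul (by linarith) h1 (mul_nonneg (by linarith) hq0) hn0.le
    have h3 : 0 ≤ n * p := by positivity
    have h4 : n * 3 ≤ n * d := mul_le_mul_of_nonneg_left hd hn0.le
    nlinarith [he.2]
  · have h1 : (d - 1) * q ≤ d ^ 2 := by nlinarith
    have h2 : 2.828 ≤ (d - 1) * q := by nlinarith
    have h3 : n * 2.828 ≤ n * ((d - 1) * q) := mul_le_mul_of_nonneg_left h2 hn0.le
    have h4 : n * p ≤ n * 0.7073 := mul_le_mul_of_nonneg_left hp1 hn0.le
    nlinarith [he.1]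

theorem Init_mom (h : GInv n d vx ⊥ univ) (hd : 3 ≤ d) (hn : 1 ≤ n) {p q e e' : ℝ}
    (p0 : 0 < p) (p2 : p ^ 2 * (d - 1) = 1) (p3 : p * q = 1) (hq2 : q ^ 2 = d - 1)
    (he2 : e * e = 1) :
    Tr 1 (InitM d vx (-p) q e) = e - q ∧ Tr 2 (InitM d vx (-p) q e) = n * d + 2 - d ∧
    Tr 3 (InitM d vx (-p) q e) = (n - 1) * ((d - 1) * q) - n * p + e ∧
    Tr 4 (InitM d vx (-p) q e) = n * p ^ 2 + (n - 1) * (d - 1) ^ 2 + 1 ∧
    Vs 1 univ (InitM d vx (-p) q e) = (2 - d) ^ 2 / (n * d) ∧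
    Dh (InitM d vx (-p) q e) = (e - q) ^ 2 / (n * d) ∧
    Zz univ (InitM d vx (-p) q e) (InitM d vx (-p) q e') =
      n * (1 - p) + (n - 1) * ((d - 1) * (q + 1)) + (e' + 1) := by
  have hd0 : (d : ℝ) ≠ 0 := by positivity
  have hn0 : (n : ℝ) ≠ 0 := by positivity
  have hN : (((univ : Finset ι).card : ℕ) : ℝ) = n * d := by
    rw [Finset.card_univ, h.card_ι]; push_cast; rfl
  have hN' : (Fintype.card ι : ℝ) = n * d := hN
  have T1 : Tr 1 (InitM d vx (-p) q e) = e - q := by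
    rw [Tr, pow_one, InitM_trace h hd hn]
    have : q = p * (d - 1) := by
      apply mul_left_cancel₀ p0.ne'
      linear_combination p3 - p2
    rw [this]; ring
  have T2 : Tr 2 (InitM d vx (-p) q e) = n * d + 2 - d := by
    rw [Tr, sq, InitM_mul h hd hn, InitM_trace h hd hn, he2]
    linear_combination (n : ℝ) * p2 + ((n : ℝ) - 1) * hq2
  have hdiag : ∀ (α β γ : ℝ) (a : ι),
      InitM d vx α β γ a a = (InitM d vx α β γ).trace / (n * d) := fun α β γ a => by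
    rw [InitM_trace h hd hn, InitM_diag, hN']
    field_simp
  refine ⟨T1, T2, ?_, ?_, ?_, ?_, ?_⟩
  · rw [Tr, pow_succ, sq, InitM_mul h hd hn, InitM_mul h hd hn, InitM_trace h hd hn, he2]
    linear_combination (-(n : ℝ) * p) * p2 + ((n : ℝ) - 1) * q * hq2
  · rw [Tr, show 4 = 2 + 2 from rfl, pow_add, sq, InitM_mul h hd hn, InitM_mul h hd hn,
      InitM_trace h hd hn, he2]
    linear_combination ((n : ℝ) * p ^ 2) * p2 + ((n : ℝ) - 1) * (q ^ 2 + (d - 1)) * hq2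
  · have hb : ∀ c, bet (InitM d vx (-p) q e) c - 1 = (2 - d) / (n * d) := fun c => by
      have := T2
      rw [Tr, sq, InitM_mul h hd hn] at this
      rw [bet, InitM_mul h hd hn, hdiag, this]
      field_simp
      ring
    simp only [Vs, hb, Finset.sum_const, nsmul_eq_mul, hN]
    field_simp
  · have hb : ∀ c, InitM d vx (-p) q e c c = (e - q) / (n * d) := fun c => by
      rw [hdiag, ← T1, Tr, pow_one]
    simp only [Dh, hb, Finset.sum_const, nsmul_eq_mul, hN]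
    field_simp
  · rw [Zz, Init_add_id, InitM_mul h hd hn, InitM_mul h hd hn, InitM_trace h hd hn, he2]
    linear_combination ((n : ℝ) * (1 - p)) * p2 + ((n : ℝ) - 1) * (q + 1) * hq2

theorem Init_num2 {m n d T : ℝ} (hm1 : 1 ≤ m) (hm : 128 * d ^ 2 ≤ m) (hn : n ≤ 2 * m ^ 4000)
    (hT : T ≤ d ^ 2 * n) : T / m ^ 4792 ≤ 1 / 64 := by
  rw [div_le_iff₀ (by positivity)]
  have h2 : m ^ 4000 * m ≤ m ^ 4792 := by
    rw [← pow_succ]; exact pow_le_pow_right₀ hm1 (by norm_num)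
  have h3 : d ^ 2 * n ≤ d ^ 2 * (2 * m ^ 4000) := mul_le_mul_of_nonneg_left hn (by positivity)
  have h4 : m ^ 4000 * (128 * d ^ 2) ≤ m ^ 4000 * m :=
    mul_le_mul_of_nonneg_left hm (by positivity)
  generalize m ^ 4000 = A at *
  generalize m ^ 4792 = B at *
  linarith

theorem Init_PhiA (h : GInv n d vx ⊥ univ) (hd : 3 ≤ d) {m : ℕ} (hm : 128 * d ^ 2 ≤ m)
    (hsc : Scale m n) {e e' : ℝ} (he : e = 1 ∨ e = -1) (he' : e' = 1 ∨ e' = -1) :
    PhiA (par0 (m : ℝ) n d (univ : Finset ι).card) univ (Kex d vx e) (Kex d vx e') ≤ 1 / 16 := by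
  obtain ⟨p0, p1, p2, p3⟩ := pp_facts hd
  have hd' : (3 : ℝ) ≤ d := by exact_mod_cast hd
  have hq2 : √((d : ℝ) - 1) ^ 2 = d - 1 := Real.sq_sqrt (by linarith)
  have hq0 : 0 ≤ √((d : ℝ) - 1) := Real.sqrt_nonneg _
  rw [Init_Kex hd e, Init_Kex hd e']
  generalize pp d = p at *
  generalize √((d : ℝ) - 1) = q at *
  have hm' : 128 * (d : ℝ) ^ 2 ≤ m := by exact_mod_cast hm
  have hdm : (d : ℝ) ≤ m := by nlinarith
  have hm2 : (2 : ℝ) ≤ m := by linarith
  have hm1 : (1 : ℝ) ≤ m := by linarith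
  have hn4 : (m : ℝ) ^ 4000 ≤ n := by exact_mod_cast hsc.1
  have hn4' : (n : ℝ) ≤ 2 * (m : ℝ) ^ 4000 := by exact_mod_cast hsc.2
  have hpm : ∀ a : ℕ, 1 ≤ a → (m : ℝ) ≤ (m : ℝ) ^ a := fun a ha => by
    simpa using pow_le_pow_right₀ hm1 ha
  have hmn : (m : ℝ) ≤ n := (hpm _ (by norm_num)).trans hn4
  have hn : 1 ≤ n := by exact_mod_cast hm1.trans hmn
  have hn0 : (0 : ℝ) < n := by linarith
  have hN : (((univ : Finset ι).card : ℕ) : ℝ) = n * d := by
    rw [Finset.card_univ, h.card_ι]; push_cast; rfl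
  have hN1 : (1 : ℝ) ≤ n * d := one_le_mul_of_one_le_of_one_le (by linarith) (by linarith)
  have he2 : e * e = 1 := by rcases he with rfl | rfl <;> norm_num
  have he1 : -1 ≤ e ∧ e ≤ 1 := by rcases he with rfl | rfl <;> norm_num
  have he1' : e' ≤ 1 := by rcases he' with rfl | rfl <;> norm_num
  obtain ⟨T1, T2, T3, T4, hV, hD, hZ⟩ := Init_mom (e' := e') h hd hn p0 p2 p3 hq2 he2
  obtain ⟨n1, n2, n3, n4, n5, n6, n7, n8⟩ :=
    Init_num1 hd' (hm'.trans hmn) p0 p1 p3 hq2 hq0 he1 he1'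
  obtain ⟨hG1, -⟩ := Round_G1 hm2 hn4
  have hmpos : ∀ a : ℕ, (0 : ℝ) < (m : ℝ) ^ a := fun a => by positivity
  have t1 : Tr 4 (InitM d vx (-p) q e) / (m : ℝ) ^ 4792 ≤ 1 / 64 :=
    Init_num2 hm1 hm' hn4' (T4 ▸ n6)
  clear hn4 hn4'
  have t2 : Vs 1 univ (InitM d vx (-p) q e) / (m : ℝ) ^ 2560 ≤ 1 / 64 := by
    rw [div_le_iff₀ (hmpos _), hV]
    have := hpm 2560 (by norm_num)
    have := div_le_self (sq_nonneg ((2 : ℝ) - d)) hN1
    linarith [sq_nonneg (d : ℝ)]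
  have t3 : Dh (InitM d vx (-p) q e) / (m : ℝ) ^ 600 ≤ 1 / 64 := by
    rw [div_le_iff₀ (hmpos _), hD]
    have := hpm 600 (by norm_num)
    have := div_le_self (sq_nonneg (e - q)) hN1
    linarith [sq_nonneg (d : ℝ)]
  have t4 : 1 / ((m : ℝ) ^ 740 * (n * d)) *
      Zz univ (InitM d vx (-p) q e) (InitM d vx (-p) q e') ≤ 1 / 64 := by
    rw [one_div, inv_mul_le_iff₀ (by positivity), hZ]
    have h1 := hpm 740 (by norm_num)
    have h2 : 128 * (d : ℝ) ^ 2 * (n * d) ≤ (m : ℝ) ^ 740 * (n * d) :=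
      mul_le_mul_of_nonneg_right (hm'.trans h1) (by linarith)
    linarith
  have hz : ∀ x w : ℝ, x ≤ 0 → 0 < w → hub (x / w) = 0 := fun x w hx hw =>
    hub_of_nonpos (div_nonpos_of_nonpos_of_nonneg hx hw.le)
  have z1 := hz (Tr 1 (InitM d vx (-p) q e) - G1 (m : ℝ) n / 25) (G1 (m : ℝ) n / 25)
    (by rw [T1]; linarith [he1.2]) (by linarith)
  have z2 := hz (-Tr 1 (InitM d vx (-p) q e) - (m : ℝ) ^ 1492) _
    (by rw [T1]; linarith [he1.1, hpm 1492 (by norm_num)]) (hmpos 1492)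
  have z3 := hz (-(m : ℝ) ^ 2696 - (n * d - Tr 2 (InitM d vx (-p) q e))) _
    (by rw [T2]; linarith [hmpos 2696]) (hmpos 2696)
  have z4 := hz (n * d - Tr 2 (InitM d vx (-p) q e) - (m : ℝ) ^ 2696) _
    (by rw [T2]; linarith [hpm 2696 (by norm_num)]) (hmpos 2696)
  have z5 := hz (2 * n - Tr 3 (InitM d vx (-p) q e)) (n / 10) (T3 ▸ n8) (by linarith)
  have z6 := hz (Tr 3 (InitM d vx (-p) q e) - d ^ 2 * n) (n / 10) (T3 ▸ n7) (by linarith)
  simp only [PhiA, par0, hN, yy, sub_self, mul_zero, sub_zero, z1, z2, z3, z4, z5, z6]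
  linarith

end

theorem Phi_init (d : ℕ) (hd : 3 ≤ d) : ∃ m0 : ℕ, ∀ m, m0 ≤ m → ∀ n, Scale m n →
      ∀ {V ι : Type} [Fintype V] [Fintype ι] [DecidableEq ι] (vx : ι → V),
      GInv n d vx ⊥ univ → Phi 0 m n d vx (st0 n d vx : St V ι ℝ) ≤ 1 / 4 := by
  obtain ⟨m0, hm0⟩ := Phi_perturb d hd
  refine ⟨max m0 (128 * d ^ 2), fun m hm n hsc V ι _ _ _ vx h => ?_⟩
  have hm1 : 128 * d ^ 2 ≤ m := (le_max_right _ _).trans hm
  have hm2 : 2 ≤ m := by nlinarith
  have hn2 : 2 ≤ n := hm2.trans ((Nat.le_self_pow (by norm_num) m).trans hsc.1)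
  have hn : 1 ≤ n := by omega
  have hN : 6 ≤ n * d := by nlinarith
  have hN' : (6 : ℝ) ≤ ((n * d : ℕ) : ℝ) := by exact_mod_cast hN
  obtain ⟨p0, p1, p2, p3⟩ := pp_facts hd
  have hd' : (3 : ℝ) ≤ d := by exact_mod_cast hd
  have hb : ∀ e : ℝ, e = 1 ∨ e = -1 → ∀ c f, |Kex d vx e c f| ≤ ((n * d : ℕ) : ℝ) := by
    intro e he c f
    have hq0 : 0 ≤ √((d : ℝ) - 1) := Real.sqrt_nonneg _
    have hq2 : √((d : ℝ) - 1) ^ 2 = d - 1 := Real.sq_sqrt (by linarith)
    have hqd : √((d : ℝ) - 1) ≤ d - 1 := by nlinarith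
    have hp1 : pp d ≤ 1 := by nlinarith
    have hdN : (d : ℝ) ≤ ((n * d : ℕ) : ℝ) := by exact_mod_cast Nat.le_mul_of_pos_left d hn
    have h1 : |(e - √((d : ℝ) - 1)) / Fintype.card ι| ≤ 1 := by
      rw [h.card_ι, abs_div, abs_of_pos (by linarith : (0 : ℝ) < ((n * d : ℕ) : ℝ)),
        div_le_one (by linarith), abs_le]
      rcases he with rfl | rfl <;> constructor <;> linarith
    have h2 := abs_le.1 h1
    simp only [Kex, Matrix.of_apply]
    rw [abs_le]
    split_ifs <;> constructor <;> linarith [h2.1, h2.2]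
  have hc : ∀ e : ℝ, e = 1 ∨ e = -1 → ∀ c f,
      |(K0 d ((n * d) ^ 30) vx e : Matrix ι ι ℝ) c f - Kex d vx e c f| ≤
        1 / ((n * d : ℕ) : ℝ) ^ 29 := by
    intro e he c f
    refine (K0_close hd hn he h (Nat.one_le_pow _ _ (by omega)) c f).trans (le_of_eq ?_)
    rw [h.card_ι, Nat.cast_pow]
    field_simp
  have hne : (univ : Finset ι).Nonempty := by
    rw [← Finset.card_pos, Finset.card_univ, h.card_ι]; omega
  have key := hm0 m ((le_max_left _ _).trans hm) n hsc vx ⟨univ, ⊥, Kex d vx 1, Kex d vx (-1)⟩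
    (st0 n d vx) 0 (by norm_num) h.card_ι rfl rfl hne (hb 1 (Or.inl rfl)) (hb (-1) (Or.inr rfl))
    (hc 1 (Or.inl rfl)) (hc (-1) (Or.inr rfl))
  have h1 := Init_PhiA h hd hm1 hsc (e := 1) (e' := -1) (Or.inl rfl) (Or.inr rfl)
  have h2 := Init_PhiA h hd hm1 hsc (e := -1) (e' := 1) (Or.inr rfl) (Or.inl rfl)
  have h3 : 1 / ((n * d : ℕ) : ℝ) ^ 2 ≤ 1 / 8 :=
    one_div_le_one_div_of_le (by norm_num) (by nlinarith)
  refine key.trans ?_
  simp only [Phi]
  linarith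

end Crest.Agent.R62
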