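import Crest.Agent.R62.Spec

/-! Summation lemmas for weighted pair sums (used by `VW` and `T2Step`). -/

set_option autoImplicit false
set_option linter.unusedSectionVars false
open Classical
open scoped Matrix
open Finset

noncomputable section
namespace Crest.Agent.R62

variable {ι : Type} [Fintype ι] [DecidableEq ι] {p e : ℝ} {S : Finset ι} {K : Matrix ι ι ℝ}

theorem VW_sym (S : Finset ι) (w : ι → ι → ℝ) (hw : ∀ a b, w a b = w b a) (F : ι → ι → ℝ) :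
    ∑ a ∈ S, ∑ b ∈ S, w a b * (F a b + F b a) = 2 * ∑ a ∈ S, ∑ b ∈ S, w a b * F a b := by
  have h : ∑ a ∈ S, ∑ b ∈ S, w a b * F b a = ∑ a ∈ S, ∑ b ∈ S, w a b * F a b := by
    rw [Finset.sum_comm]
    exact Finset.sum_congr rfl fun a _ => Finset.sum_congr rfl fun b _ => by rw [hw]
  simp only [mul_add, Finset.sum_add_distrib]
  rw [h]; ring

theorem VW_removal {w : ι → ι → ℝ} {eF eE er s : ℝ} (h : Wt S K w eF eE er) (hs0 : 0 ≤ s)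
    (hs : s ^ 2 = S.card) (f : ι → ℝ) (hf : ∀ a ∈ S, 0 ≤ f a) :
    (s ^ 2 - s * er) * ∑ a ∈ S, f a ≤ ∑ a ∈ S, ∑ b ∈ S, w a b * f a := by
  rw [Finset.mul_sum]
  refine Finset.sum_le_sum fun a ha => ?_
  rw [← Finset.sum_mul]
  refine mul_le_mul_of_nonneg_right ?_ (hf a ha)
  have := (abs_le.1 (h.row_sum hs0 hs ha)).1
  rw [hs]; linarith

theorem VW_le {w : ι → ι → ℝ} {eF eE er : ℝ} (h : Wt S K w eF eE er) (F : ι → ι → ℝ)
    (hF : ∀ a ∈ S, ∀ b ∈ S, 0 ≤ F a b) :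
    ∑ a ∈ S, ∑ b ∈ S, w a b * F a b ≤ 5 / 4 * ∑ a ∈ S, ∑ b ∈ S, F a b := by
  rw [Finset.mul_sum]
  refine Finset.sum_le_sum fun a ha => ?_
  rw [Finset.mul_sum]
  exact Finset.sum_le_sum fun b hb => mul_le_mul_of_nonneg_right (h.le a b) (hF a ha b hb)

theorem VW_mono {w : ι → ι → ℝ} {eF eE er : ℝ} (h : Wt S K w eF eE er) (F G : ι → ι → ℝ)
    (hF : ∀ a ∈ S, ∀ b ∈ S, Alw K a b → F a b ≤ G a b) :
    ∑ a ∈ S, ∑ b ∈ S, w a b * F a b ≤ ∑ a ∈ S, ∑ b ∈ S, w a b * G a b := by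
  refine Finset.sum_le_sum fun a ha => Finset.sum_le_sum fun b hb => ?_
  by_cases hw : w a b = 0
  · simp [hw]
  · exact mul_le_mul_of_nonneg_left (hF a ha b hb (h.supp a b hw)) (h.nonneg a b)

/-- Cauchy-Schwarz with explicit bounds -/
theorem VW_cs {κ : Type} (T : Finset κ) (f g : κ → ℝ) {A B : ℝ} (hA : 0 ≤ A) (hB : 0 ≤ B)
    (hf : ∑ c ∈ T, f c ^ 2 ≤ A ^ 2) (hg : ∑ c ∈ T, g c ^ 2 ≤ B ^ 2) :
    |∑ c ∈ T, f c * g c| ≤ A * B := by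
  have h1 := Finset.sum_mul_sq_le_sq_mul_sq T f g
  have h2 : (∑ c ∈ T, f c ^ 2) * (∑ c ∈ T, g c ^ 2) ≤ A ^ 2 * B ^ 2 :=
    mul_le_mul hf hg (Finset.sum_nonneg fun _ _ => sq_nonneg _) (sq_nonneg _)
  refine abs_le_of_sq_le_sq' ?_ (mul_nonneg hA hB) |> abs_le.2
  rw [mul_pow]; linarith

theorem VW_cs2 (S : Finset ι) (f g : ι → ι → ℝ) {A B : ℝ} (hA : 0 ≤ A) (hB : 0 ≤ B)
    (hf : ∑ a ∈ S, ∑ b ∈ S, f a b ^ 2 ≤ A ^ 2) (hg : ∑ a ∈ S, ∑ b ∈ S, g a b ^ 2 ≤ B ^ 2) :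
    |∑ a ∈ S, ∑ b ∈ S, f a b * g a b| ≤ A * B := by
  rw [← Finset.sum_product'] at hf hg ⊢
  exact VW_cs (S ×ˢ S) (fun q => f q.1 q.2) (fun q => g q.1 q.2) hA hB hf hg

theorem VW_sq_eq (K : Matrix ι ι ℝ) (c : ι) : (K ^ 2) c c = bet K c := by
  rw [bet, sq]

theorem VW_diag3 (h : Good p S e K) {s L lam r dd om ga : ℝ} (hb : Bd S K s L lam r dd om ga) :
    ∑ c ∈ S, (K ^ 3) c c ^ 2 ≤ ga ^ 2 := by
  refine le_trans ?_ hb.G
  have h4 : ∀ c, 0 ≤ (K ^ 4) c c := fun c => by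
    have := h.pow_diag 2 c
    norm_num at this
    rw [this]; exact Finset.sum_nonneg fun _ _ => sq_nonneg _
  calc ∑ c ∈ S, (K ^ 3) c c ^ 2 ≤ ∑ c ∈ S, bet K c * (K ^ 4) c c := by
        refine Finset.sum_le_sum fun c _ => ?_
        have := h.pow_entry 1 2 c c
        norm_num at this
        rwa [VW_sq_eq] at this
    _ ≤ _ := Finset.sum_le_sum_of_subset_of_nonneg (Finset.subset_univ _)
        fun c _ _ => mul_nonneg (h.bet_nonneg c) (h4 c)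

theorem VW_diag3_ge (h : Good p S e K) (c : ι) : -bet K c ≤ (K ^ 3) c c := by
  have := h.diag_odd_ge (j := 1) le_rfl c
  norm_num at this
  rwa [VW_sq_eq] at this

theorem VW_T2_nonneg (h : Good p S e K) : 0 ≤ Tr 2 K := by
  rw [h.Tr2_eq]; exact Finset.sum_nonneg fun c _ => h.bet_nonneg c

/-- decomposition of the increment of `Vs` -/
theorem VW_split {w : ι → ι → ℝ} {eF eE er : ℝ} (h : Wt S K w eF eE er) (s0 : ℝ)
    (D : ι → ι → ι → ℝ) (Δ : ι → ι → ℝ)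
    (hΔ : ∀ a ∈ S, ∀ b ∈ S, a ≠ b → Δ a b = -(bet K a - s0) ^ 2 - (bet K b - s0) ^ 2
      + ∑ c ∈ del S a b, (2 * (bet K c - s0) * D a b c + D a b c ^ 2)) :
    ∑ a ∈ S, ∑ b ∈ S, w a b * Δ a b =
      -(2 * ∑ a ∈ S, ∑ b ∈ S, w a b * (bet K a - s0) ^ 2)
      + ∑ a ∈ S, ∑ b ∈ S, w a b * ∑ c ∈ del S a b, 2 * (bet K c - s0) * D a b c
      + ∑ a ∈ S, ∑ b ∈ S, w a b * ∑ c ∈ del S a b, D a b c ^ 2 := by
  rw [← VW_sym S w h.symm (fun a _ => (bet K a - s0) ^ 2), ← Finset.sum_neg_distrib,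
    ← Finset.sum_add_distrib, ← Finset.sum_add_distrib]
  refine Finset.sum_congr rfl fun a ha => ?_
  rw [← Finset.sum_neg_distrib, ← Finset.sum_add_distrib, ← Finset.sum_add_distrib]
  refine Finset.sum_congr rfl fun b hb => ?_
  by_cases hw : w a b = 0
  · simp [hw]
  · rw [hΔ a ha b hb (h.supp a b hw).1, Finset.sum_add_distrib]; ring

end Crest.Agent.R62
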