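import Crest.Agent.R62.Beta1
import Crest.Agent.R62.Beta2
import Crest.Agent.R62.VWAux

/-! Step inequalities for `V = ∑ (β-1)²` and `W = ∑ β²`. -/

set_option autoImplicit false
open Classical
open scoped Matrix
open Finset

noncomputable section
namespace Crest.Agent.R62

theorem V_step : ∃ C : ℝ, 0 < C ∧ ∀ {ι : Type} [Fintype ι] [DecidableEq ι] {p e : ℝ} {S : Finset ι} {K : Matrix ι ι ℝ}
      {s L lam r dd om ga : ℝ}, Good p S e K → Bd S K s L lam r dd om ga →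
      ∀ {w : ι → ι → ℝ} {eF eE er ε δ tp tm t3 ym ya : ℝ}, Wt S K w eF eE er → 0 ≤ ε →
      1 ≤ δ → dd ≤ δ → δ ^ 2 ≤ s → s ≤ eE → r + δ ^ 2 ≤ er → er ≤ ε * s →
      1 ≤ ε * s * lam → eE * ga ≤ ε * s ^ 2 * lam → ga * er * δ ≤ ε * s ^ 2 * lam →
      om * er * lam ≤ ε * s ^ 2 * lam → om * L ^ 2 ≤ ε * s ^ 2 * lam → om * δ * lam ≤ ε * s ^ 2 * lam →
      om * δ ^ 2 * r ^ 2 ≤ ε * s ^ 2 * lam → om * δ * L * r ≤ ε * s ^ 2 * lam →
      om * s * er ≤ ε * s ^ 2 * lam → δ ^ 2 * s * lam ≤ ε * s ^ 2 * lam →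
      lam ^ 2 * δ * r * om ≤ ε * s ^ 2 * lam ^ 2 → δ ^ 4 * r ^ 2 * lam ^ 2 ≤ ε * s ^ 2 * lam ^ 2 →
      δ ^ 6 * r * lam ^ 2 ≤ ε * s ^ 2 * lam ^ 2 → ga ^ 2 ≤ ε * s ^ 2 * lam ^ 2 →
      δ ^ 4 * r ^ 2 * om ^ 2 ≤ ε * s ^ 2 * lam ^ 2 →
      0 ≤ tp → 0 ≤ tm → 0 ≤ ym → Tr 1 K ≤ tp → -Tr 1 K ≤ tm → Tr 3 K + Tr 2 K ≤ t3 →
      -yy S K ≤ ym → |yy S K| ≤ ya →
      tp * ga ≤ ε * s ^ 2 * lam → tm * om ≤ ε * s ^ 2 * lam → tm * t3 ≤ ε * s ^ 2 * lam ^ 2 →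
      ym ≤ ε * s ^ 2 → ya ^ 2 ≤ ε * s ^ 2 * lam ^ 2 →
      ∑ a ∈ S, ∑ b ∈ S, w a b * (Vs 1 (del S a b) (upd e K a b) - Vs 1 S K) ≤
        -2 * s ^ 2 * Vs 1 S K + 8 / 5 * Tr 2 K * Vs 1 S K + C * ε * s ^ 2 * lam ^ 2 := by
  obtain ⟨C1, hC1, h1⟩ := beta_first
  obtain ⟨C2, hC2, h2⟩ := beta_second
  refine ⟨C1 + C2 + 40, by positivity, ?_⟩
  intro ι _ _ p e S K s L lam r dd om ga hK hb w eF eE er ε δ tp tm t3 ym ya hw hε hδ hdd hδs hsE hrer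
    her a1 a2 a3 a4 a5 a6 a7 a8 a9 a10 b1 b2 b3 b4 b5 htp htm hym hT1p hT1m hT3 hy hya c1 c2 c3 c4 c5
  have hs0 : 0 ≤ s := by linarith only [hb.s_ge]
  have hlam := hb.lam_nonneg
  have hV : ∑ c ∈ S, (bet K c - 1) ^ 2 ≤ lam ^ 2 := hb.V
  have hW : ∑ c ∈ S, bet K c ^ 2 ≤ om ^ 2 := by simpa [Vs] using hb.W
  have hV0 : 0 ≤ Vs 1 S K := Finset.sum_nonneg fun _ _ => sq_nonneg _
  rw [VW_split hw 1 (fun a b c => bet (upd e K a b) c - bet K c) _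
    (fun a ha b hb hab => Vs_upd 1 ha hb hab)]
  have e1 := h1 hK hb (fun c => bet K c - 1) hw hε hδ hdd hδs hsE hrer hlam hV a1 a2 a3 a4 a5 a6 a7
    a8 a9 a10
  have e2 := h2 hK hb hw.nonneg hw.le hw.supp hε hδ hdd b1 b2 b3 b4 b5
  have e3 := VW_removal hw hs0 hb.hs (fun c => (bet K c - 1) ^ 2) (fun _ _ => sq_nonneg _)
  have hVs : ∑ c ∈ S, (bet K c - 1) ^ 2 = Vs 1 S K := rfl
  rw [hVs] at e3
  have e4 : ∑ c ∈ S, (bet K c - 1) * bet K c = Vs 1 S K - yy S K := by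
    rw [yy, hK.Tr2_eq, ← hVs, Finset.card_eq_sum_ones, Nat.cast_sum, ← Finset.sum_sub_distrib,
      ← Finset.sum_sub_distrib]
    exact Finset.sum_congr rfl fun c _ => by push_cast; ring
  rw [e4] at e1
  have hVl : Vs 1 S K ≤ lam ^ 2 := hb.V
  -- removal
  have r1 : s * er * Vs 1 S K ≤ ε * s ^ 2 * lam ^ 2 := by
    have : s * er ≤ ε * s ^ 2 := by nlinarith only [mul_le_mul_of_nonneg_left her hs0]
    exact mul_le_mul this hVl hV0 (by positivity)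
  -- the `y` terms
  have r2 : -yy S K * Vs 1 S K ≤ ε * s ^ 2 * lam ^ 2 :=
    le_trans (mul_le_mul_of_nonneg_right hy hV0) (mul_le_mul c4 hVl hV0 (by positivity))
  have r3 : yy S K ^ 2 ≤ ε * s ^ 2 * lam ^ 2 := by
    refine le_trans ?_ c5
    rw [← sq_abs]
    exact pow_le_pow_left₀ (abs_nonneg _) hya 2
  -- the `T₁` term
  have r4 : Tr 1 K * ∑ c ∈ S, (bet K c - 1) * (K ^ 3) c c ≤ 2 * (ε * s ^ 2 * lam ^ 2) := by
    have hpos : 0 ≤ ε * s ^ 2 * lam ^ 2 := by positivity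
    rcases le_total 0 (Tr 1 K) with hT | hT
    · have q1 := (abs_le.1 (VW_cs S (fun c => bet K c - 1) (fun c => (K ^ 3) c c) hlam hb.ga_nonneg hV
        (VW_diag3 hK hb))).2
      have q2 : Tr 1 K * ∑ c ∈ S, (bet K c - 1) * (K ^ 3) c c ≤ tp * (lam * ga) :=
        le_trans (mul_le_mul_of_nonneg_left q1 hT)
          (mul_le_mul_of_nonneg_right hT1p (mul_nonneg hlam hb.ga_nonneg))
      have q3 : tp * ga * lam ≤ ε * s ^ 2 * lam * lam := mul_le_mul_of_nonneg_right c1 hlam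
      linarith only [q2, q3, hpos]
    · have q1 := (abs_le.1 (VW_cs S (fun c => |bet K c - 1|) (fun c => bet K c) hlam hb.om_nonneg
        (by simpa only [sq_abs] using hV) hW)).2
      have q0 : -∑ c ∈ S, (bet K c - 1) * (K ^ 3) c c ≤
          ∑ c ∈ S, |bet K c - 1| * bet K c + (Tr 3 K + Tr 2 K) := by
        rw [hK.Tr_eq (by norm_num : 1 ≤ 3), hK.Tr2_eq, ← Finset.sum_neg_distrib,
          ← Finset.sum_add_distrib, ← Finset.sum_add_distrib]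
        refine Finset.sum_le_sum fun c _ => ?_
        have g1 := VW_diag3_ge hK c
        have g2 := hK.bet_nonneg c
        rcases le_total 0 (bet K c - 1) with hu | hu
        · rw [abs_of_nonneg hu]; nlinarith only [g1, g2, hu]
        · rw [abs_of_nonpos hu]; nlinarith only [g1, g2, hu]
      have hT32 : 0 ≤ Tr 3 K + Tr 2 K := by
        have := hK.Tr_odd_ge (j := 1) le_rfl
        norm_num at this
        linarith only [this]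
      have q2 : -∑ c ∈ S, (bet K c - 1) * (K ^ 3) c c ≤ lam * om + t3 := by linarith only [q0, q1, hT3]
      have hB : 0 ≤ lam * om + t3 := by
        have := mul_nonneg hlam hb.om_nonneg
        linarith only [this, hT32, hT3]
      have q3 : -Tr 1 K * -∑ c ∈ S, (bet K c - 1) * (K ^ 3) c c ≤ tm * (lam * om + t3) :=
        le_trans (mul_le_mul_of_nonneg_left q2 (by linarith only [hT])) (mul_le_mul_of_nonneg_right hT1m hB)
      have q4 : tm * om * lam ≤ ε * s ^ 2 * lam * lam := mul_le_mul_of_nonneg_right c2 hlam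
      linarith only [q3, q4, c3]
  have hpos : 0 ≤ ε * s ^ 2 * lam ^ 2 := by positivity
  linarith only [e1, e2, e3, r1, r2, r3, r4, hpos]

theorem W_step : ∃ C : ℝ, 0 < C ∧ ∀ {ι : Type} [Fintype ι] [DecidableEq ι] {p e : ℝ} {S : Finset ι} {K : Matrix ι ι ℝ}
      {s L lam r dd om ga : ℝ}, Good p S e K → Bd S K s L lam r dd om ga →
      ∀ {w : ι → ι → ℝ} {eF eE er ε δ tp tm : ℝ}, Wt S K w eF eE er → 0 ≤ ε →
      1 ≤ δ → dd ≤ δ → δ ^ 2 ≤ s → s ≤ eE → r + δ ^ 2 ≤ er → er ≤ ε * s →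
      1 ≤ ε * s * om → eE * ga ≤ ε * s ^ 2 * om → ga * er * δ ≤ ε * s ^ 2 * om →
      om * er * lam ≤ ε * s ^ 2 * om → om * L ^ 2 ≤ ε * s ^ 2 * om → om * δ * lam ≤ ε * s ^ 2 * om →
      om * δ ^ 2 * r ^ 2 ≤ ε * s ^ 2 * om → om * δ * L * r ≤ ε * s ^ 2 * om →
      om * s * er ≤ ε * s ^ 2 * om → δ ^ 2 * s * lam ≤ ε * s ^ 2 * om →
      lam ^ 2 * δ * r * om ≤ ε * s ^ 2 * om ^ 2 → δ ^ 4 * r ^ 2 * lam ^ 2 ≤ ε * s ^ 2 * om ^ 2 →
      δ ^ 6 * r * lam ^ 2 ≤ ε * s ^ 2 * om ^ 2 → ga ^ 2 ≤ ε * s ^ 2 * om ^ 2 →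
      δ ^ 4 * r ^ 2 * om ^ 2 ≤ ε * s ^ 2 * om ^ 2 →
      0 ≤ tp → 0 ≤ tm → Tr 1 K ≤ tp → -Tr 1 K ≤ tm →
      tp * ga ≤ ε * s ^ 2 * om → tm ≤ ε * s ^ 2 → Tr 2 K ≤ ε * s ^ 2 →
      Tr 2 K * lam ^ 2 ≤ ε * s ^ 2 * om ^ 2 →
      ∑ a ∈ S, ∑ b ∈ S, w a b * (Vs 0 (del S a b) (upd e K a b) - Vs 0 S K) ≤
        -4 * s ^ 2 * Vs 0 S K + C * ε * s ^ 2 * om ^ 2 := by
  obtain ⟨C1, hC1, h1⟩ := beta_first
  obtain ⟨C2, hC2, h2⟩ := beta_second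
  refine ⟨C1 + C2 + 40, by positivity, ?_⟩
  intro ι _ _ p e S K s L lam r dd om ga hK hb w eF eE er ε δ tp tm hw hε hδ hdd hδs hsE hrer
    her a1 a2 a3 a4 a5 a6 a7 a8 a9 a10 b1 b2 b3 b4 b5 htp htm hT1p hT1m c1 c2 c3 c4
  have hs0 : 0 ≤ s := by linarith only [hb.s_ge]
  have hom := hb.om_nonneg
  have hW : ∑ c ∈ S, (bet K c - 0) ^ 2 ≤ om ^ 2 := hb.W
  have hW0 : 0 ≤ Vs 0 S K := Finset.sum_nonneg fun _ _ => sq_nonneg _
  rw [VW_split hw 0 (fun a b c => bet (upd e K a b) c - bet K c) _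
    (fun a ha b hb hab => Vs_upd 0 ha hb hab)]
  have e1 := h1 hK hb (fun c => bet K c - 0) hw hε hδ hdd hδs hsE hrer hom hW a1 a2 a3 a4 a5 a6 a7
    a8 a9 a10
  have e2 := h2 hK hb hw.nonneg hw.le hw.supp hε hδ hdd b1 b2 b3 b4 b5
  have e3 := VW_removal hw hs0 hb.hs (fun c => (bet K c - 0) ^ 2) (fun _ _ => sq_nonneg _)
  have hVs : ∑ c ∈ S, (bet K c - 0) ^ 2 = Vs 0 S K := rfl
  rw [hVs] at e3
  have e4 : ∑ c ∈ S, (bet K c - 0) * bet K c = Vs 0 S K := by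
    rw [← hVs]
    exact Finset.sum_congr rfl fun c _ => by ring
  rw [e4, yy, ← hb.hs] at e1
  have hWl : Vs 0 S K ≤ om ^ 2 := hb.W
  have hT2 := VW_T2_nonneg hK
  have r1 : s * er * Vs 0 S K ≤ ε * s ^ 2 * om ^ 2 := by
    have : s * er ≤ ε * s ^ 2 := by nlinarith only [mul_le_mul_of_nonneg_left her hs0]
    exact mul_le_mul this hWl hW0 (by positivity)
  have r2 : Tr 2 K * Vs 0 S K ≤ ε * s ^ 2 * om ^ 2 := mul_le_mul c3 hWl hW0 (by positivity)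
  have r3 : Tr 2 K * Vs 1 S K ≤ ε * s ^ 2 * om ^ 2 :=
    le_trans (mul_le_mul_of_nonneg_left hb.V hT2) c4
  have r4 : Tr 1 K * ∑ c ∈ S, (bet K c - 0) * (K ^ 3) c c ≤ ε * s ^ 2 * om ^ 2 := by
    rcases le_total 0 (Tr 1 K) with hT | hT
    · have q1 := (abs_le.1 (VW_cs S (fun c => bet K c - 0) (fun c => (K ^ 3) c c) hom hb.ga_nonneg hW
        (VW_diag3 hK hb))).2
      have q2 : Tr 1 K * ∑ c ∈ S, (bet K c - 0) * (K ^ 3) c c ≤ tp * (om * ga) :=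
        le_trans (mul_le_mul_of_nonneg_left q1 hT)
          (mul_le_mul_of_nonneg_right hT1p (mul_nonneg hom hb.ga_nonneg))
      have q3 : tp * ga * om ≤ ε * s ^ 2 * om * om := mul_le_mul_of_nonneg_right c1 hom
      linarith only [q2, q3]
    · have q0 : -∑ c ∈ S, (bet K c - 0) * (K ^ 3) c c ≤ Vs 0 S K := by
        rw [← hVs, ← Finset.sum_neg_distrib]
        refine Finset.sum_le_sum fun c _ => ?_
        have g1 := VW_diag3_ge hK c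
        have g2 := hK.bet_nonneg c
        nlinarith only [g1, g2]
      have q3 : -Tr 1 K * -∑ c ∈ S, (bet K c - 0) * (K ^ 3) c c ≤ tm * Vs 0 S K :=
        le_trans (mul_le_mul_of_nonneg_left q0 (by linarith only [hT])) (mul_le_mul_of_nonneg_right hT1m hW0)
      have q4 : tm * Vs 0 S K ≤ ε * s ^ 2 * om ^ 2 := mul_le_mul c2 hWl hW0 (by positivity)
      linarith only [q3, q4]
  have hpos : 0 ≤ ε * s ^ 2 * om ^ 2 := by positivity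
  have hpos2 : 0 ≤ s ^ 2 * Vs 0 S K := by positivity
  linarith only [e1, e2, e3, r1, r2, r3, r4, hpos, hpos2]

end Crest.Agent.R62
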