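import Crest.Agent.R62.Spec

/-! The tilted weights are close to uniform. -/

set_option autoImplicit false
open Classical
open scoped Matrix
open Finset

noncomputable section
namespace Crest.Agent.R62

theorem wt_swap {ι : Type} [Fintype ι] [DecidableEq ι] (conf : ι → ι → Prop) (θ e : ℝ)
    (K J : Matrix ι ι ℝ) : wt conf θ (-e) J K = wt conf θ e K J := by
  funext a b
  unfold wt
  by_cases h : ¬ conf a b ∧ Alw K a b ∧ Alw J a b
  · rw [if_pos h, if_pos ⟨h.1, h.2.2, h.2.1⟩]; ring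
  · rw [if_neg h, if_neg (fun h' => h ⟨h'.1, h'.2.2, h'.2.1⟩)]

theorem wt_ne_zero {ι : Type} [Fintype ι] [DecidableEq ι] {conf : ι → ι → Prop} {θ e : ℝ}
    {K J : Matrix ι ι ℝ} {a b : ι} (h : wt conf θ e K J a b ≠ 0) :
    ¬ conf a b ∧ Alw K a b ∧ Alw J a b := by
  by_contra h'
  exact h (by unfold wt; rw [if_neg h'])

/-- bilinear form bounded by the operator norm -/
theorem Weights_form {ι : Type} [Fintype ι] [DecidableEq ι] {K : Matrix ι ι ℝ} {L : ℝ}
    (hL : 0 ≤ L) (ho : OpB K L) (x y : ι → ℝ) :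
    |∑ a, ∑ b, x a * K a b * y b| ≤ L * √(∑ a, x a ^ 2) * √(∑ b, y b ^ 2) := by
  have h1 : ∑ a, ∑ b, x a * K a b * y b = ∑ a, x a * (K *ᵥ y) a := by
    refine sum_congr rfl fun a _ => ?_
    simp only [Matrix.mulVec, dotProduct, mul_sum]
    exact sum_congr rfl fun b _ => by ring
  rw [h1]
  have h2 := sum_mul_sq_le_sq_mul_sq univ x (K *ᵥ y)
  have h3 := ho y
  have hx : 0 ≤ ∑ a, x a ^ 2 := sum_nonneg fun _ _ => sq_nonneg _
  have hy : 0 ≤ ∑ a, y a ^ 2 := sum_nonneg fun _ _ => sq_nonneg _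
  apply abs_le_of_sq_le_sq' _ (by positivity) |> fun h => abs_le.mpr h
  rw [mul_pow, mul_pow, Real.sq_sqrt hx, Real.sq_sqrt hy]
  calc _ ≤ _ := h2
    _ ≤ (∑ a, x a ^ 2) * (L ^ 2 * ∑ a, y a ^ 2) := mul_le_mul_of_nonneg_left h3 hx
    _ = _ := by ring

/-- operator norm of the truncation: `Q = PKP - Big` -/
theorem Qm_op {ι : Type} [Fintype ι] [DecidableEq ι] {p e : ℝ} {S : Finset ι} {K J : Matrix ι ι ℝ}
    (hK : Good p S e K) {L θ : ℝ} (hL : 0 ≤ L) (ho : OpB K L) (hθ : 0 ≤ θ) (x y : ι → ℝ) :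
    |∑ a ∈ S, ∑ b ∈ S, x a * Qm θ K J a b * y b| ≤
      (L + 16 * θ) * √(∑ a ∈ S, x a ^ 2) * √(∑ b ∈ S, y b ^ 2) := by
  set P : ι → Prop := fun a => bet K a ≤ 2 ∧ bet J a ≤ 2 with hP
  set x' : ι → ℝ := fun a => if a ∈ S ∧ P a then x a else 0 with hx'
  set y' : ι → ℝ := fun a => if a ∈ S ∧ P a then y a else 0 with hy'
  set Big : ι → ι → ℝ := fun a b => if P a ∧ P b ∧ 1 < 8 * θ * |K a b| then K a b else 0 with hBig
  have hsq : ∀ z : ι → ℝ, ∑ a, (if a ∈ S ∧ P a then z a else 0) ^ 2 ≤ ∑ a ∈ S, z a ^ 2 := by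
    intro z
    have : ∑ a ∈ S, z a ^ 2 = ∑ a, if a ∈ S then z a ^ 2 else 0 := by
      rw [sum_ite_mem, univ_inter]
    rw [this]
    refine sum_le_sum fun a _ => ?_
    by_cases ha : a ∈ S
    · by_cases hp : P a
      · simp [ha, hp]
      · simp [ha, hp, sq_nonneg]
    · simp [ha]
  have hsplit : ∑ a ∈ S, ∑ b ∈ S, x a * Qm θ K J a b * y b =
      ∑ a, ∑ b, x' a * K a b * y' b - ∑ a ∈ S, ∑ b ∈ S, x a * Big a b * y b := by
    have e1 : ∑ a, ∑ b, x' a * K a b * y' b = ∑ a ∈ S, ∑ b ∈ S, x' a * K a b * y' b := by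
      symm
      rw [← sum_subset (subset_univ S) (f := fun a => ∑ b, x' a * K a b * y' b)]
      · refine sum_congr rfl fun a _ => ?_
        refine sum_subset (subset_univ S) fun b _ hb => ?_
        simp [hy', hb]
      · intro a _ ha
        simp [hx', ha]
    rw [e1, ← sum_sub_distrib]
    refine sum_congr rfl fun a ha => ?_
    rw [← sum_sub_distrib]
    refine sum_congr rfl fun b hb => ?_
    unfold Qm
    simp only [hx', hy', hBig, ha, hb, true_and]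
    by_cases pa : P a
    · by_cases pb : P b
      · by_cases h8 : 8 * θ * |K a b| ≤ 1
        · rw [if_pos ⟨pa.1, pa.2, pb.1, pb.2, h8⟩, if_pos pa, if_pos pb,
            if_neg (fun h => absurd h.2.2 (not_lt.mpr h8))]
          ring
        · rw [if_neg (fun h => h8 h.2.2.2.2), if_pos pa, if_pos pb,
            if_pos ⟨pa, pb, not_le.mp h8⟩]
          ring
      · have hn : ¬ (P a ∧ P b ∧ 1 < 8 * θ * |K a b|) := fun h => pb h.2.1
        rw [if_neg (fun h => pb ⟨h.2.2.1, h.2.2.2.1⟩), if_neg pb, if_neg hn]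
        ring
    · have hn : ¬ (P a ∧ P b ∧ 1 < 8 * θ * |K a b|) := fun h => pa h.1
      rw [if_neg (fun h => pa ⟨h.1, h.2.1⟩), if_neg pa, if_neg hn]
      ring
  have hA : |∑ a, ∑ b, x' a * K a b * y' b| ≤ L * √(∑ a ∈ S, x a ^ 2) * √(∑ b ∈ S, y b ^ 2) := by
    refine (Weights_form hL ho x' y').trans ?_
    have h1 := Real.sqrt_le_sqrt (hsq x)
    have h2 := Real.sqrt_le_sqrt (hsq y)
    gcongr
  have hB : |∑ a ∈ S, ∑ b ∈ S, x a * Big a b * y b| ≤
      (16 * θ) * √(∑ a ∈ S, x a ^ 2) * √(∑ b ∈ S, y b ^ 2) := by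
    refine schur_test S Big (16 * θ) (by positivity) ?_ ?_ x y
    · intro a b
      simp only [hBig]
      rw [hK.symm b a]
      by_cases h : P a ∧ P b ∧ 1 < 8 * θ * |K a b|
      · rw [if_pos h, if_pos ⟨h.2.1, h.1, h.2.2⟩]
      · rw [if_neg h, if_neg (fun h' => h ⟨h'.2.1, h'.1, h'.2.2⟩)]
    · intro a _
      by_cases pa : P a
      · have h1 : ∑ b ∈ S, |Big a b| ≤ ∑ b ∈ S, 8 * θ * K a b ^ 2 := by
          refine sum_le_sum fun b _ => ?_
          simp only [hBig]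
          split_ifs with h
          · have := h.2.2
            have h0 := abs_nonneg (K a b)
            rw [← sq_abs]
            nlinarith
          · simp only [abs_zero]; positivity
        have h2 : ∑ b ∈ S, K a b ^ 2 ≤ bet K a := by
          rw [hK.bet_eq]
          exact sum_le_sum_of_subset_of_nonneg (subset_univ S) fun _ _ _ => sq_nonneg _
        rw [← mul_sum] at h1
        have := pa.1
        nlinarith
      · have : ∀ b, Big a b = 0 := fun b => by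
          simp only [hBig]; rw [if_neg (fun h => pa h.1)]
        simp only [this, abs_zero, sum_const_zero]
        positivity
  rw [hsplit]
  calc _ ≤ _ := abs_sub _ _
    _ ≤ _ := add_le_add hA hB
    _ = _ := by ring

theorem Weights_Qm_abs {ι : Type} [Fintype ι] [DecidableEq ι] {θ : ℝ} (hθ : 0 ≤ θ)
    (K J : Matrix ι ι ℝ) (a b : ι) : |θ * Qm θ K J a b| ≤ 1 / 8 := by
  unfold Qm
  split_ifs with h
  · rw [abs_mul, abs_of_nonneg hθ]; linarith [h.2.2.2.2]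
  · simp

theorem Weights_Qm_symm {ι : Type} [Fintype ι] [DecidableEq ι] {p e : ℝ} {S : Finset ι}
    {K : Matrix ι ι ℝ} (hK : Good p S e K) (θ : ℝ) (J : Matrix ι ι ℝ) (a b : ι) :
    Qm θ K J a b = Qm θ K J b a := by
  unfold Qm
  rw [hK.symm b a]
  by_cases h : bet K a ≤ 2 ∧ bet J a ≤ 2 ∧ bet K b ≤ 2 ∧ bet J b ≤ 2 ∧ 8 * θ * |K a b| ≤ 1
  · rw [if_pos h, if_pos ⟨h.2.2.1, h.2.2.2.1, h.1, h.2.1, h.2.2.2.2⟩]
  · rw [if_neg h, if_neg (fun h' => h ⟨h'.2.2.1, h'.2.2.2.1, h'.1, h'.2.1, h'.2.2.2.2⟩)]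

theorem Weights_Qm_row {ι : Type} [Fintype ι] [DecidableEq ι] {p e : ℝ} {S : Finset ι}
    {K : Matrix ι ι ℝ} (hK : Good p S e K) (θ : ℝ) (J : Matrix ι ι ℝ) (a : ι) :
    ∑ b ∈ S, Qm θ K J a b ^ 2 ≤ 2 := by
  by_cases pa : bet K a ≤ 2
  · have h2 : ∑ b ∈ S, K a b ^ 2 ≤ bet K a := by
      rw [hK.bet_eq]
      exact sum_le_sum_of_subset_of_nonneg (subset_univ S) fun _ _ _ => sq_nonneg _
    refine le_trans (sum_le_sum fun b _ => ?_) (h2.trans pa)
    unfold Qm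
    split_ifs
    · exact le_rfl
    · simp [sq_nonneg]
  · have : ∀ b, Qm θ K J a b = 0 := fun b => by
      unfold Qm; rw [if_neg (fun h => pa h.1)]
    simp [this]

/-- the indicator of the excluded pairs -/
def Weights_ex {ι : Type} [Fintype ι] [DecidableEq ι] (conf : ι → ι → Prop) (K J : Matrix ι ι ℝ)
    (a b : ι) : ℝ := if ¬ conf a b ∧ Alw K a b ∧ Alw J a b then 0 else 1

theorem Weights_ex_le {ι : Type} [Fintype ι] [DecidableEq ι] (conf : ι → ι → Prop)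
    (K J : Matrix ι ι ℝ) (a b : ι) :
    Weights_ex conf K J a b ≤ (if conf a b then 1 else 0) + (if a = b then 1 else 0) +
      10 ^ 6 * (K a b ^ 2 + K a a ^ 2 * K b b ^ 2 + J a b ^ 2 + J a a ^ 2 * J b b ^ 2) := by
  have big : ∀ t : ℝ, ¬ |t| ≤ 1 / 1000 → 1 ≤ 10 ^ 6 * t ^ 2 := by
    intro t ht
    have h := not_le.mp ht
    rw [← sq_abs]
    nlinarith
  have i1 : (0 : ℝ) ≤ if conf a b then 1 else 0 := by split_ifs <;> norm_num
  have i2 : (0 : ℝ) ≤ if a = b then 1 else 0 := by split_ifs <;> norm_num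
  have q1 := sq_nonneg (K a b)
  have q2 : 0 ≤ K a a ^ 2 * K b b ^ 2 := by positivity
  have q3 := sq_nonneg (J a b)
  have q4 : 0 ≤ J a a ^ 2 * J b b ^ 2 := by positivity
  unfold Weights_ex
  by_cases h : ¬ conf a b ∧ Alw K a b ∧ Alw J a b
  · rw [if_pos h]; positivity
  rw [if_neg h]
  by_cases hc : conf a b
  · rw [if_pos hc]; nlinarith
  by_cases hab : a = b
  · rw [if_pos hab]; nlinarith
  by_cases h1 : |K a b| ≤ 1 / 1000
  · by_cases h2 : |K a a * K b b| ≤ 1 / 1000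
    · by_cases h3 : |J a b| ≤ 1 / 1000
      · by_cases h4 : |J a a * J b b| ≤ 1 / 1000
        · exact absurd ⟨hc, ⟨hab, h1, h2⟩, ⟨hab, h3, h4⟩⟩ h
        · have := big _ h4; rw [mul_pow] at this; nlinarith
      · have := big _ h3; nlinarith
    · have := big _ h2; rw [mul_pow] at this; nlinarith
  · have := big _ h1; nlinarith

theorem Weights_ex_row {ι : Type} [Fintype ι] [DecidableEq ι] {p e e' : ℝ} {S : Finset ι}
    {K J : Matrix ι ι ℝ} (hK : Good p S e K) (hJ : Good p S e' J) {conf : ι → ι → Prop} {κ : ℝ}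
    (hκ : ∀ a, ((S.filter fun b => conf a b).card : ℝ) ≤ κ) (a : ι) :
    ∑ b ∈ S, Weights_ex conf K J a b ≤ κ + 1 +
      10 ^ 6 * (bet K a + K a a ^ 2 * Dh K + bet J a + J a a ^ 2 * Dh J) := by
  refine (sum_le_sum fun b _ => Weights_ex_le conf K J a b).trans ?_
  rw [sum_add_distrib, sum_add_distrib, ← mul_sum, sum_add_distrib, sum_add_distrib,
    sum_add_distrib, ← mul_sum, ← mul_sum, ← hK.Dh_eq, ← hJ.Dh_eq]
  have h1 : ∑ b ∈ S, (if conf a b then (1 : ℝ) else 0) ≤ κ := by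
    rw [sum_boole]; exact hκ a
  have h2 : ∑ b ∈ S, (if a = b then (1 : ℝ) else 0) ≤ 1 := by
    rw [sum_ite_eq]; split_ifs <;> norm_num
  have h3 : ∑ b ∈ S, K a b ^ 2 ≤ bet K a := by
    rw [hK.bet_eq]
    exact sum_le_sum_of_subset_of_nonneg (subset_univ S) fun _ _ _ => sq_nonneg _
  have h4 : ∑ b ∈ S, J a b ^ 2 ≤ bet J a := by
    rw [hJ.bet_eq]
    exact sum_le_sum_of_subset_of_nonneg (subset_univ S) fun _ _ _ => sq_nonneg _
  nlinarith

theorem wt_props (κ : ℝ) : ∃ C : ℝ, 0 < C ∧ ∀ {ι : Type} [Fintype ι] [DecidableEq ι] {p e : ℝ} {S : Finset ι} {K J : Matrix ι ι ℝ}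
      {s L lam r dd om ga : ℝ}, Good p S e K → Good p S (-e) J → Bd S K s L lam r dd om ga →
      Bd S J s L lam r dd om ga →
      ∀ {conf : ι → ι → Prop} {θ : ℝ}, (∀ a b, conf a b → conf b a) →
      (∀ a, ((S.filter fun b => conf a b).card : ℝ) ≤ κ) → 0 ≤ θ → θ ≤ L → dd ^ 2 ≤ s →
      Wt S K (wt conf θ e K J) (C * (1 + θ) * s) (C * (s + θ * L)) (C * (r + dd ^ 2 + θ)) := by
  refine ⟨|κ| + 10 ^ 4, by positivity, ?_⟩
  intro ι _ _ p e S K J s L lam r dd om ga hK hJ bK bJ conf θ hconf hκ hθ hθL hdd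
  set C : ℝ := |κ| + 10 ^ 4 with hC
  have hk0 := abs_nonneg κ
  have hk1 := le_abs_self κ
  have hC0 : 0 < C := by positivity
  have hC34 : 34 ≤ C := by rw [hC]; linarith
  have hC2 : 2 * (|κ| + 1 + 6 * 10 ^ 6 + 8) ≤ C ^ 2 := by rw [hC]; nlinarith
  have hs : 0 ≤ s := by linarith [bK.s_ge]
  have hL : 0 ≤ L := by linarith [bK.L_ge]
  have hr : 1 ≤ r := bK.r_ge
  have he2 : e ^ 2 = 1 := by rcases hK.sign with h | h <;> rw [h] <;> norm_num
  have he1 : |e| = 1 := by rcases hK.sign with h | h <;> rw [h] <;> norm_num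
  set Δ : ι → ι → ℝ := fun a b => θ * e * (Qm θ K J a b - Qm θ J K a b) with hΔ
  have hΔabs : ∀ a b, |Δ a b| ≤ 1 / 4 := by
    intro a b
    have h1 := Weights_Qm_abs hθ K J a b
    have h2 := Weights_Qm_abs hθ J K a b
    have : Δ a b = e * (θ * Qm θ K J a b - θ * Qm θ J K a b) := by simp only [hΔ]; ring
    rw [this, abs_mul, he1, one_mul]
    refine (abs_sub _ _).trans ?_
    linarith
  have hΔrow : ∀ a, ∑ b ∈ S, Δ a b ^ 2 ≤ 8 * θ ^ 2 := by
    intro a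
    have h1 := Weights_Qm_row hK θ J a
    have h2 := Weights_Qm_row hJ θ K a
    have h3 : ∑ b ∈ S, Δ a b ^ 2 ≤
        ∑ b ∈ S, 2 * θ ^ 2 * (Qm θ K J a b ^ 2 + Qm θ J K a b ^ 2) := by
      refine sum_le_sum fun b _ => ?_
      simp only [hΔ]
      rw [mul_pow, mul_pow, he2, mul_one]
      have := sq_nonneg θ
      nlinarith [mul_nonneg this (sq_nonneg (Qm θ K J a b + Qm θ J K a b))]
    rw [← mul_sum, sum_add_distrib] at h3
    have := sq_nonneg θ
    nlinarith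
  have hE : ∀ a b, 1 - wt conf θ e K J a b =
      Weights_ex conf K J a b * (1 - Δ a b) + Δ a b := by
    intro a b
    unfold wt Weights_ex
    split_ifs <;> simp only [hΔ] <;> ring
  have hE2 : ∀ a b, (1 - wt conf θ e K J a b) ^ 2 ≤ Weights_ex conf K J a b + Δ a b ^ 2 := by
    intro a b
    rw [hE]
    unfold Weights_ex
    split_ifs
    · simp
    · have := sq_nonneg (Δ a b); nlinarith
  have hDK0 : 0 ≤ Dh K := sum_nonneg fun _ _ => sq_nonneg _
  have hDJ0 : 0 ≤ Dh J := sum_nonneg fun _ _ => sq_nonneg _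
  have hd4 : (dd ^ 2) ^ 2 ≤ s ^ 2 := pow_le_pow_left₀ (sq_nonneg _) hdd 2
  have hDK2 : Dh K * Dh K ≤ (dd ^ 2) ^ 2 := by
    rw [sq (dd ^ 2)]; exact mul_le_mul bK.D bK.D hDK0 (sq_nonneg _)
  have hDJ2 : Dh J * Dh J ≤ (dd ^ 2) ^ 2 := by
    rw [sq (dd ^ 2)]; exact mul_le_mul bJ.D bJ.D hDJ0 (sq_nonneg _)
  have hexF : ∑ a ∈ S, ∑ b ∈ S, Weights_ex conf K J a b ≤ (|κ| + 1 + 6 * 10 ^ 6) * s ^ 2 := by
    refine (sum_le_sum fun a _ => Weights_ex_row hK hJ hκ a).trans ?_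
    rw [sum_add_distrib, sum_const, ← mul_sum, sum_add_distrib, sum_add_distrib, sum_add_distrib,
      ← sum_mul, ← sum_mul, ← hK.Dh_eq, ← hJ.Dh_eq, ← hK.Tr2_eq, ← hJ.Tr2_eq,
      nsmul_eq_mul, ← bK.hs]
    have := bK.T2
    have := bJ.T2
    have := sq_nonneg s
    nlinarith
  refine ⟨?_, ?_, ?_, ?_, by positivity, by positivity, by positivity, ?_, ?_, ?_⟩
  · intro a b
    have := abs_le.mp (hΔabs a b)
    unfold wt
    split_ifs
    · simp only [hΔ] at this; linarith [this.2]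
    · exact le_rfl
  · intro a b
    have := abs_le.mp (hΔabs a b)
    unfold wt
    split_ifs
    · simp only [hΔ] at this; linarith [this.1]
    · norm_num
  · intro a b
    unfold wt
    rw [Weights_Qm_symm hK θ J b a, Weights_Qm_symm hJ θ K b a]
    by_cases h : ¬ conf a b ∧ Alw K a b ∧ Alw J a b
    · rw [if_pos h, if_pos ⟨fun h' => h.1 (hconf _ _ h'), h.2.1.symm hK, h.2.2.symm hJ⟩]
    · rw [if_neg h, if_neg (fun h' => h ⟨fun h'' => h'.1 (hconf _ _ h''), h'.2.1.symm hK,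
        h'.2.2.symm hJ⟩)]
  · intro a b h
    exact (wt_ne_zero h).2.1
  · have h1 : ∑ a ∈ S, ∑ b ∈ S, (1 - wt conf θ e K J a b) ^ 2 ≤
        ∑ a ∈ S, ∑ b ∈ S, Weights_ex conf K J a b + ∑ a ∈ S, 8 * θ ^ 2 := by
      rw [← sum_add_distrib]
      refine sum_le_sum fun a _ => ?_
      refine (sum_le_sum fun b _ => hE2 a b).trans ?_
      rw [sum_add_distrib]
      linarith [hΔrow a]
    rw [sum_const, nsmul_eq_mul, ← bK.hs] at h1
    refine h1.trans ?_
    have h2 : (|κ| + 1 + 6 * 10 ^ 6) + 8 * θ ^ 2 ≤ C ^ 2 * (1 + θ) ^ 2 := by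
      have := sq_nonneg θ
      have h3 : 1 + θ ^ 2 ≤ (1 + θ) ^ 2 := by nlinarith
      have h4 : C ^ 2 * (1 + θ ^ 2) ≤ C ^ 2 * (1 + θ) ^ 2 :=
        mul_le_mul_of_nonneg_left h3 (sq_nonneg _)
      nlinarith
    have h5 := mul_le_mul_of_nonneg_right h2 (sq_nonneg s)
    calc _ ≤ (|κ| + 1 + 6 * 10 ^ 6 + 8 * θ ^ 2) * s ^ 2 := by nlinarith
      _ ≤ _ := h5
      _ = _ := by ring
  · intro x y
    have hsplit : ∑ a ∈ S, ∑ b ∈ S, x a * (1 - wt conf θ e K J a b) * y b =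
        ∑ a ∈ S, ∑ b ∈ S, x a * (Weights_ex conf K J a b * (1 - Δ a b)) * y b +
        θ * e * (∑ a ∈ S, ∑ b ∈ S, x a * Qm θ K J a b * y b -
          ∑ a ∈ S, ∑ b ∈ S, x a * Qm θ J K a b * y b) := by
      rw [← sum_sub_distrib, mul_sum, ← sum_add_distrib]
      refine sum_congr rfl fun a _ => ?_
      rw [← sum_sub_distrib, mul_sum, ← sum_add_distrib]
      refine sum_congr rfl fun b _ => ?_
      rw [hE]; simp only [hΔ]; ring
    have hX := Real.sqrt_nonneg (∑ a ∈ S, x a ^ 2)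
    have hY := Real.sqrt_nonneg (∑ a ∈ S, y a ^ 2)
    set X := √(∑ a ∈ S, x a ^ 2)
    set Y := √(∑ a ∈ S, y a ^ 2)
    have h1 := frob_test S (fun a b => Weights_ex conf K J a b * (1 - Δ a b)) x y
    have h2 : √(∑ a ∈ S, ∑ b ∈ S, (Weights_ex conf K J a b * (1 - Δ a b)) ^ 2) ≤ C * s := by
      apply Real.sqrt_le_iff.mpr
      refine ⟨by positivity, ?_⟩
      have h3 : ∑ a ∈ S, ∑ b ∈ S, (Weights_ex conf K J a b * (1 - Δ a b)) ^ 2 ≤
          ∑ a ∈ S, ∑ b ∈ S, 2 * Weights_ex conf K J a b := by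
        refine sum_le_sum fun a _ => sum_le_sum fun b _ => ?_
        have := abs_le.mp (hΔabs a b)
        unfold Weights_ex
        split_ifs
        · simp
        · nlinarith [this.1, this.2]
      simp only [← mul_sum] at h3
      have := sq_nonneg s
      rw [mul_pow]
      nlinarith
    have h4 := Qm_op (J := J) hK hL bK.op hθ x y
    have h5 := Qm_op (J := K) hJ hL bJ.op hθ x y
    rw [hsplit]
    refine (abs_add_le _ _).trans ?_
    have h6 : |θ * e * (∑ a ∈ S, ∑ b ∈ S, x a * Qm θ K J a b * y b -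
          ∑ a ∈ S, ∑ b ∈ S, x a * Qm θ J K a b * y b)| ≤ θ * (34 * L) * X * Y := by
      rw [abs_mul, abs_mul, he1, mul_one, abs_of_nonneg hθ, mul_assoc, mul_assoc]
      refine mul_le_mul_of_nonneg_left ((abs_sub _ _).trans ?_) hθ
      have hXY := mul_nonneg hX hY
      have : (L + 16 * θ) * X * Y ≤ 17 * L * (X * Y) := by
        rw [mul_assoc]; exact mul_le_mul_of_nonneg_right (by linarith) hXY
      linarith
    have h7 : |∑ a ∈ S, ∑ b ∈ S, x a * (Weights_ex conf K J a b * (1 - Δ a b)) * y b| ≤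
        C * s * X * Y := h1.trans (by gcongr)
    have hXY := mul_nonneg hX hY
    have h8 : θ * (34 * L) ≤ C * (θ * L) := by
      have := mul_nonneg hθ hL
      nlinarith
    have h9 := mul_le_mul_of_nonneg_right h8 hXY
    nlinarith
  · intro a ha
    have h1 : ∑ b ∈ S, (1 - wt conf θ e K J a b) ^ 2 ≤
        ∑ b ∈ S, Weights_ex conf K J a b + 8 * θ ^ 2 := by
      refine (sum_le_sum fun b _ => hE2 a b).trans ?_
      rw [sum_add_distrib]
      linarith [hΔrow a]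
    have h2 := Weights_ex_row hK hJ hκ a
    have h3 : K a a ^ 2 ≤ Dh K := single_le_sum (f := fun c => K c c ^ 2)
      (fun _ _ => sq_nonneg _) (mem_univ a)
    have h4 : J a a ^ 2 ≤ Dh J := single_le_sum (f := fun c => J c c ^ 2)
      (fun _ _ => sq_nonneg _) (mem_univ a)
    have h5 := mul_le_mul_of_nonneg_right h3 hDK0
    have h6 := mul_le_mul_of_nonneg_right h4 hDJ0
    have h7 := bK.beta a
    have h8 := bJ.beta a
    have hd := sq_nonneg dd
    have h9 : r ^ 2 + (dd ^ 2) ^ 2 + θ ^ 2 ≤ (r + dd ^ 2 + θ) ^ 2 := by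
      have := mul_nonneg hd hθ
      have := mul_nonneg (by linarith : (0 : ℝ) ≤ r) hθ
      have := mul_nonneg (by linarith : (0 : ℝ) ≤ r) hd
      nlinarith
    have h10 : C ^ 2 * (r ^ 2 + (dd ^ 2) ^ 2 + θ ^ 2) ≤ C ^ 2 * (r + dd ^ 2 + θ) ^ 2 :=
      mul_le_mul_of_nonneg_left h9 (sq_nonneg _)
    rw [mul_pow]
    refine le_trans ?_ h10
    have hr2 : 1 ≤ r ^ 2 := by nlinarith
    have q1 := sq_nonneg (dd ^ 2)
    have q2 := sq_nonneg θ
    have h11 : (|κ| + 1 + 6 * 10 ^ 6 + 8) * (r ^ 2 + (dd ^ 2) ^ 2 + θ ^ 2) ≤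
        C ^ 2 * (r ^ 2 + (dd ^ 2) ^ 2 + θ ^ 2) :=
      mul_le_mul_of_nonneg_right (by linarith) (by positivity)
    refine le_trans ?_ h11
    have h12 : |κ| * 1 ≤ |κ| * r ^ 2 := mul_le_mul_of_nonneg_left hr2 hk0
    have h13 := mul_nonneg hk0 q1
    have h14 := mul_nonneg hk0 q2
    nlinarith

end Crest.Agent.R62
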