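import Crest.Agent.R62.Sig
import Crest.Agent.R62.DStep
import Crest.Agent.R62.VW
import Crest.Agent.R62.Weights

/-! The step theorem of phase 1. -/

set_option autoImplicit false
open Classical
open scoped Matrix
open Finset

noncomputable section
namespace Crest.Agent.R62

namespace Ph1Aux

/-- monomials -/
def P (l a : ℝ) : ℝ := Real.exp (a * l)

theorem P_anchor : type_of% @P.eq_1 := @P.eq_1

variable {l a b c : ℝ}

theorem P_pos (l a : ℝ) : 0 < P l a := Real.exp_pos _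

theorem P_mul (l a b : ℝ) : P l a * P l b = P l (a + b) := by
  unfold P
  rw [← Real.exp_add, add_mul]

theorem P_pow (l a : ℝ) (k : ℕ) : P l a ^ k = P l (k * a) := by
  unfold P
  rw [← Real.exp_nat_mul, mul_assoc]

theorem P_div (l a b : ℝ) : P l a / P l b = P l (a - b) := by
  rw [div_eq_iff (P_pos l b).ne', P_mul, sub_add_cancel]

theorem P_zero (l : ℝ) : P l 0 = 1 := by
  unfold P
  rw [zero_mul, Real.exp_zero]

theorem P_le (hl : 0 ≤ l) (h : a ≤ b) : P l a ≤ P l b :=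
  Real.exp_le_exp.2 (mul_le_mul_of_nonneg_right h hl)

theorem le_of_P_le (hl : 0 < l) (h : P l a ≤ P l b) : a ≤ b :=
  le_of_mul_le_mul_right (Real.exp_le_exp.1 h) hl

theorem one_le_P (hl : 0 ≤ l) (h : 0 ≤ a) : 1 ≤ P l a := P_zero l ▸ P_le hl h

theorem mul_P_le (hl : 0 ≤ l) (hc : c ≤ P l 1) (h : a + 1 ≤ b) : c * P l a ≤ P l b :=
  (mul_le_mul_of_nonneg_right hc (P_pos l a).le).trans
    ((P_mul l 1 a).trans_le (P_le hl (by linarith)))

/-- a Huber term with all side conditions in product form -/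
theorem hub_term : ∃ C : ℝ, 0 < C ∧ ∀ {ι : Type} [Fintype ι] [DecidableEq ι] {p e : ℝ}
      {S : Finset ι} {K : Matrix ι ι ℝ} {s L lam r dd om ga : ℝ}, Good p S e K →
      Bd S K s L lam r dd om ga → BdA s L lam r dd →
      ∀ {w : ι → ι → ℝ} {eF eE er : ℝ}, Wt S K w eF eE er → ∀ (k : ℕ) (σ x η w0 W A : ℝ), 1 ≤ k →
      k ≤ 3 → (σ = 1 ∨ σ = -1) → 0 < W → W ≤ w0 → 0 ≤ A →
      σ * k * (∑ i ∈ range (k + 1), (RR S K i).trace * (RR S K (k - i)).trace)
        - η * (∑ a ∈ S, ∑ b ∈ S, w a b) ≤ A * W → η ^ 2 * s ^ 4 ≤ A * w0 ^ 2 →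
      eF * L ^ (k + 1) ≤ A * W → L ^ (2 * k + 2) ≤ A * W ^ 2 → s * L ^ (k + 1) ≤ A * W →
      ∑ a ∈ S, ∑ b ∈ S, w a b *
        (hub (x + (σ * (aa (del S a b) (upd e K a b) k - aa S K k) - η) / w0) - hub x) ≤
        C * A := by
  obtain ⟨C₁, hC₁, h₁⟩ := sig_avg
  obtain ⟨C₂, hC₂, h₂⟩ := ff_avg
  refine ⟨1 + 3 * C₂ + 3 * C₁, by positivity, ?_⟩
  intro ι _ _ p e S K s L lam r dd om ga hK hb hA w eF eE er hw k σ x η w0 W A k1 k3 hσ hW hW' hA0
    g1 g2 g3 g4 g5
  have hw0 : 0 < w0 := hW.trans_le hW'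
  have hAW : A * W ≤ A * w0 := mul_le_mul_of_nonneg_left hW' hA0
  have hAW2 : A * W ^ 2 ≤ A * w0 ^ 2 := by gcongr
  refine (h₁ hK hb hA hw k σ x η w0 ((1 + 3 * C₂) * A) k1 k3 hσ hw0 (by positivity)
    fun _ => ?_).trans ?_
  · have h := h₂ hK hb hA hw k k1 (by omega)
    rw [mul_assoc] at h
    have h' := abs_le.1 (h.trans (mul_le_mul_of_nonneg_left (g3.trans hAW) hC₂.le))
    have hk0 : (0 : ℝ) ≤ k := Nat.cast_nonneg k
    have hk3 : (k : ℝ) ≤ 3 := by exact_mod_cast k3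
    have h0 : 0 ≤ C₂ * (A * w0) := by positivity
    have h3 : k * (C₂ * (A * w0)) ≤ 3 * (C₂ * (A * w0)) := mul_le_mul_of_nonneg_right hk3 h0
    have h4 := mul_le_mul_of_nonneg_left h'.1 hk0
    have h5 := mul_le_mul_of_nonneg_left h'.2 hk0
    rcases hσ with rfl | rfl <;> linarith
  · have h1 : (L ^ (2 * k + 2) + η ^ 2 * s ^ 4) / w0 ^ 2 ≤ 2 * A := by
      rw [div_le_iff₀ (by positivity)]
      linarith
    have h2 : s * L ^ (k + 1) / w0 ≤ A := by
      rw [div_le_iff₀ hw0]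
      linarith
    have h3 := mul_le_mul_of_nonneg_left (add_le_add h1 h2) hC₁.le
    linarith

variable {ι : Type} [Fintype ι] [DecidableEq ι] {p e e' : ℝ} {S : Finset ι} {K J : Matrix ι ι ℝ}

theorem PhiA_diff (Q : Par ℝ) (hz : Q.z = 0) (h4 : Q.f4 = 1) (h5 : Q.f5 = 1) (η : ℝ)
    (S' : Finset ι) (K' J' : Matrix ι ι ℝ) :
    PhiA { Q with c3 := Q.c3 - η } S' K' J' - PhiA Q S K J =
      (Tr 4 K' - Tr 4 K) / Q.E4 + (Vs 1 S' K' - Vs 1 S K) / Q.EV + (Dh K' - Dh K) / Q.ED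
      + (hub ((Tr 1 K - Q.c1) / Q.w1 + (1 * (aa S' K' 1 - aa S K 1) - 0) / Q.w1)
          - hub ((Tr 1 K - Q.c1) / Q.w1))
      + (hub ((-Tr 1 K - Q.c2) / Q.w2 + (-1 * (aa S' K' 1 - aa S K 1) - 0) / Q.w2)
          - hub ((-Tr 1 K - Q.c2) / Q.w2))
      + (hub ((Q.c3 - yy S K) / Q.w3 + (1 * (aa S' K' 2 - aa S K 2) - η) / Q.w3)
          - hub ((Q.c3 - yy S K) / Q.w3))
      + (hub ((yy S K - Q.c4) / Q.w4 + (-1 * (aa S' K' 2 - aa S K 2) - 0) / Q.w4)
          - hub ((yy S K - Q.c4) / Q.w4))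
      + (hub ((Q.c5 - Tr 3 K) / Q.w5 + (-1 * (aa S' K' 3 - aa S K 3) - 0) / Q.w5)
          - hub ((Q.c5 - Tr 3 K) / Q.w5))
      + (hub ((Tr 3 K - Q.c6) / Q.w6 + (1 * (aa S' K' 3 - aa S K 3) - 0) / Q.w6)
          - hub ((Tr 3 K - Q.c6) / Q.w6)) := by
  simp only [PhiA, aa_one, aa_two, aa_three, hz, h4, h5]
  ring_nf

/-- the scalar bounds of phase 1 -/
structure Bn (l x n : ℝ) (S : Finset ι) (K : Matrix ι ι ℝ) : Prop where
  bd : Bd S K (P l x) (P l 13130) (P l 13800) (P l 6901) (P l 3020) (P l (x + 1)) (P l 26931)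
  t1 : Tr 1 K ≤ -(G1 (P l 10) n / 5)
  t1' : |Tr 1 K| ≤ P l 14921
  ym : -yy S K ≤ P l 27201
  ya : |yy S K| ≤ P l 27391
  t2 : Tr 2 K ≤ 5 / 4 * P l x ^ 2
  t3 : 33 / 20 * n ≤ Tr 3 K
  t3' : Tr 3 K + Tr 2 K ≤ P l 40001
  t2' : 0 ≤ Tr 2 K
  t4 : 0 ≤ Tr 4 K

/-- the scale hypotheses -/
structure Sc (l x n d : ℝ) : Prop where
  l0 : 0 ≤ l
  x1 : 13800 ≤ x
  x2 : x ≤ 16100
  n1 : P l 40000 ≤ n
  n2 : n ≤ 2 * P l 40000
  big : 1000 ≤ P l 1
  dd : 2 * d ^ 2 + 10 ≤ P l 1

variable {x n d : ℝ}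

theorem Sc.cm (h : Sc l x n d) (c : ℝ) (hc : c ≤ 1000) (hab : a + 1 ≤ b) : c * P l a ≤ P l b :=
  mul_P_le h.l0 (hc.trans h.big) hab

theorem Sc.G (h : Sc l x n d) : P l 14800 ≤ G1 (P l 10) n ∧ G1 (P l 10) n ≤ 2 * P l 14800 ∧
    P l 54800 ≤ G1 (P l 10) n * n ∧ G1 (P l 10) n * n ≤ 4 * P l 54800 ∧
    y2 (P l 10) n = G1 (P l 10) n * n / P l 27600 := by
  have e : G1 (P l 10) n = n * P l (-25200) := by
    rw [G1, mul_comm _ n, mul_div_assoc, P_pow, P_pow, P_div]
    norm_num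
  have e1 : P l 40000 * P l (-25200) = P l 14800 := by rw [P_mul]; norm_num
  have e2 : P l 14800 * P l 40000 = P l 54800 := by rw [P_mul]; norm_num
  have h1 : P l 14800 ≤ G1 (P l 10) n := by
    rw [e, ← e1]
    exact mul_le_mul_of_nonneg_right h.n1 (P_pos _ _).le
  have h2 : G1 (P l 10) n ≤ 2 * P l 14800 := by
    rw [e, ← e1, ← mul_assoc]
    exact mul_le_mul_of_nonneg_right h.n2 (P_pos _ _).le
  have hn := (P_pos _ _).trans_le h.n1
  refine ⟨h1, h2, e2 ▸ mul_le_mul h1 h.n1 (P_pos _ _).le ((P_pos _ _).le.trans h1), ?_, ?_⟩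
  · have := mul_le_mul h2 h.n2 hn.le (mul_pos two_pos (P_pos _ _)).le
    linarith
  · rw [y2, P_pow]
    norm_num

theorem Sc.y (h : Sc l x n d) : P l 27200 ≤ y2 (P l 10) n ∧ y2 (P l 10) n ≤ 4 * P l 27200 := by
  obtain ⟨-, -, h1, h2, h3⟩ := h.G
  have e : P l 27200 * P l 27600 = P l 54800 := by rw [P_mul]; norm_num
  rw [h3, le_div_iff₀ (P_pos _ _), div_le_iff₀ (P_pos _ _), mul_assoc, e]
  exact ⟨h1, h2⟩

theorem Sc.bn (h : Sc l x n d) (hs : P l x ^ 2 = S.card) (hK : Good p S e K) (hJ : Good p S e' J)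
    (hΦ : PhiA (par1 (P l 10) n d S.card) S K J ≤ 1) : Bn l x n S K := by
  have hl := h.l0
  have x1 := h.x1
  have x2 := h.x2
  have hn := (P_pos _ _).trans_le h.n1
  have hN : (0 : ℝ) < S.card := hs ▸ pow_pos (P_pos _ _) 2
  obtain ⟨b1, b2, b3, -, b4, b5, b6, b7, b8, b9⟩ :=
    PhiA_bounds (par_pos (P_pos l 10) hn hN).2.1 hK hJ hΦ
  replace b7 := b7 rfl
  replace b8 := b8 rfl
  simp only [par1, P_pow] at b1 b2 b3 b4 b5 b6 b7 b8 b9
  norm_num at b1 b2 b3 b5 b7
  rw [show ((2696 : ℕ) : ℝ) * 10 = 26960 by norm_num,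
    show ((3220 : ℕ) : ℝ) * 10 = 32200 by norm_num] at b6
  obtain ⟨G1l, G1u, Gnl, Gnu, -⟩ := h.G
  obtain ⟨-, yu⟩ := h.y
  have hG := (P_pos _ _).trans_le G1l
  have hN' : (S.card : ℝ) = P l (2 * x) := by rw [← hs, P_pow]; norm_num
  have ym : -yy S K ≤ P l 27201 := by
    have h1 : G1 (P l 10) n * n / P l 32200 ≤ 4 * P l 27200 := by
      rw [div_le_iff₀ (P_pos _ _), mul_assoc, P_mul]
      exact Gnu.trans (mul_le_mul_of_nonneg_left (P_le hl (by norm_num)) (by norm_num))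
    have h2 : 0 ≤ G1 (P l 10) n * n / S.card := (div_pos (mul_pos hG hn) hN).le
    have h3 : P l 26960 ≤ P l 27200 := P_le hl (by norm_num)
    have h4 := h.cm (a := 27200) (b := 27201) 5 (by norm_num) (by norm_num)
    have h5 : G1 (P l 10) n * n / 5 * (1 / S.card - 2 / P l 32200) =
        G1 (P l 10) n * n / S.card / 5 - G1 (P l 10) n * n / P l 32200 * (2 / 5) := by ring
    have := P_pos l 27200
    linarith
  have t2 : Tr 2 K ≤ 5 / 4 * P l x ^ 2 := by
    have h1 := h.cm (a := 27201) (b := 2 * x) 4 (by norm_num) (by linarith)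
    unfold yy at ym
    rw [hs]
    linarith
  have t2' : 1 ≤ Tr 2 K := hK.one_le_Tr2 (card_pos.1 (Nat.cast_pos.1 hN))
  have hb := Bd.ofA hK (s := P l x) (L := P l 13130) (lam := P l 13800) (dd := P l 3020) hs
    (by have := h.cm (a := 0) (b := x) 2 (by norm_num) (by linarith); rwa [P_zero, mul_one] at this)
    (one_le_P hl (by norm_num)) (one_le_P hl (by norm_num)) (P_pos _ _).le
    (by have := sq_nonneg (P l x); linarith) (by rw [P_pow]; norm_num; exact b1)
    (by rw [P_pow]; norm_num; exact b2) (by rw [P_pow]; norm_num; exact b3)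
  have r1 : √(2 * P l 13800) ≤ P l 6901 := by
    rw [Real.sqrt_le_iff, P_pow]
    exact ⟨(P_pos _ _).le, h.cm 2 (by norm_num) (by norm_num)⟩
  have r2 : 2 * (P l x + P l 13800) ≤ P l (x + 1) := by
    have := h.cm (a := x) (b := x + 1) 4 (by norm_num) le_rfl
    have := P_le hl x1
    linarith
  have r3 : 2 * (P l 13130 ^ 2 + P l 13800 * P l 13130) ≤ P l 26931 := by
    have := h.cm (a := 26930) (b := 26931) 4 (by norm_num) (by norm_num)
    have h1 : P l 13130 ^ 2 ≤ P l 26930 := by rw [P_pow]; exact P_le hl (by norm_num)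
    have h2 : P l 13800 * P l 13130 ≤ P l 26930 := by rw [P_mul]; exact P_le hl (by norm_num)
    linarith
  refine ⟨⟨hb.hs, hb.s_ge, hb.L_ge, hb.r_ge.trans r1, hb.lam_nonneg, hb.dd_nonneg, (P_pos _ _).le,
    (P_pos _ _).le, hb.T2, hb.T4, hb.op, hb.V,
    fun c => (hb.beta c).trans (pow_le_pow_left₀ (Real.sqrt_nonneg _) r1 2), hb.D,
    hb.W.trans (pow_le_pow_left₀ hb.om_nonneg r2 2),
    hb.G.trans (pow_le_pow_left₀ hb.ga_nonneg r3 2)⟩, by linarith, ?_, ym, ?_, t2, by linarith,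
    ?_, by linarith, ?_⟩
  · have := h.cm (a := 14920) (b := 14921) 5 (by norm_num) (by norm_num)
    have := P_pos l 14920
    rw [abs_le]
    constructor <;> linarith
  · have := h.cm (a := 27390) (b := 27391) 5 (by norm_num) (by norm_num)
    have := P_pos l 27390
    have := P_le hl (show (27201 : ℝ) ≤ 27391 by norm_num)
    rw [abs_le]
    constructor <;> linarith
  · have h1 := mul_P_le hl h.dd (show (40000 : ℝ) + 1 ≤ 40001 by norm_num)
    have h2 : P l x ^ 2 ≤ P l 40000 := by rw [P_pow]; exact P_le hl (by push_cast; linarith only [x1, x2])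
    have h3 := mul_le_mul_of_nonneg_left h.n2 (sq_nonneg d)
    have h4 := h.n2
    have := P_pos l 40000
    linarith
  · have h1 := hK.Tr3_sq
    by_contra h2
    have := mul_neg_of_pos_of_neg (zero_lt_one.trans_le t2') (not_le.1 h2)
    have := sq_nonneg (Tr 3 K)
    linarith

theorem abs_mul_le {u v U W : ℝ} (hu : |u| ≤ U) (hv : |v| ≤ W) : |u * v| ≤ U * W := by
  rw [abs_mul]
  exact mul_le_mul hu hv (abs_nonneg _) ((abs_nonneg _).trans hu)

theorem one_sign : ∃ C : ℝ, 0 < C ∧ ∀ {ι : Type} [Fintype ι] [DecidableEq ι] {p e : ℝ}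
      {S : Finset ι} {K J : Matrix ι ι ℝ} {l x n d : ℝ}, Sc l x n d → Good p S e K → Bn l x n S K →
      ∀ {w : ι → ι → ℝ}, Wt S K w (P l (x + 1)) (P l (x + 1)) (P l 6902) →
      ∀ J' : ι → ι → Matrix ι ι ℝ, ∑ a ∈ S, ∑ b ∈ S, w a b *
        (PhiA (par1 (P l 10) n d (del S a b).card) (del S a b) (upd e K a b) (J' a b)
          - PhiA (par1 (P l 10) n d S.card) S K J) ≤ C * (P l (-20) * P l x ^ 2) := by
  obtain ⟨C₁, hC₁, h₁⟩ := T4_step
  obtain ⟨C₂, hC₂, h₂⟩ := V_step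
  obtain ⟨C₃, hC₃, h₃⟩ := D_step
  obtain ⟨C₄, hC₄, h₄⟩ := hub_term
  refine ⟨C₁ + C₂ + C₃ + 6 * C₄, by positivity, ?_⟩
  intro ι _ _ p e S K J l x n d h hK hB w hw J'
  have hl := h.l0
  have x1 := h.x1
  have x2 := h.x2
  have hn := (P_pos _ _).trans_le h.n1
  have hs := hB.bd.hs
  have hN' : (S.card : ℝ) = P l (2 * x) := by rw [← hs, P_pow]; norm_num
  have hN : (1000 : ℝ) ≤ S.card := h.big.trans (hN' ▸ P_le hl (by linarith))
  obtain ⟨G1l, G1u, Gnl, Gnu, ey⟩ := h.G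
  obtain ⟨yl, yu⟩ := h.y
  have hG := (P_pos _ _).trans_le G1l
  have hGn := mul_pos hG hn
  have hA : BdA (P l x) (P l 13130) (P l 13800) (P l 6901) (P l 3020) := by
    constructor <;> (try simp only [P_pow, P_mul]) <;> exact P_le hl (by push_cast; linarith only [x1, x2])
  have hA0 : 0 ≤ P l (-20) * P l x ^ 2 := mul_nonneg (P_pos _ _).le (sq_nonneg _)
  have hAe : ∀ a, P l (-20) * P l x ^ 2 * P l a = P l (2 * x - 20 + a) := fun a => by
    rw [P_pow, P_mul, P_mul]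
    congr 1
    push_cast
    ring
  have t1 := abs_le.1 hB.t1'
  have t3 : |Tr 3 K| ≤ P l 40001 := by
    have := hB.t3
    have := hB.t3'
    have := hB.t2'
    rw [abs_of_nonneg (by linarith)]
    linarith
  have tp : Tr 1 K ≤ P l 0 := by
    have := hB.t1
    have := P_pos l 0
    linarith
  have hr : P l 6901 + P l 3020 ^ 2 ≤ P l 6902 := by
    have := h.cm (a := 6901) (b := 6902) 2 (by norm_num) (by norm_num)
    have : P l 3020 ^ 2 ≤ P l 6901 := by rw [P_pow]; exact P_le hl (by norm_num)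
    linarith
  have hZ : ∑ a ∈ S, ∑ b ∈ S, w a b ≤ 2 * (S.card : ℝ) ^ 2 := by
    have h1 := (abs_le.1 hw.total).2
    have h2 : P l (x + 1) ≤ S.card := hN' ▸ P_le hl (by linarith)
    have h3 := mul_le_mul_of_nonneg_right h2 (Nat.cast_nonneg (α := ℝ) S.card)
    linarith
  -- the linear terms
  have u1 : (∑ a ∈ S, ∑ b ∈ S, w a b * (Tr 4 (upd e K a b) - Tr 4 K)) / P l 10 ^ 5252 ≤
      C₁ * (P l (-20) * P l x ^ 2) := by
    rw [div_le_iff₀ (pow_pos (P_pos _ _) _)]
    refine (h₁ hK hB.bd hA hw (ε := P l (-20)) (tp := P l 0) (tm := P l 14921) (t3 := P l 40001)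
      (ym := P l 27201) (P_pos _ _).le (P_pos _ _).le (P_pos _ _).le (P_pos _ _).le tp
      (by linarith) t3 hB.ym ?_ ?_ ?_ ?_ ?_ ?_ ?_ ?_ ?_ ?_).trans (le_of_eq ?_)
    rotate_right
    · rw [show P l 10 ^ 5252 = P l 13130 ^ 4 by rw [P_pow, P_pow]; norm_num]
      ring
    all_goals ((try simp only [P_pow, P_mul]); exact P_le hl (by push_cast; linarith only [x1, x2]))
  have u2 : (∑ a ∈ S, ∑ b ∈ S, w a b * (Vs 1 (del S a b) (upd e K a b) - Vs 1 S K)) /
      P l 10 ^ 2760 ≤ C₂ * (P l (-20) * P l x ^ 2) := by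
    rw [div_le_iff₀ (pow_pos (P_pos _ _) _)]
    refine (h₂ hK hB.bd hw (ε := P l (-20)) (δ := P l 3020) (tp := P l 0) (tm := P l 14921)
      (t3 := P l 40001) (ym := P l 27201) (ya := P l 27391) (P_pos _ _).le
      (one_le_P hl (by norm_num)) le_rfl ?_ ?_ hr ?_ ((P_zero l).ge.trans ?_) ?_ ?_ ?_ ?_ ?_ ?_ ?_ ?_
      ?_ ?_ ?_ ?_ ?_ ?_ (P_pos _ _).le (P_pos _ _).le (P_pos _ _).le tp (by linarith) hB.t3' hB.ym
      hB.ya ?_ ?_ ?_ ?_ ?_).trans ?_
    rotate_right
    · rw [show P l 10 ^ 2760 = P l 13800 ^ 2 by rw [P_pow, P_pow]; norm_num]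
      have h0 : 0 ≤ Vs 1 S K := sum_nonneg fun _ _ => sq_nonneg _
      have := mul_le_mul_of_nonneg_right hB.t2 h0
      linarith only [this]
    all_goals ((try simp only [P_pow, P_mul]); exact P_le hl (by push_cast; linarith only [x1, x2]))
  have u3 : (∑ a ∈ S, ∑ b ∈ S, w a b * (Dh (upd e K a b) - Dh K)) / P l 10 ^ 604 ≤
      C₃ * (P l (-20) * P l x ^ 2) := by
    rw [div_le_iff₀ (pow_pos (P_pos _ _) _)]
    refine (h₃ hK hB.bd hw (ε := P l (-20)) (δ := P l 3020) (t := P l 14921) (P_pos _ _).le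
      (one_le_P hl (by norm_num)) le_rfl ?_ ?_ hr hB.t1' ?_ ?_ ?_ ?_ ?_ ?_ ?_ ?_).trans ?_
    rotate_right
    · rw [show P l 10 ^ 604 = P l 3020 ^ 2 by rw [P_pow, P_pow]; norm_num]
      have h0 : 0 ≤ Dh K := sum_nonneg fun _ _ => sq_nonneg _
      have := mul_le_mul_of_nonneg_right hB.t2 h0
      linarith only [this]
    all_goals ((try simp only [P_pow, P_mul]); exact P_le hl (by push_cast; linarith only [x1, x2]))
  -- the main parts of the moments
  clear h₁ h₂ h₃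
  obtain ⟨r0, r1, r2, r3, -⟩ := RR_trace hK
  have t31 : |Tr 3 K - Tr 1 K| ≤ 2 * P l 40001 := by
    have := P_le hl (show (14921 : ℝ) ≤ 40001 by norm_num)
    have := hB.t1'
    have := abs_sub (Tr 3 K) (Tr 1 K)
    linarith
  have s1 : |∑ i ∈ range (1 + 1), (RR S K i).trace * (RR S K (1 - i)).trace| ≤ P l 42313 := by
    have h1 := abs_le.1 (abs_mul_le hB.t1' hB.ya)
    have h2 := h.cm (a := 14921 + 27391) (b := 42313) 2 (by norm_num) (by norm_num)
    rw [P_mul] at h1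
    simp only [sum_range_succ, sum_range_zero, Nat.reduceSub, Nat.sub_zero, r0, r1, abs_le]
    constructor <;> linarith
  have s2 : ∑ i ∈ range (2 + 1), (RR S K i).trace * (RR S K (2 - i)).trace =
      2 * (Tr 1 K * (Tr 3 K - Tr 1 K)) + yy S K * yy S K := by
    simp only [sum_range_succ, sum_range_zero, Nat.reduceSub, Nat.sub_zero, r0, r1, r2]
    ring
  have s3 : |∑ i ∈ range (3 + 1), (RR S K i).trace * (RR S K (3 - i)).trace| ≤ P l 67442 := by
    have t42 : |Tr 4 K - Tr 2 K| ≤ 2 * P l 52520 := by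
      have h1 := hB.bd.T4
      have h2 : P l x ^ 2 ≤ P l 52520 := by rw [P_pow]; exact P_le hl (by push_cast; linarith only [x1, x2])
      rw [show P l 13130 ^ 4 = P l 52520 by rw [P_pow]; norm_num] at h1
      have := hB.t2
      have := hB.t2'
      have := hB.t4
      have := P_pos l 52520
      rw [abs_le]
      constructor <;> linarith
    have h1 := abs_le.1 (abs_mul_le hB.t1' t42)
    have h2 := abs_le.1 (abs_mul_le hB.ya t31)
    rw [mul_left_comm, P_mul] at h1 h2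
    have h3 := h.cm (a := 14921 + 52520) (b := 67442) 8 (by norm_num) (by norm_num)
    have h4 := P_le hl (show (27391 + 40001 : ℝ) ≤ 14921 + 52520 by norm_num)
    simp only [sum_range_succ, sum_range_zero, Nat.reduceSub, Nat.sub_zero, r0, r1, r2, r3, abs_le]
    constructor <;> linarith
  rw [abs_le] at s1 s3
  have z0 : ∀ w0 : ℝ, 0 ^ 2 * P l x ^ 4 ≤ P l (-20) * P l x ^ 2 * w0 ^ 2 := fun w0 => by
    rw [sq (0 : ℝ), zero_mul, zero_mul]
    exact mul_nonneg hA0 (sq_nonneg _)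
  have w1 : P l 14799 ≤ G1 (P l 10) n / 15 := by
    have := h.cm (a := 14799) (b := 14800) 15 (by norm_num) (by norm_num)
    linarith
  have w2 : P l 14920 ≤ P l 10 ^ 1492 := by rw [P_pow]; exact P_le hl (by norm_num)
  have w3 : P l 27199 ≤ y2 (P l 10) n / 30 := by
    have := h.cm (a := 27199) (b := 27200) 30 (by norm_num) (by norm_num)
    linarith
  have w4 : P l 27390 ≤ P l 10 ^ 2739 := by rw [P_pow]; exact P_le hl (by norm_num)
  have w5 : P l 39999 ≤ n / 10 := by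
    have := h.cm (a := 39999) (b := 40000) 10 (by norm_num) (by norm_num)
    have := h.n1
    linarith
  obtain ⟨η, hη⟩ : ∃ η, η = G1 (P l 10) n * n / 5 * (1 / S.card - 1 / (S.card - 2)) := ⟨_, rfl⟩
  have hN0 : (0 : ℝ) < S.card := by linarith
  have hN2 : (0 : ℝ) < S.card - 2 := by linarith
  have eη : -η * (S.card * (S.card - 2)) = 2 / 5 * (G1 (P l 10) n * n) := by
    rw [hη]
    field_simp
    ring
  have hη0 : 0 ≤ -η := by
    refine nonneg_of_mul_nonneg_left (b := S.card * (S.card - 2)) ?_ (by positivity)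
    rw [eη]
    linarith
  have hη1 : -η * (S.card : ℝ) ^ 2 ≤ 3 / 5 * (G1 (P l 10) n * n) := by
    have : (S.card : ℝ) ^ 2 ≤ 3 / 2 * (S.card * (S.card - 2)) := by
      have := mul_le_mul_of_nonneg_right hN hN0.le
      linarith only [this, hN0]
    have := mul_le_mul_of_nonneg_left this hη0
    linarith
  have v1 := h₄ hK hB.bd hA hw 1 1 ((Tr 1 K - -(3 / 10) * G1 (P l 10) n) / (G1 (P l 10) n / 15)) 0 _ _
    _ le_rfl (by norm_num) (Or.inl rfl) (P_pos _ _) w1 hA0
    (by have := P_le hl (show 42313 ≤ 2 * x - 20 + 14799 by linarith)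
        rw [hAe]; push_cast; linarith) (z0 _)
    (by simp only [P_pow, P_mul]; exact P_le hl (by push_cast; linarith only [x1, x2]))
    (by simp only [P_pow, P_mul]; exact P_le hl (by push_cast; linarith only [x1, x2]))
    (by simp only [P_pow, P_mul]; exact P_le hl (by push_cast; linarith only [x1, x2]))
  have v2 := h₄ hK hB.bd hA hw 1 (-1) ((-Tr 1 K - 3 * P l 10 ^ 1492) / P l 10 ^ 1492) 0 _ _
    _ le_rfl (by norm_num) (Or.inr rfl) (P_pos _ _) w2 hA0
    (by have := P_le hl (show 42313 ≤ 2 * x - 20 + 14920 by linarith)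
        rw [hAe]; push_cast; linarith) (z0 _)
    (by simp only [P_pow, P_mul]; exact P_le hl (by push_cast; linarith only [x1, x2]))
    (by simp only [P_pow, P_mul]; exact P_le hl (by push_cast; linarith only [x1, x2]))
    (by simp only [P_pow, P_mul]; exact P_le hl (by push_cast; linarith only [x1, x2]))
  have v3 := h₄ hK hB.bd hA hw 2 1 ((-(5 / 2) * P l 10 ^ 2696 +
      G1 (P l 10) n * n / 5 * (1 / S.card - 2 / P l 10 ^ 3220) - yy S K) / (y2 (P l 10) n / 30)) η _ _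
    _ (by norm_num) (by norm_num) (Or.inl rfl) (P_pos _ _) w3 hA0
    (by have h1 := mul_le_mul_of_nonneg_left hZ hη0
        have h2 := (abs_le.1 (abs_mul_le hB.ya hB.ya)).2
        have h3 := h.cm (a := 27391 + 27391) (b := 54800) 20 (by norm_num) (by norm_num)
        have h4 : G1 (P l 10) n / 5 * (33 / 20 * n) ≤ -Tr 1 K * (Tr 3 K - Tr 1 K) := by
          have := hB.t1
          have := hB.t3
          exact mul_le_mul (by linarith) (by linarith) (by linarith) (by linarith)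
        have h5 := P_pos l (2 * x - 20 + 27199)
        rw [P_mul] at h2
        rw [hAe, s2]; push_cast; linarith)
    (by have h1 : G1 (P l 10) n * n ≤ y2 (P l 10) n * S.card := by
          rw [ey, div_mul_eq_mul_div, le_div_iff₀ (P_pos _ _)]
          exact mul_le_mul_of_nonneg_left (hN' ▸ P_le hl (by linarith)) hGn.le
        have h2 : -η * S.card ≤ y2 (P l 10) n := by
          refine le_of_mul_le_mul_right ?_ hN0
          linarith
        have h3 := pow_le_pow_left₀ (mul_nonneg hη0 hN0.le) h2 2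
        have h4 : 900 ≤ P l (-20) * P l x ^ 2 := by
          have := h.cm (a := 0) (b := -20 + 2 * x) 900 (by norm_num) (by linarith)
          rw [P_zero, mul_one] at this
          rw [P_pow, P_mul]
          exact_mod_cast this
        have h5 := mul_le_mul_of_nonneg_right h4 (sq_nonneg (y2 (P l 10) n / 30))
        rw [show P l x ^ 4 = (P l x ^ 2) ^ 2 by ring, hs]
        rw [hs] at h5
        linarith)
    (by simp only [P_pow, P_mul]; exact P_le hl (by push_cast; linarith only [x1, x2]))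
    (by simp only [P_pow, P_mul]; exact P_le hl (by push_cast; linarith only [x1, x2]))
    (by simp only [P_pow, P_mul]; exact P_le hl (by push_cast; linarith only [x1, x2]))
  have v4 := h₄ hK hB.bd hA hw 2 (-1) ((yy S K - P l 10 ^ 2739) / P l 10 ^ 2739) 0 _ _
    _ (by norm_num) (by norm_num) (Or.inr rfl) (P_pos _ _) w4 hA0
    (by have h1 := (abs_le.1 (abs_mul_le hB.t1' t31)).1
        have h2 := h.cm (a := 14921 + 40001) (b := 2 * x - 20 + 27390) 8 (by norm_num) (by linarith)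
        have h3 := mul_self_nonneg (yy S K)
        rw [mul_left_comm, P_mul] at h1
        rw [hAe, s2]; push_cast; linarith) (z0 _)
    (by simp only [P_pow, P_mul]; exact P_le hl (by push_cast; linarith only [x1, x2]))
    (by simp only [P_pow, P_mul]; exact P_le hl (by push_cast; linarith only [x1, x2]))
    (by simp only [P_pow, P_mul]; exact P_le hl (by push_cast; linarith only [x1, x2]))
  have v5 := h₄ hK hB.bd hA hw 3 (-1) ((9 / 5 * n - Tr 3 K) / (n / 10)) 0 _ _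
    _ (by norm_num) (by norm_num) (Or.inr rfl) (P_pos _ _) w5 hA0
    (by have := h.cm (a := 67442) (b := 2 * x - 20 + 39999) 3 (by norm_num) (by linarith)
        rw [hAe]; push_cast; linarith) (z0 _)
    (by simp only [P_pow, P_mul]; exact P_le hl (by push_cast; linarith only [x1, x2]))
    (by simp only [P_pow, P_mul]; exact P_le hl (by push_cast; linarith only [x1, x2]))
    (by simp only [P_pow, P_mul]; exact P_le hl (by push_cast; linarith only [x1, x2]))
  have v6 := h₄ hK hB.bd hA hw 3 1 ((Tr 3 K - (d ^ 2 + 1) * n) / (n / 10)) 0 _ _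
    _ (by norm_num) (by norm_num) (Or.inl rfl) (P_pos _ _) w5 hA0
    (by have := h.cm (a := 67442) (b := 2 * x - 20 + 39999) 3 (by norm_num) (by linarith)
        rw [hAe]; push_cast; linarith) (z0 _)
    (by simp only [P_pow, P_mul]; exact P_le hl (by push_cast; linarith only [x1, x2]))
    (by simp only [P_pow, P_mul]; exact P_le hl (by push_cast; linarith only [x1, x2]))
    (by simp only [P_pow, P_mul]; exact P_le hl (by push_cast; linarith only [x1, x2]))
  have e : par1 (P l 10) n d (S.card - 2) = { par1 (P l 10) n d S.card with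
      c3 := (par1 (P l 10) n d S.card).c3 - η } := by
    simp only [par1, hη, Par.mk.injEq, true_and, and_true]
    ring
  have key := add_le_add (add_le_add (add_le_add (add_le_add (add_le_add (add_le_add (add_le_add
    (add_le_add u1 u2) u3) v1) v2) v3) v4) v5) v6
  simp only [sum_div, ← sum_add_distrib, mul_div_assoc, ← mul_add] at key
  refine le_of_eq_of_le (sum_congr rfl fun a ha => sum_congr rfl fun b hb => ?_)
    (key.trans (le_of_eq (by ring)))
  by_cases h0 : w a b = 0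
  · rw [h0, zero_mul, zero_mul]
  · rw [card_del ha hb (hw.supp a b h0).1, e, PhiA_diff _ rfl rfl rfl]
    simp only [par1, mul_div_assoc]

end Ph1Aux

open Ph1Aux

theorem ph1_step (d : ℕ) (hd : 3 ≤ d) : ∃ C : ℝ, 0 < C ∧ ∃ m0 : ℕ, ∀ m, m0 ≤ m → ∀ n, Scale m n →
      ∀ {V ι : Type} [Fintype V] [Fintype ι] [DecidableEq ι] (vx : ι → V) (st : St V ι ℝ),
      Base n d vx st → ph m st.S.card = 1 → Phi 1 m n d vx st ≤ 1 →
      ∃ a b, Simple vx st a b ∧ 0 < Dd 1 st.K a b ∧ 0 < Dd (-1) st.J a b ∧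
        Phi 1 m n d vx (rawStep vx st a b) ≤ Phi 1 m n d vx st + C / ((m : ℝ) ^ 2 * st.S.card) := by
  have _ := hd
  obtain ⟨C₁, hC₁, h₁⟩ := one_sign
  obtain ⟨C₂, hC₂, h₂⟩ := wt_props ((d : ℝ) ^ 2 + d)
  obtain ⟨Λ, hΛ⟩ : ∃ Λ : ℝ, Λ = 1000 + 2 * C₂ + 2 * d ^ 2 := ⟨_, rfl⟩
  have hd2 := sq_nonneg (d : ℝ)
  refine ⟨4 * C₁, by positivity, ⌈Λ ^ 10⌉₊, ?_⟩
  intro m hm n hn V ι _ _ _ vx st hB hph hΦ
  have hm1 : Λ ^ 10 ≤ m := Nat.ceil_le.1 hm
  have hm2 : (1 : ℝ) < m := (one_lt_pow₀ (by linarith) (by norm_num)).trans_le hm1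
  obtain ⟨l, hl, em⟩ : ∃ l, 0 < l ∧ (m : ℝ) = P l 10 :=
    ⟨Real.log m / 10, div_pos (Real.log_pos hm2) (by norm_num), by
      rw [P, mul_div_cancel₀ _ (by norm_num), Real.exp_log (by linarith)]⟩
  have hΛ1 : Λ ≤ P l 1 := by
    refine le_of_pow_le_pow_left₀ (n := 10) (by norm_num) (P_pos _ _).le (hm1.trans_eq ?_)
    rw [em, P_pow]
    norm_num
  obtain ⟨p1, p2⟩ : m ^ 2760 < st.S.card ∧ st.S.card ≤ m ^ 3220 := by
    unfold ph at hph
    split_ifs at hph with c1 c2 <;> omega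
  have q1 : (m : ℝ) ^ 2760 ≤ st.S.card := by exact_mod_cast p1.le
  have q2 : (st.S.card : ℝ) ≤ (m : ℝ) ^ 3220 := by exact_mod_cast p2
  have q3 : (m : ℝ) ^ 4000 ≤ n := by exact_mod_cast hn.1
  have q4 : (n : ℝ) ≤ 2 * (m : ℝ) ^ 4000 := by exact_mod_cast hn.2
  have hN : (0 : ℝ) < st.S.card := (pow_pos (by linarith) _).trans_le q1
  obtain ⟨x, hx⟩ : ∃ x, P l x ^ 2 = st.S.card :=
    ⟨Real.log st.S.card / 2 / l, by
      rw [P, div_mul_cancel₀ _ hl.ne', ← Real.exp_nat_mul, Nat.cast_ofNat,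
        mul_div_cancel₀ _ (by norm_num), Real.exp_log hN]⟩
  rw [em, P_pow] at q1 q2 q3 q4
  rw [← hx, P_pow] at q1 q2
  have x1 := le_of_P_le hl q1
  have x2 := le_of_P_le hl q2
  push_cast at x1 x2
  have h : Sc l x n d := ⟨hl.le, by linarith, by linarith, by norm_num at q3; exact q3,
    by norm_num at q4; exact q4, by linarith, by linarith⟩
  have hn0 : (0 : ℝ) < n := (P_pos _ _).trans_le h.n1
  have hP := (par_pos (d := d) (P_pos l 10) hn0 hN).2.1
  have e0 : ∀ st : St V ι ℝ, Phi 1 m n d vx st =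
      PhiA (par1 (P l 10) n d st.S.card) st.S st.K st.J +
        PhiA (par1 (P l 10) n d st.S.card) st.S st.J st.K := fun st => by rw [← em]; rfl
  have f1 := PhiA_nonneg hP hB.gK hB.gJ
  have f2 := PhiA_nonneg hP hB.gJ hB.gK
  rw [e0] at hΦ
  have b1 := h.bn hx hB.gK hB.gJ (by linarith)
  have b2 := h.bn hx hB.gJ hB.gK (by linarith)
  have c1 : C₂ * (1 + 0) * P l x ≤ P l (x + 1) := mul_P_le hl.le (by linarith) le_rfl
  have c2 : C₂ * (P l x + 0 * P l 13130) ≤ P l (x + 1) := by linarith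
  have c3 : C₂ * (P l 6901 + P l 3020 ^ 2 + 0) ≤ P l 6902 := by
    have h1 := mul_P_le (c := 2 * C₂) (a := 6901) (b := 6902) hl.le (by linarith) (by norm_num)
    have h2 : P l 3020 ^ 2 ≤ P l 6901 := by rw [P_pow]; exact P_le hl.le (by norm_num)
    have h3 := mul_le_mul_of_nonneg_left h2 hC₂.le
    linarith
  have c4 : P l 3020 ^ 2 ≤ P l x := by rw [P_pow]; exact P_le hl.le (by push_cast; linarith)
  have w1 := (h₂ hB.gK hB.gJ b1.bd b2.bd (conf := Conf vx st.G) (θ := 0) (fun _ _ => Conf.symm)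
    hB.gi.conf_deg le_rfl (P_pos _ _).le c4).mono c1 c2 c3
  have w2 := (h₂ hB.gJ (by rw [neg_neg]; exact hB.gK) b2.bd b1.bd (conf := Conf vx st.G) (θ := 0)
    (fun _ _ => Conf.symm) hB.gi.conf_deg le_rfl (P_pos _ _).le c4).mono c1 c2 c3
  rw [wt_swap] at w2
  have g1 := h₁ (J := st.J) h hB.gK b1 w1 fun a b => upd (-1) st.J a b
  have g2 := h₁ (J := st.K) h hB.gJ b2 w2 fun a b => upd 1 st.K a b
  obtain ⟨a, ha, b, hb, h0, hab⟩ := exists_of_avg st.S _ w1.nonneg (Phi 1 m n d vx st)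
    (2 * C₁ * P l (-20)) (fun a b => Phi 1 m n d vx (rawStep vx st a b)) hN
    (mul_pos (by positivity) (P_pos _ _)).le
    (by have h1 := (abs_le.1 w1.total).1
        have h2 := h.cm (a := x + 1) (b := 2 * x) 2 (by norm_num) (by linarith)
        have h3 : P l (2 * x) = st.S.card := by rw [← hx, P_pow]; norm_num
        have h4 := mul_le_mul_of_nonneg_right (h2.trans_eq h3) hN.le
        linarith)
    (by have h1 := add_le_add g1 g2
        simp only [← sum_add_distrib, ← mul_add] at h1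
        refine le_of_eq_of_le (sum_congr rfl fun a _ => sum_congr rfl fun b _ => ?_)
          (h1.trans (le_of_eq (by rw [hx]; ring)))
        rw [e0, e0]
        simp only [rawStep]
        ring)
  obtain ⟨k1, k2, k3⟩ := wt_ne_zero h0
  refine ⟨a, b, ⟨ha, hb, k1⟩, by linarith [(k2.Dd_bound (Or.inl rfl)).1],
    by linarith [(k3.Dd_bound (Or.inr rfl)).1], hab.trans (le_of_eq ?_)⟩
  have e1 : P l (-20) = 1 / (m : ℝ) ^ 2 := by
    rw [em, P_pow, ← P_zero l, P_div]
    norm_num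
  rw [e1]
  ring

end Crest.Agent.R62
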