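import Crest.Agent.R62.Ph2Aux

/-! The step theorem of phase 2. -/

set_option autoImplicit false
open Classical
open scoped Matrix
open Finset

noncomputable section
namespace Crest.Agent.R62

namespace Ph2

theorem facts {ι : Type} [Fintype ι] [DecidableEq ι] {μ s ε n d p e e' : ℝ} {S : Finset ι}
    {K J : Matrix ι ι ℝ} (h : Num μ s ε) (hs : s ^ 2 = S.card) (hd : 2 * d ^ 2 + 7 ≤ μ)
    (hn1 : μ ^ 4000 ≤ n) (hn2 : n ≤ 2 * μ ^ 4000) (hK : Good p S e K) (hJ : Good p S e' J)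
    (hΦ : PhiA (par2 μ n d (s ^ 2)) S K J ≤ 1) :
    Bd S K s (μ ^ 1328) (μ ^ 1410) (μ ^ 706) (μ ^ 304) (μ ^ 1411) (μ ^ 2739) ∧
      Tr 1 K ≤ μ ^ 1313 ∧ -Tr 1 K ≤ μ ^ 1493 ∧ 0 ≤ yy S K ∧ Tr 3 K + s ^ 2 ≤ μ ^ 4001 := by
  have hp := h.pos
  have hn0 : 0 < n := (pow_pos hp _).trans_le hn1
  obtain ⟨b1, b2, b3, -, b5, b6, b7, -, -, b10⟩ :=
    PhiA_bounds (par_pos hp hn0 (pow_pos h.spos 2)).2.2 hK hJ hΦ
  simp only [par2] at b1 b2 b3 b5 b6 b7 b10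
  have y0 : 0 ≤ yy S K := by
    have h1 : μ ^ 1480 ≤ G1 μ n := by
      rw [G1, le_div_iff₀ (by positivity)]
      calc μ ^ 1480 * μ ^ 3220 = μ ^ 700 * μ ^ 4000 := by ring
        _ ≤ _ := by gcongr
    have h2 : μ ^ 2720 ≤ y2 μ n := by
      rw [y2, le_div_iff₀ (by positivity)]
      calc μ ^ 2720 * μ ^ 2760 = μ ^ 1480 * μ ^ 4000 := by ring
        _ ≤ _ := mul_le_mul h1 hn1 (by positivity) ((pow_pos hp _).le.trans h1)
    have h3 : μ ^ 2700 ≤ y2 μ n / 10 := by linarith [h.pw10 (a := 2700) (b := 2720) (by norm_num)]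
    have h4 := h.ss1
    have h5 := pow_pos hp 2700
    have h6 : μ ^ 2700 / 2 ≤ s ^ 2 * (y2 μ n / 10) / (s ^ 2 + y2 μ n / 10) := by
      rw [le_div_iff₀ (by linarith)]
      nlinarith
    linarith [h.pw10 (a := 2680) (b := 2700) (by norm_num), pow_pos hp 2680]
  have hT2 : Tr 2 K ≤ 2 * s ^ 2 := by
    rw [yy, ← hs] at y0
    linarith [sq_nonneg s]
  have hs2 : 2 ≤ s := by linarith [h.s1, h.pw10 (a := 0) (b := 1350) (by norm_num)]
  have hB := Bd.ofA hK hs hs2 (h.pw1 1328) (h.pw1 1410) (pow_pos hp 304).le hT2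
    (b1.trans_eq (by ring)) (b2.trans_eq (by ring)) (b3.trans_eq (by ring))
  refine ⟨{ hB with
      r_ge := h.pw1 _
      om_nonneg := by positivity
      ga_nonneg := by positivity
      beta := fun c => (hB.beta c).trans ?_
      W := hB.W.trans ?_
      G := hB.G.trans ?_ }, ?_, ?_, y0, ?_⟩
  · rw [Real.sq_sqrt (by positivity)]
    linarith [h.pw10 (a := 1410) (b := 1412) (by norm_num), pow_pos hp 1410]
  · refine pow_le_pow_left₀ hB.om_nonneg ?_ 2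
    linarith [h.s2, h.pw (a := 1380) (b := 1410) (by norm_num), h.pw10 (a := 1410) (b := 1411) le_rfl,
      pow_pos hp 1410]
  · refine pow_le_pow_left₀ hB.ga_nonneg ?_ 2
    linarith [h.pw (a := 2656) (b := 2738) (by norm_num), h.pw10 (a := 2738) (b := 2739) le_rfl,
      pow_pos hp 2738]
  · linarith [h.pw10 (a := 1312) (b := 1313) le_rfl, pow_pos hp 1312]
  · linarith [h.pw10 (a := 1492) (b := 1493) le_rfl, pow_pos hp 1492]
  · have h1 : (d ^ 2 + 3) * n ≤ (d ^ 2 + 3) * (2 * μ ^ 4000) := by gcongr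
    have h2 : (2 * d ^ 2 + 7) * μ ^ 4000 ≤ μ * μ ^ 4000 := by gcongr
    linarith [h.ss2, h.pw (a := 2760) (b := 4000) (by norm_num)]

theorem one : ∃ C : ℝ, 0 < C ∧ ∀ {ι : Type} [Fintype ι] [DecidableEq ι] {μ s ε p e : ℝ}
    {S : Finset ι} {K : Matrix ι ι ℝ} {w : ι → ι → ℝ}, Ctx μ s ε p e S K w →
    ∀ (n d : ℝ) (J : Matrix ι ι ℝ) (J' : ι → ι → Matrix ι ι ℝ), μ ^ 4000 ≤ n →
    ∑ a ∈ S, ∑ b ∈ S, w a b * (PhiA (par2 μ n d (s ^ 2 - 2)) (del S a b) (upd e K a b) (J' a b)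
      - PhiA (par2 μ n d (s ^ 2)) S K J) ≤ C * (ε * s ^ 2) := by
  obtain ⟨C1, hC1, H1⟩ := stepT4
  obtain ⟨C2, hC2, H2⟩ := stepV
  obtain ⟨C3, hC3, H3⟩ := stepD
  obtain ⟨C4, hC4, H4⟩ := stepHub
  refine ⟨C1 + C2 + C3 + 4 * C4, by positivity, fun {ι} _ _ {μ s ε p e S K w} h n d J J' hn => ?_⟩
  have hp := h.num.pos
  have hn0 : 0 < n := (pow_pos hp _).trans_le hn
  obtain ⟨g1, g2, g3, g4⟩ := H4 h
  have := add_le_add (add_le_add (add_le_add (add_le_add (add_le_add (add_le_add (H1 h) (H2 h)) (H3 h))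
    g1) g2) (g3 (y2 μ n / 10) (by unfold y2 G1; positivity))) (g4 ((d ^ 2 + 2) * n) n hn)
  simp only [← sum_add_distrib] at this
  refine le_trans (le_of_eq ?_) (this.trans_eq (by ring))
  refine sum_congr rfl fun a _ => sum_congr rfl fun b _ => ?_
  simp only [PhiA, par2]
  ring

end Ph2

theorem ph2_step (d : ℕ) (hd : 3 ≤ d) : ∃ C : ℝ, 0 < C ∧ ∃ m0 : ℕ, ∀ m, m0 ≤ m → ∀ n, Scale m n →
      ∀ {V ι : Type} [Fintype V] [Fintype ι] [DecidableEq ι] (vx : ι → V) (st : St V ι ℝ),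
      Base n d vx st → ph m st.S.card = 2 → Phi 2 m n d vx st ≤ 1 →
      ∃ a b, Simple vx st a b ∧ 0 < Dd 1 st.K a b ∧ 0 < Dd (-1) st.J a b ∧
        Phi 2 m n d vx (rawStep vx st a b) ≤ Phi 2 m n d vx st + C / ((m : ℝ) ^ 2 * st.S.card) := by
  obtain ⟨C, hC, H⟩ := Ph2.one
  obtain ⟨Cw, hCw, Hw⟩ := wt_props ((d : ℝ) ^ 2 + d)
  refine ⟨4 * C, by positivity, ⌈10 + 2 * Cw + (2 * (d : ℝ) ^ 2 + 7)⌉₊,
    fun m hm n hn V ι _ _ _ vx st hB hph hΦ => ?_⟩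
  have hμ : 10 + 2 * Cw + (2 * (d : ℝ) ^ 2 + 7) ≤ m := (Nat.le_ceil _).trans (by exact_mod_cast hm)
  have hd0 : (0 : ℝ) ≤ 2 * (d : ℝ) ^ 2 + 7 := by positivity
  have hN : m ^ 2700 < st.S.card ∧ st.S.card ≤ m ^ 2760 := by
    unfold ph at hph
    split_ifs at hph <;> omega
  have hn1 : (m : ℝ) ^ 4000 ≤ n := by exact_mod_cast hn.1
  have hn2 : (n : ℝ) ≤ 2 * (m : ℝ) ^ 4000 := by exact_mod_cast hn.2
  set μ : ℝ := (m : ℝ) with hμdef
  have hp : 0 < μ := by linarith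
  set s : ℝ := √(st.S.card : ℝ) with hsdef
  have hs : s ^ 2 = st.S.card := Real.sq_sqrt (by positivity)
  have num : Ph2.Num μ s (1 / μ ^ 2) := by
    refine ⟨by linarith, by field_simp, Real.le_sqrt_of_sq_le ?_, Real.sqrt_le_iff.2 ⟨by positivity, ?_⟩⟩
    · rw [← pow_mul, hμdef]; exact_mod_cast hN.1.le
    · rw [← pow_mul, hμdef]; exact_mod_cast hN.2
  have hn0 : (0 : ℝ) < n := (pow_pos hp _).trans_le hn1
  have hP := (par_pos (d := (d : ℝ)) hp hn0 (pow_pos num.spos 2)).2.2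
  have hΦ' : PhiA (par2 μ n d (s ^ 2)) st.S st.K st.J + PhiA (par2 μ n d (s ^ 2)) st.S st.J st.K ≤ 1 := by
    rw [hs]; exact hΦ
  obtain ⟨k1, k2, k3, k4, k5⟩ := Ph2.facts (d := d) num hs (by linarith) hn1 hn2 hB.gK hB.gJ
    (by linarith [PhiA_nonneg hP hB.gJ hB.gK])
  obtain ⟨j1, j2, j3, j4, j5⟩ := Ph2.facts (d := d) num hs (by linarith) hn1 hn2 hB.gJ hB.gK
    (by linarith [PhiA_nonneg hP hB.gK hB.gJ])
  have m1 : Cw * (1 + 0) * s ≤ μ * s := by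
    have := num.spos
    gcongr
    linarith
  have m2 : Cw * (s + 0 * μ ^ 1328) ≤ μ * s := by linarith
  have m3 : Cw * (μ ^ 706 + (μ ^ 304) ^ 2 + 0) ≤ μ ^ 707 := by
    have h1 : (μ ^ 304) ^ 2 ≤ μ ^ 706 := num.K0 608 706 (by norm_num) (by ring) rfl
    calc _ ≤ Cw * (μ ^ 706 + μ ^ 706 + 0) := by gcongr
      _ = 2 * Cw * μ ^ 706 := by ring
      _ ≤ μ * μ ^ 706 := by gcongr; linarith
      _ = _ := by ring
  have wK := (Hw hB.gK hB.gJ k1 j1 (conf := Conf vx st.G) (θ := 0) (fun _ _ => Conf.symm)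
    hB.gi.conf_deg le_rfl (by positivity) num.d2).mono m1 m2 m3
  have wJ := (Hw hB.gJ (by rw [neg_neg]; exact hB.gK) j1 k1 (conf := Conf vx st.G) (θ := 0)
    (fun _ _ => Conf.symm) hB.gi.conf_deg le_rfl (by positivity) num.d2).mono m1 m2 m3
  rw [wt_swap] at wJ
  have h1 := H ⟨num, hB.gK, k1, wK, k2, k3, k4, k5⟩ n d st.J (fun a b => upd (-1) st.J a b) hn1
  have h2 := H ⟨num, hB.gJ, j1, wJ, j2, j3, j4, j5⟩ n d st.K (fun a b => upd 1 st.K a b) hn1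
  have hN0 : (0 : ℝ) < st.S.card := by rw [← hs]; exact pow_pos num.spos 2
  obtain ⟨a, ha, b, hb, hw, hle⟩ := exists_of_avg st.S (wt (Conf vx st.G) 0 1 st.K st.J) wK.nonneg
    (Phi 2 m n d vx st) (2 * C / μ ^ 2)
    (fun a b => PhiA (par2 μ n d (s ^ 2 - 2)) (del st.S a b) (upd 1 st.K a b) (upd (-1) st.J a b)
      + PhiA (par2 μ n d (s ^ 2 - 2)) (del st.S a b) (upd (-1) st.J a b) (upd 1 st.K a b))
    hN0 (by positivity) (by
      have h3 := (abs_le.1 wK.total).1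
      have h4 : μ * s ≤ s ^ 2 / 2 := by
        have := num.spos
        have h5 : 10 * μ ≤ s := by linarith [num.s1, num.pw10 (a := 1) (b := 1350) (by norm_num)]
        nlinarith
      have h5 := mul_le_mul_of_nonneg_right h4 hN0.le
      rw [hs] at h5
      linarith) (by
      have h3 := add_le_add h1 h2
      simp only [← sum_add_distrib] at h3
      refine le_trans (le_of_eq ?_) (h3.trans_eq (by rw [hs]; ring))
      refine sum_congr rfl fun a _ => sum_congr rfl fun b _ => ?_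
      have : Phi 2 m n d vx st = PhiA (par2 μ n d (s ^ 2)) st.S st.K st.J
          + PhiA (par2 μ n d (s ^ 2)) st.S st.J st.K := by rw [hs]; rfl
      rw [this]
      ring)
  obtain ⟨c1, c2, c3⟩ := wt_ne_zero hw
  refine ⟨a, b, ⟨ha, hb, c1⟩, by linarith [(c2.Dd_bound (Or.inl rfl)).1],
    by linarith [(c3.Dd_bound (Or.inr rfl)).1], ?_⟩
  rw [hs, ← card_del ha hb c2.1] at hle
  exact le_trans hle (le_of_eq (by ring))

end Crest.Agent.R62
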