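import Crest.Agent.R62.Sig

/-! Phase 3: envelope ratios and the two Huber terms built on `T₁`. -/

set_option autoImplicit false
open Classical
open scoped Matrix
open Finset

noncomputable section
namespace Crest.Agent.R62.Ph3

theorem env1 {A f N : ℝ} (hA : 0 < A) (hf : 0 ≤ f) (hN : 0 < N) :
    (N / A + f) * (1 - 2 / N) ≤ (N - 2) / A + f := by
  have h1 : (N / A + f) * (1 - 2 / N) = (N - 2) / A + f - 2 * f / N := by field_simp; ring
  have h2 : 0 ≤ 2 * f / N := by positivity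
  linarith

theorem env2 {A f N : ℝ} (hA : 0 < A) (hf : 0 ≤ f) (hN : 2 ≤ N) :
    (N / A + f) ^ 2 * (1 - 4 / N) ≤ ((N - 2) / A + f) ^ 2 := by
  have hN0 : 0 < N := by linarith
  have h1 := env1 hA hf hN0
  have h2 : 0 ≤ 1 - 2 / N := by rw [sub_nonneg, div_le_one hN0]; exact hN
  have h3 : 0 ≤ (N / A + f) * (1 - 2 / N) := by positivity
  have h4 := pow_le_pow_left₀ h3 h1 2
  have h5 : ((N / A + f) * (1 - 2 / N)) ^ 2 = (N / A + f) ^ 2 * (1 - 4 / N)
      + (N / A + f) ^ 2 * (2 / N) ^ 2 := by ring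
  have h6 : 0 ≤ (N / A + f) ^ 2 * (2 / N) ^ 2 := by positivity
  linarith

theorem env_half {E E' ρ N : ℝ} (hE : 0 ≤ E) (hρ : ρ ≤ 4) (hN : 8 ≤ N) (h : E * (1 - ρ / N) ≤ E') :
    E ≤ 2 * E' := by
  have h1 : ρ / N ≤ 1 / 2 := by rw [div_le_iff₀ (by linarith)]; linarith
  nlinarith

theorem env_mono {A f N : ℝ} (hA : 0 < A) : (N - 2) / A + f ≤ N / A + f := by
  have : (N - 2) / A ≤ N / A := div_le_div_of_nonneg_right (by linarith) hA.le
  linarith

theorem t1_avg : ∃ C : ℝ, 0 < C ∧ ∀ {ι : Type} [Fintype ι] [DecidableEq ι] {p e : ℝ} {S : Finset ι}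
      {K : Matrix ι ι ℝ} {s LA lam r dd om ga : ℝ}, Good p S e K → Bd S K s LA lam r dd om ga →
      BdA s LA lam r dd → ∀ {w : ι → ι → ℝ} {eE er ε tp t σ E E' : ℝ}, Wt S K w eE eE er →
      (σ = 1 ∨ σ = -1) → 0 ≤ ε → 0 < E' → E' ≤ E → E * (1 - 2 / S.card) ≤ E' → E ≤ 2 * E' →
      σ * Tr 1 K ≤ 5 / 2 * E → 0 < tp → tp ≤ 5 * E' → |Tr 1 K| ≤ t → s ≤ eE → eE ≤ ε * s ^ 2 →
      Tr 2 K ≤ ε * s ^ 2 → LA ^ 4 ≤ ε * s ^ 2 * tp ^ 2 → t ^ 2 ≤ ε * s ^ 2 * tp ^ 2 →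
      eE * LA ^ 2 ≤ ε * s ^ 2 * tp →
      ∑ a ∈ S, ∑ b ∈ S, w a b * (hub (σ * Tr 1 (upd e K a b) / E' - 1) - hub (σ * Tr 1 K / E - 1))
        ≤ C * ε * s ^ 2 := by
  obtain ⟨C1, hC1, H1⟩ := sig_avg
  obtain ⟨C2, hC2, H2⟩ := ff_avg
  refine ⟨20 + 5 * C2 + 130 * C1, by positivity, ?_⟩
  intro ι _ _ p e S K s LA lam r dd om ga hK hB hA w eE er ε tp t σ E E' hw hσ hε hE' hEE h1 h2 hT htp
    htp' ht hsE heE hT2 g1 g2 g3
  have hs0 : 0 < s := by linarith [hB.s_ge]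
  have hN : (S.card : ℝ) = s ^ 2 := hB.hs.symm
  have hE : 0 < E := by linarith
  have hLA : 0 < LA := by linarith [hB.L_ge]
  have hσ2 : σ ^ 2 = 1 := by rcases hσ with h | h <;> rw [h] <;> norm_num
  have hσa : |σ| = 1 := by rcases hσ with h | h <;> rw [h] <;> norm_num
  set T := Tr 1 K with hTdef
  have hq0 : 0 ≤ (E - E') / E := div_nonneg (by linarith) hE.le
  have hq1 : (E - E') / E * s ^ 2 ≤ 2 := by
    rw [hN] at h1
    have h3 : E * (1 - 2 / s ^ 2) * s ^ 2 = E * s ^ 2 - 2 * E := by field_simp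
    have h4 := mul_le_mul_of_nonneg_right h1 (sq_nonneg s)
    rw [div_mul_eq_mul_div, div_le_iff₀ hE]
    nlinarith
  have key := H1 hK hB hA hw 1 σ (σ * T / E - 1) (-(σ * T * ((E - E') / E))) E'
    ((20 + 5 * C2) * ε * s ^ 2) le_rfl (by norm_num) hσ hE' (by positivity) (by
      intro hx
      have hσT : 0 < σ * T := by
        have : 1 < σ * T / E := by linarith
        rw [one_lt_div hE] at this
        linarith
      have h3 := H2 hK hB hA hw 1 le_rfl (by norm_num)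
      obtain ⟨r0, r1, -⟩ := RR_trace hK
      simp only [Finset.sum_range_succ, Finset.range_zero, Finset.sum_empty, zero_add, Nat.sub_zero,
        Nat.sub_self, r0, r1, yy, hN] at h3
      rw [← hTdef] at h3
      set Z := ∑ a ∈ S, ∑ b ∈ S, w a b * ff S e K 1 a b with hZ
      set Y := ∑ a ∈ S, ∑ b ∈ S, w a b with hY
      have h4 : σ * (Z - (T * -(s ^ 2 - Tr 2 K) + -(s ^ 2 - Tr 2 K) * T)) ≤ C2 * eE * LA ^ (1 + 1) := by
        refine le_trans (le_abs_self _) ?_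
        rw [abs_mul, hσa, one_mul]
        exact h3
      have h5 : Y ≤ (s ^ 2 + eE) * s ^ 2 := by
        have := (abs_le.1 hw.total).2
        rw [hN] at this
        nlinarith
      have h6 : (E - E') / E * Y ≤ 2 * (s ^ 2 + eE) := by
        have h7 := mul_le_mul_of_nonneg_left h5 hq0
        have h8 : 0 ≤ s ^ 2 + eE := by nlinarith
        have h9 := mul_le_mul_of_nonneg_right hq1 h8
        nlinarith
      have h7 : σ * T * ((E - E') / E * Y) ≤ σ * T * (2 * (s ^ 2 + eE)) :=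
        mul_le_mul_of_nonneg_left h6 hσT.le
      have h8 : σ * T * (2 * Tr 2 K + 2 * eE) ≤ σ * T * (4 * (ε * s ^ 2)) :=
        mul_le_mul_of_nonneg_left (by linarith) hσT.le
      have h9 : σ * T * (4 * (ε * s ^ 2)) ≤ 5 * E' * (4 * (ε * s ^ 2)) :=
        mul_le_mul_of_nonneg_right (by linarith) (by positivity)
      have h10 : C2 * (eE * LA ^ 2) ≤ C2 * (ε * s ^ 2 * (5 * E')) :=
        mul_le_mul_of_nonneg_left (le_trans g3 (mul_le_mul_of_nonneg_left htp' (by positivity))) hC2.le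
      push_cast
      norm_num at h4
      nlinarith)
  have hid : ∀ a b, σ * T / E - 1 + (σ * (aa (del S a b) (upd e K a b) 1 - aa S K 1)
      - -(σ * T * ((E - E') / E))) / E' = σ * Tr 1 (upd e K a b) / E' - 1 := by
    intro a b
    rw [aa_one, aa_one, ← hTdef]
    field_simp
    ring
  simp only [hid] at key
  refine le_trans key ?_
  have h3 : (-(σ * T * ((E - E') / E))) ^ 2 * s ^ 4 ≤ 4 * t ^ 2 := by
    have h4 : (-(σ * T * ((E - E') / E))) ^ 2 * s ^ 4 = σ ^ 2 * T ^ 2 * ((E - E') / E * s ^ 2) ^ 2 := by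
      ring
    rw [h4, hσ2, one_mul]
    have h5 : ((E - E') / E * s ^ 2) ^ 2 ≤ 2 ^ 2 := pow_le_pow_left₀ (by positivity) hq1 2
    have h6 : T ^ 2 ≤ t ^ 2 := by
      rw [← sq_abs T]; exact pow_le_pow_left₀ (abs_nonneg _) ht 2
    calc T ^ 2 * ((E - E') / E * s ^ 2) ^ 2 ≤ t ^ 2 * 2 ^ 2 :=
          mul_le_mul h6 h5 (by positivity) (by positivity)
      _ = 4 * t ^ 2 := by ring
  have h4 : tp ^ 2 ≤ (5 * E') ^ 2 := pow_le_pow_left₀ htp.le htp' 2
  have h5 : ε * s ^ 2 * tp ^ 2 ≤ ε * s ^ 2 * (5 * E') ^ 2 := mul_le_mul_of_nonneg_left h4 (by positivity)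
  have h6 : (LA ^ (2 * 1 + 2) + (-(σ * T * ((E - E') / E))) ^ 2 * s ^ 4) / E' ^ 2 ≤ 125 * (ε * s ^ 2) := by
    rw [div_le_iff₀ (by positivity)]
    norm_num
    norm_num at h3
    nlinarith
  have h7 : s * LA ^ (1 + 1) / E' ≤ 5 * (ε * s ^ 2) := by
    rw [div_le_iff₀ hE']
    have h8 : s * LA ^ 2 ≤ eE * LA ^ 2 := mul_le_mul_of_nonneg_right hsE (by positivity)
    have h9 : ε * s ^ 2 * tp ≤ ε * s ^ 2 * (5 * E') := mul_le_mul_of_nonneg_left htp' (by positivity)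
    norm_num
    nlinarith
  have h8 := mul_le_mul_of_nonneg_left (add_le_add h6 h7) hC1.le
  nlinarith

end Crest.Agent.R62.Ph3
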