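import Crest.Agent.R62.MomentB
import Crest.Agent.R62.VWAux

/-! Pointwise and summation lemmas for `T2_step`. -/

set_option autoImplicit false
set_option linter.unusedSectionVars false
open Classical
open scoped Matrix
open Finset

noncomputable section
namespace Crest.Agent.R62

theorem T2Step_eta {e k d t : ℝ} (he : e = 1 ∨ e = -1) (hk : |k| ≤ d) (hd : d ≤ 2 / 1000)
    (ht : |t - 1| ≤ 3 * d) : |t * (e - k) - e| ≤ 5 * d := by
  have h0 : 0 ≤ d := le_trans (abs_nonneg _) hk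
  obtain ⟨t1, t2⟩ := abs_le.1 ht
  obtain ⟨k1, k2⟩ := abs_le.1 hk
  rcases he with rfl | rfl <;> rw [abs_le] <;> constructor <;> nlinarith

theorem T2Step_A {x y t η d : ℝ} (hη : |η| ≤ 5 * d) (hd : d ≤ 2 / 1000)
    (ht : |t - 1| ≤ 3 * d) :
    (t * y) ^ 2 + (t * x) ^ 2 + 2 * η ^ 2 ≤ 2 * (x ^ 2 + y ^ 2) + 50 * d ^ 2 := by
  obtain ⟨t1, t2⟩ := abs_le.1 ht
  have h1 : η ^ 2 ≤ (5 * d) ^ 2 := by
    rw [← sq_abs]; exact pow_le_pow_left₀ (abs_nonneg _) hη 2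
  have h2 : t ^ 2 ≤ 2 := by nlinarith
  nlinarith [mul_le_mul_of_nonneg_right h2 (sq_nonneg x), mul_le_mul_of_nonneg_right h2 (sq_nonneg y)]

theorem T2Step_B {e x y t η d ba bb m : ℝ} (he : e = 1 ∨ e = -1) (hη : |η| ≤ 5 * d)
    (hd : d ≤ 2 / 1000) (ht : |t - 1| ≤ 3 * d) (hba : 0 ≤ ba) (hbb : 0 ≤ bb) :
    -2 * (((t * y) ^ 2 + (e + η) ^ 2) * ba + ((t * x) ^ 2 + (e + η) ^ 2) * bb
      + 2 * (e + η) * t * (x + y) * m) ≤
      -2 * (ba + bb) + 20 * (d * ba + d * bb) + 5 * (|x| * |m| + |y| * |m|) := by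
  obtain ⟨t1, t2⟩ := abs_le.1 ht
  obtain ⟨η1, η2⟩ := abs_le.1 hη
  have h0 : 0 ≤ d := by linarith [abs_nonneg η]
  have h1 : 1 - 10 * d ≤ (e + η) ^ 2 := by rcases he with rfl | rfl <;> nlinarith
  have h2 : |(e + η) * t| ≤ 5 / 4 := by
    rw [abs_le]; rcases he with rfl | rfl <;> constructor <;> nlinarith
  have h3 : |(e + η) * t * ((x + y) * m)| ≤ 5 / 4 * ((|x| + |y|) * |m|) := by
    rw [abs_mul, abs_mul (x + y)]
    exact mul_le_mul h2 (mul_le_mul_of_nonneg_right (abs_add_le _ _) (abs_nonneg _)) (by positivity)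
      (by norm_num)
  have h4 := (abs_le.1 h3).1
  nlinarith [mul_le_mul_of_nonneg_right h1 hba, mul_le_mul_of_nonneg_right h1 hbb,
    mul_nonneg (sq_nonneg (t * y)) hba, mul_nonneg (sq_nonneg (t * x)) hbb]

theorem T2Step_C {x y c ba bb m : ℝ} (hc : c ^ 2 ≤ 2) (hxy : |x * y| ≤ 1) (hba : 0 ≤ ba) (hbb : 0 ≤ bb)
    (hm : m ^ 2 ≤ ba * bb) :
    (y * ba + c * m) ^ 2 + (c * m + x * bb) ^ 2 + 2 * ((y * m + c * bb) * (c * ba + x * m)) ≤
      20 * (ba * bb) + 3 * ((y * ba) ^ 2 + (x * bb) ^ 2) := by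
  have h0 : 0 ≤ ba * bb := mul_nonneg hba hbb
  have h1 : (c * m) ^ 2 ≤ 2 * (ba * bb) := by
    rw [mul_pow]; exact mul_le_mul hc hm (sq_nonneg _) (by norm_num)
  have h2 : x * y * m ^ 2 ≤ ba * bb := by
    have := (abs_le.1 hxy).2
    nlinarith [sq_nonneg m]
  have h3 : c ^ 2 * (ba * bb) ≤ 2 * (ba * bb) := mul_le_mul_of_nonneg_right hc h0
  nlinarith [sq_nonneg (y * ba - 2 * (c * m)), sq_nonneg (x * bb - 2 * (c * m))]

theorem T2Step_D {e x y t η d pa pb q : ℝ} (hη : |η| ≤ 5 * d) (ht : |t - 1| ≤ 3 * d) :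
    2 * (t * y * pa + t * x * pb + 2 * (e + η) * q) ≤
      4 * (e * q) + 2 * (y * pa + x * pb) + 20 * (d * |q|) + 6 * (|pa| * d * |y| + |pb| * d * |x|) := by
  have h1 : η * q ≤ 5 * d * |q| := by
    refine le_trans (le_abs_self _) ?_
    rw [abs_mul]; exact mul_le_mul_of_nonneg_right hη (abs_nonneg _)
  have h2 : (t - 1) * (y * pa) ≤ 3 * d * (|y| * |pa|) := by
    refine le_trans (le_abs_self _) ?_
    rw [abs_mul, abs_mul]; exact mul_le_mul_of_nonneg_right ht (by positivity)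
  have h3 : (t - 1) * (x * pb) ≤ 3 * d * (|x| * |pb|) := by
    refine le_trans (le_abs_self _) ?_
    rw [abs_mul, abs_mul]; exact mul_le_mul_of_nonneg_right ht (by positivity)
  nlinarith

variable {ι : Type} [Fintype ι] [DecidableEq ι] {p e : ℝ} {S : Finset ι} {K : Matrix ι ι ℝ}

/-- `δ'` -/
def T2Step_dl (K : Matrix ι ι ℝ) (a b : ι) : ℝ := |K a b| + |K a a * K b b|

theorem T2Step_dl_nonneg (K : Matrix ι ι ℝ) (a b : ι) : 0 ≤ T2Step_dl K a b := by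
  unfold T2Step_dl; positivity

theorem T2Step_dl_symm (h : Good p S e K) (a b : ι) : T2Step_dl K a b = T2Step_dl K b a := by
  unfold T2Step_dl; rw [h.symm a b, mul_comm]

/-- half of the symmetric upper bound -/
def T2Step_F (e : ℝ) (K : Matrix ι ι ℝ) (a b : ι) : ℝ :=
  2 * K a a ^ 2 + 25 * T2Step_dl K a b ^ 2 - 2 * bet K a + 20 * (T2Step_dl K a b * bet K a)
  + 5 * (|K a a| * |(K ^ 2) a b|) + 20 * (bet K a * bet K b) + 6 * (K b b ^ 2 * bet K a ^ 2)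
  + 2 * (e * (K ^ 3) a b) + 2 * ((K ^ 3) a a * K b b) + 10 * (T2Step_dl K a b * |(K ^ 3) a b|)
  + 6 * (|(K ^ 3) a a| * T2Step_dl K a b * |K b b|)

theorem T2Step_point (h : Good p S e K) {a b : ι} (hA : Alw K a b) :
    Tr 2 (upd e K a b) - Tr 2 K ≤ T2Step_F e K a b + T2Step_F e K b a := by
  obtain ⟨d1, d2, d3⟩ := Alw.Dd_bound h.sign hA
  have hD : Dd e K a b ≠ 0 := by linarith [d1] |> fun (h : 0 < Dd e K a b) => h.ne'
  rw [T2_upd h hA.1 hD]
  rw [one_div] at d3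
  set t := (Dd e K a b)⁻¹ with ht
  have hd : T2Step_dl K a b ≤ 2 / 1000 := by
    unfold T2Step_dl; linarith [hA.2.1, hA.2.2]
  have hk : |K a b| ≤ T2Step_dl K a b := by
    unfold T2Step_dl; linarith [abs_nonneg (K a a * K b b)]
  have d3' : |t - 1| ≤ 3 * T2Step_dl K a b := d3
  have hη := T2Step_eta h.sign hk hd d3'
  have hm : (K ^ 2) a b ^ 2 ≤ bet K a * bet K b := by
    have := h.pow_entry 1 1 a b
    norm_num at this
    rwa [VW_sq_eq, VW_sq_eq] at this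
  have hba := h.bet_nonneg a
  have hbb := h.bet_nonneg b
  have A := T2Step_A (x := K a a) (y := K b b) hη hd d3'
  have B := T2Step_B (x := K a a) (y := K b b) (m := (K ^ 2) a b) h.sign hη hd d3' hba hbb
  have hc : (e - K a b) ^ 2 ≤ 2 := by
    obtain ⟨k1, k2⟩ := abs_le.1 hA.2.1
    rcases h.sign with he | he <;> rw [he] <;> nlinarith
  have C := T2Step_C (x := K a a) (y := K b b) hc (le_trans hA.2.2 (by norm_num)) hba hbb hm
  have ht2 : t ^ 2 ≤ 2 := by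
    obtain ⟨t1, t2⟩ := abs_le.1 d3'
    nlinarith
  have C' := le_trans (mul_le_mul_of_nonneg_left C (sq_nonneg t))
    (mul_le_mul_of_nonneg_right ht2 (by positivity))
  · have D := T2Step_D (e := e) (x := K a a) (y := K b b) (pa := (K ^ 3) a a) (pb := (K ^ 3) b b)
      (q := (K ^ 3) a b) hη d3'
    have s2 : (K ^ 2) b a = (K ^ 2) a b := h.pow_symm 2 b a
    have s3 : (K ^ 3) b a = (K ^ 3) a b := h.pow_symm 3 b a
    have k2 : K * K = K ^ 2 := (sq K).symm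
    have k3 : K * K * K = K ^ 3 := (pow_three' K).symm
    have ba : (K ^ 2) a a = bet K a := VW_sq_eq K a
    have bb : (K ^ 2) b b = bet K b := VW_sq_eq K b
    rw [k3, k2]
    unfold T2Step_F
    rw [T2Step_dl_symm h b a, s2, s3]
    simp only [Xm, blk, sig, ← ht, Matrix.trace_fin_two, Matrix.mul_apply, Fin.sum_univ_two,
      Matrix.sub_apply, Matrix.smul_apply, Matrix.of_apply, Matrix.cons_val', Matrix.cons_val_zero,
      Matrix.cons_val_one, Matrix.cons_val_fin_one, smul_eq_mul, ba, bb, s2, s3]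
    linarith only [A, B, C', D]

theorem T2Step_bias3 (h : Good p S e K) {w : ι → ι → ℝ} {eF eE er L : ℝ} (hw : Wt S K w eF eE er)
    (hL : 0 ≤ L) (h2 : Tr 2 K ≤ L ^ 2) (h4 : Tr 4 K ≤ L ^ 4) :
    |∑ a ∈ S, ∑ b ∈ S, (1 - w a b) * (K ^ 3) a b| ≤ eE * L ^ 3 := by
  have k3 : K ^ 3 = K * K ^ 2 := by rw [pow_succ' K 2]
  have e1 : ∑ a ∈ S, ∑ b ∈ S, (1 - w a b) * (K ^ 3) a b =
      ∑ c ∈ S, ∑ a ∈ S, ∑ b ∈ S, K a c * (1 - w a b) * (K ^ 2) c b := by
    rw [Finset.sum_comm (s := S) (t := S) (f := fun c a => ∑ b ∈ S, K a c * (1 - w a b) * (K ^ 2) c b)]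
    refine Finset.sum_congr rfl fun a _ => ?_
    rw [Finset.sum_comm]
    refine Finset.sum_congr rfl fun b _ => ?_
    rw [k3, Matrix.mul_apply, ← Finset.sum_subset (Finset.subset_univ S), Finset.mul_sum]
    · exact Finset.sum_congr rfl fun c _ => by ring
    · intro c _ hc
      rw [h.symm a c, h.supp c a hc, zero_mul]
  rw [e1]
  refine le_trans (Finset.abs_sum_le_sum_abs _ _) ?_
  refine le_trans (Finset.sum_le_sum fun c _ => hw.op (fun a => K a c) (fun b => (K ^ 2) c b)) ?_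
  have e2 : ∑ c ∈ S, eE * √(∑ a ∈ S, K a c ^ 2) * √(∑ b ∈ S, (K ^ 2) c b ^ 2) =
      eE * ∑ c ∈ S, √(∑ a ∈ S, K a c ^ 2) * √(∑ b ∈ S, (K ^ 2) c b ^ 2) := by
    rw [Finset.mul_sum]; exact Finset.sum_congr rfl fun c _ => by ring
  rw [e2]
  refine mul_le_mul_of_nonneg_left ?_ hw.eE_nonneg
  have := VW_cs S (fun c => √(∑ a ∈ S, K a c ^ 2)) (fun c => √(∑ b ∈ S, (K ^ 2) c b ^ 2))
    (A := L) (B := L ^ 2) hL (by positivity) ?_ ?_
  · calc _ ≤ _ := le_abs_self _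
      _ ≤ L * L ^ 2 := this
      _ = L ^ 3 := by ring
  · refine le_trans (le_of_eq ?_) h2
    rw [h.Tr2_eq', Finset.sum_comm]
    exact Finset.sum_congr rfl fun c _ => Real.sq_sqrt (Finset.sum_nonneg fun _ _ => sq_nonneg _)
  · refine le_trans ?_ (le_trans h4 (le_of_eq (by ring)))
    rw [h.Tr_eq (by norm_num : 1 ≤ 4)]
    refine Finset.sum_le_sum fun c _ => ?_
    rw [Real.sq_sqrt (Finset.sum_nonneg fun _ _ => sq_nonneg _)]
    have := h.pow_diag 2 c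
    norm_num at this
    rw [this]
    exact Finset.sum_le_sum_of_subset_of_nonneg (Finset.subset_univ _) fun _ _ _ => sq_nonneg _

theorem T2Step_frob (h : Good p S e K) {j : ℕ} (hj : 1 ≤ j) :
    ∑ a ∈ S, ∑ b ∈ S, (K ^ j) a b ^ 2 ≤ Tr (2 * j) K := by
  rw [h.Tr_eq (by omega : 1 ≤ 2 * j)]
  refine Finset.sum_le_sum fun c _ => ?_
  rw [h.pow_diag j c]
  exact Finset.sum_le_sum_of_subset_of_nonneg (Finset.subset_univ _) fun _ _ _ => sq_nonneg _

theorem T2Step_abs3 (h : Good p S e K) {L : ℝ} (hL : 0 ≤ L) (ho : OpB K L) :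
    ∑ a ∈ S, |(K ^ 3) a a| ≤ L * Tr 2 K := by
  rw [h.Tr2_eq, Finset.mul_sum]
  refine Finset.sum_le_sum fun c _ => ?_
  have := h.diag_odd hL ho 1 c
  norm_num at this
  rwa [VW_sq_eq] at this

end Crest.Agent.R62
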