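import Crest.Agent.R62.MomentB
import Crest.Agent.R62.T2StepAux

/-! Step inequality for `T₂` in the decay phase. -/

set_option autoImplicit false
open Classical
open scoped Matrix
open Finset

noncomputable section
namespace Crest.Agent.R62

theorem T2_step : ∃ C : ℝ, 0 < C ∧ ∀ {ι : Type} [Fintype ι] [DecidableEq ι] {p e : ℝ} {S : Finset ι} {K : Matrix ι ι ℝ}
      {s L lam r dd om ga : ℝ}, Good p S e K → Bd S K s L lam r dd om ga →
      ∀ {w : ι → ι → ℝ} {eF eE er ε δ tp tm : ℝ}, Wt S K w eF eE er → 0 ≤ ε →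
      1 ≤ δ → dd ≤ δ → δ ^ 2 ≤ s → s ≤ eE → r + δ ^ 2 ≤ er → Tr 2 K ≤ L ^ 2 →
      0 ≤ tp → 0 ≤ tm → Tr 1 K ≤ tp → -Tr 1 K ≤ tm →
      dd ^ 2 ≤ ε * L ^ 2 → dd ^ 4 ≤ ε * s ^ 2 * L ^ 2 → er ≤ ε * s → dd ≤ ε * s → L ^ 2 ≤ ε * s ^ 2 →
      dd ^ 2 * om ^ 2 ≤ ε * s ^ 2 * L ^ 2 → eE * L ≤ ε * s ^ 2 → tp * L ≤ ε * s ^ 2 →
      tm ≤ ε * s ^ 2 → L * er * δ ≤ ε * s ^ 2 →
      ∑ a ∈ S, ∑ b ∈ S, w a b * (Tr 2 (upd e K a b) - Tr 2 K) ≤
        -4 * s ^ 2 * (Tr 2 K - 1) + C * ε * s ^ 2 * L ^ 2 := by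
  refine ⟨1000, by norm_num, ?_⟩
  intro ι _ _ p e S K s L lam r dd om ga hK hb w eF eE er ε δ tp tm hw hε hδ hdd hδs hsE hrer h2
    htp htm hT1p hT1m a1 a2 a3 a4 a5 a6 a7 a8 a9 a10
  have hs0 : 0 ≤ s := by linarith only [hb.s_ge]
  have hL1 := hb.L_ge
  have hL : 0 ≤ L := by linarith only [hL1]
  have hr1 := hb.r_ge
  have hdd0 := hb.dd_nonneg
  have her0 := hw.er_nonneg
  have hδ0 : 0 ≤ δ := by linarith only [hδ]
  have hT2 := VW_T2_nonneg hK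
  have hεs : 0 ≤ ε * s ^ 2 := by positivity
  have hL2 : 1 ≤ L ^ 2 := one_le_pow₀ hL1
  have hQ : 0 ≤ ε * s ^ 2 * L ^ 2 := by positivity
  have hDh0 : 0 ≤ Dh K := Finset.sum_nonneg fun _ _ => sq_nonneg _
  have hDh : ∑ c ∈ S, K c c ^ 2 ≤ dd ^ 2 := by rw [← hK.Dh_eq]; exact hb.D
  have hDh2 : Dh K ^ 2 ≤ dd ^ 4 := by
    calc Dh K ^ 2 ≤ (dd ^ 2) ^ 2 := pow_le_pow_left₀ hDh0 hb.D 2
      _ = dd ^ 4 := by ring
  have hdd4 : dd ^ 4 ≤ δ ^ 4 := pow_le_pow_left₀ hdd0 hdd 4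
  have hW : ∑ c ∈ S, bet K c ^ 2 ≤ om ^ 2 := by simpa [Vs] using hb.W
  have hsq : √(∑ c ∈ S, K c c ^ 2) ≤ δ := by
    rw [Real.sqrt_le_left hδ0]
    exact le_trans hDh (pow_le_pow_left₀ hdd0 hdd 2)
  have hL4 : L ^ 2 * L ^ 2 ≤ ε * s ^ 2 * L ^ 2 := mul_le_mul_of_nonneg_right a5 (by positivity)
  have hser : s * er ≤ ε * s ^ 2 := by nlinarith only [mul_le_mul_of_nonneg_left a3 hs0]
  have hrow : ∀ a ∈ S, ∑ b ∈ S, T2Step_dl K a b ^ 2 ≤ (2 * er) ^ 2 := by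
    intro a _
    have q1 := hK.delta_row a
    have q2 := hb.beta a
    have q3 : (r + δ ^ 2) ^ 2 ≤ er ^ 2 := pow_le_pow_left₀ (by positivity) hrer 2
    have q4 : 0 ≤ r * δ ^ 2 := by positivity
    unfold T2Step_dl
    nlinarith only [q1, q2, q3, q4, hDh2, hdd4, sq_nonneg er]
  have habs3 : ∑ a ∈ S, |(K ^ 3) a a| ≤ L ^ 3 := by
    refine le_trans (T2Step_abs3 hK hL hb.op) ?_
    calc L * Tr 2 K ≤ L * L ^ 2 := mul_le_mul_of_nonneg_left h2 hL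
      _ = L ^ 3 := by ring
  have hL3 : L ^ 3 * er * δ ≤ ε * s ^ 2 * L ^ 2 := by
    nlinarith only [mul_le_mul_of_nonneg_right a10 (sq_nonneg L)]
  refine le_trans (VW_mono hw _ _ fun a _ b _ hA => T2Step_point hK hA) ?_
  rw [VW_sym S w hw.symm (T2Step_F e K)]
  have split : ∑ a ∈ S, ∑ b ∈ S, w a b * T2Step_F e K a b =
      2 * ∑ a ∈ S, ∑ b ∈ S, w a b * K a a ^ 2
      + 25 * ∑ a ∈ S, ∑ b ∈ S, w a b * T2Step_dl K a b ^ 2
      - 2 * ∑ a ∈ S, ∑ b ∈ S, w a b * bet K a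
      + 20 * ∑ a ∈ S, ∑ b ∈ S, w a b * (bet K a * T2Step_dl K a b * 1)
      + 5 * ∑ a ∈ S, ∑ b ∈ S, w a b * (|K a a| * |(K ^ 2) a b|)
      + 20 * ∑ a ∈ S, ∑ b ∈ S, w a b * (bet K a * bet K b)
      + 6 * ∑ a ∈ S, ∑ b ∈ S, w a b * (bet K a ^ 2 * K b b ^ 2)
      + 2 * ∑ a ∈ S, ∑ b ∈ S, w a b * (e * (K ^ 3) a b)
      + 2 * ∑ a ∈ S, ∑ b ∈ S, w a b * ((K ^ 3) a a * K b b)
      + 10 * ∑ a ∈ S, ∑ b ∈ S, w a b * (T2Step_dl K a b * |(K ^ 3) a b|)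
      + 6 * ∑ a ∈ S, ∑ b ∈ S, w a b * (|(K ^ 3) a a| * T2Step_dl K a b * |K b b|) := by
    simp only [Finset.mul_sum, ← Finset.sum_add_distrib, ← Finset.sum_sub_distrib]
    refine Finset.sum_congr rfl fun a _ => Finset.sum_congr rfl fun b _ => ?_
    unfold T2Step_F; ring
  rw [split]
  have t1 : ∑ a ∈ S, ∑ b ∈ S, w a b * K a a ^ 2 ≤ 5 / 4 * (ε * s ^ 2 * L ^ 2) := by
    refine le_trans (VW_le hw _ fun _ _ _ _ => sq_nonneg _) (mul_le_mul_of_nonneg_left ?_ (by norm_num))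
    simp only [Finset.sum_const, nsmul_eq_mul]
    rw [← Finset.mul_sum, ← hb.hs]
    nlinarith only [mul_le_mul_of_nonneg_left (le_trans hDh a1) (sq_nonneg s)]
  have hfrob : ∑ a ∈ S, ∑ b ∈ S, T2Step_dl K a b ^ 2 ≤ 2 * (L ^ 2 + dd ^ 4) := by
    have := hK.delta_frob
    unfold T2Step_dl
    linarith only [this, h2, hDh2]
  have t2 : ∑ a ∈ S, ∑ b ∈ S, w a b * T2Step_dl K a b ^ 2 ≤ 5 * (ε * s ^ 2 * L ^ 2) := by
    refine le_trans (VW_le hw _ fun _ _ _ _ => sq_nonneg _) ?_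
    have : ε * s ^ 2 * 1 ≤ ε * s ^ 2 * L ^ 2 := mul_le_mul_of_nonneg_left hL2 hεs
    linarith only [hfrob, this, a5, a2]
  have t3 : s ^ 2 * Tr 2 K - ε * s ^ 2 * L ^ 2 ≤ ∑ a ∈ S, ∑ b ∈ S, w a b * bet K a := by
    have q1 := VW_removal hw hs0 hb.hs (bet K) (fun c _ => hK.bet_nonneg c)
    rw [← hK.Tr2_eq] at q1
    have q2 : s * er * Tr 2 K ≤ ε * s ^ 2 * L ^ 2 := mul_le_mul hser h2 hT2 hεs
    linarith only [q1, q2]
  have t4 : ∑ a ∈ S, ∑ b ∈ S, w a b * (bet K a * T2Step_dl K a b * 1) ≤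
      5 / 2 * (ε * s ^ 2 * L ^ 2) := by
    refine le_trans (VW_le hw _ fun a _ b _ => mul_nonneg (mul_nonneg (hK.bet_nonneg a)
      (T2Step_dl_nonneg K a b)) zero_le_one) ?_
    have q1 := (abs_le.1 (row_test S (T2Step_dl K) (2 * er) (by positivity) hrow (bet K)
      (fun _ => 1))).2
    have q2 : ∑ a ∈ S, |bet K a| = Tr 2 K := by
      rw [hK.Tr2_eq]; exact Finset.sum_congr rfl fun c _ => abs_of_nonneg (hK.bet_nonneg c)
    have q3 : √(∑ _b ∈ S, (1 : ℝ) ^ 2) = s := by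
      simp only [one_pow, Finset.sum_const, nsmul_eq_mul, mul_one]
      rw [← hb.hs, Real.sqrt_sq hs0]
    rw [q2, q3] at q1
    have q4 : s * er * Tr 2 K ≤ ε * s ^ 2 * L ^ 2 := mul_le_mul hser h2 hT2 hεs
    linarith only [q1, q4]
  have t5 : ∑ a ∈ S, ∑ b ∈ S, w a b * (|K a a| * |(K ^ 2) a b|) ≤ 5 / 4 * (ε * s ^ 2 * L ^ 2) := by
    refine le_trans (VW_le hw _ fun a _ b _ => by positivity)
      (mul_le_mul_of_nonneg_left ?_ (by norm_num))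
    have q1 := VW_cs2 S (fun a _ => |K a a|) (fun a b => |(K ^ 2) a b|) (A := s * dd) (B := L ^ 2)
      (by positivity) (by positivity) ?_ ?_
    · have q2 : s * dd ≤ ε * s ^ 2 := by nlinarith only [mul_le_mul_of_nonneg_left a4 hs0]
      exact le_trans (le_abs_self _) (le_trans q1 (mul_le_mul_of_nonneg_right q2 (by positivity)))
    · simp only [sq_abs, Finset.sum_const, nsmul_eq_mul]
      rw [← Finset.mul_sum, ← hb.hs, mul_pow]
      exact mul_le_mul_of_nonneg_left hDh (sq_nonneg s)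
    · simp only [sq_abs]
      refine le_trans (T2Step_frob hK (by norm_num : 1 ≤ 2)) (le_trans hb.T4 (le_of_eq (by ring)))
  have t6 : ∑ a ∈ S, ∑ b ∈ S, w a b * (bet K a * bet K b) ≤ 5 / 4 * (ε * s ^ 2 * L ^ 2) := by
    refine le_trans (VW_le hw _ fun a _ b _ => mul_nonneg (hK.bet_nonneg a) (hK.bet_nonneg b))
      (mul_le_mul_of_nonneg_left ?_ (by norm_num))
    rw [← Finset.sum_mul_sum, ← hK.Tr2_eq]
    exact le_trans (mul_le_mul h2 h2 hT2 (by positivity)) hL4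
  have t7 : ∑ a ∈ S, ∑ b ∈ S, w a b * (bet K a ^ 2 * K b b ^ 2) ≤ 5 / 4 * (ε * s ^ 2 * L ^ 2) := by
    refine le_trans (VW_le hw _ fun a _ b _ => by positivity)
      (mul_le_mul_of_nonneg_left ?_ (by norm_num))
    rw [← Finset.sum_mul_sum]
    refine le_trans (mul_le_mul hW hDh (Finset.sum_nonneg fun _ _ => sq_nonneg _) (by positivity)) ?_
    linarith only [a6]
  have t8 : ∑ a ∈ S, ∑ b ∈ S, w a b * (e * (K ^ 3) a b) ≤ s ^ 2 + ε * s ^ 2 * L ^ 2 := by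
    have q1 := T2Step_bias3 hK hw hL h2 hb.T4
    have q2 : ∑ a ∈ S, ∑ b ∈ S, w a b * (e * (K ^ 3) a b) =
        e * ∑ a ∈ S, ∑ b ∈ S, (K ^ 3) a b - e * ∑ a ∈ S, ∑ b ∈ S, (1 - w a b) * (K ^ 3) a b := by
      simp only [Finset.mul_sum, ← Finset.sum_sub_distrib]
      exact Finset.sum_congr rfl fun a _ => Finset.sum_congr rfl fun b _ => by ring
    have q3 : ∑ a ∈ S, ∑ b ∈ S, (K ^ 3) a b = s ^ 2 * e ^ 3 := by
      rw [Finset.sum_congr rfl fun a ha => hK.pow_row (by norm_num : 1 ≤ 3) ha, hb.hs]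
      simp
    have q4 : eE * L ^ 3 ≤ ε * s ^ 2 * L ^ 2 := by
      nlinarith only [mul_le_mul_of_nonneg_right a7 (sq_nonneg L)]
    obtain ⟨q5, q6⟩ := abs_le.1 q1
    rw [q2, q3]
    rcases hK.sign with he | he <;> rw [he] <;> linarith only [q4, q5, q6]
  have t9 : ∑ a ∈ S, ∑ b ∈ S, w a b * ((K ^ 3) a a * K b b) ≤ 2 * (ε * s ^ 2 * L ^ 2) := by
    have q1 := (abs_le.1 (row_test S (fun a b => 1 - w a b) er her0 hw.row (fun a => (K ^ 3) a a)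
      (fun b => K b b))).1
    have q2 : ∑ a ∈ S, ∑ b ∈ S, w a b * ((K ^ 3) a a * K b b) =
        Tr 3 K * Tr 1 K - ∑ a ∈ S, ∑ b ∈ S, (K ^ 3) a a * (1 - w a b) * K b b := by
      rw [hK.Tr_eq (by norm_num : 1 ≤ 3), hK.Tr1_eq, Finset.sum_mul_sum]
      simp only [← Finset.sum_sub_distrib]
      exact Finset.sum_congr rfl fun a _ => Finset.sum_congr rfl fun b _ => by ring
    have q3 : (∑ a ∈ S, |(K ^ 3) a a|) * er * √(∑ b ∈ S, K b b ^ 2) ≤ L ^ 3 * er * δ :=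
      mul_le_mul (mul_le_mul_of_nonneg_right habs3 her0) hsq (Real.sqrt_nonneg _) (by positivity)
    have q4 : Tr 3 K * Tr 1 K ≤ ε * s ^ 2 * L ^ 2 := by
      rcases le_total 0 (Tr 1 K) with hT | hT
      · have u1 : Tr 3 K ≤ L ^ 3 := by
          rw [hK.Tr_eq (by norm_num : 1 ≤ 3)]
          exact le_trans (Finset.sum_le_sum fun c _ => le_abs_self _) habs3
        have u2 : Tr 3 K * Tr 1 K ≤ L ^ 3 * tp :=
          le_trans (mul_le_mul_of_nonneg_right u1 hT) (mul_le_mul_of_nonneg_left hT1p (by positivity))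
        nlinarith only [u2, mul_le_mul_of_nonneg_right a8 (sq_nonneg L)]
      · have u1 : -Tr 3 K ≤ L ^ 2 := by
          have := hK.Tr_odd_ge (j := 1) le_rfl
          norm_num at this
          linarith only [this, h2]
        have u2 : -Tr 3 K * -Tr 1 K ≤ L ^ 2 * tm :=
          le_trans (mul_le_mul_of_nonneg_right u1 (by linarith only [hT]))
            (mul_le_mul_of_nonneg_left hT1m (by positivity))
        nlinarith only [u2, mul_le_mul_of_nonneg_right a9 (sq_nonneg L)]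
    rw [q2]
    linarith only [q1, q3, q4, hL3]
  have t10 : ∑ a ∈ S, ∑ b ∈ S, w a b * (T2Step_dl K a b * |(K ^ 3) a b|) ≤
      5 * (ε * s ^ 2 * L ^ 2) := by
    refine le_trans (VW_le hw _ fun a _ b _ => mul_nonneg (T2Step_dl_nonneg K a b) (abs_nonneg _)) ?_
    have q1 := VW_cs2 S (T2Step_dl K) (fun a b => |(K ^ 3) a b|) (A := 2 * (L + δ ^ 2)) (B := L ^ 3)
      (by positivity) (by positivity) ?_ ?_
    · have q2 : δ ^ 2 * 1 ≤ er * δ :=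
        mul_le_mul (by linarith only [hrer, hr1]) hδ zero_le_one her0
      have q3 := mul_le_mul_of_nonneg_left q2 (pow_nonneg hL 3)
      have q4 := le_trans (le_abs_self _) q1
      nlinarith only [q3, q4, hL3, hL4]
    · have q2 : 0 ≤ L * δ ^ 2 := by positivity
      nlinarith only [hfrob, hdd4, q2, sq_nonneg L, sq_nonneg (δ ^ 2)]
    · simp only [sq_abs]
      refine le_trans (T2Step_frob hK (by norm_num : 1 ≤ 3)) ?_
      have q2 := hK.Tr_succ hb.op 2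
      norm_num at q2 ⊢
      nlinarith only [q2, mul_le_mul_of_nonneg_left hb.T4 (sq_nonneg L)]
  have t11 : ∑ a ∈ S, ∑ b ∈ S, w a b * (|(K ^ 3) a a| * T2Step_dl K a b * |K b b|) ≤
      5 / 2 * (ε * s ^ 2 * L ^ 2) := by
    refine le_trans (VW_le hw _ fun a _ b _ => mul_nonneg (mul_nonneg (abs_nonneg _)
      (T2Step_dl_nonneg K a b)) (abs_nonneg _)) ?_
    have q1 := (abs_le.1 (row_test S (T2Step_dl K) (2 * er) (by positivity) hrow
      (fun a => |(K ^ 3) a a|) (fun b => |K b b|))).2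
    simp only [abs_abs, sq_abs] at q1
    have q3 : (∑ a ∈ S, |(K ^ 3) a a|) * er * √(∑ b ∈ S, K b b ^ 2) ≤ L ^ 3 * er * δ :=
      mul_le_mul (mul_le_mul_of_nonneg_right habs3 her0) hsq (Real.sqrt_nonneg _) (by positivity)
    linarith only [q1, q3, hL3]
  linarith only [t1, t2, t3, t4, t5, t6, t7, t8, t9, t10, t11, hQ]

end Crest.Agent.R62
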