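import Crest.Agent.R62.Ph3AuxNum
import Crest.Agent.R62.Ph3AuxT1
import Crest.Agent.R62.DStep
import Crest.Agent.R62.VW
import Crest.Agent.R62.T2Step

/-! Phase 3: the averaged inequality for one sign. -/

set_option autoImplicit false
open Classical
open scoped Matrix
open Finset

noncomputable section
namespace Crest.Agent.R62.Ph3

/-- the parameters of phase 3 -/
structure Par3 (μ s c ε L om dd δ lam r er eE tp tm t LA : ℝ) : Prop where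
  μ1 : 1 ≤ μ
  s8 : 8 ≤ s
  c1 : 1 ≤ c
  hε : ε = 1 / μ ^ 2
  hL : L = s ^ 2 / μ ^ 1358 + 2
  hom : om = s ^ 2 / μ ^ 1288 + μ ^ 20
  hdd : dd = s / μ ^ 1045 + 1 / μ ^ 3
  hδ : δ = dd + 1
  hlam : lam = 2 * (s + om)
  hr : r = √om
  her : er = c * (r + δ ^ 2)
  heE : eE = c * s
  htp : tp = 5 / 2 * (s ^ 2 / μ ^ 1350 + μ ^ 1280)
  htm : tm = 5 / 2 * (s ^ 2 / μ ^ 1207 + μ ^ 1280)
  ht : t = tp + tm
  hLA : LA = L + s / μ ^ 40
  cond : Cond s ε L om dd δ lam r er eE tp tm t LA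

section
variable {μ s c ε L om dd δ lam r er eE tp tm t LA : ℝ}

theorem Par3.facts (P : Par3 μ s c ε L om dd δ lam r er eE tp tm t LA) :
    0 < ε ∧ 1 ≤ L ∧ 1 ≤ om ∧ 0 < dd ∧ 0 < tp ∧ 0 < tm ∧ L ≤ LA ∧ s ≤ eE ∧ r + δ ^ 2 ≤ er ∧
    E2 μ (s ^ 2) + 1 ≤ L ^ 2 ∧ L ^ 2 ≤ 16 * E2 μ (s ^ 2) ∧ EW μ (s ^ 2) = om ^ 2 ∧
    EDc μ (s ^ 2) ≤ dd ^ 2 ∧ dd ^ 2 ≤ 2 * EDc μ (s ^ 2) ∧
    tp = 5 / 2 * E1p μ (s ^ 2) ∧ tm = 5 / 2 * E1m μ (s ^ 2) ∧ E1p μ (s ^ 2) ≤ E1m μ (s ^ 2) := by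
  have hμ : 0 < μ := by linarith [P.μ1]
  have hs : 0 < s := by linarith [P.s8]
  have h1 : 0 ≤ s ^ 2 / μ ^ 1358 := by positivity
  have h2 : 0 ≤ s ^ 2 / μ ^ 1288 := by positivity
  have h3 : 1 ≤ μ ^ 20 := one_le_pow₀ P.μ1
  have h4 : 0 ≤ s / μ ^ 40 := by positivity
  have h5 : (s / μ ^ 1045) ^ 2 = s ^ 2 / μ ^ 2090 := by rw [div_pow, ← pow_mul]
  have h6 : (1 / μ ^ 3) ^ 2 = 1 / μ ^ 6 := by rw [div_pow, ← pow_mul, one_pow]
  have h7 : 0 ≤ s / μ ^ 1045 := by positivity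
  have h8 : 0 ≤ 1 / μ ^ 3 := by positivity
  refine ⟨by rw [P.hε]; positivity, by rw [P.hL]; linarith, by rw [P.hom]; linarith,
    by rw [P.hdd]; positivity, by rw [P.htp]; positivity, by rw [P.htm]; positivity,
    by rw [P.hLA]; linarith, by rw [P.heE]; nlinarith [P.c1], ?_, ?_, ?_, by rw [P.hom]; rfl, ?_, ?_,
    by rw [P.htp]; rfl, by rw [P.htm]; rfl, ?_⟩
  · have : 0 ≤ r + δ ^ 2 := by rw [P.hr]; positivity
    rw [P.her]; nlinarith [P.c1]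
  · rw [P.hL, E2]; nlinarith
  · rw [P.hL, E2]; nlinarith
  · rw [P.hdd, EDc, ← h5, ← h6]; nlinarith [mul_nonneg h7 h8]
  · rw [P.hdd, EDc, ← h5, ← h6]; nlinarith [sq_nonneg (s / μ ^ 1045 - 1 / μ ^ 3)]
  · rw [E1p, E1m]
    have : s ^ 2 / μ ^ 1350 ≤ s ^ 2 / μ ^ 1207 :=
      div_le_div_of_nonneg_left (by positivity) (by positivity) (pow_le_pow_right₀ P.μ1 (by norm_num))
    linarith

variable {ι : Type} [Fintype ι] [DecidableEq ι] {p e : ℝ} {S : Finset ι} {K : Matrix ι ι ℝ}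

theorem Par3.nonempty (P : Par3 μ s c ε L om dd δ lam r er eE tp tm t LA) (hs : s ^ 2 = S.card) :
    S.Nonempty := by
  rw [← Finset.card_pos]
  have : (0 : ℝ) < S.card := by rw [← hs]; nlinarith [P.s8]
  exact_mod_cast this

theorem Par3.bd (P : Par3 μ s c ε L om dd δ lam r er eE tp tm t LA) (hK : Good p S e K)
    (hs : s ^ 2 = S.card) (h : PhiC μ S K ≤ 1) :
    Bd S K s L lam r dd om (L * om) ∧ Tr 2 K ≤ L ^ 2 ∧ Tr 1 K ≤ tp ∧ -Tr 1 K ≤ tm := by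
  obtain ⟨f1, f2, f3, f4, f5, f6, f7, f8, f9, f10, f11, f12, f13, f14, f15, f16, f17⟩ := P.facts
  obtain ⟨b1, b2, b3, b4, b5⟩ := PhiC_bounds (by linarith [P.μ1]) hK (P.nonempty hs) h
  rw [← hs] at b1 b2 b3 b4 b5
  refine ⟨?_, by linarith, by linarith, by linarith⟩
  rw [P.hlam, P.hr]
  exact Bd.ofC hK hs (by linarith [P.s8]) f2 f3 f4.le P.cond.Ls (by linarith) (by linarith) (by linarith)

end

theorem one_sign : ∃ C : ℝ, 0 < C ∧ ∀ {μ s c ε L om dd δ lam r er eE tp tm t LA : ℝ},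
      Par3 μ s c ε L om dd δ lam r er eE tp tm t LA →
      ∀ {ι : Type} [Fintype ι] [DecidableEq ι] {p e : ℝ} {S : Finset ι} {K : Matrix ι ι ℝ}
      {w : ι → ι → ℝ}, Good p S e K → s ^ 2 = S.card → PhiC μ S K ≤ 1 → Wt S K w eE eE er →
      ∑ a ∈ S, ∑ b ∈ S, w a b * (PhiC μ (del S a b) (upd e K a b) - PhiC μ S K) ≤ C * ε * S.card := by
  obtain ⟨C1, hC1, H1⟩ := T2_step
  obtain ⟨C2, hC2, H2⟩ := W_step
  obtain ⟨C3, hC3, H3⟩ := D_step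
  obtain ⟨C4, hC4, H4⟩ := t1_avg
  refine ⟨2 * (16 * C1 + 4) + 2 * (C2 + 4) + 2 * (2 + 2 * C3 + 2) + 2 * C4, by positivity, ?_⟩
  intro μ s c ε L om dd δ lam r er eE tp tm t LA P ι _ _ p e S K w hK hs hΦ hw
  obtain ⟨f1, f2, f3, f4, f5, f6, f7, f8, f9, f10, f11, f12, f13, f14, f15, f16, f17⟩ := P.facts
  obtain ⟨hB, b1, b2, b3⟩ := P.bd hK hs hΦ
  obtain ⟨c1, c2, c3, c4, c5⟩ := PhiC_bounds (by linarith [P.μ1]) hK (P.nonempty hs) hΦ
  have Q := P.cond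
  have hμ : 0 < μ := by linarith [P.μ1]
  have hs0 : 0 < s := by linarith [P.s8]
  set N : ℝ := (S.card : ℝ) with hN
  have hN8 : 8 ≤ N := by rw [← hs]; nlinarith [P.s8]
  have hN0 : 0 < N := by linarith
  have hN2 : 0 < N - 2 := by linarith
  rw [hs] at f10 f11 f12 f13 f14 f15 f16 f17
  have hδ1 : 1 ≤ δ := by rw [P.hδ]; linarith
  have hδ2 : dd ≤ δ := by rw [P.hδ]; linarith
  have hT2 : Tr 2 K ≤ ε * s ^ 2 := le_trans b1 Q.t5
  have hZ : ∑ a ∈ S, ∑ b ∈ S, w a b ≤ (1 + ε) * N ^ 2 := by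
    have h1 := (abs_le.1 hw.total).2
    have h2 := Q.eE1
    rw [hs] at h2
    rw [← hN] at h1
    nlinarith
  have hT1 : |Tr 1 K| ≤ t := by rw [P.ht, abs_le]; constructor <;> linarith
  -- the five terms
  have e1 : E2 μ N * (1 - 4 / N) ≤ E2 μ (N - 2) := env2 (by positivity) (by norm_num) (by linarith)
  have p1 : 0 < E2 μ N := by rw [E2]; positivity
  have T1 := lin_avg S w hw.nonneg (Tr 2 K - 1) (E2 μ N) (E2 μ (N - 2)) 4 ε (16 * C1 * ε)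
    (fun a b => Tr 2 (upd e K a b) - 1) hN0 (by linarith [hK.one_le_Tr2 (P.nonempty hs)]) p1
    (by rw [E2]; positivity) (by norm_num) f1.le e1 (env_half p1.le le_rfl hN8 e1) (by linarith) hZ
    (by positivity) (by
      have h1 := H1 hK hB hw f1.le hδ1 hδ2 Q.a1 f8 f9 b1 f5.le f6.le b2 b3 Q.t1 Q.t2 Q.t3 Q.t4 Q.t5
        Q.t6 Q.t7 Q.t8 Q.t9 Q.t10
      simp only [sub_sub_sub_cancel_right]
      rw [hs] at h1
      have h2 : C1 * ε * N * L ^ 2 ≤ C1 * ε * N * (16 * E2 μ N) :=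
        mul_le_mul_of_nonneg_left f11 (by positivity)
      linarith)
  have e2 : EW μ N * (1 - 4 / N) ≤ EW μ (N - 2) := env2 (by positivity) (by positivity) (by linarith)
  have p2 : 0 < EW μ N := by rw [EW]; positivity
  have T2 := lin_avg S w hw.nonneg (Vs 0 S K) (EW μ N) (EW μ (N - 2)) 4 ε (C2 * ε)
    (fun a b => Vs 0 (del S a b) (upd e K a b)) hN0 (Finset.sum_nonneg fun _ _ => sq_nonneg _) p2
    (by rw [EW]; positivity) (by norm_num) f1.le e2 (env_half p2.le le_rfl hN8 e2) c2 hZ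
    (by positivity) (by
      have h1 := H2 hK hB hw f1.le hδ1 hδ2 Q.a1 f8 f9 Q.t3 Q.w1 Q.w2 Q.w3 Q.w4 Q.w5 Q.w6 Q.w7 Q.w8
        Q.w9 Q.w10 Q.w11 Q.w12 Q.w13 Q.w14 Q.w15 f5.le f6.le b2 b3 Q.w16 Q.t9 hT2
        (le_trans (mul_le_mul_of_nonneg_right b1 (sq_nonneg _)) Q.w17)
      rw [hs, ← f12] at h1
      linarith)
  have e3 : EDc μ N * (1 - 2 / N) ≤ EDc μ (N - 2) := env1 (by positivity) (by positivity) hN0
  have p3 : 0 < EDc μ N := by rw [EDc]; positivity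
  have hD0 : 0 ≤ Dh K := Finset.sum_nonneg fun _ _ => sq_nonneg _
  have T3 := lin_avg S w hw.nonneg (Dh K) (EDc μ N) (EDc μ (N - 2)) 2 ε ((2 + 2 * C3) * ε)
    (fun a b => Dh (upd e K a b)) hN0 hD0 p3
    (by rw [EDc]; positivity) (by norm_num) f1.le e3 (env_half p3.le (by norm_num) hN8 e3) c3 hZ
    (by positivity) (by
      have h1 := H3 hK hB hw f1.le hδ1 hδ2 Q.a1 f8 f9 hT1 Q.d1 Q.d2 Q.d3 Q.t3 Q.d4 Q.d5 Q.d6 Q.d7
      rw [hs] at h1 hT2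
      have h2 : C3 * ε * N * dd ^ 2 ≤ C3 * ε * N * (2 * EDc μ N) :=
        mul_le_mul_of_nonneg_left f14 (by positivity)
      have h3 : Tr 2 K * Dh K ≤ ε * N * EDc μ N := mul_le_mul hT2 c3 hD0 (by positivity)
      have h4 : 0 ≤ ε * N * EDc μ N := mul_nonneg (mul_nonneg f1.le hN0.le) p3.le
      linarith)
  have e4 : E1p μ N * (1 - 2 / N) ≤ E1p μ (N - 2) := env1 (by positivity) (by positivity) hN0
  have p4 : 0 < E1p μ N := by rw [E1p]; positivity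
  have e4' := env_half p4.le (by norm_num) hN8 e4
  have T4 := H4 (σ := 1) (E := E1p μ N) (E' := E1p μ (N - 2)) hK (hB.mono_L f7) Q.bda hw (Or.inl rfl)
    f1.le (by rw [E1p]; positivity) (env_mono (by positivity)) e4 e4' (by linarith) f5 (by linarith)
    hT1 f8 Q.eE1 hT2 Q.g1 Q.g2 Q.g3
  have e5 : E1m μ N * (1 - 2 / N) ≤ E1m μ (N - 2) := env1 (by positivity) (by positivity) hN0
  have p5 : 0 < E1m μ N := by rw [E1m]; positivity
  have e5' := env_half p5.le (by norm_num) hN8 e5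
  have T5 := H4 (σ := -1) (E := E1m μ N) (E' := E1m μ (N - 2)) hK (hB.mono_L f7) Q.bda hw (Or.inr rfl)
    f1.le (by rw [E1m]; positivity) (env_mono (by positivity)) e5 e5' (by linarith) f5 (by linarith)
    hT1 f8 Q.eE1 hT2 Q.g1 Q.g2 Q.g3
  rw [hs] at T4 T5
  have hsum : ∑ a ∈ S, ∑ b ∈ S, w a b * (PhiC μ (del S a b) (upd e K a b) - PhiC μ S K) =
      ∑ a ∈ S, ∑ b ∈ S, w a b * ((Tr 2 (upd e K a b) - 1) / E2 μ (N - 2) - (Tr 2 K - 1) / E2 μ N)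
      + ∑ a ∈ S, ∑ b ∈ S, w a b * (Vs 0 (del S a b) (upd e K a b) / EW μ (N - 2) - Vs 0 S K / EW μ N)
      + ∑ a ∈ S, ∑ b ∈ S, w a b * (Dh (upd e K a b) / EDc μ (N - 2) - Dh K / EDc μ N)
      + ∑ a ∈ S, ∑ b ∈ S, w a b *
          (hub (1 * Tr 1 (upd e K a b) / E1p μ (N - 2) - 1) - hub (1 * Tr 1 K / E1p μ N - 1))
      + ∑ a ∈ S, ∑ b ∈ S, w a b *
          (hub (-1 * Tr 1 (upd e K a b) / E1m μ (N - 2) - 1) - hub (-1 * Tr 1 K / E1m μ N - 1)) := by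
    simp only [← Finset.sum_add_distrib]
    refine Finset.sum_congr rfl fun a ha => Finset.sum_congr rfl fun b hb => ?_
    by_cases h0 : w a b = 0
    · simp [h0]
    · have hab : a ≠ b := (hw.supp a b h0).1
      simp only [PhiC, card_del ha hb hab, one_mul, neg_mul, ← hN]
      ring
  rw [hsum]
  rw [← hN] at T1 T2 T3
  nlinarith

end Crest.Agent.R62.Ph3
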