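import Crest.Agent.R62.Sig
import Crest.Agent.R62.DStep
import Crest.Agent.R62.VW
import Crest.Agent.R62.Weights
import Crest.Agent.R62.T2Step
import Crest.Agent.R62.Ph3AuxOne

/-! The step theorem of phase 3. -/

set_option autoImplicit false
open Classical
open scoped Matrix
open Finset

noncomputable section
namespace Crest.Agent.R62

theorem ph3_step (d : ℕ) (hd : 3 ≤ d) : ∃ C : ℝ, 0 < C ∧ ∃ m0 : ℕ, ∀ m, m0 ≤ m → ∀ n, Scale m n →
      ∀ {V ι : Type} [Fintype V] [Fintype ι] [DecidableEq ι] (vx : ι → V) (st : St V ι ℝ),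
      Base n d vx st → ph m st.S.card = 3 → Phi 3 m n d vx st ≤ 1 →
      ∃ a b, Simple vx st a b ∧ 0 < Dd 1 st.K a b ∧ 0 < Dd (-1) st.J a b ∧
        Phi 3 m n d vx (rawStep vx st a b) ≤ Phi 3 m n d vx st + C / ((m : ℝ) ^ 2 * st.S.card) := by
  obtain ⟨C1, hC1, H1⟩ := Ph3.one_sign
  obtain ⟨C2, hC2, H2⟩ := wt_props ((d : ℝ) ^ 2 + d)
  refine ⟨2 * (2 * C1 + 28), by positivity, ⌈(C2 + 1 + 2) ^ 200⌉₊, ?_⟩
  intro m hm n hn V ι _ _ _ vx st hb hph hΦ
  have hμc : (C2 + 1 + 2) ^ 200 ≤ (m : ℝ) := le_trans (Nat.le_ceil _) (by exact_mod_cast hm)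
  have h3 : (3 : ℝ) ≤ m := by
    refine le_trans ?_ hμc
    exact le_trans (by linarith) (le_self_pow₀ (by linarith) (by norm_num))
  have hN1 : (m : ℝ) ^ 1320 ≤ st.S.card ∧ (st.S.card : ℝ) ≤ (m : ℝ) ^ 2700 := by
    unfold ph at hph
    split_ifs at hph with h1 h2 h3 h4 <;> try omega
    constructor
    · exact_mod_cast h4.le
    · exact_mod_cast not_lt.1 h3
  obtain ⟨μ, hμ⟩ : ∃ μ : ℝ, μ = m := ⟨_, rfl⟩
  obtain ⟨s, hs0, hs⟩ : ∃ s : ℝ, 0 ≤ s ∧ s ^ 2 = st.S.card :=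
    ⟨√(st.S.card), Real.sqrt_nonneg _, Real.sq_sqrt (Nat.cast_nonneg _)⟩
  simp only [Phi, rawStep] at hΦ ⊢
  rw [← hμ] at hμc h3 hN1 hΦ ⊢
  have hμ0 : 0 < μ := by linarith
  have hs8 : 8 ≤ s := by
    have h1 : (3 : ℝ) ^ 4 ≤ μ ^ 4 := pow_le_pow_left₀ (by norm_num) h3 4
    have h2 : μ ^ 4 ≤ μ ^ 1320 := pow_le_pow_right₀ (by linarith) (by norm_num)
    have h4 : 8 ^ 2 ≤ s ^ 2 := by rw [hs]; linarith [hN1.1]
    nlinarith
  have hcond := Ph3.cond_main (c := C2 + 1) (μ := μ) (s := s) (by linarith) hμc (by linarith)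
    (by rw [hs]; exact hN1.1) (by rw [hs]; exact hN1.2)
  obtain ⟨ε, L, om, dd, δ, lam, r, er, eE, tp, tm, t, LA, P⟩ :
      ∃ ε L om dd δ lam r er eE tp tm t LA : ℝ,
        Ph3.Par3 μ s (C2 + 1) ε L om dd δ lam r er eE tp tm t LA :=
    ⟨_, _, _, _, _, _, _, _, _, _, _, _, _, ⟨by linarith, hs8, by linarith, rfl, rfl, rfl, rfl, rfl, rfl,
      rfl, rfl, rfl, rfl, rfl, rfl, rfl, hcond⟩⟩
  clear hcond hμc
  obtain ⟨f1, f2, f3, f4, -, -, -, -, -, -⟩ := P.facts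
  have hne := P.nonempty hs
  set N : ℝ := (st.S.card : ℝ) with hN
  have hN8 : 8 ≤ N := by rw [← hs]; nlinarith
  have hN0 : 0 < N := by linarith
  have hN2 : 0 < N - 2 := by linarith
  have nK := PhiC_nonneg hμ0 hb.gK hne
  have nJ := PhiC_nonneg hμ0 hb.gJ hne
  have nX : 0 ≤ XX μ d vx st.G st.S := by rw [XX]; positivity
  have pX : 0 < EX μ N := by rw [EX]; positivity
  have nX' : 0 ≤ XX μ d vx st.G st.S / EX μ N := div_nonneg nX pX.le
  have hK1 : PhiC μ st.S st.K ≤ 1 := by linarith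
  have hJ1 : PhiC μ st.S st.J ≤ 1 := by linarith
  have hX1 : XX μ d vx st.G st.S ≤ EX μ N := by
    rw [← div_le_one pX]; linarith
  obtain ⟨bK, -⟩ := P.bd hb.gK hs hK1
  obtain ⟨bJ, -⟩ := P.bd hb.gJ hs hJ1
  have hr0 : 0 ≤ r := by linarith [bK.r_ge]
  have m1 : C2 * (1 + 0) * s ≤ eE := by rw [P.heE]; nlinarith
  have m2 : C2 * (s + 0 * L) ≤ eE := by rw [P.heE]; nlinarith
  have m3 : C2 * (r + dd ^ 2 + 0) ≤ er := by
    have h1 : dd ^ 2 ≤ δ ^ 2 := by rw [P.hδ]; nlinarith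
    have h2 : C2 * (r + dd ^ 2) ≤ C2 * (r + δ ^ 2) := mul_le_mul_of_nonneg_left (by linarith) hC2.le
    rw [P.her]; nlinarith [sq_nonneg δ]
  have hdeg : ∀ a, ((st.S.filter fun b => Conf vx st.G a b).card : ℝ) ≤ (d : ℝ) ^ 2 + d :=
    fun a => hb.gi.conf_deg a
  have wK := (H2 (conf := Conf vx st.G) (θ := 0) hb.gK hb.gJ bK bJ (fun _ _ h => h.symm) hdeg le_rfl
    (by linarith) P.cond.bda.h6).mono m1 m2 m3
  have wJ := (H2 (e := -1) (conf := Conf vx st.G) (θ := 0) hb.gJ (by rw [neg_neg]; exact hb.gK) bJ bK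
    (fun _ _ h => h.symm) hdeg le_rfl (by linarith) P.cond.bda.h6).mono m1 m2 m3
  rw [wt_swap] at wJ
  have hne0 : ∀ a b, wt (Conf vx st.G) 0 1 st.K st.J a b ≠ 0 →
      ¬ Conf vx st.G a b ∧ Alw st.K a b ∧ Alw st.J a b := fun a b h => wt_ne_zero h
  generalize wt (Conf vx st.G) 0 1 st.K st.J = w at wK wJ hne0
  have TK := H1 P hb.gK hs hK1 wK
  have TJ := H1 P hb.gJ hs hJ1 wJ
  have hεs : ε ≤ 1 / 2 := by
    rw [P.hε, div_le_div_iff₀ (by positivity) (by norm_num)]; nlinarith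
  have htot := abs_le.1 wK.total
  have heE := P.cond.eE1
  rw [hs] at heE
  rw [← hN] at htot TK TJ
  have hZ : ∑ a ∈ st.S, ∑ b ∈ st.S, w a b ≤ (1 + ε) * N ^ 2 := by nlinarith [htot.2]
  have hZ' : N ^ 2 / 2 ≤ ∑ a ∈ st.S, ∑ b ∈ st.S, w a b := by
    have h1 : eE * N ≤ ε * N * N := mul_le_mul_of_nonneg_right heE hN0.le
    have h2 : ε * (N * N) ≤ 1 / 2 * (N * N) := mul_le_mul_of_nonneg_right hεs (by positivity)
    nlinarith [htot.1]
  have eX : EX μ N * (1 - 4 / N) ≤ EX μ (N - 2) := by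
    have h1 : N ^ 2 * (1 - 4 / N) = N ^ 2 - 4 * N := by field_simp
    rw [EX, EX, div_mul_eq_mul_div, h1]
    exact div_le_div_of_nonneg_right (by nlinarith) (by positivity)
  have TX := lin_avg st.S w wK.nonneg (XX μ d vx st.G st.S) (EX μ N) (EX μ (N - 2)) 4 ε (10 * ε)
    (fun a b => XX μ d vx (st.G ⊔ SimpleGraph.edge (vx a) (vx b)) (del st.S a b)) hN0 nX pX
    (by rw [EX]; positivity) (by norm_num) f1.le eX (Ph3.env_half pX.le le_rfl hN8 eX) hX1 hZ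
    (by positivity) (by
      have h1 := X_step hb.gi wK (fun a b h => (hne0 a b h).1) hs0 hs P.μ1 (by
        have := P.cond.t3
        rw [P.hε] at this
        rw [div_eq_mul_one_div, mul_comm]; exact this)
      have h2 : 10 / μ ^ 2 = 10 * ε := by rw [P.hε]; ring
      rw [h2, ← hN] at h1
      have h4 : 10 * ε * N * XX μ d vx st.G st.S ≤ 10 * ε * N * EX μ N :=
        mul_le_mul_of_nonneg_left hX1 (by positivity)
      linarith)
  rw [← hN] at TX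
  obtain ⟨a, ha, b, hb', hw0, hle⟩ := exists_of_avg st.S w wK.nonneg
    (PhiC μ st.S st.K + PhiC μ st.S st.J + XX μ d vx st.G st.S / EX μ N) ((2 * C1 + 28) * ε)
    (fun a b => PhiC μ (del st.S a b) (upd 1 st.K a b) + PhiC μ (del st.S a b) (upd (-1) st.J a b)
      + XX μ d vx (st.G ⊔ SimpleGraph.edge (vx a) (vx b)) (del st.S a b) / EX μ (N - 2)) hN0
    (by positivity) hZ' (by
      have hsum : ∑ a ∈ st.S, ∑ b ∈ st.S, w a b *
          (PhiC μ (del st.S a b) (upd 1 st.K a b) + PhiC μ (del st.S a b) (upd (-1) st.J a b)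
            + XX μ d vx (st.G ⊔ SimpleGraph.edge (vx a) (vx b)) (del st.S a b) / EX μ (N - 2)
            - (PhiC μ st.S st.K + PhiC μ st.S st.J + XX μ d vx st.G st.S / EX μ N)) =
          ∑ a ∈ st.S, ∑ b ∈ st.S, w a b * (PhiC μ (del st.S a b) (upd 1 st.K a b) - PhiC μ st.S st.K)
          + ∑ a ∈ st.S, ∑ b ∈ st.S, w a b *
              (PhiC μ (del st.S a b) (upd (-1) st.J a b) - PhiC μ st.S st.J)
          + ∑ a ∈ st.S, ∑ b ∈ st.S, w a b *
              (XX μ d vx (st.G ⊔ SimpleGraph.edge (vx a) (vx b)) (del st.S a b) / EX μ (N - 2)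
                - XX μ d vx st.G st.S / EX μ N) := by
        simp only [← Finset.sum_add_distrib]
        refine Finset.sum_congr rfl fun a _ => Finset.sum_congr rfl fun b _ => ?_
        ring
      rw [hsum, ← hN]
      linarith)
  obtain ⟨hc, aK, aJ⟩ := hne0 a b hw0
  refine ⟨a, b, ⟨ha, hb', hc⟩, by linarith [(aK.Dd_bound (e := 1) (Or.inl rfl)).1],
    by linarith [(aJ.Dd_bound (e := -1) (Or.inr rfl)).1], ?_⟩
  rw [card_del ha hb' aK.1, ← hN]
  rw [← hN, P.hε] at hle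
  have h5 : 2 * ((2 * C1 + 28) * (1 / μ ^ 2)) / N = 2 * (2 * C1 + 28) / (μ ^ 2 * N) := by
    field_simp
  linarith

end Crest.Agent.R62
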