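import Crest.Agent.R62.Sig

/-! Phase changes. -/

set_option autoImplicit false
open Classical
open scoped Matrix
open Finset

noncomputable section
namespace Crest.Agent.R62

section aux
variable {ι : Type} [Fintype ι] [DecidableEq ι] {p e e' : ℝ} {S : Finset ι} {K J : Matrix ι ι ℝ}

theorem Trans_pw {μ : ℝ} (hμ : 1000 ≤ μ) {a b : ℕ} (h : a < b) : 1000 * μ ^ a ≤ μ ^ b :=
  calc 1000 * μ ^ a ≤ μ * μ ^ a := by gcongr
    _ = μ ^ (a + 1) := (pow_succ' _ _).symm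
    _ ≤ μ ^ b := pow_le_pow_right₀ (by linarith) h

theorem Trans_PhiA_le {P : Par ℝ} (hP : P.Pos) (h1 : 1000 * Tr 4 K ≤ P.E4)
    (h2 : 1000 * Vs 1 S K ≤ P.EV) (h3 : 1000 * Dh K ≤ P.ED) (hz : P.z = 0) (h4 : Tr 1 K ≤ P.c1)
    (h5 : -Tr 1 K ≤ P.c2) (h6 : P.c3 ≤ yy S K) (h7 : P.f4 = 0 ∨ yy S K ≤ P.c4)
    (h8 : P.f5 = 0 ∨ P.c5 ≤ Tr 3 K) (h9 : Tr 3 K ≤ P.c6) : PhiA P S K J ≤ 3 / 1000 := by
  have hh : ∀ {x y w : ℝ}, x ≤ y → 0 < w → hub ((x - y) / w) = 0 := fun h hw =>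
    hub_of_nonpos (div_nonpos_of_nonpos_of_nonneg (sub_nonpos.2 h) hw.le)
  have a1 : Tr 4 K / P.E4 ≤ 1 / 1000 := by rw [div_le_iff₀ hP.E4]; linarith
  have a2 : Vs 1 S K / P.EV ≤ 1 / 1000 := by rw [div_le_iff₀ hP.EV]; linarith
  have a3 : Dh K / P.ED ≤ 1 / 1000 := by rw [div_le_iff₀ hP.ED]; linarith
  have a7 : P.f4 * hub ((yy S K - P.c4) / P.w4) = 0 := by
    rcases h7 with h | h
    · rw [h, zero_mul]
    · rw [hh h hP.w4, mul_zero]
  have a8 : P.f5 * hub ((P.c5 - Tr 3 K) / P.w5) = 0 := by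
    rcases h8 with h | h
    · rw [h, zero_mul]
    · rw [hh h hP.w5, mul_zero]
  unfold PhiA
  rw [hz, hh h4 hP.w1, hh h5 hP.w2, hh h6 hP.w3, a7, a8, hh h9 hP.w6]
  linarith

theorem Trans_G1 {μ n : ℝ} (hμ : 0 < μ) (hn : μ ^ 4000 ≤ n) : μ ^ 1480 ≤ G1 μ n := by
  unfold G1
  rw [le_div_iff₀ (by positivity)]
  calc μ ^ 1480 * μ ^ 3220 = μ ^ 700 * μ ^ 4000 := by ring
    _ ≤ μ ^ 700 * n := by gcongr

theorem Trans_y2 {μ n : ℝ} (hμ : 0 < μ) (hn : μ ^ 4000 ≤ n) : μ ^ 2720 ≤ y2 μ n := by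
  have := Trans_G1 hμ hn
  unfold y2
  rw [le_div_iff₀ (by positivity)]
  calc μ ^ 2720 * μ ^ 2760 = μ ^ 1480 * μ ^ 4000 := by ring
    _ ≤ G1 μ n * n := mul_le_mul this hn (by positivity) (le_trans (by positivity) this)

theorem Trans_zero {μ n d : ℝ} (hμ : 1000 ≤ μ) (hn : μ ^ 4000 ≤ n) (hd : 3 ≤ d)
    (hK : Good p S e K) (hJ : Good p S e' J) (hN1 : (S.card : ℝ) ≤ μ ^ 3220)
    (hN2 : μ ^ 3220 ≤ 2 * S.card) (h : PhiA (par0 μ n d S.card) S K J ≤ 1) :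
    PhiA (par1 μ n d S.card) S K J ≤ 3 / 1000 := by
  have hμ0 : 0 < μ := by linarith
  have hn0 : 0 < n := lt_of_lt_of_le (by positivity) hn
  have hN0 : (0 : ℝ) < S.card := by
    have : 0 < μ ^ 3220 := by positivity
    linarith
  obtain ⟨P0, P1, -⟩ := par_pos (d := d) hμ0 hn0 hN0
  obtain ⟨b1, b2, b3, -, b4, b5, b6, b7, b8, b9⟩ := PhiA_bounds P0 hK hJ h
  have b7 := b7 rfl
  have b8 := b8 rfl
  simp only [par0] at b1 b2 b3 b4 b5 b6 b7 b8 b9
  have hG := Trans_G1 hμ0 hn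
  refine Trans_PhiA_le P1 ?_ ?_ ?_ rfl ?_ ?_ ?_ (Or.inr ?_) (Or.inr ?_) ?_ <;> simp only [par1]
  · linarith [Trans_pw hμ (show 4792 < 5252 by norm_num)]
  · linarith [Trans_pw hμ (show 2560 < 2760 by norm_num)]
  · linarith [Trans_pw hμ (show 600 < 604 by norm_num)]
  · have e1 : G1 μ n ≤ μ ^ 700 * n * (1 / S.card) := by
      unfold G1
      rw [mul_one_div]
      exact div_le_div_of_nonneg_left (mul_pos (pow_pos hμ0 _) hn0).le hN0 hN1
    have e2 : μ ^ 700 * n * (1 / (n * d)) ≤ μ ^ 700 := by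
      rw [mul_one_div, div_le_iff₀ (mul_pos hn0 (by linarith))]
      exact mul_le_mul_of_nonneg_left (le_mul_of_one_le_right hn0.le (by linarith))
        (pow_pos hμ0 _).le
    have e3 := Trans_pw hμ (show 700 < 1480 by norm_num)
    have e4 : 0 < μ ^ 700 := by positivity
    linarith
  · have : 0 < μ ^ 1492 := by positivity
    linarith
  · have e1 : 1 / (S.card : ℝ) - 2 / μ ^ 3220 ≤ 0 := by
      rw [sub_nonpos, div_le_div_iff₀ hN0 (by positivity)]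
      linarith
    have e2 : 0 ≤ G1 μ n * n / 5 :=
      div_nonneg (mul_nonneg (le_trans (pow_pos hμ0 _).le hG) hn0.le) (by norm_num)
    have := mul_nonpos_of_nonneg_of_nonpos e2 e1
    linarith
  · have : 0 < μ ^ 2696 := by positivity
    linarith [Trans_pw hμ (show 2696 < 2739 by norm_num)]
  · linarith
  · linarith

theorem Trans_one {μ n d : ℝ} (hμ : 1000 ≤ μ) (hn : μ ^ 4000 ≤ n)
    (hK : Good p S e K) (hJ : Good p S e' J) (hN1 : (S.card : ℝ) ≤ μ ^ 2760)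
    (hN0 : (0 : ℝ) < S.card) (h : PhiA (par1 μ n d S.card) S K J ≤ 1) :
    PhiA (par2 μ n d S.card) S K J ≤ 3 / 1000 := by
  have hμ0 : 0 < μ := by linarith
  have hn0 : 0 < n := lt_of_lt_of_le (by positivity) hn
  obtain ⟨-, P1, P2⟩ := par_pos (d := d) hμ0 hn0 hN0
  obtain ⟨b1, b2, b3, -, b4, b5, b6, -, -, b9⟩ := PhiA_bounds P1 hK hJ h
  simp only [par1] at b1 b2 b3 b4 b5 b6 b9
  have hG := Trans_G1 hμ0 hn
  have hy := Trans_y2 hμ0 hn
  have hG0 : 0 < G1 μ n := lt_of_lt_of_le (by positivity) hG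
  have hy0 : 0 < y2 μ n := lt_of_lt_of_le (by positivity) hy
  refine Trans_PhiA_le P2 ?_ ?_ ?_ rfl ?_ ?_ ?_ (Or.inl rfl) (Or.inl rfl) ?_ <;> simp only [par2]
  · linarith [Trans_pw hμ (show 5252 < 5312 by norm_num)]
  · linarith [Trans_pw hμ (show 2760 < 2820 by norm_num)]
  · linarith [Trans_pw hμ (show 604 < 608 by norm_num)]
  · linarith
  · have : 0 < μ ^ 1492 := by positivity
    linarith
  · have e1 : y2 μ n ≤ G1 μ n * n * (1 / S.card) := by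
      unfold y2
      rw [mul_one_div]
      exact div_le_div_of_nonneg_left (mul_pos hG0 hn0).le hN0 hN1
    have e2 : 1000 * (G1 μ n * n * (1 / μ ^ 3220)) ≤ y2 μ n := by
      unfold y2
      rw [mul_one_div, ← mul_div_assoc, div_le_div_iff₀ (by positivity) (by positivity)]
      have := mul_le_mul_of_nonneg_left (Trans_pw hμ (show 2760 < 3220 by norm_num))
        (mul_pos hG0 hn0).le
      linarith
    have e3 := Trans_pw hμ (show 2696 < 2720 by norm_num)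
    have e4 : S.card * (y2 μ n / 10) / (S.card + y2 μ n / 10) ≤ y2 μ n / 10 := by
      rw [div_le_iff₀ (by linarith)]
      linarith [mul_pos hy0 hy0]
    have e5 : G1 μ n * n / 5 * (1 / (S.card : ℝ) - 2 / μ ^ 3220) =
        G1 μ n * n * (1 / S.card) / 5 - 2 / 5 * (G1 μ n * n * (1 / μ ^ 3220)) := by ring
    linarith
  · linarith

theorem Trans_two {μ n d : ℝ} (hμ : 1000 ≤ μ) (hn : μ ^ 4000 ≤ n)
    (hK : Good p S e K) (hJ : Good p S e' J) (hN1 : (S.card : ℝ) ≤ μ ^ 2700)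
    (hN2 : μ ^ 2700 ≤ 2 * S.card) (h : PhiA (par2 μ n d S.card) S K J ≤ 1) :
    PhiC μ S K ≤ 64 / 1000 := by
  have hμ0 : 0 < μ := by linarith
  have hn0 : 0 < n := lt_of_lt_of_le (by positivity) hn
  have hN0 : (0 : ℝ) < S.card := by
    have : 0 < μ ^ 2700 := by positivity
    linarith
  obtain ⟨-, -, P2⟩ := par_pos (d := d) hμ0 hn0 hN0
  obtain ⟨-, b2, b3, -, b4, b5, b6, -, -, -⟩ := PhiA_bounds P2 hK hJ h
  simp only [par2] at b2 b3 b4 b5 b6
  have hy := Trans_y2 hμ0 hn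
  have hy0 : 0 < y2 μ n := lt_of_lt_of_le (by positivity) hy
  have hdiv : ∀ a b : ℕ, a + b = 2700 → μ ^ a / 2 ≤ S.card / μ ^ b := by
    intro a b hab
    rw [div_le_div_iff₀ (by norm_num) (by positivity), ← pow_add, hab]
    linarith
  have hT2 : Tr 2 K ≤ 23 / 2 * μ ^ 2680 := by
    have e1 : (S.card : ℝ) - 10 * μ ^ 2680 ≤
        S.card * (y2 μ n / 10) / (S.card + y2 μ n / 10) := by
      rw [le_div_iff₀ (by linarith)]
      have e2 : (S.card : ℝ) * S.card ≤ μ ^ 2680 * y2 μ n :=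
        calc (S.card : ℝ) * S.card ≤ μ ^ 2700 * μ ^ 2700 := by gcongr
          _ = μ ^ 2680 * μ ^ 2720 := by ring
          _ ≤ μ ^ 2680 * y2 μ n := by gcongr
      have e3 : 0 ≤ μ ^ 2680 * S.card := by positivity
      linarith
    unfold yy at b6
    linarith
  have hE2 : μ ^ 2684 / 4 ≤ E2 μ S.card := by
    unfold E2
    calc μ ^ 2684 / 4 = (μ ^ 1342 / 2) ^ 2 := by ring
      _ ≤ _ := by
        have := hdiv 1342 1358 rfl
        gcongr
        linarith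
  have hEW : μ ^ 2824 / 4 ≤ EW μ S.card := by
    unfold EW
    calc μ ^ 2824 / 4 = (μ ^ 1412 / 2) ^ 2 := by ring
      _ ≤ _ := by
        have := hdiv 1412 1288 rfl
        have : 0 < μ ^ 20 := by positivity
        gcongr
        linarith
  have hED : μ ^ 610 / 2 ≤ EDc μ S.card := by
    unfold EDc
    have := hdiv 610 2090 rfl
    have : 0 < 1 / μ ^ 6 := by positivity
    linarith
  have hEp : μ ^ 1350 / 2 ≤ E1p μ S.card := by
    unfold E1p
    have := hdiv 1350 1350 rfl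
    have : 0 < μ ^ 1280 := by positivity
    linarith
  have hEm : μ ^ 1493 / 2 ≤ E1m μ S.card := by
    unfold E1m
    have := hdiv 1493 1207 rfl
    have : 0 < μ ^ 1280 := by positivity
    linarith
  have a1 : (Tr 2 K - 1) / E2 μ S.card ≤ 46 / 1000 := by
    rw [div_le_iff₀ (lt_of_lt_of_le (by positivity) hE2)]
    linarith [Trans_pw hμ (show 2680 < 2684 by norm_num)]
  have a2 : Vs 0 S K / EW μ S.card ≤ 16 / 1000 := by
    rw [div_le_iff₀ (lt_of_lt_of_le (by positivity) hEW)]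
    have : 0 < μ ^ 2700 := by positivity
    linarith [Trans_pw hμ (show 2820 < 2824 by norm_num),
      Trans_pw hμ (show 2700 < 2820 by norm_num), hK.W_le]
  have a3 : Dh K / EDc μ S.card ≤ 2 / 1000 := by
    rw [div_le_iff₀ (lt_of_lt_of_le (by positivity) hED)]
    linarith [Trans_pw hμ (show 608 < 610 by norm_num)]
  have a4 : hub (Tr 1 K / E1p μ S.card - 1) = 0 := by
    refine hub_of_nonpos (sub_nonpos.2 ?_)
    rw [div_le_one (lt_of_lt_of_le (by positivity) hEp)]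
    have : 0 < μ ^ 1312 := by positivity
    linarith [Trans_pw hμ (show 1312 < 1350 by norm_num)]
  have a5 : hub (-Tr 1 K / E1m μ S.card - 1) = 0 := by
    refine hub_of_nonpos (sub_nonpos.2 ?_)
    rw [div_le_one (lt_of_lt_of_le (by positivity) hEm)]
    have : 0 < μ ^ 1492 := by positivity
    linarith [Trans_pw hμ (show 1492 < 1493 by norm_num)]
  unfold PhiC
  rw [a4, a5]
  linarith

theorem Trans_entry (hK : Good p S e K) {B : ℝ} (hB : 0 ≤ B) (h : ∀ c, bet K c ≤ B ^ 2) (c f : ι) :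
    |K c f| ≤ B := by
  refine abs_le_of_sq_le_sq (le_trans ?_ (h c)) hB
  rw [hK.bet_eq]
  exact Finset.single_le_sum (f := fun b => K c b ^ 2) (fun _ _ => sq_nonneg _) (Finset.mem_univ f)

theorem Trans_half {m k N : ℕ} (hm : 1000 ≤ m) (hk : 0 < k) (h : m ^ k < N + 2) :
    (m : ℝ) ^ k ≤ 2 * N := by
  have h1 : m ≤ m ^ k := Nat.le_self_pow hk.ne' m
  have h2 : m ^ k ≤ 2 * N := by omega
  exact_mod_cast h2

theorem Trans_count {V : Type} [Fintype V] {n d : ℕ} {vx : ι → V} {G : SimpleGraph V}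
    (h : GInv n d vx G S) (Q : ι × ι → Prop) [DecidablePred Q]
    (hQ : ∀ q, Q q → Conf vx G q.1 q.2) :
    (((S ×ˢ S).filter Q).card : ℝ) ≤ (d ^ 2 + d) * S.card := by
  have h1 : ((S ×ˢ S).filter Q).card ≤ ∑ a ∈ S, (S.filter fun b => Conf vx G a b).card := by
    rw [← Finset.card_sigma]
    refine Finset.card_le_card_of_injOn (fun q => ⟨q.1, q.2⟩) (fun q hq => ?_)
      fun q _ q' _ hqq => ?_
    · simp only [Finset.coe_filter, Finset.mem_product, Set.mem_ofPred_eq] at hq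
      simp [hq.1.1, hq.1.2, hQ q hq.2]
    · simp only [Sigma.mk.injEq, heq_eq_eq] at hqq
      exact Prod.ext hqq.1 hqq.2
  calc (((S ×ˢ S).filter Q).card : ℝ)
      ≤ ∑ a ∈ S, ((S.filter fun b => Conf vx G a b).card : ℝ) := by exact_mod_cast h1
    _ ≤ ∑ _a ∈ S, ((d : ℝ) ^ 2 + d) := Finset.sum_le_sum fun a _ => h.conf_deg a
    _ = _ := by rw [Finset.sum_const, nsmul_eq_mul, mul_comm]

theorem Trans_split {P : Par ℝ} (hP : P.Pos) (hK : Good p S e K) (hJ : Good p S e' J)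
    (h : PhiA P S K J + PhiA P S J K ≤ 1) : PhiA P S K J ≤ 1 ∧ PhiA P S J K ≤ 1 :=
  ⟨by linarith [PhiA_nonneg hP hJ hK], by linarith [PhiA_nonneg hP hK hJ]⟩

theorem Trans_splitC {μ X : ℝ} (hμ : 0 < μ) (hK : Good p S e K) (hJ : Good p S e' J)
    (hS : S.Nonempty) (hX : 0 ≤ X) (h : PhiC μ S K + PhiC μ S J + X ≤ 1) :
    PhiC μ S K ≤ 1 ∧ PhiC μ S J ≤ 1 ∧ X ≤ 1 := by
  have h1 := PhiC_nonneg hμ hK hS
  have h2 := PhiC_nonneg hμ hJ hS
  exact ⟨by linarith, by linarith, by linarith⟩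

omit [Fintype ι] in
theorem Trans_XX_nonneg {V : Type} [Fintype V] (μ : ℝ) (hμ : 0 < μ) (d : ℕ) (vx : ι → V)
    (G : SimpleGraph V) : 0 ≤ XX μ d vx G S / EX μ S.card := by
  unfold XX EX
  positivity

end aux

theorem trans0 (d : ℕ) (hd : 3 ≤ d) : ∃ m0 : ℕ, ∀ m, m0 ≤ m → ∀ n, Scale m n →
      ∀ {V ι : Type} [Fintype V] [Fintype ι] [DecidableEq ι] (vx : ι → V) (st : St V ι ℝ),
      Base n d vx st → st.S.card ≤ m ^ 3220 → m ^ 3220 < st.S.card + 2 → Phi 0 m n d vx st ≤ 1 →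
      Phi 1 m n d vx st ≤ 1 / 4 := by
  refine ⟨1000, fun m hm n hn V ι _ _ _ vx st hB h1 h2 h => ?_⟩
  have hμ : (1000 : ℝ) ≤ m := by exact_mod_cast hm
  have hn' : (m : ℝ) ^ 4000 ≤ n := by exact_mod_cast hn.1
  have hd' : (3 : ℝ) ≤ d := by exact_mod_cast hd
  have hN1 : (st.S.card : ℝ) ≤ (m : ℝ) ^ 3220 := by exact_mod_cast h1
  have hN2 := Trans_half hm (by norm_num) h2
  have hμ0 : (0 : ℝ) < m := by linarith
  have hN0 : (0 : ℝ) < st.S.card := by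
    have : 0 < (m : ℝ) ^ 3220 := by positivity
    linarith
  obtain ⟨a, b⟩ := Trans_split (par_pos (d := d) hμ0 (lt_of_lt_of_le (by positivity) hn') hN0).1
    hB.gK hB.gJ h
  have a' := Trans_zero hμ hn' hd' hB.gK hB.gJ hN1 hN2 a
  have b' := Trans_zero hμ hn' hd' hB.gJ hB.gK hN1 hN2 b
  exact (add_le_add a' b').trans (by norm_num)

theorem trans1 (d : ℕ) (hd : 3 ≤ d) : ∃ m0 : ℕ, ∀ m, m0 ≤ m → ∀ n, Scale m n →
      ∀ {V ι : Type} [Fintype V] [Fintype ι] [DecidableEq ι] (vx : ι → V) (st : St V ι ℝ),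
      Base n d vx st → st.S.card ≤ m ^ 2760 → m ^ 2760 < st.S.card + 2 → Phi 1 m n d vx st ≤ 1 →
      Phi 2 m n d vx st ≤ 1 / 4 := by
  refine ⟨1000, fun m hm n hn V ι _ _ _ vx st hB h1 h2 h => ?_⟩
  have hμ : (1000 : ℝ) ≤ m := by exact_mod_cast hm
  have hn' : (m : ℝ) ^ 4000 ≤ n := by exact_mod_cast hn.1
  have hN1 : (st.S.card : ℝ) ≤ (m : ℝ) ^ 2760 := by exact_mod_cast h1
  have hN2 := Trans_half hm (by norm_num) h2
  have hμ0 : (0 : ℝ) < m := by linarith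
  have hN0 : (0 : ℝ) < st.S.card := by
    have : 0 < (m : ℝ) ^ 2760 := by positivity
    linarith
  obtain ⟨a, b⟩ := Trans_split (par_pos (d := d) hμ0 (lt_of_lt_of_le (by positivity) hn') hN0).2.1
    hB.gK hB.gJ h
  have a' := Trans_one hμ hn' hB.gK hB.gJ hN1 hN0 a
  have b' := Trans_one hμ hn' hB.gJ hB.gK hN1 hN0 b
  exact (add_le_add a' b').trans (by norm_num)

theorem trans2 (d : ℕ) (hd : 3 ≤ d) : ∃ m0 : ℕ, ∀ m, m0 ≤ m → ∀ n, Scale m n →
      ∀ {V ι : Type} [Fintype V] [Fintype ι] [DecidableEq ι] (vx : ι → V) (st : St V ι ℝ),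
      Base n d vx st → st.S.card ≤ m ^ 2700 → m ^ 2700 < st.S.card + 2 → Phi 2 m n d vx st ≤ 1 →
      Phi 3 m n d vx st ≤ 1 / 4 := by
  refine ⟨1000 * d ^ 3, fun m hm n hn V ι _ _ _ vx st hB h1 h2 h => ?_⟩
  have hd1 : 1 ≤ d ^ 3 := Nat.one_le_pow _ _ (by omega)
  have hm' : 1000 ≤ m := by omega
  have hμ : (1000 : ℝ) ≤ m := by exact_mod_cast hm'
  have hμd : 1000 * (d : ℝ) ^ 3 ≤ m := by exact_mod_cast hm
  have hd' : (3 : ℝ) ≤ d := by exact_mod_cast hd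
  have hn' : (m : ℝ) ^ 4000 ≤ n := by exact_mod_cast hn.1
  have hN1 : (st.S.card : ℝ) ≤ (m : ℝ) ^ 2700 := by exact_mod_cast h1
  have hN2 := Trans_half hm' (by norm_num) h2
  have hμ0 : (0 : ℝ) < m := by linarith
  have hN0 : (0 : ℝ) < st.S.card := by
    have : 0 < (m : ℝ) ^ 2700 := by positivity
    linarith
  obtain ⟨a, b⟩ := Trans_split (par_pos (d := d) hμ0 (lt_of_lt_of_le (by positivity) hn') hN0).2.2
    hB.gK hB.gJ h
  have a' := Trans_two hμ hn' hB.gK hB.gJ hN1 hN2 a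
  have b' := Trans_two hμ hn' hB.gJ hB.gK hN1 hN2 b
  have c' : XX (m : ℝ) d vx st.G st.S / EX (m : ℝ) st.S.card ≤ 8 / 1000 := by
    have x1 : (Xa vx st.G st.S : ℝ) ≤ (d ^ 2 + d) * st.S.card :=
      Trans_count hB.gi _ fun _ hq => Or.inr hq
    have x2 : (Xs vx st.S : ℝ) ≤ (d ^ 2 + d) * st.S.card :=
      Trans_count hB.gi _ fun _ hq => Or.inl hq.2
    have x3 : (d : ℝ) ^ 2 + d ≤ 2 * d ^ 2 := by nlinarith
    have x4 : (1 : ℝ) ≤ d * m ^ 2 := by nlinarith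
    have x5 : XX (m : ℝ) d vx st.G st.S ≤ 4 * d ^ 3 * m ^ 2 * st.S.card := by
      unfold XX
      calc (Xa vx st.G st.S : ℝ) + d * m ^ 2 * (Xs vx st.S : ℝ)
          ≤ d * m ^ 2 * (2 * d ^ 2 * st.S.card) + d * m ^ 2 * (2 * d ^ 2 * st.S.card) := by
            refine add_le_add ?_ ?_
            · calc (Xa vx st.G st.S : ℝ) ≤ 1 * (2 * d ^ 2 * st.S.card) := by
                    rw [one_mul]
                    exact x1.trans (by gcongr)
                _ ≤ _ := by gcongr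
            · gcongr
              exact x2.trans (by gcongr)
        _ = _ := by ring
    unfold EX
    rw [div_div_eq_mul_div, div_le_iff₀ (by positivity)]
    have x6 : (m : ℝ) * (m : ℝ) ^ 2697 ≤ 2 * st.S.card := by
      refine le_trans ?_ hN2
      rw [← pow_succ']
      exact pow_le_pow_right₀ (by linarith) (by norm_num)
    calc XX (m : ℝ) d vx st.G st.S * (m : ℝ) ^ 2695
        ≤ 4 * (d : ℝ) ^ 3 * (m : ℝ) ^ 2 * st.S.card * (m : ℝ) ^ 2695 := by gcongr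
      _ = 4 / 1000 * ((1000 * (d : ℝ) ^ 3) * (m : ℝ) ^ 2697) * st.S.card := by ring
      _ ≤ 4 / 1000 * ((m : ℝ) * (m : ℝ) ^ 2697) * st.S.card := by gcongr
      _ ≤ 4 / 1000 * (2 * (st.S.card : ℝ)) * st.S.card :=
          mul_le_mul_of_nonneg_right (mul_le_mul_of_nonneg_left x6 (by norm_num)) hN0.le
      _ = _ := by ring
  exact (add_le_add (add_le_add a' b') c').trans (by norm_num)

theorem trans3 (d : ℕ) (hd : 3 ≤ d) : ∃ m0 : ℕ, ∀ m, m0 ≤ m → ∀ n, Scale m n →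
      ∀ {V ι : Type} [Fintype V] [Fintype ι] [DecidableEq ι] (vx : ι → V) (st : St V ι ℝ),
      Base n d vx st → st.S.card ≤ m ^ 1320 → m ^ 1320 < st.S.card + 2 → Phi 3 m n d vx st ≤ 1 →
      Tr 2 st.K ≤ 2 ∧ Tr 2 st.J ≤ 2 ∧ Xs vx st.S = 0 ∧ Xa vx st.G st.S = 0 := by
  refine ⟨1000, fun m hm n hn V ι _ _ _ vx st hB h1 h2 h => ?_⟩
  have hμ : (1000 : ℝ) ≤ m := by exact_mod_cast hm
  have hd' : (3 : ℝ) ≤ d := by exact_mod_cast hd
  have hN1 : (st.S.card : ℝ) ≤ (m : ℝ) ^ 1320 := by exact_mod_cast h1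
  have hN2 := Trans_half hm (by norm_num) h2
  have hμ0 : (0 : ℝ) < m := by linarith
  have hN0 : (0 : ℝ) < st.S.card := by
    have : 0 < (m : ℝ) ^ 1320 := by positivity
    linarith
  have hS : st.S.Nonempty := Finset.card_pos.1 (by exact_mod_cast hN0)
  obtain ⟨a, b, c⟩ := Trans_splitC hμ0 hB.gK hB.gJ hS (Trans_XX_nonneg _ hμ0 d vx st.G) h
  have hE : E2 (m : ℝ) st.S.card ≤ 1 := by
    unfold E2
    have e1 : (st.S.card : ℝ) / (m : ℝ) ^ 1358 ≤ 1 / 2 := by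
      rw [div_le_iff₀ (by positivity)]
      linarith [Trans_pw hμ (show 1320 < 1358 by norm_num)]
    exact pow_le_one₀ (by positivity) (by linarith)
  have hX : XX (m : ℝ) d vx st.G st.S < 1 := by
    have e1 : 0 < EX (m : ℝ) st.S.card := by
      unfold EX
      positivity
    have e2 : EX (m : ℝ) st.S.card < 1 := by
      unfold EX
      rw [div_lt_one (by positivity)]
      have e3 : (st.S.card : ℝ) ^ 2 ≤ (m : ℝ) ^ 2640 :=
        calc (st.S.card : ℝ) ^ 2 ≤ ((m : ℝ) ^ 1320) ^ 2 := by gcongr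
          _ = _ := by ring
      have e4 : 0 < (m : ℝ) ^ 2640 := by positivity
      linarith [Trans_pw hμ (show 2640 < 2695 by norm_num)]
    exact ((div_le_one e1).1 c).trans_lt e2
  unfold XX at hX
  have x4 : (1 : ℝ) ≤ d * m ^ 2 := by nlinarith
  have x5 : (0 : ℝ) ≤ Xa vx st.G st.S := Nat.cast_nonneg _
  have x6 : (0 : ℝ) ≤ Xs vx st.S := Nat.cast_nonneg _
  have x7 : (Xs vx st.S : ℝ) ≤ d * m ^ 2 * Xs vx st.S := le_mul_of_one_le_left x6 x4
  refine ⟨by linarith [(PhiC_bounds hμ0 hB.gK hS a).1],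
    by linarith [(PhiC_bounds hμ0 hB.gJ hS b).1], ?_, ?_⟩
  · have : (Xs vx st.S : ℝ) < 1 := by linarith
    exact Nat.lt_one_iff.1 (by exact_mod_cast this)
  · have : (Xa vx st.G st.S : ℝ) < 1 := by linarith
    exact Nat.lt_one_iff.1 (by exact_mod_cast this)

/-- after a step of phase `j` with potential at most `1` the entries are bounded -/
theorem entries_le (d : ℕ) (hd : 3 ≤ d) : ∃ m0 : ℕ, ∀ m, m0 ≤ m → ∀ n, Scale m n →
      ∀ {V ι : Type} [Fintype V] [Fintype ι] [DecidableEq ι] (vx : ι → V) (st : St V ι ℝ),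
      ∀ j, j ≤ 3 → Base n d vx st → ph m (st.S.card + 2) = j → Phi j m n d vx st ≤ 1 →
      (∀ c f, |st.K c f| ≤ (n * d : ℕ)) ∧ (∀ c f, |st.J c f| ≤ (n * d : ℕ)) := by
  refine ⟨1000, fun m hm n hn V ι _ _ _ vx st j hj hB hph h => ?_⟩
  have hμ : (1000 : ℝ) ≤ m := by exact_mod_cast hm
  have hd' : (3 : ℝ) ≤ d := by exact_mod_cast hd
  have hn' : (m : ℝ) ^ 4000 ≤ n := by exact_mod_cast hn.1
  have hμ0 : (0 : ℝ) < m := by linarith
  have hμ1 : (1 : ℝ) ≤ m := by linarith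
  have hn0 : (0 : ℝ) < n := lt_of_lt_of_le (by positivity) hn'
  have h2 : m ^ 1320 < st.S.card + 2 := by
    by_contra hc
    have hp : ∀ k, 1320 ≤ k → ¬ m ^ k < st.S.card + 2 := fun k hk hlt =>
      hc ((Nat.pow_le_pow_right (by omega) hk).trans_lt hlt)
    unfold ph at hph
    rw [if_neg (hp _ (by norm_num)), if_neg (hp _ (by norm_num)), if_neg (hp _ (by norm_num)),
      if_neg hc] at hph
    omega
  have hN2 := Trans_half hm (by norm_num) h2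
  have hN0 : (0 : ℝ) < st.S.card := by
    have : 0 < (m : ℝ) ^ 1320 := by positivity
    linarith
  have hS : st.S.Nonempty := Finset.card_pos.1 (by exact_mod_cast hN0)
  have hN1 : (st.S.card : ℝ) ≤ (n * d : ℕ) := by
    rw [← hB.gi.card_ι]
    exact_mod_cast Finset.card_le_univ _
  have hnd : (m : ℝ) ^ 4000 ≤ (n * d : ℕ) := by
    push_cast
    nlinarith
  have hbig : (2 : ℝ) ≤ (n * d : ℕ) := by
    linarith [Trans_pw hμ (show 0 < 4000 by norm_num), pow_zero (m : ℝ)]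
  have hsq : 2 * ((n * d : ℕ) : ℝ) ≤ ((n * d : ℕ) : ℝ) ^ 2 := by nlinarith
  have keyA : ∀ {e : ℝ} {K : Matrix ι ι ℝ}, Good (pp d) st.S e K → ∀ k, k ≤ 2820 →
      Vs 1 st.S K ≤ (m : ℝ) ^ k → ∀ c f, |K c f| ≤ (n * d : ℕ) := by
    intro e K hK k hk hV
    refine Trans_entry hK (Nat.cast_nonneg _) fun c => ?_
    have e1 := hK.bet_le (lam := (m : ℝ) ^ 1410) (by positivity) (hV.trans (by
      rw [← pow_mul]
      exact pow_le_pow_right₀ hμ1 hk)) c
    have e2 : (m : ℝ) ^ 1410 ≤ (m : ℝ) ^ 4000 := pow_le_pow_right₀ hμ1 (by norm_num)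
    linarith
  have keyC : ∀ {e : ℝ} {K : Matrix ι ι ℝ}, Good (pp d) st.S e K → PhiC (m : ℝ) st.S K ≤ 1 →
      ∀ c f, |K c f| ≤ (n * d : ℕ) := by
    intro e K hK hP
    refine Trans_entry hK (Nat.cast_nonneg _) fun c => ?_
    have e1 := hK.bet_le_W (by positivity) (PhiC_bounds hμ0 hK hS hP).2.1 c
    have e2 : (m : ℝ) ^ 20 ≤ (m : ℝ) ^ 4000 := pow_le_pow_right₀ hμ1 (by norm_num)
    have e3 : (st.S.card : ℝ) / (m : ℝ) ^ 1288 ≤ st.S.card :=
      div_le_self hN0.le (one_le_pow₀ hμ1)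
    linarith
  obtain ⟨P0, P1, P2⟩ := par_pos (d := d) hμ0 hn0 hN0
  interval_cases j
  · obtain ⟨a, b⟩ := Trans_split P0 hB.gK hB.gJ h
    exact ⟨keyA hB.gK 2560 (by norm_num) (PhiA_bounds P0 hB.gK hB.gJ a).2.1,
      keyA hB.gJ 2560 (by norm_num) (PhiA_bounds P0 hB.gJ hB.gK b).2.1⟩
  · obtain ⟨a, b⟩ := Trans_split P1 hB.gK hB.gJ h
    exact ⟨keyA hB.gK 2760 (by norm_num) (PhiA_bounds P1 hB.gK hB.gJ a).2.1,
      keyA hB.gJ 2760 (by norm_num) (PhiA_bounds P1 hB.gJ hB.gK b).2.1⟩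
  · obtain ⟨a, b⟩ := Trans_split P2 hB.gK hB.gJ h
    exact ⟨keyA hB.gK 2820 (by norm_num) (PhiA_bounds P2 hB.gK hB.gJ a).2.1,
      keyA hB.gJ 2820 (by norm_num) (PhiA_bounds P2 hB.gJ hB.gK b).2.1⟩
  · obtain ⟨a, b, -⟩ := Trans_splitC hμ0 hB.gK hB.gJ hS (Trans_XX_nonneg _ hμ0 d vx st.G) h
    exact ⟨keyC hB.gK a, keyC hB.gJ b⟩

end Crest.Agent.R62
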