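import Crest.Agent.R62.Ph0
import Crest.Agent.R62.Ph1
import Crest.Agent.R62.Ph2
import Crest.Agent.R62.Ph3
import Crest.Agent.R62.Init
import Crest.Agent.R62.Trans

/-! The invariant of the greedy algorithm. -/

set_option autoImplicit false
open Classical
open scoped Matrix
open Finset

noncomputable section
namespace Crest.Agent.R62

theorem iter_pow_gap {m a b : ℕ} (hm : 2 ≤ m) (ha : 1 ≤ a) (hab : a < b) : m ^ a + 2 ≤ m ^ b := by
  have h1 : m ^ 1 ≤ m ^ a := Nat.pow_le_pow_right (by omega) ha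
  have h2 : m ^ (a + 1) ≤ m ^ b := Nat.pow_le_pow_right (by omega) hab
  have h3 : m ^ a * 2 ≤ m ^ a * m := Nat.mul_le_mul_left _ hm
  rw [pow_succ] at h2
  rw [pow_one] at h1
  omega

theorem iter_ph_cases {m : ℕ} (hm : 2 ≤ m) (N : ℕ) :
    ph m N = ph m (N + 2) ∨
    (ph m (N + 2) = 0 ∧ ph m N = 1 ∧ N ≤ m ^ 3220 ∧ m ^ 3220 < N + 2) ∨
    (ph m (N + 2) = 1 ∧ ph m N = 2 ∧ N ≤ m ^ 2760 ∧ m ^ 2760 < N + 2) ∨
    (ph m (N + 2) = 2 ∧ ph m N = 3 ∧ N ≤ m ^ 2700 ∧ m ^ 2700 < N + 2) ∨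
    (ph m (N + 2) = 3 ∧ ph m N = 4 ∧ N ≤ m ^ 1320 ∧ m ^ 1320 < N + 2) := by
  have h1 := iter_pow_gap (a := 2760) (b := 3220) hm (by norm_num) (by norm_num)
  have h2 := iter_pow_gap (a := 2700) (b := 2760) hm (by norm_num) (by norm_num)
  have h3 := iter_pow_gap (a := 1320) (b := 2700) hm (by norm_num) (by norm_num)
  unfold ph
  generalize m ^ 3220 = A at *
  generalize m ^ 2760 = B at *
  generalize m ^ 2700 = C at *
  generalize m ^ 1320 = D at *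
  split_ifs <;> omega

theorem iter_ph_le {m : ℕ} (hm : 2 ≤ m) (N : ℕ) : ph m N ≤ 3 ↔ m ^ 1320 < N := by
  have h1 := iter_pow_gap (a := 2760) (b := 3220) hm (by norm_num) (by norm_num)
  have h2 := iter_pow_gap (a := 2700) (b := 2760) hm (by norm_num) (by norm_num)
  have h3 := iter_pow_gap (a := 1320) (b := 2700) hm (by norm_num) (by norm_num)
  unfold ph
  generalize m ^ 3220 = A at *
  generalize m ^ 2760 = B at *
  generalize m ^ 2700 = C at *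
  generalize m ^ 1320 = D at *
  split_ifs <;> omega

/-- the envelope of the potential -/
def iterBd (C : ℝ) (m D N : ℕ) : ℝ := 1 / 4 + (C + 1) / (m : ℝ) ^ 2 * Real.log ((D : ℝ) / N)

theorem iterBd_ge {C : ℝ} (hC : 0 ≤ C) {m D N : ℕ} (hN : 1 ≤ N) (hND : N ≤ D) :
    1 / 4 ≤ iterBd C m D N := by
  have hN' : (0 : ℝ) < N := by exact_mod_cast hN
  have h1 : (1 : ℝ) ≤ (D : ℝ) / N := (one_le_div hN').2 (by exact_mod_cast hND)
  have := Real.log_nonneg h1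
  unfold iterBd
  exact le_add_of_nonneg_right (by positivity)

theorem iterBd_le {C : ℝ} (hC : 0 ≤ C) {m D N : ℕ} (hN : 1 ≤ N) (hND : N ≤ D) (hD : D ≤ m ^ 4002)
    (hm : 16008 * (C + 1) ≤ m) : iterBd C m D N ≤ 1 / 2 := by
  have hN' : (1 : ℝ) ≤ N := by exact_mod_cast hN
  have hD' : (1 : ℝ) ≤ D := by exact_mod_cast hN.trans hND
  have hm0 : (0 : ℝ) < m := lt_of_lt_of_le (by positivity) hm
  have h1 : (D : ℝ) / N ≤ (m : ℝ) ^ 4002 :=
    (div_le_self (by positivity) hN').trans (by exact_mod_cast hD)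
  have h2 : Real.log ((D : ℝ) / N) ≤ 4002 * m := by
    refine (Real.log_le_log (by positivity) h1).trans ?_
    rw [Real.log_pow]
    have := Real.log_le_sub_one_of_pos hm0
    push_cast
    linarith
  have h3 : (C + 1) / (m : ℝ) ^ 2 * Real.log ((D : ℝ) / N) ≤ (C + 1) / (m : ℝ) ^ 2 * (4002 * m) :=
    mul_le_mul_of_nonneg_left h2 (by positivity)
  have h4 : (C + 1) / (m : ℝ) ^ 2 * (4002 * m) ≤ 1 / 4 := by
    have : (C + 1) / (m : ℝ) ^ 2 * (4002 * m) = 4002 * (C + 1) / m := by field_simp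
    rw [this, div_le_iff₀ hm0]
    linarith
  unfold iterBd
  linarith

theorem iterBd_step {C : ℝ} (hC : 0 ≤ C) {m D N : ℕ} (hN : 1 ≤ N) (hD : 1 ≤ D) :
    iterBd C m D (N + 2) + (C + 1) / ((m : ℝ) ^ 2 * ((N + 2 : ℕ) : ℝ)) ≤ iterBd C m D N := by
  have hN' : (0 : ℝ) < N := by exact_mod_cast hN
  have hD' : (0 : ℝ) < D := by exact_mod_cast hD
  have hN2 : (0 : ℝ) < ((N + 2 : ℕ) : ℝ) := by positivity
  have h1 : Real.log ((D : ℝ) / ((N + 2 : ℕ) : ℝ)) + 1 / ((N + 2 : ℕ) : ℝ) ≤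
      Real.log ((D : ℝ) / N) := by
    have h2 := Real.one_sub_inv_le_log_of_pos (div_pos hN2 hN')
    rw [Real.log_div hN2.ne' hN'.ne'] at h2
    rw [Real.log_div hD'.ne' hN2.ne', Real.log_div hD'.ne' hN'.ne']
    have h3 : 1 - (((N + 2 : ℕ) : ℝ) / N)⁻¹ = 2 * (1 / ((N + 2 : ℕ) : ℝ)) := by
      push_cast; field_simp; ring
    have h4 : 0 < 1 / ((N + 2 : ℕ) : ℝ) := by positivity
    linarith
  have h5 := mul_le_mul_of_nonneg_left h1 (show 0 ≤ (C + 1) / (m : ℝ) ^ 2 by positivity)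
  have h6 : (C + 1) / ((m : ℝ) ^ 2 * ((N + 2 : ℕ) : ℝ)) =
      (C + 1) / (m : ℝ) ^ 2 * (1 / ((N + 2 : ℕ) : ℝ)) := by
    rw [div_mul_div_comm, mul_one]
  unfold iterBd
  rw [h6]
  linarith

variable {V ι : Type} [Fintype V] [Fintype ι] [DecidableEq ι]

omit [Fintype ι] in
theorem iter_card_del {S : Finset ι} {a b : ι} (ha : a ∈ S) (hb : b ∈ S) (hab : a ≠ b) :
    (del S a b).card + 2 = S.card := by
  have h1 := card_erase_add_one ha
  have h2 := card_erase_add_one (mem_erase.2 ⟨hab.symm, hb⟩)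
  unfold del
  omega

omit [Fintype V] [Fintype ι] [DecidableEq ι] in
theorem iter_ne {vx : ι → V} {G : SimpleGraph V} {a b : ι} (h : ¬ Conf vx G a b) : a ≠ b := by
  rintro rfl
  exact h (Or.inl rfl)

/-- the facts used in the induction -/
structure IterFacts (C : ℝ) (m n d : ℕ) (vx : ι → V) : Prop where
  hd : 3 ≤ d
  hC : 0 ≤ C
  hm2 : 2 ≤ m
  hmC : 16008 * (C + 1) ≤ m
  hD : n * d ≤ m ^ 4002
  hD' : m ^ 4000 ≤ n
  step : ∀ st : St V ι ℝ, Base n d vx st → ph m st.S.card ≤ 3 →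
    Phi (ph m st.S.card) m n d vx st ≤ 1 →
    ∃ a b, Simple vx st a b ∧ 0 < Dd 1 st.K a b ∧ 0 < Dd (-1) st.J a b ∧
      Phi (ph m st.S.card) m n d vx (rawStep vx st a b) ≤
        Phi (ph m st.S.card) m n d vx st + C / ((m : ℝ) ^ 2 * st.S.card)
  t0 : ∀ st : St V ι ℝ, Base n d vx st → st.S.card ≤ m ^ 3220 → m ^ 3220 < st.S.card + 2 →
    Phi 0 m n d vx st ≤ 1 → Phi 1 m n d vx st ≤ 1 / 4
  t1 : ∀ st : St V ι ℝ, Base n d vx st → st.S.card ≤ m ^ 2760 → m ^ 2760 < st.S.card + 2 →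
    Phi 1 m n d vx st ≤ 1 → Phi 2 m n d vx st ≤ 1 / 4
  t2 : ∀ st : St V ι ℝ, Base n d vx st → st.S.card ≤ m ^ 2700 → m ^ 2700 < st.S.card + 2 →
    Phi 2 m n d vx st ≤ 1 → Phi 3 m n d vx st ≤ 1 / 4
  t3 : ∀ st : St V ι ℝ, Base n d vx st → st.S.card ≤ m ^ 1320 → m ^ 1320 < st.S.card + 2 →
    Phi 3 m n d vx st ≤ 1 →
    Tr 2 st.K ≤ 2 ∧ Tr 2 st.J ≤ 2 ∧ Xs vx st.S = 0 ∧ Xa vx st.G st.S = 0
  ent : ∀ st : St V ι ℝ, ∀ j, j ≤ 3 → Base n d vx st → ph m (st.S.card + 2) = j →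
    Phi j m n d vx st ≤ 1 →
    (∀ c f, |st.K c f| ≤ (n * d : ℕ)) ∧ (∀ c f, |st.J c f| ≤ (n * d : ℕ))
  pert : ∀ (st st' : St V ι ℝ) (j : ℕ), j ≤ 3 → Fintype.card ι = n * d → st'.S = st.S →
    st'.G = st.G → st.S.Nonempty → (∀ c f, |st.K c f| ≤ (n * d : ℕ)) →
    (∀ c f, |st.J c f| ≤ (n * d : ℕ)) →
    (∀ c f, |st'.K c f - st.K c f| ≤ 1 / ((n * d : ℕ) : ℝ) ^ 29) →
    (∀ c f, |st'.J c f - st.J c f| ≤ 1 / ((n * d : ℕ) : ℝ) ^ 29) →
    Phi j m n d vx st' ≤ Phi j m n d vx st + 1 / ((n * d : ℕ) : ℝ) ^ 2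

/-- the invariant -/
def IterInv (C : ℝ) (m n d : ℕ) (vx : ι → V) (st : St V ι ℝ) : Prop :=
  Even st.S.card ∧ GInv n d vx st.G st.S ∧
    ((ph m st.S.card ≤ 3 ∧ Good (pp d) st.S 1 st.K ∧ Good (pp d) st.S (-1) st.J ∧
      PDInv d 1 vx st.G st.S st.K ∧ PDInv d (-1) vx st.G st.S st.J ∧
      Phi (ph m st.S.card) m n d vx st ≤ iterBd C m (n * d) st.S.card) ∨
    (¬ ph m st.S.card ≤ 3 ∧ FinInv d 1 vx st.G st.S ∧ FinInv d (-1) vx st.G st.S ∧
      NoConf vx st.G st.S))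

variable {C : ℝ} {m n d : ℕ} {vx : ι → V}

theorem IterFacts.choose (F : IterFacts C m n d vx) {st st' : St V ι ℝ} (hB : Base n d vx st)
    (hph : ph m st.S.card ≤ 3)
    (hΦ : Phi (ph m st.S.card) m n d vx st ≤ iterBd C m (n * d) st.S.card)
    (hN : Next m n d vx st st') :
    ∃ a b, Valid (n * d) vx st a b ∧ st' = R62.step ((n * d) ^ 30) vx st a b ∧
      Phi (ph m st.S.card) m n d vx st' ≤
        iterBd C m (n * d) st.S.card + (C + 1) / ((m : ℝ) ^ 2 * st.S.card) := by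
  have hcard := hB.gi.card_ι
  have hND : st.S.card ≤ n * d := hcard ▸ card_le_univ _
  have hlt := (iter_ph_le F.hm2 _).1 hph
  have h4 := iter_pow_gap (a := 1) (b := 1320) F.hm2 le_rfl (by norm_num)
  have hm2 := F.hm2
  have hN3 : 3 ≤ st.S.card := by rw [pow_one] at h4; omega
  have hN1 : 1 ≤ st.S.card := by omega
  have hhalf := iterBd_le F.hC hN1 hND F.hD F.hmC
  obtain ⟨a, b, hs, hD1, hD2, hraw⟩ := F.step st hB hph (by linarith)
  have hab := iter_ne hs.2.2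
  have hdel := iter_card_del hs.1 hs.2.1 hab
  have hBraw : Base n d vx (rawStep vx st a b) :=
    ⟨hB.gK.upd hs.1 hs.2.1 hab hN3 hD1, hB.gJ.upd hs.1 hs.2.1 hab hN3 hD2,
      hB.gi.step hs.1 hs.2.1 hs.2.2⟩
  have hC := F.hC
  have hm0 : (0 : ℝ) < m := lt_of_lt_of_le (by positivity) F.hmC
  have hm1 : (1 : ℝ) ≤ m := by exact_mod_cast (show 1 ≤ m by omega)
  have hN' : (1 : ℝ) ≤ st.S.card := by exact_mod_cast hN1
  have hsmall : C / ((m : ℝ) ^ 2 * st.S.card) ≤ 1 / 2 := by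
    rw [div_le_iff₀ (by positivity)]
    have h1 : (m : ℝ) ≤ (m : ℝ) ^ 2 * st.S.card :=
      (le_self_pow₀ hm1 two_ne_zero).trans (le_mul_of_one_le_right (by positivity) hN')
    have := F.hmC
    linarith
  have hent := F.ent (rawStep vx st a b) _ hph hBraw (congrArg (ph m) hdel) (by linarith)
  have hV : Valid (n * d) vx st a b := ⟨hs, hD1, hD2, hent.1, hent.2⟩
  unfold Next at hN
  rw [if_pos hph, if_pos ⟨a, b, hV⟩] at hN
  obtain ⟨a', b', hV', hst', hbest⟩ := hN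
  refine ⟨a', b', hV', hst', (hbest a b hV).trans ?_⟩
  have hD1' : 1 ≤ n * d := hN1.trans hND
  have hDr : (0 : ℝ) < ((n * d : ℕ) : ℝ) := by exact_mod_cast hD1'
  have hM : 1 ≤ (n * d) ^ 30 := Nat.one_le_pow _ _ hD1'
  have hcl : (Fintype.card ι : ℝ) / (((n * d) ^ 30 : ℕ) : ℝ) = 1 / ((n * d : ℕ) : ℝ) ^ 29 := by
    rw [hcard, Nat.cast_pow]
    generalize ((n * d : ℕ) : ℝ) = x at hDr
    field_simp
  have hp := F.pert (rawStep vx st a b) (R62.step ((n * d) ^ 30) vx st a b) _ hph hcard rfl rfl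
    (card_pos.1 (show 0 < (del st.S a b).card by omega)) hent.1 hent.2
    (fun c f => hcl ▸ rnd_close hBraw.gK hM c f) (fun c f => hcl ▸ rnd_close hBraw.gJ hM c f)
  have hq : 1 / ((n * d : ℕ) : ℝ) ^ 2 ≤ 1 / ((m : ℝ) ^ 2 * st.S.card) := by
    refine one_div_le_one_div_of_le (by positivity) ?_
    have h1 : m ^ 2 ≤ n * d :=
      ((Nat.pow_le_pow_right (by omega) (by norm_num)).trans F.hD').trans
        (Nat.le_mul_of_pos_right _ (by have := F.hd; omega))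
    rw [sq ((n * d : ℕ) : ℝ)]
    exact_mod_cast Nat.mul_le_mul h1 hND
  rw [add_div]
  linarith

theorem IterFacts.next (F : IterFacts C m n d vx) {st st' : St V ι ℝ}
    (h : IterInv C m n d vx st) (hN : Next m n d vx st st') :
    IterInv C m n d vx st' ∧ st'.S.card = st.S.card - 2 := by
  obtain ⟨hev, hG, ⟨hph, gK, gJ, pK, pJ, hΦ⟩ | ⟨hph, fK, fJ, hnc⟩⟩ := h
  · obtain ⟨a, b, ⟨hs, hD1, hD2, -, -⟩, rfl, hΦ'⟩ := F.choose ⟨gK, gJ, hG⟩ hph hΦ hN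
    have hcard := hG.card_ι
    have hND : st.S.card ≤ n * d := hcard ▸ card_le_univ _
    have hlt := (iter_ph_le F.hm2 _).1 hph
    have h4 := iter_pow_gap (a := 1) (b := 1320) F.hm2 le_rfl (by norm_num)
    have hm2 := F.hm2
    have hN3 : 3 ≤ st.S.card := by rw [pow_one] at h4; omega
    have hab := iter_ne hs.2.2
    have hdel := iter_card_del hs.1 hs.2.1 hab
    have hM : 1 ≤ (n * d) ^ 30 := Nat.one_le_pow _ _ (by omega)
    have gK1 := gK.upd hs.1 hs.2.1 hab hN3 hD1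
    have gJ1 := gJ.upd hs.1 hs.2.1 hab hN3 hD2
    have pK1 := (pK.upd F.hd gK hs.1 hs.2.1 hs.2.2 hN3 hD1).rnd F.hd gK1 hM
    have pJ1 := (pJ.upd F.hd gJ hs.1 hs.2.1 hs.2.2 hN3 hD2).rnd F.hd gJ1 hM
    have hB : Base n d vx (R62.step ((n * d) ^ 30) vx st a b) :=
      ⟨gK1.rnd hM, gJ1.rnd hM, hG.step hs.1 hs.2.1 hs.2.2⟩
    have pK2 : PDInv d 1 vx (R62.step ((n * d) ^ 30) vx st a b).G
      (R62.step ((n * d) ^ 30) vx st a b).S (R62.step ((n * d) ^ 30) vx st a b).K := pK1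
    have pJ2 : PDInv d (-1) vx (R62.step ((n * d) ^ 30) vx st a b).G
      (R62.step ((n * d) ^ 30) vx st a b).S (R62.step ((n * d) ^ 30) vx st a b).J := pJ1
    have hdel' : (R62.step ((n * d) ^ 30) vx st a b).S.card + 2 = st.S.card := hdel
    generalize R62.step ((n * d) ^ 30) vx st a b = st' at hΦ' hB pK2 pJ2 hdel' ⊢
    rw [← hdel'] at hΦ' hph hev
    have hN1 : 1 ≤ st'.S.card := by omega
    have hND' : st'.S.card ≤ n * d := by omega
    have hΦ2 := hΦ'.trans (iterBd_step F.hC hN1 (by omega))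
    have hΦ3 : Phi (ph m (st'.S.card + 2)) m n d vx st' ≤ 1 :=
      hΦ2.trans ((iterBd_le F.hC hN1 hND' F.hD F.hmC).trans (by norm_num))
    have hge := iterBd_ge (m := m) F.hC hN1 hND'
    refine ⟨⟨(Nat.even_add.1 hev).2 even_two, hB.gi, ?_⟩, by omega⟩
    rcases iter_ph_cases F.hm2 st'.S.card with e | ⟨e1, e2, l1, l2⟩ | ⟨e1, e2, l1, l2⟩ |
      ⟨e1, e2, l1, l2⟩ | ⟨e1, e2, l1, l2⟩
    · exact Or.inl ⟨e ▸ hph, hB.gK, hB.gJ, pK2, pJ2, e ▸ hΦ2⟩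
    · rw [e1] at hΦ3
      exact Or.inl ⟨by omega, hB.gK, hB.gJ, pK2, pJ2, e2 ▸ (F.t0 st' hB l1 l2 hΦ3).trans hge⟩
    · rw [e1] at hΦ3
      exact Or.inl ⟨by omega, hB.gK, hB.gJ, pK2, pJ2, e2 ▸ (F.t1 st' hB l1 l2 hΦ3).trans hge⟩
    · rw [e1] at hΦ3
      exact Or.inl ⟨by omega, hB.gK, hB.gJ, pK2, pJ2, e2 ▸ (F.t2 st' hB l1 l2 hΦ3).trans hge⟩
    · rw [e1] at hΦ3
      obtain ⟨h1, h2, h3, h4⟩ := F.t3 st' hB l1 l2 hΦ3
      exact Or.inr ⟨by omega, FinInv.of_PD F.hd hB.gK pK2 h1, FinInv.of_PD F.hd hB.gJ pJ2 h2,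
        NoConf.of_X h3 h4⟩
  · unfold Next at hN
    rw [if_neg hph] at hN
    by_cases hex : ∃ a b, Simple vx st a b
    · rw [if_pos hex] at hN
      obtain ⟨a, b, hs, rfl⟩ := hN
      have hab := iter_ne hs.2.2
      have hdel : (finStep vx st a b).S.card + 2 = st.S.card := iter_card_del hs.1 hs.2.1 hab
      refine ⟨⟨?_, hG.step hs.1 hs.2.1 hs.2.2, Or.inr ⟨?_, fK.step (Or.inl rfl) hs.1 hs.2.1 hs.2.2,
        fJ.step (Or.inr rfl) hs.1 hs.2.1 hs.2.2, hnc.step hs.1 hs.2.1 hab⟩⟩, by omega⟩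
      · rw [← hdel] at hev
        exact (Nat.even_add.1 hev).2 even_two
      · rw [iter_ph_le F.hm2] at hph ⊢
        omega
    · rw [if_neg hex] at hN
      subst hN
      refine ⟨⟨hev, hG, Or.inr ⟨hph, fK, fJ, hnc⟩⟩, ?_⟩
      have h1 : ¬ 1 < st'.S.card := fun h1 => by
        obtain ⟨a, ha, b, hb, hab⟩ := one_lt_card.1 h1
        exact hex ⟨a, b, ha, hb, hnc a ha b hb hab⟩
      obtain ⟨k, hk⟩ := hev
      omega

theorem IterFacts.run (F : IterFacts C m n d vx) (hn : Even n) (seq : ℕ → St V ι ℝ)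
    (hG : GInv n d vx ⊥ univ) (h0 : seq 0 = st0 n d vx)
    (hinit : Phi 0 m n d vx (st0 n d vx : St V ι ℝ) ≤ 1 / 4)
    (hN : ∀ t, Next m n d vx (seq t) (seq (t + 1))) :
    (∀ v, dg (seq (n * d)).G v = d) ∧ ∀ x : V → ℝ, ∑ v, x v = 0 → x ≠ 0 →
      |aq (seq (n * d)).G x| < 2 * √((d : ℝ) - 1) * (x ⬝ᵥ x) := by
  have hm2 := F.hm2
  have hd := F.hd
  have hc : (st0 n d vx : St V ι ℝ).S.card = n * d := hG.card_ι
  have hgap := iter_pow_gap (a := 3220) (b := 4000) hm2 (by norm_num) (by norm_num)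
  have hn1 : 1 ≤ n := le_trans (by omega) F.hD'
  have hnd : n ≤ n * d := Nat.le_mul_of_pos_right _ (by omega)
  have hph0 : ph m (n * d) = 0 := by
    have := F.hD'
    unfold ph
    rw [if_pos (by omega)]
  have hM : 1 ≤ (n * d) ^ 30 := Nat.one_le_pow _ _ (by omega)
  have key : ∀ t, IterInv C m n d vx (seq t) ∧ (seq t).S.card = n * d - 2 * t := by
    intro t
    induction t with
    | zero =>
      rw [h0]
      refine ⟨⟨hc ▸ hn.mul_right d, hG, Or.inl ?_⟩, hc⟩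
      have k1 := K0_good hd hn1 (Or.inl rfl) hG hM
      have k2 := K0_good hd hn1 (Or.inr rfl) hG hM
      rw [hc, hph0]
      exact ⟨by norm_num, k1.1, k2.1, k1.2, k2.2,
        hinit.trans (iterBd_ge F.hC (by omega) le_rfl)⟩
    | succ t ih =>
      obtain ⟨h1, h2⟩ := F.next ih.1 (hN t)
      exact ⟨h1, by rw [h2, ih.2]; omega⟩
  obtain ⟨⟨-, hG', h⟩, hcard⟩ := key (n * d)
  have hz : (seq (n * d)).S.card = 0 := by omega
  have hS : (seq (n * d)).S = ∅ := card_eq_zero.1 hz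
  rcases h with h | ⟨-, f1, f2, -⟩
  · have := (iter_ph_le hm2 _).1 h.1
    omega
  · rw [hS] at hG' f1 f2
    exact final_of_empty hG' f1 f2

theorem iter_facts (d : ℕ) (hd : 3 ≤ d) : ∃ (C : ℝ) (m0 : ℕ), ∀ m, m0 ≤ m → ∀ n, Scale m n →
    ∀ {V ι : Type} [Fintype V] [Fintype ι] [DecidableEq ι] (vx : ι → V),
      IterFacts C m n d vx := by
  obtain ⟨C0, hC0, a0, H0⟩ := ph0_step d hd
  obtain ⟨C1, hC1, a1, H1⟩ := ph1_step d hd
  obtain ⟨C2, hC2, a2, H2⟩ := ph2_step d hd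
  obtain ⟨C3, hC3, a3, H3⟩ := ph3_step d hd
  obtain ⟨b0, T0⟩ := trans0 d hd
  obtain ⟨b1, T1⟩ := trans1 d hd
  obtain ⟨b2, T2⟩ := trans2 d hd
  obtain ⟨b3, T3⟩ := trans3 d hd
  obtain ⟨c0, E⟩ := entries_le d hd
  obtain ⟨c1, P⟩ := Phi_perturb d hd
  refine ⟨C0 + C1 + C2 + C3, a0 + a1 + a2 + a3 + b0 + b1 + b2 + b3 + c0 + c1 + d +
    ⌈16008 * (C0 + C1 + C2 + C3 + 1)⌉₊, fun m hm n hs V ι _ _ _ vx => ?_⟩
  have hmono : ∀ (st : St V ι ℝ) {c : ℝ}, c ≤ C0 + C1 + C2 + C3 →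
      c / ((m : ℝ) ^ 2 * st.S.card) ≤ (C0 + C1 + C2 + C3) / ((m : ℝ) ^ 2 * st.S.card) :=
    fun st c hc => div_le_div_of_nonneg_right hc (by positivity)
  refine
    { hd := hd
      hC := by positivity
      hm2 := by omega
      hmC := Nat.ceil_le.1 (by omega)
      hD := ?_
      hD' := hs.1
      step := fun st hB hph hΦ => ?_
      t0 := T0 m (by omega) n hs vx
      t1 := T1 m (by omega) n hs vx
      t2 := T2 m (by omega) n hs vx
      t3 := T3 m (by omega) n hs vx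
      ent := E m (by omega) n hs vx
      pert := P m (by omega) n hs vx }
  · calc n * d ≤ 2 * m ^ 4000 * d := Nat.mul_le_mul_right _ hs.2
      _ ≤ m * m ^ 4000 * m := Nat.mul_le_mul (Nat.mul_le_mul_right _ (by omega)) (by omega)
      _ = m ^ 4002 := by rw [← pow_succ', ← pow_succ]
  · generalize hj : ph m st.S.card = j at hph hΦ ⊢
    interval_cases j
    · obtain ⟨a, b, h1, h2, h3, h4⟩ := H0 m (by omega) n hs vx st hB hj hΦ
      exact ⟨a, b, h1, h2, h3, h4.trans (add_le_add_right (hmono st (by linarith)) _)⟩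
    · obtain ⟨a, b, h1, h2, h3, h4⟩ := H1 m (by omega) n hs vx st hB hj hΦ
      exact ⟨a, b, h1, h2, h3, h4.trans (add_le_add_right (hmono st (by linarith)) _)⟩
    · obtain ⟨a, b, h1, h2, h3, h4⟩ := H2 m (by omega) n hs vx st hB hj hΦ
      exact ⟨a, b, h1, h2, h3, h4.trans (add_le_add_right (hmono st (by linarith)) _)⟩
    · obtain ⟨a, b, h1, h2, h3, h4⟩ := H3 m (by omega) n hs vx st hB hj hΦ
      exact ⟨a, b, h1, h2, h3, h4.trans (add_le_add_right (hmono st (by linarith)) _)⟩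

end Crest.Agent.R62
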