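import Crest.Agent.R62.Ph0
import Crest.Agent.R62.Ph1
import Crest.Agent.R62.Ph2
import Crest.Agent.R62.Ph3
import Crest.Agent.R62.Init
import Crest.Agent.R62.Trans
import Crest.Agent.R62.IterAux

/-! Every run of the greedy algorithm ends in a Ramanujan graph. -/

set_option autoImplicit false
open Classical
open scoped Matrix
open Finset

noncomputable section
namespace Crest.Agent.R62

theorem mOf_large (m0 : ℕ) : ∃ n0 : ℕ, ∀ n, n0 ≤ n → m0 ≤ mOf n ∧ Scale (mOf n) n := by
  have key : ∀ k n m : ℕ, k ≠ 0 → m ^ k ≤ n → m ≤ Nat.findGreatest (fun m => m ^ k ≤ n) n :=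
    fun k n m hk h => Nat.le_findGreatest ((Nat.le_self_pow hk m).trans h) h
  have two : ∀ k m : ℕ, 2 * k ≤ m → (m + 1) ^ k ≤ 2 * m ^ k := fun k m h => by
    have aux : ∀ j, j ≤ k → (m + 1) ^ j * (2 * k - j) ≤ 2 * k * m ^ j := fun j hj => by
      induction j with
      | zero => simp
      | succ j ih =>
        obtain ⟨r, hr⟩ : ∃ r, 2 * k - j = r + 1 := ⟨2 * k - j - 1, by omega⟩
        have ih := ih (by omega)
        rw [hr] at ih
        rw [show 2 * k - (j + 1) = r by omega]
        calc (m + 1) ^ (j + 1) * r = (m + 1) ^ j * ((m + 1) * r) := by ring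
          _ ≤ (m + 1) ^ j * ((r + 1) * m) := Nat.mul_le_mul_left _ (by nlinarith [show r ≤ m by omega])
          _ = (m + 1) ^ j * (r + 1) * m := by ring
          _ ≤ 2 * k * m ^ j * m := Nat.mul_le_mul_right _ ih
          _ = 2 * k * m ^ (j + 1) := by ring
    rcases Nat.eq_zero_or_pos k with rfl | hk
    · simp
    · have := aux k le_rfl
      rw [show 2 * k - k = k by omega] at this
      exact Nat.le_of_mul_le_mul_right (by linarith) hk
  have gen : ∀ k : ℕ, k ≠ 0 → ∃ n0 : ℕ, ∀ n, n0 ≤ n →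
      m0 ≤ Nat.findGreatest (fun m => m ^ k ≤ n) n ∧
      Nat.findGreatest (fun m => m ^ k ≤ n) n ^ k ≤ n ∧
      n ≤ 2 * Nat.findGreatest (fun m => m ^ k ≤ n) n ^ k := fun k hk => by
    refine ⟨max m0 (2 * k) ^ k, fun n hn => ?_⟩
    have h1 := key k n _ hk hn
    refine ⟨(le_max_left _ _).trans h1, Nat.findGreatest_spec (P := fun m => m ^ k ≤ n)
      ((Nat.le_self_pow hk _).trans hn) hn, ?_⟩
    refine le_trans ?_ (two k _ ((le_max_right _ _).trans h1))
    by_contra hc
    exact absurd (key k n _ hk (not_le.1 hc).le) (by omega)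
  exact gen 4000 (by norm_num)

theorem ginv_divNat (n d : ℕ) : GInv n d (Fin.divNat : Fin (n * d) → Fin n) ⊥ univ := by
  have h : ∀ v : Fin n, (univ.filter fun h : Fin (n * d) => h.divNat = v).card = d := fun v => by
    have e : (univ.filter fun h : Fin (n * d) => h.divNat = v) =
        univ.image fun j : Fin d => finProdFinEquiv (v, j) := by
      ext h
      simp only [mem_filter, mem_univ, true_and, mem_image]
      constructor
      · rintro rfl
        exact ⟨h.modNat, finProdFinEquiv.apply_symm_apply h⟩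
      · rintro ⟨j, rfl⟩
        exact congrArg Prod.fst (finProdFinEquiv.symm_apply_apply (v, j))
    rw [e, card_image_of_injective _ fun j j' hj =>
      congrArg Prod.snd (finProdFinEquiv.injective hj), card_univ, Fintype.card_fin]
  refine ⟨Fintype.card_fin n, fun v => by convert h v, fun v => ?_⟩
  have : dg (⊥ : SimpleGraph (Fin n)) v = 0 := by simp [dg]
  rw [this, zero_add]
  convert h v

theorem run_final (d : ℕ) (hd : 3 ≤ d) : ∃ m0 : ℕ, ∀ m, m0 ≤ m → ∀ n, Scale m n → Even n →
      ∀ {V ι : Type} [Fintype V] [Fintype ι] [DecidableEq ι] (vx : ι → V) (seq : ℕ → St V ι ℝ),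
      GInv n d vx ⊥ univ → seq 0 = st0 n d vx → (∀ t, Next m n d vx (seq t) (seq (t + 1))) →
      (∀ v, dg (seq (n * d)).G v = d) ∧ ∀ x : V → ℝ, ∑ v, x v = 0 → x ≠ 0 →
        |aq (seq (n * d)).G x| < 2 * √((d : ℝ) - 1) * (x ⬝ᵥ x) := by
  obtain ⟨C, m0, F⟩ := iter_facts d hd
  obtain ⟨m1, I⟩ := Phi_init d hd
  refine ⟨m0 + m1, fun m hm n hs hn V ι _ _ _ vx seq hG h0 hN => ?_⟩
  exact (F m (by omega) n hs vx).run hn seq hG h0 (I m (by omega) n hs vx hG) hN

end Crest.Agent.R62
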