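import Crest.Agent.R62.LemA1
import Crest.Agent.R62.MomentB

/-! The remainder in the moment increments, and the step inequality for `T₄`. -/

set_option autoImplicit false
open Classical
open scoped Matrix
open Finset

noncomputable section
namespace Crest.Agent.R62

/-- The allowed pairs. -/
def LemA2_P {ι : Type} (S : Finset ι) (K : Matrix ι ι ℝ) : Finset (ι × ι) :=
  (S ×ˢ S).filter fun q => Alw K q.1 q.2

theorem LemA2_sum_eq {ι : Type} (S : Finset ι) (K : Matrix ι ι ℝ) (F : ι → ι → ℝ) :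
    ∑ a ∈ S, ∑ b ∈ S, (if Alw K a b then F a b else 0) = ∑ q ∈ LemA2_P S K, F q.1 q.2 := by
  rw [LemA2_P, sum_filter, sum_product]

theorem LemA2_sum_le {ι : Type} (S : Finset ι) (K : Matrix ι ι ℝ) (F : ι → ι → ℝ)
    (hF : ∀ a b, 0 ≤ F a b) : ∑ q ∈ LemA2_P S K, F q.1 q.2 ≤ ∑ a ∈ S, ∑ b ∈ S, F a b := by
  rw [← LemA2_sum_eq]
  refine sum_le_sum fun a _ => sum_le_sum fun b _ => ?_
  split_ifs
  exacts [le_rfl, hF a b]

theorem LemA2_mem {ι : Type} {S : Finset ι} {K : Matrix ι ι ℝ} {q : ι × ι}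
    (hq : q ∈ LemA2_P S K) : q.1 ∈ S ∧ q.2 ∈ S ∧ Alw K q.1 q.2 := by
  simpa [LemA2_P, and_assoc] using hq

theorem LemA2_cs {α : Type} (P : Finset α) (f g : α → ℝ) {A B : ℝ} (hA : 0 ≤ A) (hB : 0 ≤ B)
    (hf : ∑ q ∈ P, f q ^ 2 ≤ A ^ 2) (hg : ∑ q ∈ P, g q ^ 2 ≤ B ^ 2) :
    ∑ q ∈ P, |f q| * |g q| ≤ A * B := by
  have h1 := sum_mul_sq_le_sq_mul_sq P (fun q => |f q|) fun q => |g q|
  simp only [sq_abs] at h1
  have h2 : (∑ q ∈ P, f q ^ 2) * ∑ q ∈ P, g q ^ 2 ≤ A ^ 2 * B ^ 2 :=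
    mul_le_mul hf hg (sum_nonneg fun _ _ => sq_nonneg _) (sq_nonneg _)
  refine le_trans (le_abs_self _) (abs_le_of_sq_le_sq ?_ (mul_nonneg hA hB))
  rw [mul_pow]
  exact h1.trans h2

theorem LemA2_main {D f o δ : ℝ} (h1 : 99 / 100 ≤ D) (h2 : |1 / D - 1| ≤ 3 * δ) :
    |-((o - f) / D) - f| ≤ 3 * (|δ| * |f|) + 2 * |o| := by
  have hD : 0 < D := by linarith
  have e : -((o - f) / D) - f = (1 / D - 1) * f - 1 / D * o := by field_simp; ring
  have h3 : |1 / D| ≤ 2 := by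
    rw [abs_of_pos (by positivity), div_le_iff₀ hD]; linarith
  rw [e]
  refine (abs_sub _ _).trans ?_
  rw [abs_mul, abs_mul]
  have h4 := mul_le_mul_of_nonneg_right (h2.trans (by linarith [le_abs_self δ] : 3 * δ ≤ 3 * |δ|))
    (abs_nonneg f)
  have h5 := mul_le_mul_of_nonneg_right h3 (abs_nonneg o)
  linarith

theorem LemA2_sq {D u : ℝ} (h1 : 99 / 100 ≤ D) : (u / D) ^ 2 ≤ 4 * u ^ 2 := by
  have hD : 0 < D := by linarith
  rw [div_pow, div_le_iff₀ (by positivity)]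
  have : 1 ≤ 4 * D ^ 2 := by nlinarith
  nlinarith [sq_nonneg u]

theorem rem_bound : ∃ C : ℝ, 0 < C ∧ ∀ {ι : Type} [Fintype ι] [DecidableEq ι] {p e : ℝ} {S : Finset ι} {K : Matrix ι ι ℝ}
      {s L lam r dd om ga : ℝ}, Good p S e K → Bd S K s L lam r dd om ga → BdA s L lam r dd →
      ∀ k, 1 ≤ k → k ≤ 4 → ∑ a ∈ S, ∑ b ∈ S, (if Alw K a b then
        |aa (del S a b) (upd e K a b) k - aa S K k - k * ff S e K k a b| else 0)
          ≤ C * s * L ^ (k + 1) := by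
  obtain ⟨Cf, hCf, hf⟩ := ff_norm
  obtain ⟨Co, hCo, ho⟩ := oo_norm
  obtain ⟨c, hc⟩ : ∃ c : ℝ, c = 1 + Cf + Co := ⟨_, rfl⟩
  have hc1 : 1 ≤ c := by linarith
  have hcc : c ≤ c ^ 2 := by nlinarith
  refine ⟨220 * c ^ 2, by positivity, ?_⟩
  intro ι _ _ p e S K s L lam r dd om ga hg hb hA k hk1 hk4
  obtain ⟨ho1, ho2, ho4⟩ := ho hg hb hA
  have hf := hf hg hb hA
  have hL : 0 < L := by linarith [hb.L_ge]
  have hs : 0 < s := by linarith [hb.s_ge]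
  rw [LemA2_sum_eq]
  set P := LemA2_P S K with hP
  have hD : ∀ q ∈ P, 99 / 100 ≤ Dd e K q.1 q.2 ∧
      |1 / Dd e K q.1 q.2 - 1| ≤ 3 * (|K q.1 q.2| + |K q.1 q.1 * K q.2 q.2|) := fun q hq =>
    ⟨(Alw.Dd_bound hg.sign (LemA2_mem hq).2.2).1, (Alw.Dd_bound hg.sign (LemA2_mem hq).2.2).2.2⟩
  have hF : ∀ j, 1 ≤ j → j ≤ 4 → ∑ q ∈ P, ff S e K j q.1 q.2 ^ 2 ≤ Cf * (L ^ (j + 1)) ^ 2 :=
    fun j h1 h2 => by
      rw [← pow_mul, show (j + 1) * 2 = 2 * j + 2 by ring]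
      exact (LemA2_sum_le S K (fun a b => ff S e K j a b ^ 2) fun _ _ => sq_nonneg _).trans
        (hf j h1 h2)
  have hδ : ∑ q ∈ P, (|K q.1 q.2| + |K q.1 q.1 * K q.2 q.2|) ^ 2 ≤ (3 * s) ^ 2 := by
    refine (LemA2_sum_le S K (fun a b => (|K a b| + |K a a * K b b|) ^ 2)
      fun _ _ => sq_nonneg _).trans (hg.delta_frob.trans ?_)
    have h0 : 0 ≤ Dh K := sum_nonneg fun _ _ => sq_nonneg _
    have h1 : Dh K ≤ s := hb.D.trans hA.h6
    have h2 : Dh K ^ 2 ≤ s ^ 2 := pow_le_pow_left₀ h0 h1 2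
    nlinarith [hb.T2, sq_nonneg s]
  have hM : ∀ j, 1 ≤ j → j ≤ 4 →
      ∑ q ∈ P, |-xx S e K j q.1 q.2 - ff S e K j q.1 q.2| ≤ 11 * c ^ 2 * (s * L ^ (j + 1)) :=
    fun j h1 h2 => by
      have h3 := LemA2_cs P _ _ (by positivity) (by positivity : 0 ≤ c * L ^ (j + 1)) hδ
        ((hF j h1 h2).trans (by
          rw [mul_pow]; exact mul_le_mul_of_nonneg_right (by linarith) (by positivity)))
      have h4 := (LemA2_sum_le S K (fun a b => |oo S K j a b|) fun _ _ => abs_nonneg _).trans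
        (ho1 j h1 h2)
      refine (sum_le_sum fun q hq => LemA2_main (hD q hq).1 (hD q hq).2).trans ?_
      rw [sum_add_distrib, ← mul_sum, ← mul_sum]
      have h5 : 0 ≤ s * L ^ (j + 1) := by positivity
      have h6 := mul_le_mul_of_nonneg_right hcc h5
      have h7 := mul_le_mul_of_nonneg_right (by linarith : Co ≤ c ^ 2) h5
      nlinarith
  have hX : ∀ j, 1 ≤ j → j ≤ 3 → ∑ q ∈ P, xx S e K j q.1 q.2 ^ 2 ≤ (4 * c * L ^ (j + 1)) ^ 2 :=
    fun j h1 h2 => by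
      have h3 := ho2 j h1 h2
      rw [LemA2_sum_eq S K fun a b => oo S K j a b ^ 2, show 2 * j + 2 = (j + 1) * 2 by ring,
        pow_mul] at h3
      have h4 := hF j h1 (by omega)
      have h5 : ∑ q ∈ P, xx S e K j q.1 q.2 ^ 2 ≤
          ∑ q ∈ P, (8 * oo S K j q.1 q.2 ^ 2 + 8 * ff S e K j q.1 q.2 ^ 2) :=
        sum_le_sum fun q hq => (LemA2_sq (hD q hq).1).trans (by
          nlinarith [sq_nonneg (oo S K j q.1 q.2 + ff S e K j q.1 q.2)])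
      rw [sum_add_distrib, ← mul_sum, ← mul_sum] at h5
      have h6 : 0 ≤ (L ^ (j + 1)) ^ 2 := by positivity
      have h7 := mul_le_mul_of_nonneg_right (by linarith : Cf + Co ≤ c ^ 2) h6
      have h8 : 0 ≤ c ^ 2 * (L ^ (j + 1)) ^ 2 := by positivity
      rw [mul_pow, mul_pow]
      nlinarith
  have hQ : ∑ q ∈ P, (xx S e K 1 q.1 q.2 ^ 2) ^ 2 ≤ (4 * c * L ^ 3) ^ 2 := by
    rw [LemA2_sum_eq S K fun a b => (oo S K 1 a b - ff S e K 1 a b) ^ 4] at ho4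
    have h5 : ∑ q ∈ P, (xx S e K 1 q.1 q.2 ^ 2) ^ 2 ≤
        ∑ q ∈ P, 16 * (oo S K 1 q.1 q.2 - ff S e K 1 q.1 q.2) ^ 4 :=
      sum_le_sum fun q hq =>
        (pow_le_pow_left₀ (sq_nonneg _) (LemA2_sq (hD q hq).1) 2).trans (le_of_eq (by ring))
    rw [← mul_sum] at h5
    have h7 := mul_le_mul_of_nonneg_right (by linarith : Co ≤ c ^ 2) (by positivity : 0 ≤ L ^ 6)
    nlinarith
  have hid : ∀ q ∈ P, _ := fun q hq => moment_id hg (LemA2_mem hq).1 (LemA2_mem hq).2.1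
    (LemA2_mem hq).2.2.1 (by linarith [(hD q hq).1])
  have hLs : ∀ j : ℕ, c ^ 2 * L ^ (j + 1) ≤ c ^ 2 * (s * L ^ j) := fun j => by
    rw [pow_succ' L j]
    exact mul_le_mul_of_nonneg_left (mul_le_mul_of_nonneg_right hA.h7 (pow_pos hL j).le)
      (by positivity)
  have hpos : ∀ j : ℕ, 0 ≤ c ^ 2 * (s * L ^ j) := fun j => by positivity
  have x1 := hX 1 le_rfl (by norm_num)
  have x2 := hX 2 (by norm_num) (by norm_num)
  have x3 := hX 3 (by norm_num) le_rfl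
  have hc0 : 0 < c := by linarith
  interval_cases k
  · have h1 := hM 1 le_rfl (by norm_num)
    have h2 : ∑ q ∈ P, |aa (del S q.1 q.2) (upd e K q.1 q.2) 1 - aa S K 1 -
        ((1 : ℕ) : ℝ) * ff S e K 1 q.1 q.2| = ∑ q ∈ P, |-xx S e K 1 q.1 q.2 - ff S e K 1 q.1 q.2| :=
      sum_congr rfl fun q hq => by rw [(hid q hq).1]; simp
    rw [h2]
    have := hpos 2
    norm_num at h1 ⊢
    nlinarith
  · have h1 := hM 2 (by norm_num) (by norm_num)
    have h2 : ∑ q ∈ P, |aa (del S q.1 q.2) (upd e K q.1 q.2) 2 - aa S K 2 -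
        ((2 : ℕ) : ℝ) * ff S e K 2 q.1 q.2| ≤
        ∑ q ∈ P, (2 * |-xx S e K 2 q.1 q.2 - ff S e K 2 q.1 q.2| + xx S e K 1 q.1 q.2 ^ 2) :=
      sum_le_sum fun q hq => by
        rw [(hid q hq).2.1, abs_le]
        have := abs_le.1 (le_refl |-xx S e K 2 q.1 q.2 - ff S e K 2 q.1 q.2|)
        have := sq_nonneg (xx S e K 1 q.1 q.2)
        push_cast
        constructor <;> linarith
    rw [sum_add_distrib, ← mul_sum] at h2
    refine h2.trans ?_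
    have := hpos 3
    have : c ^ 2 * L ^ 4 ≤ c ^ 2 * (s * L ^ 3) := hLs 3
    norm_num at h1 x1 ⊢
    linarith
  · have h1 := hM 3 (by norm_num) (by norm_num)
    have h3 := LemA2_cs P _ _ (by positivity) (by positivity) x1 x2
    have h4 := LemA2_cs P _ _ (by positivity) (by positivity) hQ x1
    have h2 : ∑ q ∈ P, |aa (del S q.1 q.2) (upd e K q.1 q.2) 3 - aa S K 3 -
        ((3 : ℕ) : ℝ) * ff S e K 3 q.1 q.2| ≤
        ∑ q ∈ P, (3 * |-xx S e K 3 q.1 q.2 - ff S e K 3 q.1 q.2| +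
          3 * (|xx S e K 1 q.1 q.2| * |xx S e K 2 q.1 q.2|) +
          |xx S e K 1 q.1 q.2 ^ 2| * |xx S e K 1 q.1 q.2|) :=
      sum_le_sum fun q hq => by
        rw [(hid q hq).2.2.1, abs_le, ← abs_mul, ← abs_mul]
        have := abs_le.1 (le_refl |-xx S e K 3 q.1 q.2 - ff S e K 3 q.1 q.2|)
        have := abs_le.1 (le_refl |xx S e K 1 q.1 q.2 * xx S e K 2 q.1 q.2|)
        have := abs_le.1 (le_refl |xx S e K 1 q.1 q.2 ^ 2 * xx S e K 1 q.1 q.2|)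
        push_cast
        constructor <;> nlinarith
    rw [sum_add_distrib, sum_add_distrib, ← mul_sum, ← mul_sum] at h2
    refine h2.trans ?_
    have := hpos 4
    have : c ^ 2 * L ^ 5 ≤ c ^ 2 * (s * L ^ 4) := hLs 4
    norm_num at h1 h3 h4 ⊢
    linarith
  · have h1 := hM 4 (by norm_num) (by norm_num)
    have h3 := LemA2_cs P _ _ (by positivity) (by positivity) x1 x3
    have h4 := LemA2_cs P _ _ (by positivity) (by positivity) hQ x2
    have h2 : ∑ q ∈ P, |aa (del S q.1 q.2) (upd e K q.1 q.2) 4 - aa S K 4 -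
        ((4 : ℕ) : ℝ) * ff S e K 4 q.1 q.2| ≤
        ∑ q ∈ P, (4 * |-xx S e K 4 q.1 q.2 - ff S e K 4 q.1 q.2| +
          4 * (|xx S e K 1 q.1 q.2| * |xx S e K 3 q.1 q.2|) + 2 * xx S e K 2 q.1 q.2 ^ 2 +
          4 * (|xx S e K 1 q.1 q.2 ^ 2| * |xx S e K 2 q.1 q.2|) + (xx S e K 1 q.1 q.2 ^ 2) ^ 2) :=
      sum_le_sum fun q hq => by
        rw [(hid q hq).2.2.2, abs_le, ← abs_mul, ← abs_mul]
        have := abs_le.1 (le_refl |-xx S e K 4 q.1 q.2 - ff S e K 4 q.1 q.2|)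
        have := abs_le.1 (le_refl |xx S e K 1 q.1 q.2 * xx S e K 3 q.1 q.2|)
        have := abs_le.1 (le_refl |xx S e K 1 q.1 q.2 ^ 2 * xx S e K 2 q.1 q.2|)
        have := sq_nonneg (xx S e K 2 q.1 q.2)
        have := sq_nonneg (xx S e K 1 q.1 q.2 ^ 2)
        push_cast
        constructor <;> nlinarith
    rw [sum_add_distrib, sum_add_distrib, sum_add_distrib, sum_add_distrib, ← mul_sum, ← mul_sum,
      ← mul_sum, ← mul_sum] at h2
    refine h2.trans ?_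
    have := hpos 5
    have : c ^ 2 * L ^ 6 ≤ c ^ 2 * (s * L ^ 5) := hLs 5
    norm_num at h1 h3 h4 x2 ⊢
    linarith

theorem T4_step : ∃ C : ℝ, 0 < C ∧ ∀ {ι : Type} [Fintype ι] [DecidableEq ι] {p e : ℝ} {S : Finset ι} {K : Matrix ι ι ℝ}
      {s L lam r dd om ga : ℝ}, Good p S e K → Bd S K s L lam r dd om ga → BdA s L lam r dd →
      ∀ {w : ι → ι → ℝ} {eF eE er ε tp tm t3 ym : ℝ}, Wt S K w eF eE er → 0 ≤ ε →
      0 ≤ tp → 0 ≤ tm → 0 ≤ ym → Tr 1 K ≤ tp → -Tr 1 K ≤ tm → |Tr 3 K| ≤ t3 → -yy S K ≤ ym →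
      s ≤ eE → eE * L ≤ ε * s ^ 2 → tp * L ≤ ε * s ^ 2 → tm ≤ ε * s ^ 2 →
      tm * t3 ≤ ε * s ^ 2 * L ^ 4 → ym ≤ ε * s ^ 2 → s ^ 2 ≤ ε * L ^ 4 → t3 ^ 2 ≤ ε * s ^ 2 * L ^ 4 →
      tp ^ 2 ≤ ε * s ^ 2 * L ^ 4 → tm ^ 2 ≤ ε * s ^ 2 * L ^ 4 →
      ∑ a ∈ S, ∑ b ∈ S, w a b * (Tr 4 (upd e K a b) - Tr 4 K) ≤ C * ε * s ^ 2 * L ^ 4 := by
  obtain ⟨Cr, hCr, hr⟩ := rem_bound
  obtain ⟨C4, hC4, h4⟩ := ff4_avg
  refine ⟨48 + 4 * C4 + 2 * Cr, by positivity, ?_⟩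
  intro ι _ _ p e S K s L lam r dd om ga hg hb hA w eF eE er ε tp tm t3 ym hw hε htp htm hym
    h1p h1m h3 hy hsE hEL htpL htm' _ hym' hsε ht3 htp2 htm2
  have hr := hr hg hb hA 4 (by norm_num) le_rfl
  have h4 := (abs_le.1 (h4 hg hb hA hw)).2
  have hL : 0 < L := by linarith [hb.L_ge]
  have hs : 0 < s := by linarith [hb.s_ge]
  have hL4 : 0 < L ^ 4 := by positivity
  have hstep : ∑ a ∈ S, ∑ b ∈ S, w a b * (Tr 4 (upd e K a b) - Tr 4 K) ≤
      ∑ a ∈ S, ∑ b ∈ S, (4 * (w a b * ff S e K 4 a b) + 2 * (if Alw K a b then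
        |aa (del S a b) (upd e K a b) 4 - aa S K 4 - ((4 : ℕ) : ℝ) * ff S e K 4 a b| else 0)) := by
    refine sum_le_sum fun a ha => sum_le_sum fun b hb' => ?_
    by_cases h0 : w a b = 0
    · rw [h0]
      split_ifs
      · simp
      · simp
    · have hal := hw.supp a b h0
      rw [if_pos hal]
      have e1 : Tr 4 (upd e K a b) - Tr 4 K =
          aa (del S a b) (upd e K a b) 4 - aa S K 4 - 2 := by
        rw [aa, aa, if_pos (by decide), if_pos (by decide), card_del ha hb' hal.1]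
        ring
      rw [e1]
      have k1 := le_abs_self
        (aa (del S a b) (upd e K a b) 4 - aa S K 4 - ((4 : ℕ) : ℝ) * ff S e K 4 a b)
      have k2 := abs_nonneg
        (aa (del S a b) (upd e K a b) 4 - aa S K 4 - ((4 : ℕ) : ℝ) * ff S e K 4 a b)
      have k3 := mul_le_mul_of_nonneg_left k1 (hw.nonneg a b)
      have k4 := mul_le_mul_of_nonneg_right (hw.le a b) k2
      have k5 := hw.nonneg a b
      push_cast at k1 k2 k3 k4 ⊢
      nlinarith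
  simp only [sum_add_distrib, ← mul_sum] at hstep
  obtain ⟨r0, r1, r2, r3, r4⟩ := RR_trace hg
  simp only [sum_range_succ, range_zero, sum_empty, zero_add, Nat.sub_zero, Nat.sub_self,
    show 4 - 1 = 3 from rfl, show 4 - 2 = 2 from rfl, show 4 - 3 = 1 from rfl,
    r0, r1, r2, r3, r4] at h4
  set Z := ε * s ^ 2 * L ^ 4 with hZ
  have hT2 : 0 ≤ Tr 2 K := by
    rw [hg.Tr2_eq']
    exact sum_nonneg fun _ _ => sum_nonneg fun _ _ => sq_nonneg _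
  have hT4 : 0 ≤ Tr 4 K := by
    rw [hg.Tr_eq (by norm_num)]
    refine sum_nonneg fun c _ => ?_
    rw [show (4 : ℕ) = 2 * 2 from rfl, hg.pow_diag]
    exact sum_nonneg fun _ _ => sq_nonneg _
  have hT5 : Tr 5 K ≤ L * Tr 4 K := by
    rw [hg.Tr_eq (k := 5) (by norm_num), hg.Tr_eq (k := 4) (by norm_num), mul_sum]
    exact sum_le_sum fun c _ => (le_abs_self _).trans (hg.diag_odd hL.le hb.op 2 c)
  have hT5' : -Tr 4 K ≤ Tr 5 K := hg.Tr_odd_ge (j := 2) (by norm_num)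
  have b1 : Tr 1 K * Tr 5 K ≤ Z := by
    rcases le_total 0 (Tr 1 K) with h | h
    · calc Tr 1 K * Tr 5 K ≤ Tr 1 K * (L * L ^ 4) :=
            mul_le_mul_of_nonneg_left (hT5.trans (mul_le_mul_of_nonneg_left hb.T4 hL.le)) h
        _ ≤ tp * (L * L ^ 4) := mul_le_mul_of_nonneg_right h1p (by positivity)
        _ = tp * L * L ^ 4 := by ring
        _ ≤ Z := mul_le_mul_of_nonneg_right htpL hL4.le
    · calc Tr 1 K * Tr 5 K = -Tr 1 K * -Tr 5 K := by ring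
        _ ≤ -Tr 1 K * L ^ 4 := mul_le_mul_of_nonneg_left (by linarith [hb.T4]) (by linarith)
        _ ≤ ε * s ^ 2 * L ^ 4 := mul_le_mul_of_nonneg_right (h1m.trans htm') hL4.le
  have b2 : Tr 1 K ^ 2 ≤ Z := by
    rcases le_total 0 (Tr 1 K) with h | h
    · exact (pow_le_pow_left₀ h h1p 2).trans htp2
    · rw [← neg_sq]
      exact (pow_le_pow_left₀ (by linarith) h1m 2).trans htm2
  have b3 : Tr 3 K ^ 2 ≤ Z := by
    rw [← sq_abs]
    exact (pow_le_pow_left₀ (abs_nonneg _) h3 2).trans ht3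
  have hZ0 : 0 ≤ Z := by positivity
  have b4 : -yy S K * (Tr 4 K - Tr 2 K) ≤ 2 * Z := by
    rcases le_total 0 (yy S K) with h | h
    · have k1 : yy S K ≤ s ^ 2 := by rw [yy, hb.hs]; linarith
      calc -yy S K * (Tr 4 K - Tr 2 K) = yy S K * (Tr 2 K - Tr 4 K) := by ring
        _ ≤ yy S K * (2 * s ^ 2) := mul_le_mul_of_nonneg_left (by linarith [hb.T2]) h
        _ ≤ ε * L ^ 4 * (2 * s ^ 2) := mul_le_mul_of_nonneg_right (k1.trans hsε) (by positivity)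
        _ = 2 * Z := by rw [hZ]; ring
    · calc -yy S K * (Tr 4 K - Tr 2 K) ≤ -yy S K * L ^ 4 :=
            mul_le_mul_of_nonneg_left (by linarith [hb.T4]) (by linarith)
        _ ≤ ε * s ^ 2 * L ^ 4 := mul_le_mul_of_nonneg_right (hy.trans hym') hL4.le
        _ ≤ 2 * Z := by linarith
  have b5 : eE * L ^ 5 ≤ Z := by
    calc eE * L ^ 5 = eE * L * L ^ 4 := by ring
      _ ≤ Z := mul_le_mul_of_nonneg_right hEL hL4.le
  have b6 : s * L ^ 5 ≤ Z := (mul_le_mul_of_nonneg_right hsE (by positivity)).trans b5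
  have b7 := mul_le_mul_of_nonneg_left b5 hC4.le
  have b8 := mul_le_mul_of_nonneg_left b6 hCr.le
  have b9 := sq_nonneg (Tr 1 K + Tr 3 K)
  have e : (48 + 4 * C4 + 2 * Cr) * ε * s ^ 2 * L ^ 4 = 48 * Z + 4 * (C4 * Z) + 2 * (Cr * Z) := by
    rw [hZ]; ring
  rw [e]
  norm_num at hr hstep
  nlinarith

end Crest.Agent.R62
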