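import Crest.Agent.R62.Spec

/-! Exact increments of the moments `a_k`, `k = 1..4` (checked numerically). -/

set_option autoImplicit false
set_option linter.unusedSectionVars false
set_option linter.unusedSimpArgs false
open Classical
open scoped Matrix
open Finset

noncomputable section
namespace Crest.Agent.R62

variable {ι : Type} [Fintype ι] [DecidableEq ι] {p e : ℝ} {S : Finset ι} {K : Matrix ι ι ℝ}

/-! ### Traces of powers of a sum -/

theorem MomentA_cyc3 (A B C : Matrix ι ι ℝ) : (A * B * C).trace = (B * C * A).trace := by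
  rw [Matrix.mul_assoc A B C, Matrix.trace_mul_comm]

theorem MomentA_cyc4 (A B C D : Matrix ι ι ℝ) : (A * B * C * D).trace = (B * C * D * A).trace := by
  rw [Matrix.mul_assoc A B C, Matrix.mul_assoc A (B * C) D, Matrix.trace_mul_comm]

theorem MomentA_tr2 (A B : Matrix ι ι ℝ) :
    ((A + B) ^ 2).trace = (A ^ 2).trace + 2 * (A * B).trace + (B * B).trace := by
  have h : (A + B) ^ 2 = A ^ 2 + A * B + B * A + B * B := by noncomm_ring
  rw [h]
  simp only [Matrix.trace_add]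
  rw [Matrix.trace_mul_comm B A]
  ring

theorem MomentA_tr3 (A B : Matrix ι ι ℝ) :
    ((A + B) ^ 3).trace = (A ^ 3).trace + 3 * (A * A * B).trace + 3 * (A * B * B).trace
      + (B * B * B).trace := by
  have h : (A + B) ^ 3 = A ^ 3 + A * A * B + A * B * A + B * A * A + A * B * B + B * A * B
      + B * B * A + B * B * B := by noncomm_ring
  rw [h]
  simp only [Matrix.trace_add]
  have h1 := MomentA_cyc3 A A B
  have h2 := MomentA_cyc3 A B A
  have h3 := MomentA_cyc3 A B B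
  have h4 := MomentA_cyc3 B B A
  linarith

theorem MomentA_tr4 (A B : Matrix ι ι ℝ) :
    ((A + B) ^ 4).trace = (A ^ 4).trace + 4 * (A * A * A * B).trace + 4 * (A * A * B * B).trace
      + 2 * (A * B * A * B).trace + 4 * (A * B * B * B).trace + (B * B * B * B).trace := by
  have h : (A + B) ^ 4 = A ^ 4 + (A * A * A * B + A * A * B * A + A * B * A * A + B * A * A * A)
      + (A * A * B * B + A * B * B * A + B * B * A * A + B * A * A * B)
      + (A * B * A * B + B * A * B * A)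
      + (A * B * B * B + B * B * B * A + B * B * A * B + B * A * B * B) + B * B * B * B := by
    noncomm_ring
  rw [h]
  simp only [Matrix.trace_add]
  have h1 := MomentA_cyc4 A A A B
  have h2 := MomentA_cyc4 A A B A
  have h3 := MomentA_cyc4 A B A A
  have h4 := MomentA_cyc4 A A B B
  have h5 := MomentA_cyc4 A B B A
  have h6 := MomentA_cyc4 B B A A
  have h7 := MomentA_cyc4 A B A B
  have h8 := MomentA_cyc4 A B B B
  have h9 := MomentA_cyc4 B B B A
  have h10 := MomentA_cyc4 B B A B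
  linarith

theorem MomentA_move (M : Matrix ι ι ℝ) (G : Matrix ι (Fin 2) ℝ) (H : Matrix (Fin 2) ι ℝ) :
    (M * (G * H)).trace = (H * M * G).trace := by
  rw [← Matrix.mul_assoc, Matrix.trace_mul_comm, Matrix.mul_assoc]

/-- rank two perturbations -/
theorem MomentA_rank2 (A : Matrix ι ι ℝ) (G : Matrix ι (Fin 2) ℝ) (H : Matrix (Fin 2) ι ℝ)
    (m0 m1 m2 m3 : Matrix (Fin 2) (Fin 2) ℝ) (h0 : m0 = H * G) (h1 : m1 = H * A * G)
    (h2 : m2 = H * (A * A) * G) (h3 : m3 = H * (A * A * A) * G) :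
    ((A + G * H) ^ 1).trace - (A ^ 1).trace = m0.trace ∧
    ((A + G * H) ^ 2).trace - (A ^ 2).trace = 2 * m1.trace + (m0 * m0).trace ∧
    ((A + G * H) ^ 3).trace - (A ^ 3).trace =
      3 * m2.trace + 3 * (m1 * m0).trace + (m0 * m0 * m0).trace ∧
    ((A + G * H) ^ 4).trace - (A ^ 4).trace =
      4 * m3.trace + 4 * (m2 * m0).trace + 2 * (m1 * m1).trace + 4 * (m1 * m0 * m0).trace
        + (m0 * m0 * m0 * m0).trace := by
  subst h0 h1 h2 h3
  refine ⟨?_, ?_, ?_, ?_⟩
  · rw [pow_one, pow_one, Matrix.trace_add, Matrix.trace_mul_comm G H]; ring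
  · rw [MomentA_tr2, MomentA_move, MomentA_move]
    simp only [Matrix.mul_assoc]; ring
  · rw [MomentA_tr3, MomentA_move, MomentA_move, MomentA_move]
    simp only [Matrix.mul_assoc]; ring
  · rw [MomentA_tr4, MomentA_move, MomentA_move, MomentA_move, MomentA_move, MomentA_move]
    simp only [Matrix.mul_assoc]; ring

/-- Newton identities for `det (1 - s M(s))` with `2 × 2` matrices -/
theorem MomentA_newton (m0 m1 m2 m3 : Matrix (Fin 2) (Fin 2) ℝ) (x1 x2 x3 x4 : ℝ)
    (h1 : x1 = -m0.trace) (h2 : x2 = -m1.trace + m0.det - 1)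
    (h3 : x3 = -m2.trace + (m0.trace * m1.trace - (m1 * m0).trace) + m0.trace)
    (h4 : x4 = -m3.trace + (m0.trace * m2.trace - (m2 * m0).trace) + m1.det
      - (-m1.trace + m0.det)) :
    m0.trace = -x1 ∧
    2 * m1.trace + (m0 * m0).trace + 2 = 2 * (-x2 + x1 ^ 2 / 2) ∧
    3 * m2.trace + 3 * (m1 * m0).trace + (m0 * m0 * m0).trace =
      3 * (-x3 + x1 * x2 - x1 ^ 3 / 3) ∧
    4 * m3.trace + 4 * (m2 * m0).trace + 2 * (m1 * m1).trace + 4 * (m1 * m0 * m0).trace
        + (m0 * m0 * m0 * m0).trace + 2 =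
      4 * (-x4 + x1 * x3 + x2 ^ 2 / 2 - x1 ^ 2 * x2 + x1 ^ 4 / 4) := by
  subst h1 h2 h3 h4
  simp only [Matrix.trace_fin_two, Matrix.det_fin_two, Matrix.mul_apply, Fin.sum_univ_two]
  refine ⟨?_, ?_, ?_, ?_⟩ <;> ring

/-! ### The two columns `e_a`, `e_b` -/

/-- the matrix of the columns `e_a`, `e_b` -/
def MomentA_C (a b : ι) : Matrix ι (Fin 2) ℝ :=
  Matrix.of fun i j => if i = (![a, b] : Fin 2 → ι) j then 1 else 0

theorem MomentA_C_apply (a b i : ι) (j : Fin 2) :
    MomentA_C a b i j = if i = (![a, b] : Fin 2 → ι) j then 1 else 0 := rfl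

theorem MomentA_mul_C {κ : Type} (M : Matrix κ ι ℝ) (a b : ι) (i : κ) (j : Fin 2) :
    (M * MomentA_C a b) i j = M i ((![a, b] : Fin 2 → ι) j) := by
  simp [Matrix.mul_apply, MomentA_C_apply]

theorem MomentA_C_mul {κ : Type} (M : Matrix ι κ ℝ) (a b : ι) (i : κ) (j : Fin 2) :
    ((MomentA_C a b)ᵀ * M) j i = M ((![a, b] : Fin 2 → ι) j) i := by
  simp [Matrix.mul_apply, MomentA_C_apply]

theorem MomentA_blk_def (M : Matrix ι ι ℝ) (a b : ι) :
    blk M a b = !![M a a, M a b; M b a, M b b] := rfl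

theorem MomentA_blk (M : Matrix ι ι ℝ) (a b : ι) :
    (MomentA_C a b)ᵀ * M * MomentA_C a b = blk M a b := by
  ext i j
  rw [MomentA_mul_C, MomentA_C_mul, MomentA_blk_def]
  fin_cases i <;> fin_cases j <;> simp

theorem MomentA_sig_def : (sig : Matrix (Fin 2) (Fin 2) ℝ) = !![0, 1; 1, 0] := rfl

theorem MomentA_Xm_def (e : ℝ) (K : Matrix ι ι ℝ) (a b : ι) :
    Xm e K a b = (Dd e K a b)⁻¹ • !![K b b, e - K a b; e - K a b, K a a] := rfl

theorem MomentA_Dd_def (e : ℝ) (K : Matrix ι ι ℝ) (a b : ι) :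
    Dd e K a b = 1 - 2 * e * K a b - K a a * K b b + K a b ^ 2 := rfl

theorem MomentA_upd_apply (e : ℝ) (K : Matrix ι ι ℝ) (a b c f : ι) :
    upd e K a b c f = if c = a ∨ c = b ∨ f = a ∨ f = b then 0 else
    K c f + (K b b * (K c a * K a f) + K a a * (K c b * K b f)
      + (e - K a b) * (K c a * K b f + K c b * K a f)) / Dd e K a b := rfl

theorem MomentA_CC {a b : ι} (hab : a ≠ b) : (MomentA_C a b)ᵀ * MomentA_C a b = 1 := by
  ext i j
  rw [MomentA_C_mul, MomentA_C_apply]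
  fin_cases i <;> fin_cases j <;> simp [hab, hab.symm]

theorem MomentA_P {a b : ι} (hab : a ≠ b) :
    (1 - MomentA_C a b * (MomentA_C a b)ᵀ : Matrix ι ι ℝ) =
      Matrix.diagonal fun i => if i = a ∨ i = b then 0 else 1 := by
  ext i j
  simp only [Matrix.sub_apply, Matrix.mul_apply, Fin.sum_univ_two, Matrix.transpose_apply,
    MomentA_C_apply, Matrix.one_apply, Matrix.diagonal_apply, Matrix.cons_val_zero,
    Matrix.cons_val_one]
  by_cases hij : i = j
  · subst hij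
    by_cases h1 : i = a
    · subst h1; simp [hab]
    · by_cases h2 : i = b
      · subst h2; simp [hab.symm]
      · simp [h1, h2]
  · by_cases h1 : i = a
    · subst h1
      have : ¬ j = i := fun h => hij h.symm
      simp [hab, hij, this]
    · by_cases h2 : i = b
      · subst h2
        have : ¬ j = i := fun h => hij h.symm
        simp [hab.symm, hij, this]
      · simp [h1, h2, hij]

theorem MomentA_one_add (he : e ^ 2 = 1) {a b : ι} (hs : K b a = K a b) (hD : Dd e K a b ≠ 0) :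
    1 + blk K a b * Xm e K a b = e • (sig * Xm e K a b) := by
  ext i j
  rw [MomentA_blk_def, MomentA_Xm_def, MomentA_sig_def, hs]
  have hD' := MomentA_Dd_def e K a b
  fin_cases i <;> fin_cases j <;>
    simp [Matrix.mul_apply, Fin.sum_univ_two, Matrix.one_apply] <;> field_simp <;>
    first
      | ring1
      | (rw [hD']; linear_combination (-1 : ℝ) * he)

theorem MomentA_upd_eq {a b : ι} (hab : a ≠ b) :
    upd e K a b = (1 - MomentA_C a b * (MomentA_C a b)ᵀ) *
      (K + K * MomentA_C a b * Xm e K a b * ((MomentA_C a b)ᵀ * K)) *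
      (1 - MomentA_C a b * (MomentA_C a b)ᵀ) := by
  rw [MomentA_P hab]
  ext c f
  rw [Matrix.mul_diagonal, Matrix.diagonal_mul, MomentA_upd_apply]
  by_cases hc : c = a ∨ c = b
  · rw [if_pos hc, if_pos (by tauto)]; ring
  · by_cases hf : f = a ∨ f = b
    · rw [if_pos hf, if_pos (by tauto)]; ring
    · rw [if_neg hc, if_neg hf, if_neg (by tauto), Matrix.add_apply, Matrix.mul_apply,
        Fin.sum_univ_two, MomentA_C_mul, MomentA_C_mul,
        Matrix.mul_apply (M := K * MomentA_C a b), Matrix.mul_apply (M := K * MomentA_C a b),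
        Fin.sum_univ_two, Fin.sum_univ_two, MomentA_mul_C, MomentA_mul_C, MomentA_Xm_def]
      simp
      ring

theorem MomentA_trace_proj (P U : Matrix ι ι ℝ) (hP : P * P = P) (k : ℕ) :
    ((P * U * P) ^ (k + 1)).trace = ((P * U) ^ (k + 1)).trace := by
  have h1 : ∀ k : ℕ, (P * U * P) ^ (k + 1) = (P * U) ^ (k + 1) * P := by
    intro k
    induction k with
    | zero => simp
    | succ k ih =>
      rw [pow_succ, ih, pow_succ (P * U) (k + 1)]
      simp only [Matrix.mul_assoc]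
      rw [← Matrix.mul_assoc P P, hP]
  rw [h1, Matrix.trace_mul_comm, pow_succ', ← Matrix.mul_assoc, ← Matrix.mul_assoc P P, hP]

theorem MomentA_Tr_upd (he : e ^ 2 = 1) {a b : ι} (hab : a ≠ b) (hs : K b a = K a b)
    (hD : Dd e K a b ≠ 0) (k : ℕ) :
    Tr (k + 1) (upd e K a b) =
      ((K + ((K * MomentA_C a b - e • (MomentA_C a b * (sig : Matrix (Fin 2) (Fin 2) ℝ))) * Xm e K a b) *
        ((MomentA_C a b)ᵀ * K)) ^ (k + 1)).trace := by
  have hCC := MomentA_CC hab
  have hone := MomentA_one_add he hs hD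
  have hblk := MomentA_blk K a b
  set C := MomentA_C a b with hC
  set X := Xm e K a b with hX
  have hP : (1 - C * Cᵀ) * (1 - C * Cᵀ) = (1 - C * Cᵀ : Matrix ι ι ℝ) := by
    have : C * Cᵀ * (C * Cᵀ) = C * Cᵀ := by
      rw [Matrix.mul_assoc, ← Matrix.mul_assoc Cᵀ, hCC, Matrix.one_mul]
    rw [Matrix.sub_mul, Matrix.mul_sub, Matrix.mul_sub, this]
    simp
  have hPU : (1 - C * Cᵀ) * (K + K * C * X * (Cᵀ * K)) =
      K + ((K * C - e • (C * (sig : Matrix (Fin 2) (Fin 2) ℝ))) * X) * (Cᵀ * K) := by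
    have h1 : Cᵀ * (K + K * C * X * (Cᵀ * K)) = (1 + blk K a b * X) * (Cᵀ * K) := by
      rw [← hblk, Matrix.mul_add, Matrix.add_mul, Matrix.one_mul]
      simp only [Matrix.mul_assoc]
    rw [Matrix.sub_mul, Matrix.one_mul, Matrix.mul_assoc C Cᵀ, h1, hone, Matrix.sub_mul,
      Matrix.sub_mul]
    simp only [Matrix.smul_mul, Matrix.mul_smul, Matrix.mul_assoc]
    abel
  show ((upd e K a b) ^ (k + 1)).trace = _
  rw [MomentA_upd_eq hab, MomentA_trace_proj _ _ hP, hPU]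

theorem MomentA_m (e : ℝ) (K M : Matrix ι ι ℝ) (a b : ι) (X : Matrix (Fin 2) (Fin 2) ℝ) :
    (MomentA_C a b)ᵀ * K * M * ((K * MomentA_C a b - e • (MomentA_C a b * (sig : Matrix (Fin 2) (Fin 2) ℝ))) * X) =
      (blk (K * M * K) a b - e • (blk (K * M) a b * sig)) * X := by
  rw [← MomentA_blk, ← MomentA_blk]
  simp only [Matrix.sub_mul, Matrix.mul_sub, Matrix.smul_mul, Matrix.mul_smul, Matrix.mul_assoc]

theorem MomentA_RR0 (S : Finset ι) (K : Matrix ι ι ℝ) : RR S K 0 = K := rfl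
theorem MomentA_RR1 (S : Finset ι) (K : Matrix ι ι ℝ) : RR S K 1 = K * K - idS S := rfl
theorem MomentA_RR2 (S : Finset ι) (K : Matrix ι ι ℝ) (k : ℕ) :
    RR S K (k + 2) = K ^ (k + 3) - K ^ (k + 1) := rfl

theorem MomentA_idS (S : Finset ι) (a b : ι) :
    (idS S : Matrix ι ι ℝ) a b = if a = b then (if a ∈ S then 1 else 0) else 0 := rfl

theorem MomentA_xx (S : Finset ι) (e : ℝ) (K : Matrix ι ι ℝ) (k : ℕ) (a b : ι) :
    xx S e K k a b = (∑ i ∈ range (k + 1), RR S K i a b * RR S K (k - i) a b -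
      (2 * e * RR S K k a b + ∑ i ∈ range (k + 1), RR S K i a a * RR S K (k - i) b b)) /
        Dd e K a b := rfl

theorem MomentA_aa (S : Finset ι) (K : Matrix ι ι ℝ) (k : ℕ) :
    aa S K k = Tr k K - if Even k then (S.card : ℝ) else 0 := rfl

/-- the scalar identities -/
theorem MomentA_scalar (e a1 a2 a3 a4 a5 b1 b2 b3 b4 b5 c1 c2 c3 c4 c5 D : ℝ) (he : e = 1 ∨ e = -1)
    (hD' : D = 1 - 2 * e * c1 - a1 * b1 + c1 ^ 2) (hD : D ≠ 0)
    (X m0 m1 m2 m3 : Matrix (Fin 2) (Fin 2) ℝ) (hX : X = D⁻¹ • !![b1, e - c1; e - c1, a1])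
    (h0 : m0 = (!![a2, c2; c2, b2] - e • (!![a1, c1; c1, b1] * !![0, 1; 1, 0])) * X)
    (h1 : m1 = (!![a3, c3; c3, b3] - e • (!![a2, c2; c2, b2] * !![0, 1; 1, 0])) * X)
    (h2 : m2 = (!![a4, c4; c4, b4] - e • (!![a3, c3; c3, b3] * !![0, 1; 1, 0])) * X)
    (h3 : m3 = (!![a5, c5; c5, b5] - e • (!![a4, c4; c4, b4] * !![0, 1; 1, 0])) * X) :
    (c1 * c2 + c2 * c1 - (2 * e * c2 + (a1 * (b2 - 1) + (a2 - 1) * b1))) / D = -m0.trace ∧
    (c1 * (c3 - c1) + c2 * c2 + (c3 - c1) * c1 - (2 * e * (c3 - c1) +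
      (a1 * (b3 - b1) + (a2 - 1) * (b2 - 1) + (a3 - a1) * b1))) / D = -m1.trace + m0.det - 1 ∧
    (c1 * (c4 - c2) + c2 * (c3 - c1) + (c3 - c1) * c2 + (c4 - c2) * c1 - (2 * e * (c4 - c2) +
      (a1 * (b4 - b2) + (a2 - 1) * (b3 - b1) + (a3 - a1) * (b2 - 1) + (a4 - a2) * b1))) / D =
      -m2.trace + (m0.trace * m1.trace - (m1 * m0).trace) + m0.trace ∧
    (c1 * (c5 - c3) + c2 * (c4 - c2) + (c3 - c1) * (c3 - c1) + (c4 - c2) * c2 + (c5 - c3) * c1
      - (2 * e * (c5 - c3) +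
      (a1 * (b5 - b3) + (a2 - 1) * (b4 - b2) + (a3 - a1) * (b3 - b1) + (a4 - a2) * (b2 - 1)
        + (a5 - a3) * b1))) / D =
      -m3.trace + (m0.trace * m2.trace - (m2 * m0).trace) + m1.det - (-m1.trace + m0.det) := by
  subst h0 h1 h2 h3 hX
  simp only [Matrix.trace_fin_two, Matrix.det_fin_two, Matrix.mul_apply, Fin.sum_univ_two,
    Matrix.sub_apply, Matrix.smul_apply, Matrix.of_apply, Matrix.cons_val', Matrix.cons_val_zero,
    Matrix.cons_val_one, Matrix.cons_val_fin_one, smul_eq_mul]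
  refine ⟨?_, ?_, ?_, ?_⟩ <;> field_simp <;> rcases he with rfl | rfl <;> subst hD' <;> ring

theorem moment_id (h : Good p S e K) {a b : ι} (ha : a ∈ S) (hb : b ∈ S) (hab : a ≠ b)
    (hD : Dd e K a b ≠ 0) :
    aa (del S a b) (upd e K a b) 1 - aa S K 1 = -xx S e K 1 a b ∧
    aa (del S a b) (upd e K a b) 2 - aa S K 2 = 2 * (-xx S e K 2 a b + xx S e K 1 a b ^ 2 / 2) ∧
    aa (del S a b) (upd e K a b) 3 - aa S K 3 =
      3 * (-xx S e K 3 a b + xx S e K 1 a b * xx S e K 2 a b - xx S e K 1 a b ^ 3 / 3) ∧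
    aa (del S a b) (upd e K a b) 4 - aa S K 4 =
      4 * (-xx S e K 4 a b + xx S e K 1 a b * xx S e K 3 a b + xx S e K 2 a b ^ 2 / 2
        - xx S e K 1 a b ^ 2 * xx S e K 2 a b + xx S e K 1 a b ^ 4 / 4) := by
  have he : e ^ 2 = 1 := by rcases h.sign with h1 | h1 <;> rw [h1] <;> norm_num
  have hcard : ((del S a b).card : ℝ) = S.card - 2 := by
    have h1 : b ∈ S.erase a := Finset.mem_erase.2 ⟨hab.symm, hb⟩
    have h2 := Finset.card_erase_add_one h1
    have h3 := Finset.card_erase_add_one ha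
    have h4 : (del S a b).card + 2 = S.card := by
      show ((S.erase a).erase b).card + 2 = S.card
      omega
    rw [← h4]; push_cast; ring
  have hblk : ∀ k : ℕ, blk (K ^ k) a b =
      !![(K ^ k) a a, (K ^ k) a b; (K ^ k) a b, (K ^ k) b b] := by
    intro k; rw [MomentA_blk_def, h.pow_symm k b a]
  obtain ⟨t1, t2, t3, t4⟩ := MomentA_rank2 K
    ((K * MomentA_C a b - e • (MomentA_C a b * (sig : Matrix (Fin 2) (Fin 2) ℝ))) * Xm e K a b) ((MomentA_C a b)ᵀ * K)
    ((blk (K ^ 2) a b - e • (blk (K ^ 1) a b * sig)) * Xm e K a b)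
    ((blk (K ^ 3) a b - e • (blk (K ^ 2) a b * sig)) * Xm e K a b)
    ((blk (K ^ 4) a b - e • (blk (K ^ 3) a b * sig)) * Xm e K a b)
    ((blk (K ^ 5) a b - e • (blk (K ^ 4) a b * sig)) * Xm e K a b)
    (by
      have := MomentA_m e K 1 a b (Xm e K a b)
      rw [Matrix.mul_one, Matrix.mul_one] at this
      rw [this, pow_two, pow_one])
    (by rw [MomentA_m]; simp only [pow_succ, pow_zero, Matrix.one_mul])
    (by rw [MomentA_m]; simp only [pow_succ, pow_zero, Matrix.one_mul, Matrix.mul_assoc])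
    (by rw [MomentA_m]; simp only [pow_succ, pow_zero, Matrix.one_mul, Matrix.mul_assoc])
  rw [← MomentA_Tr_upd he hab (h.symm b a) hD 0] at t1
  rw [← MomentA_Tr_upd he hab (h.symm b a) hD 1] at t2
  rw [← MomentA_Tr_upd he hab (h.symm b a) hD 2] at t3
  rw [← MomentA_Tr_upd he hab (h.symm b a) hD 3] at t4
  obtain ⟨s1, s2, s3, s4⟩ := MomentA_scalar e (K a a) ((K ^ 2) a a) ((K ^ 3) a a) ((K ^ 4) a a)
    ((K ^ 5) a a) (K b b) ((K ^ 2) b b) ((K ^ 3) b b) ((K ^ 4) b b) ((K ^ 5) b b)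
    (K a b) ((K ^ 2) a b) ((K ^ 3) a b) ((K ^ 4) a b) ((K ^ 5) a b) (Dd e K a b) h.sign
    (MomentA_Dd_def e K a b) hD (Xm e K a b)
    ((blk (K ^ 2) a b - e • (blk (K ^ 1) a b * sig)) * Xm e K a b)
    ((blk (K ^ 3) a b - e • (blk (K ^ 2) a b * sig)) * Xm e K a b)
    ((blk (K ^ 4) a b - e • (blk (K ^ 3) a b * sig)) * Xm e K a b)
    ((blk (K ^ 5) a b - e • (blk (K ^ 4) a b * sig)) * Xm e K a b)
    (MomentA_Xm_def e K a b)
    (by rw [hblk, hblk, pow_one, MomentA_sig_def])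
    (by rw [hblk, hblk, MomentA_sig_def])
    (by rw [hblk, hblk, MomentA_sig_def])
    (by rw [hblk, hblk, MomentA_sig_def])
  have r1aa : RR S K 1 a a = (K ^ 2) a a - 1 := by
    rw [MomentA_RR1, Matrix.sub_apply, MomentA_idS, pow_two]; simp [ha]
  have r1bb : RR S K 1 b b = (K ^ 2) b b - 1 := by
    rw [MomentA_RR1, Matrix.sub_apply, MomentA_idS, pow_two]; simp [hb]
  have r1ab : RR S K 1 a b = (K ^ 2) a b := by
    rw [MomentA_RR1, Matrix.sub_apply, MomentA_idS, pow_two]; simp [hab]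
  have r2 : ∀ c f, RR S K 2 c f = (K ^ 3) c f - K c f := by
    intro c f; rw [MomentA_RR2 S K 0, Matrix.sub_apply, pow_one]
  have r3 : ∀ c f, RR S K 3 c f = (K ^ 4) c f - (K ^ 2) c f := by
    intro c f; rw [MomentA_RR2 S K 1, Matrix.sub_apply]
  have r4 : ∀ c f, RR S K 4 c f = (K ^ 5) c f - (K ^ 3) c f := by
    intro c f; rw [MomentA_RR2 S K 2, Matrix.sub_apply]
  obtain ⟨n1, n2, n3, n4⟩ := MomentA_newton
    ((blk (K ^ 2) a b - e • (blk (K ^ 1) a b * sig)) * Xm e K a b)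
    ((blk (K ^ 3) a b - e • (blk (K ^ 2) a b * sig)) * Xm e K a b)
    ((blk (K ^ 4) a b - e • (blk (K ^ 3) a b * sig)) * Xm e K a b)
    ((blk (K ^ 5) a b - e • (blk (K ^ 4) a b * sig)) * Xm e K a b)
    (xx S e K 1 a b) (xx S e K 2 a b) (xx S e K 3 a b) (xx S e K 4 a b)
    (by
      rw [← s1, MomentA_xx]
      simp only [Finset.sum_range_succ, Finset.sum_range_zero, zero_add, Nat.sub_zero,
        Nat.sub_self, MomentA_RR0, r1aa, r1bb, r1ab])
    (by
      rw [← s2, MomentA_xx]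
      simp only [Finset.sum_range_succ, Finset.sum_range_zero, zero_add, Nat.sub_zero,
        Nat.sub_self, Nat.reduceSub, MomentA_RR0, r1aa, r1bb, r1ab, r2])
    (by
      rw [← s3, MomentA_xx]
      simp only [Finset.sum_range_succ, Finset.sum_range_zero, zero_add, Nat.sub_zero,
        Nat.sub_self, Nat.reduceSub, MomentA_RR0, r1aa, r1bb, r1ab, r2, r3])
    (by
      rw [← s4, MomentA_xx]
      simp only [Finset.sum_range_succ, Finset.sum_range_zero, zero_add, Nat.sub_zero,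
        Nat.sub_self, Nat.reduceSub, MomentA_RR0, r1aa, r1bb, r1ab, r2, r3, r4])
  have e1 : ¬ Even 1 := by decide
  have e2 : Even 2 := by decide
  have e3 : ¬ Even 3 := by decide
  have e4 : Even 4 := by decide
  have T1 : Tr 1 K = (K ^ 1).trace := rfl
  have T2 : Tr 2 K = (K ^ 2).trace := rfl
  have T3 : Tr 3 K = (K ^ 3).trace := rfl
  have T4 : Tr 4 K = (K ^ 4).trace := rfl
  simp only [MomentA_aa, if_pos e2, if_pos e4, if_neg e1, if_neg e3, hcard, T1, T2, T3, T4]
  simp only [zero_add, Nat.reduceAdd] at t1 t2 t3 t4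
  refine ⟨?_, ?_, ?_, ?_⟩ <;> linarith

theorem MomentA_RR_supp (h : Good p S e K) (i : ℕ) {a : ι} (ha : a ∉ S) : RR S K i a a = 0 := by
  match i with
  | 0 => exact h.supp a a ha
  | 1 =>
    rw [MomentA_RR1, Matrix.sub_apply, MomentA_idS, ← pow_two, h.pow_supp (by norm_num) ha]
    simp [ha]
  | (k + 2) =>
    rw [MomentA_RR2, Matrix.sub_apply, h.pow_supp (by omega) ha, h.pow_supp (by omega) ha]
    simp

theorem MomentA_RR_tr (h : Good p S e K) (i : ℕ) : (RR S K i).trace = ∑ a ∈ S, RR S K i a a := by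
  rw [Matrix.trace]
  simp only [Matrix.diag_apply]
  exact (Finset.sum_subset (Finset.subset_univ S) fun a _ ha => MomentA_RR_supp h i ha).symm

theorem MomentA_RR_row (h : Good p S e K) {k : ℕ} (hk : 1 ≤ k) {a : ι} (ha : a ∈ S) :
    ∑ b ∈ S, RR S K k a b = 0 := by
  have he : e ^ 2 = 1 := by rcases h.sign with h1 | h1 <;> rw [h1] <;> norm_num
  match k, hk with
  | 1, _ =>
    simp only [MomentA_RR1, Matrix.sub_apply, MomentA_idS, Finset.sum_sub_distrib]
    rw [← pow_two, h.pow_row (by norm_num) ha, he]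
    simp [ha]
  | (k + 2), _ =>
    simp only [MomentA_RR2, Matrix.sub_apply, Finset.sum_sub_distrib]
    rw [h.pow_row (by omega) ha, h.pow_row (by omega) ha, show k + 3 = k + 1 + 2 from rfl,
      pow_add e (k + 1) 2, he]
    ring

/-- the sum of `ff` over all ordered pairs (the `R_k`, `k ≥ 1`, have zero row sums) -/
theorem ff_sum (h : Good p S e K) {k : ℕ} (hk : 1 ≤ k) :
    ∑ a ∈ S, ∑ b ∈ S, ff S e K k a b =
      ∑ i ∈ range (k + 1), (RR S K i).trace * (RR S K (k - i)).trace := by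
  have hff : ∀ a b, ff S e K k a b =
      2 * e * RR S K k a b + ∑ i ∈ range (k + 1), RR S K i a a * RR S K (k - i) b b :=
    fun _ _ => rfl
  simp only [hff, Finset.sum_add_distrib]
  have h1 : ∑ a ∈ S, ∑ b ∈ S, 2 * e * RR S K k a b = 0 := by
    refine Finset.sum_eq_zero fun a ha => ?_
    rw [← Finset.mul_sum, MomentA_RR_row h hk ha, mul_zero]
  rw [h1, zero_add]
  simp only [MomentA_RR_tr h, Finset.sum_mul_sum]
  symm
  rw [Finset.sum_comm]
  refine Finset.sum_congr rfl fun a _ => ?_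
  rw [Finset.sum_comm]

theorem RR_trace (h : Good p S e K) :
    (RR S K 0).trace = Tr 1 K ∧ (RR S K 1).trace = -yy S K ∧ (RR S K 2).trace = Tr 3 K - Tr 1 K ∧
    (RR S K 3).trace = Tr 4 K - Tr 2 K ∧ (RR S K 4).trace = Tr 5 K - Tr 3 K := by
  have _ := h.sign
  refine ⟨?_, ?_, ?_, ?_, ?_⟩
  · show K.trace = (K ^ 1).trace
    rw [pow_one]
  · show (K * K - idS S).trace = -((S.card : ℝ) - (K ^ 2).trace)
    have : (idS S : Matrix ι ι ℝ).trace = S.card := by
      rw [Matrix.trace]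
      simp [MomentA_idS]
    rw [Matrix.trace_sub, this, pow_two]; ring
  · rw [MomentA_RR2 S K 0, Matrix.trace_sub]; rfl
  · rw [MomentA_RR2 S K 1, Matrix.trace_sub]; rfl
  · rw [MomentA_RR2 S K 2, Matrix.trace_sub]; rfl

end Crest.Agent.R62
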