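import Crest.Agent.R62.Spec

/-! The positivity invariant is preserved by gluing (when `D > 0`) and by rounding. -/

set_option autoImplicit false
open Classical
open scoped Matrix
open Finset

noncomputable section
namespace Crest.Agent.R62

variable {V ι : Type} [Fintype V] [Fintype ι] [DecidableEq ι] {e : ℝ} {S : Finset ι}
  {K : Matrix ι ι ℝ} {d : ℕ} {vx : ι → V} {G : SimpleGraph V}

theorem pp_facts (hd : 3 ≤ d) : 0 < pp d ∧ pp d ^ 2 ≤ 1 / 2 ∧ pp d ^ 2 * ((d : ℝ) - 1) = 1 ∧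
    pp d * √((d : ℝ) - 1) = 1 := by
  have h3 : (3 : ℝ) ≤ d := by exact_mod_cast hd
  have h1 : 0 < √((d : ℝ) - 1) := Real.sqrt_pos.2 (by linarith)
  have h2 : pp d ^ 2 = 1 / ((d : ℝ) - 1) := by
    rw [pp, div_pow, Real.sq_sqrt (by linarith), one_pow]
  refine ⟨by rw [pp]; positivity, ?_, ?_, ?_⟩
  · rw [h2]; exact one_div_le_one_div_of_le (by norm_num) (by linarith)
  · rw [h2, one_div_mul_cancel (by linarith)]
  · rw [pp, one_div_mul_cancel h1.ne']

theorem PDInv.psd0 (hd : 3 ≤ d) (h : PDInv d e vx G S K) (z : ι → ℝ) (hz : ∀ a, a ∉ S → z a = 0)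
    (hz0 : ∑ a, z a = 0) : 0 ≤ z ⬝ᵥ (K *ᵥ z) + pp d * (z ⬝ᵥ z) := by
  have h1 := (h 0 (by simp) z hz hz0).1
  have h2 : yv vx S (0 : V → ℝ) = 0 := by funext a; simp [yv]
  have h3 : 0 < 1 - pp d ^ 2 := by have := (pp_facts hd).2.1; linarith
  simp only [Fq, Bq, aq, h2, Pi.zero_apply, mul_zero, ite_self, sum_const_zero, dotProduct_zero,
    sub_zero, ne_eq, OfNat.ofNat_ne_zero, not_false_eq_true, zero_pow, zero_div, zero_add] at h1
  exact (div_nonneg_iff.1 h1).elim (fun h => h.1) fun h => absurd h.2 (not_le.2 h3)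

theorem aq_sup_edge (u v : V) (huv : u ≠ v) (hn : ¬ G.Adj u v) (x : V → ℝ) :
    aq (G ⊔ SimpleGraph.edge u v) x = aq G x + 2 * x u * x v := by
  have key : ∀ s t, (if (G ⊔ SimpleGraph.edge u v).Adj s t then x s * x t else 0) =
      (if G.Adj s t then x s * x t else 0) + (if t = v then if s = u then x u * x v else 0 else 0) +
        (if t = u then if s = v then x u * x v else 0 else 0) := by
    intro s t
    simp only [SimpleGraph.sup_adj, SimpleGraph.edge_adj]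
    by_cases h1 : s = u ∧ t = v
    · obtain ⟨rfl, rfl⟩ := h1
      simp [hn, huv, huv.symm]
    by_cases h2 : s = v ∧ t = u
    · obtain ⟨rfl, rfl⟩ := h2
      have : ¬ G.Adj s t := fun h => hn h.symm
      simp [this, huv, huv.symm, mul_comm]
    have e1 : (if t = v then if s = u then x u * x v else 0 else 0) = 0 := by
      split_ifs with a b
      exacts [absurd ⟨b, a⟩ h1, rfl, rfl]
    have e2 : (if t = u then if s = v then x u * x v else 0 else 0) = 0 := by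
      split_ifs with a b
      exacts [absurd ⟨b, a⟩ h2, rfl, rfl]
    simp [h1, h2, e1, e2]
  have k2 : aq (G ⊔ SimpleGraph.edge u v) x = ∑ s, ∑ t, ((if G.Adj s t then x s * x t else 0) +
      (if t = v then if s = u then x u * x v else 0 else 0) +
        (if t = u then if s = v then x u * x v else 0 else 0)) :=
    sum_congr rfl fun s _ => sum_congr rfl fun t _ => by convert key s t
  rw [k2]
  simp only [aq, sum_add_distrib, sum_ite_eq', mem_univ, if_true]
  ring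

theorem PD_quad {A B C : ℝ} (h : A * C < B ^ 2) (s : ℝ) :
    ∃ t, A * s ^ 2 + 2 * B * s * t + C * t ^ 2 = 0 := by
  by_cases hC : C = 0
  · subst hC
    have hB : B ≠ 0 := by rintro rfl; simp at h
    exact ⟨-A * s / (2 * B), by field_simp; ring⟩
  · obtain ⟨t, ht⟩ := exists_quadratic_eq_zero (b := 2 * B * s) (c := A * s ^ 2) hC
      ⟨2 * s * √(B ^ 2 - A * C), by
        have := Real.mul_self_sqrt (sub_nonneg.2 h.le)
        rw [discrim]
        linear_combination (-4 * s ^ 2) * this⟩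
    exact ⟨t, by linarith⟩

/-- the `2 × 2` core -/
theorem PD_core {e P Q R D : ℝ} (he : e = 1 ∨ e = -1) (hD : D = 1 - 2 * e * R - P * Q + R ^ 2)
    (h0 : 0 < D) (ka kb c : ℝ) : ∃ α β, α + e * β = c ∧
      (Q * ka ^ 2 + P * kb ^ 2 + 2 * (e - R) * ka * kb) / D =
        2 * (α * ka + β * kb) + (P * α ^ 2 + 2 * R * α * β + Q * β ^ 2) - 2 * e * α * β := by
  have he2 : e ^ 2 = 1 := by rcases he with rfl | rfl <;> norm_num
  obtain ⟨ha, hha⟩ : ∃ ha, ha = (Q * ka + (e - R) * kb) / D := ⟨_, rfl⟩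
  obtain ⟨hb, hhb⟩ : ∃ hb, hb = ((e - R) * ka + P * kb) / D := ⟨_, rfl⟩
  have e1 : ka = -P * ha + (e - R) * hb := by
    rw [hha, hhb]; field_simp; rw [hD]; linear_combination (-ka) * he2
  have e2 : kb = (e - R) * ha - Q * hb := by
    rw [hha, hhb]; field_simp; rw [hD]; linear_combination (-kb) * he2
  have e3 : (Q * ka ^ 2 + P * kb ^ 2 + 2 * (e - R) * ka * kb) / D = ha * ka + hb * kb := by
    rw [hha, hhb]; field_simp; ring
  obtain ⟨t, ht⟩ := PD_quad (A := -P - Q + 2 * e * (e - R)) (B := -P + Q)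
    (C := -P - Q - 2 * e * (e - R)) (by
      have : (-P + Q) ^ 2 - (-P - Q + 2 * e * (e - R)) * (-P - Q - 2 * e * (e - R)) = 4 * D := by
        rw [hD]; linear_combination (4 * (e - R) ^ 2 + 4) * he2
      linarith) ((c - ha - e * hb) / 2)
  obtain ⟨σ, hσ⟩ : ∃ σ, σ = (c - ha - e * hb) / 2 := ⟨_, rfl⟩
  rw [← hσ] at ht
  refine ⟨ha + (σ + t), hb + e * (σ - t), by linear_combination (σ - t) * he2 + 2 * hσ, ?_⟩
  rw [e3, e1, e2]
  linear_combination ht - (Q * (σ - t) ^ 2) * he2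

/-- the scalar inequality -/
theorem PD_scalar {e p N : ℝ} (he : e = 1 ∨ e = -1) (hp0 : 0 ≤ p) (hp : p ^ 2 ≤ 1 / 2) (hN : 3 ≤ N)
    (ya yb T : ℝ) : ∃ c, ∀ α β, α + e * β = c →
      (2 * e * α * β - e * (α + β) ^ 2 / N + p * (α ^ 2 + β ^ 2 - (α + β) ^ 2 / N)) / (1 - p ^ 2) ≤
        -(2 * e * ya * yb) - e * ((T - ya - yb) ^ 2 / (N - 2) - T ^ 2 / N) +
          p * (ya ^ 2 + yb ^ 2 - T ^ 2 / N + (T - ya - yb) ^ 2 / (N - 2)) +
          2 * (α * ya + β * yb - (α + β) / N * T) := by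
  have hp1 : p < 1 := by nlinarith
  have h1 : 0 < 1 - p ^ 2 := by linarith
  have hN0 : 0 < N := by linarith
  have hN2 : 0 < N - 2 := by linarith
  obtain ⟨ω, hω⟩ : ∃ ω, ω = (N - 2) / N := ⟨_, rfl⟩
  have hω0 : 0 < ω := by rw [hω]; positivity
  obtain ⟨W, hW⟩ : ∃ W, W = (ya + yb - 2 * T / N) / ω := ⟨_, rfl⟩
  have i1 : (T - ya - yb) ^ 2 / (N - 2) - T ^ 2 / N = ω * W ^ 2 / 2 - (ya + yb) ^ 2 / 2 := by
    rw [hW, hω]; field_simp; ring
  have i2 : ∀ α β : ℝ, α * ya + β * yb - (α + β) / N * T =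
      (α - β) / 2 * (ya - yb) + (α + β) / 2 * (ω * W) := by
    intro α β; rw [hW]; field_simp; ring
  have i3 : ∀ γ : ℝ, γ ^ 2 / N = γ ^ 2 * (1 - ω) / 2 := by
    intro γ; rw [hω]; field_simp; ring
  have i4 : ya ^ 2 + yb ^ 2 - T ^ 2 / N + (T - ya - yb) ^ 2 / (N - 2) =
      ω * W ^ 2 / 2 + (ya - yb) ^ 2 / 2 := by linear_combination i1
  rcases he with rfl | rfl
  · refine ⟨(1 - p) * W, fun α β h => ?_⟩
    rw [i1, i2, i4, mul_div_assoc, i3, div_le_iff₀ h1]
    obtain rfl : α = (1 - p) * W - β := by linarith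
    nlinarith [mul_nonneg (sub_nonneg.2 hp1.le)
      (sq_nonneg ((1 + p) * (ya - yb) + ((1 - p) * W - β - β)))]
  · refine ⟨(1 - p) * (ya - yb), fun α β h => ?_⟩
    rw [i1, i2, i4, mul_div_assoc, i3, div_le_iff₀ h1]
    obtain rfl : α = (1 - p) * (ya - yb) + β := by linarith
    nlinarith [mul_nonneg hω0.le (mul_nonneg (sub_nonneg.2 hp1.le)
      (sq_nonneg ((1 + p) * W + ((1 - p) * (ya - yb) + β + β))))]

omit [Fintype ι] in
theorem PD_mem_del {a b c : ι} : c ∈ del S a b ↔ c ≠ b ∧ c ≠ a ∧ c ∈ S := by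
  simp [del]

omit [Fintype ι] in
theorem PD_card_del {a b : ι} (ha : a ∈ S) (hb : b ∈ S) (hab : a ≠ b) :
    ((del S a b).card : ℝ) = S.card - 2 := by
  have h1 := card_erase_add_one ha
  have h2 := card_erase_add_one (mem_erase.2 ⟨hab.symm, hb⟩ : b ∈ S.erase a)
  have : (del S a b).card + 2 = S.card := by rw [del]; omega
  rw [← this]; push_cast; ring

theorem PD_sum_off {a b : ι} (hab : a ≠ b) (g : ι → ℝ) :
    ∑ f, (if f = a ∨ f = b then 0 else g f) = ∑ f, g f - g a - g b := by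
  have : ∀ f, (if f = a ∨ f = b then 0 else g f) =
      g f - (if f = a then g a else 0) - (if f = b then g b else 0) := by
    intro f
    by_cases h1 : f = a
    · subst h1; simp [hab]
    · by_cases h2 : f = b
      · subst h2; simp [h1]
      · simp [h1, h2]
  simp only [this, sum_sub_distrib, sum_ite_eq', mem_univ, if_true]

omit [DecidableEq ι] in
theorem PD_dot_comm {p : ℝ} (hg : Good p S e K) (x y : ι → ℝ) :
    x ⬝ᵥ (K *ᵥ y) = y ⬝ᵥ (K *ᵥ x) := by
  simp only [dotProduct, Matrix.mulVec, mul_sum]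
  rw [sum_comm]
  exact sum_congr rfl fun i _ => sum_congr rfl fun j _ => by rw [hg.symm j i]; ring

theorem PD_upd_form {p : ℝ} (hg : Good p S e K) {a b : ι} {z : ι → ℝ} (hza : z a = 0)
    (hzb : z b = 0) : z ⬝ᵥ (upd e K a b *ᵥ z) = z ⬝ᵥ (K *ᵥ z) +
      (K b b * (K *ᵥ z) a ^ 2 + K a a * (K *ᵥ z) b ^ 2 +
        2 * (e - K a b) * (K *ᵥ z) a * (K *ᵥ z) b) / Dd e K a b := by
  have key : ∀ c f, z c * (upd e K a b c f * z f) = z c * (K c f * z f) +
      (K b b * ((K a c * z c) * (K a f * z f)) + K a a * ((K b c * z c) * (K b f * z f)) +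
        (e - K a b) * ((K a c * z c) * (K b f * z f)) +
        (e - K a b) * ((K b c * z c) * (K a f * z f))) / Dd e K a b := by
    intro c f
    simp only [upd, Matrix.of_apply]
    split_ifs with h
    · rcases h with rfl | rfl | rfl | rfl <;> simp [hza, hzb]
    · rw [hg.symm c a, hg.symm c b]; ring
  simp only [dotProduct, Matrix.mulVec, mul_sum, key, sum_add_distrib, ← sum_div]
  simp only [← mul_sum, ← sum_mul]
  ring

/-- the test vector for the old form -/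
theorem PD_glue {p : ℝ} (hg : Good p S e K) {a b : ι} (ha : a ∈ S) (hb : b ∈ S) (hab : a ≠ b)
    {z' : ι → ℝ} (hz : ∀ h, h ∉ del S a b → z' h = 0) (hz0 : ∑ h, z' h = 0) (α β : ℝ) :
    ∃ z : ι → ℝ, (∀ h, h ∉ S → z h = 0) ∧ ∑ h, z h = 0 ∧
      z ⬝ᵥ z = z' ⬝ᵥ z' + (α ^ 2 + β ^ 2 - (α + β) ^ 2 / S.card) ∧
      z ⬝ᵥ (K *ᵥ z) = z' ⬝ᵥ (K *ᵥ z') + (2 * (α * (K *ᵥ z') a + β * (K *ᵥ z') b) +
        (K a a * α ^ 2 + 2 * K a b * α * β + K b b * β ^ 2)) - e * (α + β) ^ 2 / S.card ∧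
      ∀ y : ι → ℝ, (∀ h, h ∉ S → y h = 0) →
        z ⬝ᵥ y = z' ⬝ᵥ y + (α * y a + β * y b - (α + β) / S.card * ∑ h, y h) := by
  have hN : (S.card : ℝ) ≠ 0 := by exact_mod_cast (card_pos.2 ⟨a, ha⟩).ne'
  have hza : z' a = 0 := hz a (by simp [PD_mem_del])
  have hzb : z' b = 0 := hz b (by simp [PD_mem_del])
  have hzS : ∀ h, h ∉ S → z' h = 0 := fun h hh => hz h (by simp [PD_mem_del, hh])
  obtain ⟨I, hI⟩ : ∃ I : ι → ℝ, I = fun h => if h ∈ S then 1 else 0 := ⟨_, rfl⟩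
  have hIy : ∀ y : ι → ℝ, (∀ h, h ∉ S → y h = 0) → I ⬝ᵥ y = ∑ h, y h := by
    intro y hy
    refine sum_congr rfl fun h _ => ?_
    rw [hI]
    by_cases hh : h ∈ S
    · simp [hh]
    · simp [hy h hh]
  have hIs : ∑ h, I h = S.card := by rw [hI]; simp
  have hIa : I a = 1 := by simp [hI, ha]
  have hIb : I b = 1 := by simp [hI, hb]
  have hKI : K *ᵥ I = e • I := by
    funext c
    have : (K *ᵥ I) c = ∑ f, K c f := by
      rw [Matrix.mulVec, dotProduct_comm]
      exact hIy _ fun h hh => by rw [hg.symm, hg.supp _ _ hh]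
    rw [this, hI]
    by_cases hc : c ∈ S
    · simp [hc, hg.row c hc]
    · simp [hc, hg.supp _ _ hc]
  obtain ⟨γ, hγ⟩ : ∃ γ, γ = (α + β) / S.card := ⟨_, rfl⟩
  obtain ⟨z, hzd⟩ : ∃ z : ι → ℝ, z = z' + α • Pi.single a 1 + β • Pi.single b 1 - γ • I := ⟨_, rfl⟩
  have hdot : ∀ y : ι → ℝ, z ⬝ᵥ y = z' ⬝ᵥ y + (α * y a + β * y b - γ * (I ⬝ᵥ y)) := by
    intro y
    rw [hzd]
    simp only [sub_dotProduct, add_dotProduct, smul_dotProduct, single_dotProduct, smul_eq_mul]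
    ring
  have hsupp : ∀ h, h ∉ S → z h = 0 := by
    intro h hh
    have h1 : h ≠ a := fun e => hh (e ▸ ha)
    have h2 : h ≠ b := fun e => hh (e ▸ hb)
    simp [hzd, hzS h hh, hI, hh, h1, h2]
  have hIz' : I ⬝ᵥ z' = 0 := by rw [hIy _ hzS, hz0]
  have hII : I ⬝ᵥ I = S.card := by rw [hIy I fun h hh => by simp [hI, hh], hIs]
  have hzI : z ⬝ᵥ I = 0 := by
    rw [hdot, dotProduct_comm z', hIz', hIa, hIb, hII, hγ]; field_simp; ring
  have hIz : I ⬝ᵥ z = 0 := by rw [dotProduct_comm, hzI]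
  have hzz' : z ⬝ᵥ z' = z' ⬝ᵥ z' := by rw [hdot, hza, hzb, hIz']; ring
  have hza' : z a = α - γ := by simp [hzd, hza, hIa, hab]
  have hzb' : z b = β - γ := by simp [hzd, hzb, hIb, hab.symm]
  have hKz : ∀ c ∈ S, (K *ᵥ z) c = (K *ᵥ z') c + (α * K c a + β * K c b - γ * e) := by
    intro c hc
    rw [Matrix.mulVec, dotProduct_comm, hdot, dotProduct_comm z', dotProduct_comm I]
    have : (fun j => K c j) ⬝ᵥ I = e := by
      have := congrFun hKI c
      simpa [Matrix.mulVec, hI, hc] using this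
    rw [this]; rfl
  refine ⟨z, hsupp, by rw [← hIy z hsupp, hIz], ?_, ?_, fun y hy => by rw [hdot, hIy y hy, hγ]⟩
  · rw [hdot z, dotProduct_comm z', hzz', hza', hzb', hIz, hγ]; field_simp; ring
  · rw [hdot, PD_dot_comm hg z' z, PD_dot_comm hg I z, hKI, dotProduct_smul, hzI, hdot,
      PD_dot_comm hg I z', hKI, dotProduct_smul, dotProduct_comm z' I, hIz', hKz a ha, hKz b hb,
      hg.symm b a, hγ]
    simp only [smul_zero]
    field_simp; ring

theorem PDInv.upd (hd : 3 ≤ d) (hg : Good (pp d) S e K) (h : PDInv d e vx G S K) {a b : ι}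
    (ha : a ∈ S) (hb : b ∈ S) (hc : ¬ Conf vx G a b) (hS : 3 ≤ S.card) (hD : 0 < Dd e K a b) :
    PDInv d e vx (G ⊔ SimpleGraph.edge (vx a) (vx b)) (del S a b) (upd e K a b) := by
  have hv : vx a ≠ vx b := fun e => hc (Or.inl e)
  have hab : a ≠ b := fun e => hv (e ▸ rfl)
  have hN : (3 : ℝ) ≤ S.card := by exact_mod_cast hS
  intro x hx z' hz hz0
  have hza : z' a = 0 := hz a (by simp [PD_mem_del])
  have hzb : z' b = 0 := hz b (by simp [PD_mem_del])
  set y := yv vx S x with hy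
  have hya : y a = x (vx a) := by simp [hy, yv, ha]
  have hyb : y b = x (vx b) := by simp [hy, yv, hb]
  have hy' : yv vx (del S a b) x = fun f => if f = a ∨ f = b then 0 else y f := by
    funext f
    by_cases h1 : f = a
    · simp [yv, PD_mem_del, h1]
    · by_cases h2 : f = b
      · simp [yv, PD_mem_del, h2]
      · simp [hy, yv, PD_mem_del, h1, h2]
  have s1 : ∑ f, yv vx (del S a b) x f = ∑ f, y f - y a - y b := by rw [hy', PD_sum_off hab]
  have s2 : yv vx (del S a b) x ⬝ᵥ yv vx (del S a b) x = y ⬝ᵥ y - y a * y a - y b * y b := by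
    rw [hy', dotProduct, dotProduct, ← PD_sum_off hab fun f => y f * y f]
    exact sum_congr rfl fun f _ => by split_ifs <;> simp
  have s3 : z' ⬝ᵥ yv vx (del S a b) x = z' ⬝ᵥ y := by
    rw [hy']
    refine sum_congr rfl fun f _ => ?_
    beta_reduce
    split_ifs with h1
    · rcases h1 with rfl | rfl <;> simp [hza, hzb]
    · rfl
  obtain ⟨c, hcs⟩ := PD_scalar hg.sign hg.p_nonneg hg.p_sq hN (y a) (y b) (∑ f, y f)
  obtain ⟨α, β, hαβ, hcore⟩ := PD_core (P := K a a) (Q := K b b) (R := K a b) hg.sign rfl hD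
    ((K *ᵥ z') a) ((K *ᵥ z') b) c
  obtain ⟨z, z1, z2, z3, z4, z5⟩ := PD_glue hg ha hb hab hz hz0 α β
  have hle : Fq d e vx G S K x z ≤ Fq d e vx (G ⊔ SimpleGraph.edge (vx a) (vx b)) (del S a b)
      (R62.upd e K a b) x z' := by
    have h1 := hcs α β hαβ
    simp only [Fq, Bq]
    rw [aq_sup_edge _ _ hv fun h => hc (Or.inr h), s1, s2, s3, PD_card_del ha hb hab,
      PD_upd_form hg hza hzb, ← hy, z3, z4, z5 y fun h hh => by simp [hy, yv, hh], ← hya, ← hyb]
    change _ / Dd e K a b = _ at hcore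
    rw [hcore]
    simp only [div_eq_mul_inv] at h1 ⊢
    nlinarith [h1]
  obtain ⟨h1, h2⟩ := h x hx z z1 z2
  exact ⟨h1.trans hle, fun hx0 => (h2 hx0).trans_le hle⟩

/-- `Good` is preserved by gluing (the positivity part by the same `2 × 2` computation as above with
`x = 0`, no graph needed) -/
theorem Good.upd {p : ℝ} (hg : Good p S e K) {a b : ι} (ha : a ∈ S) (hb : b ∈ S) (hab : a ≠ b)
    (hS : 3 ≤ S.card) (hD : 0 < Dd e K a b) : Good p (del S a b) e (upd e K a b) := by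
  have he2 : e ^ 2 = 1 := by rcases hg.sign with rfl | rfl <;> norm_num
  have hN : (3 : ℝ) ≤ S.card := by exact_mod_cast hS
  refine ⟨hg.p_nonneg, hg.p_sq, hg.sign, fun c f => ?_, fun c f hc => ?_, fun c hc => ?_,
    fun z' hz hz0 => ?_⟩
  · simp only [R62.upd, Matrix.of_apply]
    rw [if_congr (show (c = a ∨ c = b ∨ f = a ∨ f = b) ↔ (f = a ∨ f = b ∨ c = a ∨ c = b) by tauto)
      rfl rfl]
    split_ifs
    · rfl
    · rw [hg.symm f c, hg.symm f a, hg.symm f b, hg.symm a c, hg.symm b c]; ring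
  · simp only [R62.upd, Matrix.of_apply]
    split_ifs with h
    · rfl
    · have : c ∉ S := fun hcS => hc (PD_mem_del.2 ⟨fun e => h (by simp [e]), fun e => h (by simp [e]), hcS⟩)
      simp [hg.supp c _ this]
  · obtain ⟨h1, h2, h3⟩ := PD_mem_del.1 hc
    simp only [R62.upd, Matrix.of_apply, h1, h2, false_or]
    rw [PD_sum_off hab]
    simp only [sum_add_distrib, ← sum_div, ← mul_sum, hg.row c h3, hg.row a ha, hg.row b hb,
      hg.symm b a]
    have hD' := hD.ne'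
    field_simp
    simp only [Dd]
    linear_combination (K c a + K c b) * he2
  · have hza : z' a = 0 := hz a (by simp [PD_mem_del])
    have hzb : z' b = 0 := hz b (by simp [PD_mem_del])
    obtain ⟨c, hcs⟩ := PD_scalar hg.sign hg.p_nonneg hg.p_sq hN 0 0 0
    obtain ⟨α, β, hαβ, hcore⟩ := PD_core (P := K a a) (Q := K b b) (R := K a b) hg.sign rfl hD
      ((K *ᵥ z') a) ((K *ᵥ z') b) c
    obtain ⟨z, z1, z2, z3, z4, -⟩ := PD_glue hg ha hb hab hz hz0 α β
    have h1 := hcs α β hαβ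
    have h2 := hg.psd0 z z1 z2
    have h3 : 0 < 1 - p ^ 2 := by have := hg.p_sq; linarith
    rw [div_le_iff₀ h3] at h1
    change _ / Dd e K a b = _ at hcore
    rw [PD_upd_form hg hza hzb, hcore]
    rw [z3, z4] at h2
    simp only [div_eq_mul_inv] at h1 h2 ⊢
    nlinarith [h1, h2]

/-- the rounding errors -/
def PD_eps (M : ℕ) (K : Matrix ι ι ℝ) (c f : ι) : ℝ := K c f - (⌊(M : ℝ) * K c f⌋ : ℝ) / M

omit [Fintype ι] [DecidableEq ι] in
theorem PD_eps_bd {M : ℕ} (hM : 1 ≤ M) (c f : ι) : 0 ≤ PD_eps M K c f ∧ PD_eps M K c f ≤ 1 / M := by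
  have hM0 : (0 : ℝ) < M := by exact_mod_cast hM
  have h1 := Int.floor_le ((M : ℝ) * K c f)
  have h2 := Int.lt_floor_add_one ((M : ℝ) * K c f)
  unfold PD_eps
  constructor
  · rw [sub_nonneg, div_le_iff₀ hM0]; linarith
  · rw [sub_le_iff_le_add, ← add_div, le_div_iff₀ hM0]; linarith

theorem PD_rnd_sub {p : ℝ} (hg : Good p S e K) (M : ℕ) (c f : ι) :
    rnd M S e K c f = K c f + if c ∈ S ∧ f ∈ S then
      (if c = f then ∑ g ∈ S.erase c, PD_eps M K c g else -PD_eps M K c f) else 0 := by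
  simp only [rnd, Matrix.of_apply]
  split_ifs with h1 h2
  · subst h2
    have h3 : ∑ g ∈ S, K c g = e := by
      rw [← hg.row c h1.1]
      exact sum_subset (subset_univ _) fun g _ hgS => by rw [hg.symm, hg.supp _ _ hgS]
    rw [← add_sum_erase _ _ h1.1] at h3
    simp only [PD_eps, sum_sub_distrib]
    linarith
  · simp [PD_eps]
  · rw [add_zero]
    rcases not_and_or.1 h1 with h | h
    · rw [hg.supp _ _ h]
    · rw [hg.symm, hg.supp _ _ h]

theorem rnd_form {p : ℝ} (hg : Good p S e K) {M : ℕ} (hM : 1 ≤ M) (z : ι → ℝ) :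
    z ⬝ᵥ (K *ᵥ z) ≤ z ⬝ᵥ (rnd M S e K *ᵥ z) := by
  have hs : ∀ c f, PD_eps M K c f = PD_eps M K f c := fun c f => by simp [PD_eps, hg.symm c f]
  have key : z ⬝ᵥ (rnd M S e K *ᵥ z) = z ⬝ᵥ (K *ᵥ z) +
      ∑ c ∈ S, ∑ f ∈ S, PD_eps M K c f * (z c ^ 2 - z c * z f) := by
    simp only [dotProduct, Matrix.mulVec, PD_rnd_sub hg, add_mul, mul_add, sum_add_distrib]
    congr 1
    rw [← sum_subset (subset_univ S) fun c _ hc => by simp [hc]]
    refine sum_congr rfl fun c hc => ?_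
    have k1 : ∑ f ∈ S.erase c, (if c ∈ S ∧ f ∈ S then
        (if c = f then ∑ g ∈ S.erase c, PD_eps M K c g else -PD_eps M K c f) else 0) * z f =
        ∑ f ∈ S.erase c, -PD_eps M K c f * z f := sum_congr rfl fun f hf => by
      rw [if_pos ⟨hc, mem_of_mem_erase hf⟩, if_neg (ne_of_mem_erase hf).symm]
    rw [← sum_subset (subset_univ S) fun f _ hf => by simp [hf], ← add_sum_erase _ _ hc,
      ← add_sum_erase _ _ hc, k1, if_pos ⟨hc, hc⟩, if_pos rfl]
    simp only [mul_add, mul_sum, sum_mul, ← sum_add_distrib]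
    rw [show PD_eps M K c c * (z c ^ 2 - z c * z c) = 0 by ring, zero_add]
    exact sum_congr rfl fun f _ => by ring
  have h2 : ∑ c ∈ S, ∑ f ∈ S, PD_eps M K c f * (z c ^ 2 - z c * z f) =
      ∑ c ∈ S, ∑ f ∈ S, PD_eps M K c f * (z f ^ 2 - z c * z f) := by
    rw [sum_comm]
    exact sum_congr rfl fun c _ => sum_congr rfl fun f _ => by rw [hs f c]; ring
  have h3 : 0 ≤ ∑ c ∈ S, ∑ f ∈ S, PD_eps M K c f * (z c ^ 2 - z c * z f) +
      ∑ c ∈ S, ∑ f ∈ S, PD_eps M K c f * (z f ^ 2 - z c * z f) := by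
    simp only [← sum_add_distrib]
    refine sum_nonneg fun c _ => sum_nonneg fun f _ => ?_
    nlinarith [mul_nonneg (PD_eps_bd (K := K) hM c f).1 (sq_nonneg (z c - z f))]
  linarith

theorem rnd_close {p : ℝ} (hg : Good p S e K) {M : ℕ} (hM : 1 ≤ M) (c f : ι) :
    |rnd M S e K c f - K c f| ≤ (Fintype.card ι : ℝ) / M := by
  have hM0 : (0 : ℝ) < M := by exact_mod_cast hM
  rw [PD_rnd_sub hg, add_sub_cancel_left]
  split_ifs with h1 h2
  · rw [abs_of_nonneg (sum_nonneg fun g _ => (PD_eps_bd hM c g).1)]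
    calc _ ≤ ∑ _g ∈ S.erase c, 1 / (M : ℝ) := sum_le_sum fun g _ => (PD_eps_bd hM c g).2
      _ = (S.erase c).card / M := by rw [sum_const, nsmul_eq_mul, mul_one_div]
      _ ≤ _ := by gcongr; exact card_le_univ _
  · rw [abs_neg, abs_of_nonneg (PD_eps_bd hM c f).1]
    refine (PD_eps_bd hM c f).2.trans ?_
    gcongr
    exact_mod_cast Fintype.card_pos_iff.2 ⟨c⟩
  · rw [abs_zero]; positivity

theorem Good.rnd {p : ℝ} (hg : Good p S e K) {M : ℕ} (hM : 1 ≤ M) : Good p S e (rnd M S e K) := by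
  refine ⟨hg.p_nonneg, hg.p_sq, hg.sign, fun c f => ?_, fun c f hc => ?_, fun c hc => ?_,
    fun z hz hz0 => ?_⟩
  · by_cases h : c = f
    · rw [h]
    · simp only [R62.rnd, Matrix.of_apply, h, Ne.symm h, if_false, and_comm (a := c ∈ S),
        hg.symm c f]
  · simp [R62.rnd, hc]
  · rw [← sum_subset (subset_univ S) fun f _ hf => by simp [R62.rnd, hf], ← add_sum_erase _ _ hc,
      sum_congr rfl (g := fun g => (⌊(M : ℝ) * K c g⌋ : ℝ) / M) fun f hf => by
        simp [R62.rnd, hc, mem_of_mem_erase hf, (ne_of_mem_erase hf).symm]]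
    simp [R62.rnd, hc]
  · have := hg.psd0 z hz hz0
    have := rnd_form hg hM z
    linarith

theorem PDInv.rnd (hd : 3 ≤ d) (hg : Good (pp d) S e K) (h : PDInv d e vx G S K) {M : ℕ} (hM : 1 ≤ M) :
    PDInv d e vx G S (rnd M S e K) := by
  intro x hx z hz hz0
  have h3 : 0 < 1 - pp d ^ 2 := by have := (pp_facts hd).2.1; linarith
  have hle : Fq d e vx G S K x z ≤ Fq d e vx G S (R62.rnd M S e K) x z := by
    simp only [Fq]
    gcongr
    exact rnd_form hg hM z
  obtain ⟨h1, h2⟩ := h x hx z hz hz0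
  exact ⟨h1.trans hle, fun hx0 => (h2 hx0).trans_le hle⟩

end Crest.Agent.R62
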