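import Crest.Agent.R62.PD

/-! Start and end of the process: initial invariants, the final phase, the graph invariant. -/

set_option autoImplicit false
set_option linter.unusedSectionVars false
set_option linter.unusedVariables false
open Classical
open scoped Matrix
open Finset

noncomputable section
namespace Crest.Agent.R62

variable {V ι : Type} [Fintype V] [Fintype ι] [DecidableEq ι] {e : ℝ} {S : Finset ι}
  {K : Matrix ι ι ℝ} {n d : ℕ} {vx : ι → V} {G : SimpleGraph V}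

theorem PDFin_sum_fib (vx : ι → V) (f : ι → ℝ) :
    ∑ h, f h = ∑ v, ∑ h ∈ univ.filter (fun h => vx h = v), f h :=
  (Finset.sum_fiberwise univ vx f).symm

theorem PDFin_sum_comp (hf : ∀ v, (univ.filter fun h => vx h = v).card = d) (g : V → ℝ) :
    ∑ h, g (vx h) = d * ∑ v, g v := by
  rw [PDFin_sum_fib vx, Finset.mul_sum]
  refine Finset.sum_congr rfl fun v _ => ?_
  rw [Finset.sum_congr rfl (g := fun _ => g v) (fun h hh => by rw [(Finset.mem_filter.1 hh).2]),
    Finset.sum_const, hf v, nsmul_eq_mul]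

theorem GInv.card_ι (h : GInv n d vx G S) : Fintype.card ι = n * d := by
  have := Finset.card_eq_sum_card_fiberwise (s := (univ : Finset ι)) (t := (univ : Finset V)) (f := vx)
    (fun _ _ => Finset.mem_coe.2 (Finset.mem_univ _))
  rw [Finset.card_univ] at this
  rw [this, Finset.sum_congr rfl (fun v _ => h.fib v), Finset.sum_const, Finset.card_univ, h.cardV,
    smul_eq_mul]

theorem PDFin_ne {a b : ι} (hc : ¬ Conf vx G a b) : vx a ≠ vx b := fun h => hc (Or.inl h)

theorem PDFin_card_del {a b : ι} (ha : a ∈ S) (hb : b ∈ S) (hab : a ≠ b) (P : ι → Prop) :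
    ((del S a b).filter P).card + (if P a then 1 else 0) + (if P b then 1 else 0)
      = (S.filter P).card := by
  have hb' : b ∈ S.erase a := Finset.mem_erase.2 ⟨hab.symm, hb⟩
  simp only [Finset.card_filter, del]
  rw [← Finset.add_sum_erase S _ ha, ← Finset.add_sum_erase (S.erase a) _ hb']
  ring

theorem PDFin_dg_eq (G : SimpleGraph V) (w : V) (T : Finset V) (h : ∀ t, G.Adj w t ↔ t ∈ T) :
    dg G w = T.card := by
  unfold dg
  congr 1
  ext t
  simp [h]

theorem PDFin_dg_sup {u v : V} (huv : u ≠ v) (hn : ¬ G.Adj u v) (w : V) :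
    dg (G ⊔ SimpleGraph.edge u v) w = dg G w + (if u = w then 1 else 0) + (if v = w then 1 else 0) := by
  obtain ⟨T, hT⟩ : ∃ T : Finset V, ∀ t, G.Adj w t ↔ t ∈ T :=
    ⟨univ.filter fun t => G.Adj w t, fun t => by simp⟩
  rw [PDFin_dg_eq G w T hT]
  by_cases hu : u = w
  · subst hu
    rw [PDFin_dg_eq _ u (insert v T), Finset.card_insert_of_notMem (fun h => hn ((hT v).2 h))]
    · simp [huv.symm]
    · intro t
      rw [SimpleGraph.sup_adj, SimpleGraph.edge_adj, Finset.mem_insert, hT]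
      constructor
      · rintro (h | ⟨h | h, _⟩)
        · exact Or.inr h
        · exact Or.inl h.2
        · exact absurd h.1 huv
      · rintro (h | h)
        · subst h
          exact Or.inr ⟨Or.inl ⟨rfl, rfl⟩, huv⟩
        · exact Or.inl h
  · by_cases hv : v = w
    · subst hv
      rw [PDFin_dg_eq _ v (insert u T),
        Finset.card_insert_of_notMem (fun h => hn (G.adj_symm ((hT u).2 h)))]
      · simp [huv]
      · intro t
        rw [SimpleGraph.sup_adj, SimpleGraph.edge_adj, Finset.mem_insert, hT]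
        constructor
        · rintro (h | ⟨h | h, _⟩)
          · exact Or.inr h
          · exact absurd h.1 huv.symm
          · exact Or.inl h.2
        · rintro (h | h)
          · subst h
            exact Or.inr ⟨Or.inr ⟨rfl, rfl⟩, huv.symm⟩
          · exact Or.inl h
    · rw [PDFin_dg_eq _ w T]
      · simp [hu, hv]
      · intro t
        rw [SimpleGraph.sup_adj, SimpleGraph.edge_adj, hT]
        constructor
        · rintro (h | ⟨h | h, _⟩)
          · exact h
          · exact absurd h.1.symm hu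
          · exact absurd h.1.symm hv
        · exact Or.inl

theorem GInv.step (h : GInv n d vx G S) {a b : ι} (ha : a ∈ S) (hb : b ∈ S) (hc : ¬ Conf vx G a b) :
    GInv n d vx (G ⊔ SimpleGraph.edge (vx a) (vx b)) (del S a b) := by
  have hv := PDFin_ne hc
  have hab : a ≠ b := fun h => hv (by rw [h])
  refine ⟨h.cardV, h.fib, fun v => ?_⟩
  have h1 := PDFin_dg_sup (G := G) hv (fun h => hc (Or.inr h)) v
  have h2 := PDFin_card_del ha hb hab (fun h => vx h = v)
  have h3 := h.deg v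
  rw [h1]
  omega

theorem GInv.conf_deg (h : GInv n d vx G S) (a : ι) :
    ((S.filter fun b => Conf vx G a b).card : ℝ) ≤ d ^ 2 + d := by
  have h1 : (S.filter fun b => Conf vx G a b) ⊆ (insert (vx a) (univ.filter fun u => G.Adj (vx a) u)).biUnion
      (fun v => univ.filter fun h => vx h = v) := by
    intro b hb
    rw [Finset.mem_biUnion]
    refine ⟨vx b, ?_, by simp⟩
    rcases (Finset.mem_filter.1 hb).2 with h | h
    · rw [← h]; exact Finset.mem_insert_self _ _
    · exact Finset.mem_insert_of_mem (by simpa using h)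
  have h2 := (Finset.card_le_card h1).trans Finset.card_biUnion_le
  rw [Finset.sum_congr rfl (fun v _ => h.fib v), Finset.sum_const, smul_eq_mul] at h2
  have h3 : (insert (vx a) (univ.filter fun u => G.Adj (vx a) u)).card ≤ d + 1 := by
    refine (Finset.card_insert_le _ _).trans ?_
    have := h.deg (vx a)
    unfold dg at this
    omega
  have h4 : (S.filter fun b => Conf vx G a b).card ≤ d ^ 2 + d :=
    h2.trans ((Nat.mul_le_mul_right d h3).trans (le_of_eq (by ring)))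
  exact_mod_cast h4

theorem Conf.symm {a b : ι} (h : Conf vx G a b) : Conf vx G b a := by
  rcases h with h | h
  · exact Or.inl h.symm
  · exact Or.inr (G.adj_symm h)

/-- no conflicts among the free half-edges -/
def NoConf (vx : ι → V) (G : SimpleGraph V) (S : Finset ι) : Prop :=
  ∀ a ∈ S, ∀ b ∈ S, a ≠ b → ¬ Conf vx G a b

theorem NoConf.of_X (h1 : Xs vx S = 0) (h2 : Xa vx G S = 0) : NoConf vx G S := by
  intro a ha b hb hab hc
  unfold Xs at h1
  unfold Xa at h2
  rw [Finset.card_eq_zero, Finset.filter_eq_empty_iff] at h1 h2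
  have hm : (a, b) ∈ S ×ˢ S := Finset.mem_product.2 ⟨ha, hb⟩
  rcases hc with hc | hc
  · exact h1 hm ⟨hab, hc⟩
  · exact h2 hm hc

theorem NoConf.step (h : NoConf vx G S) {a b : ι} (ha : a ∈ S) (hb : b ∈ S) (hab : a ≠ b) :
    NoConf vx (G ⊔ SimpleGraph.edge (vx a) (vx b)) (del S a b) := by
  intro c hc f hf hcf hconf
  simp only [del, Finset.mem_erase] at hc hf
  rcases hconf with h1 | h1
  · exact h c hc.2.2 f hf.2.2 hcf (Or.inl h1)
  · rw [SimpleGraph.sup_adj, SimpleGraph.edge_adj] at h1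
    rcases h1 with h1 | ⟨h1 | h1, _⟩
    · exact h c hc.2.2 f hf.2.2 hcf (Or.inr h1)
    · exact h c hc.2.2 a ha hc.2.1 (Or.inl h1.1)
    · exact h c hc.2.2 b hb hc.1 (Or.inl h1.1)

theorem final_of_empty (h : GInv n d vx G ∅) (h1 : FinInv d 1 vx G ∅) (h2 : FinInv d (-1) vx G ∅) :
    (∀ v, dg G v = d) ∧ ∀ x : V → ℝ, ∑ v, x v = 0 → x ≠ 0 →
      |aq G x| < 2 * √((d : ℝ) - 1) * (x ⬝ᵥ x) := by
  refine ⟨fun v => by simpa using h.deg v, fun x hx hx0 => ?_⟩
  have hy : yv vx (∅ : Finset ι) x = 0 := by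
    funext h; simp [yv]
  have a1 := h1 x hx hx0
  have a2 := h2 x hx hx0
  simp only [hy, Bq, Pi.zero_apply, Finset.sum_const_zero, dotProduct_zero, Finset.card_empty,
    Nat.cast_zero, div_zero] at a1 a2
  rw [abs_lt]
  constructor <;> linarith

theorem PDFin_yv_sum (x : V → ℝ) : ∑ h, yv vx S x h = ∑ h ∈ S, x (vx h) := by
  simp [yv, Finset.sum_ite_mem]

theorem PDFin_yv_dot (x : V → ℝ) : yv vx S x ⬝ᵥ yv vx S x = ∑ h ∈ S, x (vx h) ^ 2 := by
  simp only [dotProduct, yv]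
  rw [← Finset.sum_filter_add_sum_filter_not univ (fun h => h ∈ S)]
  rw [Finset.sum_eq_zero (s := univ.filter fun h => ¬ h ∈ S)
    (fun h hh => by simp [(Finset.mem_filter.1 hh).2]), add_zero]
  rw [show (univ.filter fun h => h ∈ S) = S by ext; simp]
  exact Finset.sum_congr rfl fun h hh => by simp [hh, sq]

theorem PDFin_sum_del {a b : ι} (ha : a ∈ S) (hb : b ∈ S) (hab : a ≠ b) (f : ι → ℝ) :
    ∑ h ∈ S, f h = ∑ h ∈ del S a b, f h + f a + f b := by
  have hb' : b ∈ S.erase a := Finset.mem_erase.2 ⟨hab.symm, hb⟩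
  rw [← Finset.add_sum_erase S _ ha, ← Finset.add_sum_erase (S.erase a) _ hb', del]
  ring

theorem FinInv.step (he : e = 1 ∨ e = -1) (h : FinInv d e vx G S) {a b : ι} (ha : a ∈ S) (hb : b ∈ S)
    (hc : ¬ Conf vx G a b) : FinInv d e vx (G ⊔ SimpleGraph.edge (vx a) (vx b)) (del S a b) := by
  have hv := PDFin_ne hc
  have hab : a ≠ b := fun h => hv (by rw [h])
  intro x hx hx0
  have h0 := h x hx hx0
  refine h0.trans_le ?_
  rw [PDFin_yv_sum, PDFin_yv_sum, PDFin_yv_dot, PDFin_yv_dot, Bq, Bq,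
    aq_sup_edge _ _ hv (fun h => hc (Or.inr h)), PDFin_sum_del ha hb hab,
    PDFin_sum_del ha hb hab (fun h => x (vx h) ^ 2)]
  have hN : (S.card : ℝ) = (del S a b).card + 2 := by
    have := PDFin_sum_del ha hb hab (fun _ => (1 : ℝ))
    simp only [Finset.sum_const, nsmul_eq_mul, mul_one] at this
    linarith
  rw [hN]
  set σ := ∑ h ∈ del S a b, x (vx h) with hσ
  set N : ℝ := ((del S a b).card : ℝ) with hNd
  have key : (σ + x (vx a) + x (vx b)) ^ 2 / (N + 2) ≤ σ ^ 2 / N + (x (vx a) + x (vx b)) ^ 2 / 2 := by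
    rcases Nat.eq_zero_or_pos (del S a b).card with h0 | h0
    · have hσ0 : σ = 0 := by rw [hσ, Finset.card_eq_zero.1 h0, Finset.sum_empty]
      have hN0 : N = 0 := by rw [hNd, h0]; simp
      rw [hσ0, hN0]; simp
    · have hN0 : 0 < N := by rw [hNd]; exact_mod_cast h0
      rw [div_add_div _ _ hN0.ne' two_ne_zero, div_le_div_iff₀ (by positivity) (by positivity)]
      nlinarith [sq_nonneg (2 * σ - N * (x (vx a) + x (vx b)))]
  rcases he with rfl | rfl
  · simp only [one_mul]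
    nlinarith [sq_nonneg (x (vx a) - x (vx b))]
  · simp only [neg_mul, one_mul, neg_div]
    nlinarith [key]

theorem FinInv.of_PD (hd : 3 ≤ d) (hg : Good (pp d) S e K) (h : PDInv d e vx G S K) (h2 : Tr 2 K ≤ 2) :
    FinInv d e vx G S := by
  obtain ⟨hp0, hp2, -, -⟩ := pp_facts hd
  intro x hx hx0
  set p := pp d with hp
  have hp1 : p < 1 := by nlinarith
  set σ := ∑ h ∈ S, x (vx h) with hσ
  set N : ℝ := (S.card : ℝ) with hN
  let z : ι → ℝ := fun h => if h ∈ S then (1 - p) * (x (vx h) - σ / N) else 0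
  have hz : ∀ a, a ∉ S → z a = 0 := fun a ha => by simp [z, ha]
  have hNσ : N * (σ / N) = σ := by
    rcases Nat.eq_zero_or_pos S.card with h0 | h0
    · have : σ = 0 := by rw [hσ, Finset.card_eq_zero.1 h0, Finset.sum_empty]
      rw [this]; simp
    · have hN0 : 0 < N := by rw [hN]; exact_mod_cast h0
      field_simp
  have hz0 : ∑ a, z a = 0 := by
    simp only [z, Finset.sum_ite_mem, Finset.univ_inter]
    rw [← Finset.mul_sum, Finset.sum_sub_distrib, Finset.sum_const, nsmul_eq_mul, ← hσ, ← hN, hNσ]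
    simp
  set Y := ∑ h ∈ S, x (vx h) ^ 2 with hY
  have hσ2 : σ ^ 2 / N = σ * (σ / N) := by ring
  have hzy : z ⬝ᵥ yv vx S x = (1 - p) * (Y - σ ^ 2 / N) := by
    have : ∀ a, z a * yv vx S x a
        = if a ∈ S then (1 - p) * (x (vx a) ^ 2 - σ / N * x (vx a)) else 0 := fun a => by
      by_cases ha : a ∈ S <;> simp [z, yv, ha]
      ring
    simp only [dotProduct, this, Finset.sum_ite_mem, Finset.univ_inter]
    rw [← Finset.mul_sum, Finset.sum_sub_distrib, ← Finset.mul_sum, ← hσ, ← hY]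
    ring
  have hzz : z ⬝ᵥ z = (1 - p) ^ 2 * (Y - σ ^ 2 / N) := by
    have : ∀ a, z a * z a
        = if a ∈ S then (1 - p) ^ 2 * (x (vx a) ^ 2 - 2 * (σ / N) * x (vx a) + (σ / N) ^ 2) else 0 :=
      fun a => by
      by_cases ha : a ∈ S <;> simp [z, ha]
      ring
    simp only [dotProduct, this, Finset.sum_ite_mem, Finset.univ_inter]
    rw [← Finset.mul_sum, Finset.sum_add_distrib, Finset.sum_sub_distrib, ← Finset.mul_sum, ← hσ, ← hY,
      Finset.sum_const, nsmul_eq_mul, ← hN, hσ2]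
    have : N * (σ / N) ^ 2 = σ * (σ / N) := by rw [sq, ← mul_assoc, hNσ]
    rw [this]
    ring
  have hF := (h x hx z hz hz0).2 hx0
  have hK := hg.form_le h2 z hz hz0
  unfold Fq at hF
  rw [hzy, PDFin_yv_sum, PDFin_yv_dot, ← hσ, ← hY, ← hN, ← hp] at hF
  rw [PDFin_yv_sum, PDFin_yv_dot, ← hσ, ← hY]
  have hq : 0 < 1 - p ^ 2 := by nlinarith
  have hb : (z ⬝ᵥ K *ᵥ z + p * z ⬝ᵥ z) / (1 - p ^ 2) ≤ (1 - p) * (Y - σ ^ 2 / N) := by
    rw [div_le_iff₀ hq]
    have : (1 - p) * (Y - σ ^ 2 / N) * (1 - p ^ 2) = (1 + p) * z ⬝ᵥ z := by rw [hzz]; ring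
    rw [this]
    linarith
  linarith

/-- the exact initial matrix `p (J_blocks - 1) + (e - q) Π` -/
def Kex (d : ℕ) (vx : ι → V) (e : ℝ) : Matrix ι ι ℝ := Matrix.of fun a b =>
  (if vx a = vx b then pp d else 0) - (if a = b then pp d else 0)
    + (e - √((d : ℝ) - 1)) / Fintype.card ι

theorem PDFin_q (hd : 3 ≤ d) : √((d : ℝ) - 1) = pp d * ((d : ℝ) - 1) := by
  obtain ⟨hp0, hp2, h3, h4⟩ := pp_facts hd
  have : pp d * √((d : ℝ) - 1) = pp d * (pp d * ((d : ℝ) - 1)) := by
    rw [h4]; linarith [h3]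
  exact mul_left_cancel₀ hp0.ne' this

theorem PDFin_Kex_mulVec (z : ι → ℝ) (hz : ∑ h, z h = 0) (a : ι) :
    (Kex d vx e *ᵥ z) a = pp d * (∑ h ∈ univ.filter (fun h => vx h = vx a), z h) - pp d * z a := by
  simp only [Matrix.mulVec, dotProduct, Kex, Matrix.of_apply, add_mul, sub_mul, Finset.sum_add_distrib,
    Finset.sum_sub_distrib, ← Finset.mul_sum, hz, mul_zero, add_zero, ite_mul, zero_mul,
    Finset.sum_ite_eq, Finset.mem_univ, if_true]
  congr 1
  rw [Finset.mul_sum, Finset.sum_filter]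
  exact Finset.sum_congr rfl fun h _ => by simp only [eq_comm]

theorem PDFin_fib_mul (z : ι → ℝ) (g : V → ℝ) :
    ∑ a, z a * g (vx a) = ∑ v, (∑ h ∈ univ.filter (fun h => vx h = v), z h) * g v := by
  rw [PDFin_sum_fib vx]
  refine Finset.sum_congr rfl fun v _ => ?_
  rw [Finset.sum_mul]
  exact Finset.sum_congr rfl fun h hh => by rw [(Finset.mem_filter.1 hh).2]

theorem PDFin_Kex_form (z : ι → ℝ) (hz : ∑ h, z h = 0) :
    z ⬝ᵥ (Kex d vx e *ᵥ z) + pp d * (z ⬝ᵥ z)
      = pp d * ∑ v, (∑ h ∈ univ.filter (fun h => vx h = v), z h) ^ 2 := by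
  have := PDFin_fib_mul (vx := vx) z (fun v => ∑ h ∈ univ.filter (fun h => vx h = v), z h)
  simp only [dotProduct, PDFin_Kex_mulVec z hz, sq]
  rw [← this, Finset.mul_sum, Finset.mul_sum, ← Finset.sum_add_distrib]
  refine Finset.sum_congr rfl fun a _ => ?_
  ring

theorem PDFin_Kex_row (hd : 3 ≤ d) (h : GInv n d vx ⊥ univ) (a : ι) : ∑ b, Kex d vx e a b = e := by
  have hN : (0 : ℝ) < Fintype.card ι := by
    exact_mod_cast Fintype.card_pos_iff.2 ⟨a⟩
  have h1 : ∑ b, (if vx a = vx b then pp d else 0) = d * pp d := by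
    rw [← Finset.sum_filter, Finset.sum_const, nsmul_eq_mul, ← h.fib (vx a)]
    congr 3
    ext b
    simp only [Finset.mem_filter, eq_comm]
  simp only [Kex, Matrix.of_apply, Finset.sum_add_distrib, Finset.sum_sub_distrib, h1,
    Finset.sum_ite_eq, Finset.mem_univ, if_true, Finset.sum_const, Finset.card_univ, nsmul_eq_mul]
  rw [PDFin_q hd]
  field_simp
  ring

theorem PDFin_Fq_Kex (hd : 3 ≤ d) (h : GInv n d vx ⊥ univ) (x : V → ℝ) (hx : ∑ v, x v = 0)
    (z : ι → ℝ) (hz : ∑ h, z h = 0) :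
    Fq d e vx ⊥ univ (Kex d vx e) x z = ∑ v, (√((d : ℝ) - 1) - pp d) *
      (x v - (∑ h ∈ univ.filter (fun h => vx h = v), z h) / (√((d : ℝ) - 1) - pp d)) ^ 2 := by
  obtain ⟨hp0, hp2, h3, h4⟩ := pp_facts hd
  have hq := PDFin_q hd
  have hy1 : ∑ h, yv vx univ x h = 0 := by
    rw [PDFin_yv_sum, PDFin_sum_comp h.fib x, hx, mul_zero]
  have hy2 : yv vx univ x ⬝ᵥ yv vx univ x = d * ∑ v, x v ^ 2 := by
    rw [PDFin_yv_dot, PDFin_sum_comp h.fib (fun v => x v ^ 2)]
  have hy3 : z ⬝ᵥ yv vx univ x = ∑ v, (∑ h ∈ univ.filter (fun h => vx h = v), z h) * x v := by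
    rw [← PDFin_fib_mul]
    simp [dotProduct, yv]
  have ha : aq (⊥ : SimpleGraph V) x = 0 := by simp [aq]
  have hxx : x ⬝ᵥ x = ∑ v, x v ^ 2 := by simp [dotProduct, sq]
  unfold Fq
  rw [PDFin_Kex_form z hz, hy1, hy2, hy3, Bq, ha, hxx]
  set p := pp d
  set q := √((d : ℝ) - 1)
  have hp1 : 0 < 1 - p ^ 2 := by nlinarith
  have hqp : (q - p) * p = 1 - p ^ 2 := by nlinarith
  have hqp0 : q - p ≠ 0 := by
    intro h0
    rw [h0] at hqp
    linarith
  have hc : p / (1 - p ^ 2) = 1 / (q - p) := by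
    rw [← hqp]; field_simp
  have hd' : p * d = q + p := by rw [hq]; ring
  have : ∀ v, (q - p) * (x v - (∑ h ∈ univ.filter (fun h => vx h = v), z h) / (q - p)) ^ 2
      = (q - p) * x v ^ 2 - 2 * ((∑ h ∈ univ.filter (fun h => vx h = v), z h) * x v)
        + 1 / (q - p) * (∑ h ∈ univ.filter (fun h => vx h = v), z h) ^ 2 := fun v => by
    field_simp
    ring
  simp only [this, Finset.sum_add_distrib, Finset.sum_sub_distrib, ← Finset.mul_sum]
  rw [← hc]
  have e1 : p * (d * ∑ v, x v ^ 2) = (q + p) * ∑ v, x v ^ 2 := by rw [← hd']; ring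
  simp only [ne_eq, OfNat.ofNat_ne_zero, not_false_eq_true, zero_pow, zero_div, sub_zero, mul_zero, e1]
  ring

theorem PDFin_qp (hd : 3 ≤ d) : 0 < √((d : ℝ) - 1) - pp d := by
  obtain ⟨hp0, hp2, h3, h4⟩ := pp_facts hd
  by_contra hcon
  push Not at hcon
  nlinarith

theorem Kex_good (hd : 3 ≤ d) (hn : 1 ≤ n) (he : e = 1 ∨ e = -1) (h : GInv n d vx ⊥ univ) :
    Good (pp d) univ e (Kex d vx e) ∧ ∀ x : V → ℝ, ∑ v, x v = 0 → ∀ z : ι → ℝ, ∑ h, z h = 0 →
      0 ≤ Fq d e vx ⊥ univ (Kex d vx e) x z ∧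
        (x ≠ 0 → z = 0 → 0 < Fq d e vx ⊥ univ (Kex d vx e) x z) := by
  obtain ⟨hp0, hp2, h3, h4⟩ := pp_facts hd
  have hqp := PDFin_qp hd
  refine ⟨⟨hp0.le, hp2, he, fun a b => ?_, fun a b ha => absurd (Finset.mem_univ a) ha,
    fun a _ => PDFin_Kex_row hd h a, fun z _ hz => ?_⟩, fun x hx z hz => ?_⟩
  · simp only [Kex, Matrix.of_apply, eq_comm]
  · rw [PDFin_Kex_form z hz]
    positivity
  · rw [PDFin_Fq_Kex hd h x hx z hz]
    refine ⟨Finset.sum_nonneg fun v _ => by positivity, fun hx0 hz0 => ?_⟩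
    obtain ⟨v, hv⟩ := Function.ne_iff.1 hx0
    refine Finset.sum_pos' (fun v _ => by positivity) ⟨v, Finset.mem_univ _, ?_⟩
    subst hz0
    simp only [Pi.zero_apply, Finset.sum_const_zero, zero_div, sub_zero]
    have : x v ≠ 0 := hv
    positivity

theorem PDFin_plo (hd : 3 ≤ d) {M : ℕ} (hM : 1 ≤ M) :
    (plo d M : ℝ) ≤ pp d ∧ pp d < plo d M + 1 / M := by
  obtain ⟨hp0, hp2, h3, h4⟩ := pp_facts hd
  have hq := PDFin_q hd
  have hM0 : (0 : ℝ) < M := by exact_mod_cast hM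
  have hd1 : (2 : ℝ) ≤ (d : ℝ) - 1 := by
    have : (3 : ℝ) ≤ d := by exact_mod_cast hd
    linarith
  have hcast : ((M ^ 2 * (d - 1) : ℕ) : ℝ) = (M * √((d : ℝ) - 1)) ^ 2 := by
    rw [mul_pow, Real.sq_sqrt (by linarith), Nat.cast_mul, Nat.cast_pow, Nat.cast_sub (by omega)]
    simp
  have h1 : ((Nat.sqrt (M ^ 2 * (d - 1)) : ℕ) : ℝ) ≤ M * √((d : ℝ) - 1) := by
    have := Nat.sqrt_le' (M ^ 2 * (d - 1))
    have h' : ((Nat.sqrt (M ^ 2 * (d - 1)) : ℕ) : ℝ) ^ 2 ≤ (M * √((d : ℝ) - 1)) ^ 2 := by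
      rw [← hcast]; exact_mod_cast this
    exact (pow_le_pow_iff_left₀ (by positivity) (by positivity) two_ne_zero).1 h'
  have h2 : M * √((d : ℝ) - 1) < ((Nat.sqrt (M ^ 2 * (d - 1)) : ℕ) : ℝ) + 1 := by
    have := Nat.lt_succ_sqrt' (M ^ 2 * (d - 1))
    have h' : (M * √((d : ℝ) - 1)) ^ 2 < (((Nat.sqrt (M ^ 2 * (d - 1)) : ℕ) : ℝ) + 1) ^ 2 := by
      rw [← hcast]; exact_mod_cast this
    exact lt_of_pow_lt_pow_left₀ 2 (by positivity) h'
  unfold plo
  set s : ℝ := ((Nat.sqrt (M ^ 2 * (d - 1)) : ℕ) : ℝ)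
  rw [hq] at h1 h2
  constructor
  · rw [div_le_iff₀ (by positivity)]
    linarith
  · rw [div_add_div _ _ (by positivity) hM0.ne', lt_div_iff₀ (by positivity)]
    have : M * (pp d * ((d : ℝ) - 1)) < s + ((d : ℝ) - 1) := by linarith
    nlinarith

/-- off-diagonal comparison of `K0` with `Kex` -/
theorem PDFin_off (hd : 3 ≤ d) (hn : 1 ≤ n) (h : GInv n d vx ⊥ univ) {M : ℕ} (hM : 1 ≤ M) {a b : ι}
    (hab : a ≠ b) : 0 ≤ Kex d vx e a b - off0 d M vx e a b ∧ Kex d vx e a b - off0 d M vx e a b ≤ 1 / M ∧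
      (vx a ≠ vx b → 0 < Kex d vx e a b - off0 d M vx e a b) := by
  obtain ⟨h1, h2⟩ := PDFin_plo hd hM
  have hN : (d : ℝ) ≤ Fintype.card ι := by
    rw [h.card_ι]
    exact_mod_cast Nat.le_mul_of_pos_left d hn
  have hd3 : (3 : ℝ) ≤ d := by exact_mod_cast hd
  have hN0 : (0 : ℝ) < Fintype.card ι := by linarith
  have hM0 : (0 : ℝ) < 1 / M := by
    have : (0 : ℝ) < M := by exact_mod_cast hM
    positivity
  set t : ℝ := ((d : ℝ) - 1) / Fintype.card ι with ht
  have ht0 : 0 < t := div_pos (by linarith) hN0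
  have ht1 : t ≤ 1 := by rw [ht, div_le_one hN0]; linarith
  by_cases hv : vx a = vx b
  · have : Kex d vx e a b - off0 d M vx e a b = (pp d - plo d M) * (1 - t) := by
      simp only [Kex, off0, Matrix.of_apply, hv, hab, if_true, if_false, PDFin_q hd, ht]
      ring
    rw [this]
    refine ⟨mul_nonneg (by linarith) (by linarith), by nlinarith, fun h => absurd hv h⟩
  · have : Kex d vx e a b - off0 d M vx e a b = (plo d M + 1 / M - pp d) * t := by
      simp only [Kex, off0, Matrix.of_apply, hv, hab, if_false, PDFin_q hd, ht]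
      ring
    rw [this]
    have h0 : 0 < (plo d M + 1 / M - pp d) * t := mul_pos (by linarith) ht0
    refine ⟨h0.le, by nlinarith, fun _ => h0⟩

theorem PDFin_K0_diag (hd : 3 ≤ d) (h : GInv n d vx ⊥ univ) (M : ℕ) (a : ι) :
    (K0 d M vx e : Matrix ι ι ℝ) a a - Kex d vx e a a
      = ∑ g ∈ univ.erase a, (Kex d vx e a g - off0 d M vx e a g) := by
  have := PDFin_Kex_row (e := e) hd h a
  rw [← Finset.add_sum_erase _ _ (Finset.mem_univ a)] at this
  simp only [K0, Matrix.of_apply, if_true, Finset.sum_sub_distrib]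
  linarith

theorem K0_close (hd : 3 ≤ d) (hn : 1 ≤ n) (he : e = 1 ∨ e = -1) (h : GInv n d vx ⊥ univ) {M : ℕ}
    (hM : 1 ≤ M) (a b : ι) :
    |(K0 d M vx e : Matrix ι ι ℝ) a b - Kex d vx e a b| ≤ (Fintype.card ι : ℝ) / M := by
  have hM0 : (0 : ℝ) < M := by exact_mod_cast hM
  have hN : (1 : ℝ) ≤ Fintype.card ι := by
    exact_mod_cast Fintype.card_pos_iff.2 ⟨a⟩
  by_cases hab : a = b
  · subst hab
    rw [PDFin_K0_diag hd h, abs_of_nonneg (Finset.sum_nonneg fun g hg =>
      (PDFin_off hd hn h hM (Finset.ne_of_mem_erase hg).symm).1)]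
    refine (Finset.sum_le_card_nsmul _ _ (1 / (M : ℝ)) fun g hg =>
      (PDFin_off hd hn h hM (Finset.ne_of_mem_erase hg).symm).2.1).trans ?_
    rw [nsmul_eq_mul, mul_one_div]
    refine div_le_div_of_nonneg_right ?_ hM0.le
    exact_mod_cast Finset.card_le_univ _
  · obtain ⟨h1, h2, -⟩ := PDFin_off (e := e) hd hn h hM hab
    have : (K0 d M vx e : Matrix ι ι ℝ) a b = off0 d M vx e a b := by simp [K0, hab]
    rw [this, abs_sub_comm, abs_of_nonneg h1]
    exact h2.trans (div_le_div_of_nonneg_right hN hM0.le)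

/-- the quadratic form of a symmetric matrix with zero row sums -/
theorem PDFin_lap (L : Matrix ι ι ℝ) (hs : ∀ a b, L a b = L b a) (hr : ∀ a, ∑ b, L a b = 0) (z : ι → ℝ) :
    2 * (z ⬝ᵥ (L *ᵥ z)) = ∑ a, ∑ b, -L a b * (z a - z b) ^ 2 := by
  have h1 : ∑ a, ∑ b, L a b * z a ^ 2 = 0 := by
    simp only [← Finset.sum_mul, hr, zero_mul, Finset.sum_const_zero]
  have h2 : ∑ a, ∑ b, L a b * z b ^ 2 = 0 := by
    rw [Finset.sum_comm]
    simp only [← Finset.sum_mul, fun a b => hs a b]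
    simp only [hr, zero_mul, Finset.sum_const_zero]
  have h3 : ∀ a b, -L a b * (z a - z b) ^ 2
      = 2 * (z a * (L a b * z b)) - L a b * z a ^ 2 - L a b * z b ^ 2 := fun a b => by ring
  simp only [h3, Finset.sum_sub_distrib, h1, h2, sub_zero, dotProduct, Matrix.mulVec, Finset.mul_sum]

theorem PDFin_K0_symm (M : ℕ) (a b : ι) : (K0 d M vx e : Matrix ι ι ℝ) a b = K0 d M vx e b a := by
  by_cases hab : a = b
  · rw [hab]
  · simp only [K0, Matrix.of_apply, hab, Ne.symm hab, if_false, off0, eq_comm]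

theorem PDFin_K0_row (M : ℕ) (a : ι) : ∑ b, (K0 d M vx e : Matrix ι ι ℝ) a b = e := by
  rw [← Finset.add_sum_erase _ _ (Finset.mem_univ a),
    Finset.sum_congr rfl (g := fun b => off0 d M vx e a b) fun b hb => by
      simp [K0, (Finset.ne_of_mem_erase hb).symm]]
  simp [K0]

theorem PDFin_K0_form (hd : 3 ≤ d) (hn : 1 ≤ n) (h : GInv n d vx ⊥ univ) {M : ℕ} (hM : 1 ≤ M)
    (z : ι → ℝ) : z ⬝ᵥ (Kex d vx e *ᵥ z) ≤ z ⬝ᵥ (K0 d M vx e *ᵥ z) ∧
      ∀ a b, vx a ≠ vx b → z a ≠ z b → z ⬝ᵥ (Kex d vx e *ᵥ z) < z ⬝ᵥ (K0 d M vx e *ᵥ z) := by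
  have hl := PDFin_lap (K0 d M vx e - Kex d vx e) (fun a b => by
      rw [Matrix.sub_apply, Matrix.sub_apply, PDFin_K0_symm]
      simp only [Kex, Matrix.of_apply, eq_comm])
    (fun a => by
      simp only [Matrix.sub_apply, Finset.sum_sub_distrib, PDFin_K0_row, PDFin_Kex_row hd h, sub_self]) z
  rw [Matrix.sub_mulVec, dotProduct_sub] at hl
  have hw : ∀ a b, a ≠ b → -(K0 d M vx e - Kex d vx e : Matrix ι ι ℝ) a b
      = Kex d vx e a b - off0 d M vx e a b := fun a b hab => by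
    simp [K0, hab]
  have hnn : ∀ a b, 0 ≤ -(K0 d M vx e - Kex d vx e : Matrix ι ι ℝ) a b * (z a - z b) ^ 2 := fun a b => by
    by_cases hab : a = b
    · simp [hab]
    · rw [hw a b hab]
      exact mul_nonneg (PDFin_off hd hn h hM hab).1 (sq_nonneg _)
  constructor
  · have := Finset.sum_nonneg (s := univ) fun a _ => Finset.sum_nonneg (s := univ) fun b _ => hnn a b
    linarith
  · intro a b hv hz
    have hab : a ≠ b := fun h => hv (by rw [h])
    have : 0 < ∑ a, ∑ b, -(K0 d M vx e - Kex d vx e : Matrix ι ι ℝ) a b * (z a - z b) ^ 2 := by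
      refine Finset.sum_pos' (fun a _ => Finset.sum_nonneg fun b _ => hnn a b) ⟨a, Finset.mem_univ _, ?_⟩
      refine Finset.sum_pos' (fun b _ => hnn a b) ⟨b, Finset.mem_univ _, ?_⟩
      rw [hw a b hab]
      exact mul_pos ((PDFin_off hd hn h hM hab).2.2 hv) (sq_pos_of_ne_zero (sub_ne_zero.2 hz))
    linarith

theorem K0_good (hd : 3 ≤ d) (hn : 1 ≤ n) (he : e = 1 ∨ e = -1) (h : GInv n d vx ⊥ univ) {M : ℕ}
    (hM : 1 ≤ M) :
    Good (pp d) univ e (K0 d M vx e) ∧ PDInv d e vx ⊥ univ (K0 d M vx e) := by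
  obtain ⟨hp0, hp2, h3, h4⟩ := pp_facts hd
  obtain ⟨hg, hF⟩ := Kex_good hd hn he h
  refine ⟨⟨hp0.le, hp2, he, PDFin_K0_symm M, fun a b ha => absurd (Finset.mem_univ a) ha,
    fun a _ => PDFin_K0_row M a, fun z hz hz0 => ?_⟩, fun x hx z hz hz0 => ?_⟩
  · have := hg.psd0 z hz hz0
    have := (PDFin_K0_form (e := e) hd hn h hM z).1
    linarith
  · obtain ⟨f1, f2⟩ := hF x hx z hz0
    obtain ⟨g1, g2⟩ := PDFin_K0_form (e := e) hd hn h hM z
    have hq : 0 < 1 - pp d ^ 2 := by nlinarith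
    have hdiff : Fq d e vx ⊥ univ (K0 d M vx e) x z = Fq d e vx ⊥ univ (Kex d vx e) x z
        + (z ⬝ᵥ (K0 d M vx e *ᵥ z) - z ⬝ᵥ (Kex d vx e *ᵥ z)) / (1 - pp d ^ 2) := by
      unfold Fq
      ring
    rw [hdiff]
    have hnn : 0 ≤ (z ⬝ᵥ (K0 d M vx e *ᵥ z) - z ⬝ᵥ (Kex d vx e *ᵥ z)) / (1 - pp d ^ 2) :=
      div_nonneg (by linarith) hq.le
    refine ⟨by linarith, fun hx0 => ?_⟩
    by_cases hz1 : z = 0
    · have := f2 hx0 hz1
      linarith
    · have hex : ∃ a b, vx a ≠ vx b ∧ z a ≠ z b := by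
        by_contra hcon
        push Not at hcon
        -- two different vertices
        have hsurj : ∀ v, ∃ c, vx c = v := fun v => by
          have : 0 < (univ.filter fun h => vx h = v).card := by rw [h.fib v]; omega
          obtain ⟨c, hc⟩ := Finset.card_pos.1 this
          exact ⟨c, (Finset.mem_filter.1 hc).2⟩
        have htwo : ∀ u : V, ∃ v, v ≠ u := fun u => by
          by_contra hc
          push Not at hc
          apply hx0
          funext v
          have : ∑ w, x w = x u := by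
            rw [Finset.sum_eq_single u (fun w _ hw => absurd (hc w) hw) (by simp)]
          rw [hc v, ← this, hx]
          rfl
        have hconst : ∀ a b, z a = z b := fun a b => by
          by_cases hv : vx a = vx b
          · obtain ⟨v, hv'⟩ := htwo (vx a)
            obtain ⟨c, rfl⟩ := hsurj v
            rw [← hcon c a hv', hcon c b (by rw [← hv]; exact hv')]
          · exact hcon a b hv
        apply hz1
        funext a
        rw [Finset.sum_congr rfl (fun b _ => hconst b a), Finset.sum_const, Finset.card_univ,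
          nsmul_eq_mul] at hz0
        have hN : (0 : ℝ) < Fintype.card ι := by
          exact_mod_cast Fintype.card_pos_iff.2 ⟨a⟩
        exact (mul_eq_zero.1 hz0).resolve_left hN.ne'
      obtain ⟨a, b, hv, hz'⟩ := hex
      have := div_pos (sub_pos.2 (g2 a b hv hz')) hq
      linarith

end Crest.Agent.R62
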