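import Crest.Agent.R62.ZStepAux2

/-! Step inequality for the mixed moment `Z = Tr K² (J + 1)`. -/

set_option autoImplicit false
open Classical
open scoped Matrix
open Finset

noncomputable section
namespace Crest.Agent.R62

namespace ZS

variable {ι : Type} [Fintype ι] [DecidableEq ι] {p e : ℝ} {S : Finset ι} {K J : Matrix ι ι ℝ}
  {s L lam r dd om ga : ℝ}

def uu (K J : Matrix ι ι ℝ) (a : ι) : ℝ := √(1 + bet K a + bet J a)
def xd (K J : Matrix ι ι ℝ) (a : ι) : ℝ := |K a a| + |J a a|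
def dl (K J : Matrix ι ι ℝ) (a b : ι) : ℝ := |K a b| + |J a b| + xd K J a * xd K J b

lemma uu_sq (hK : Good p S e K) (hJ : Good p S (-e) J) (a : ι) :
    uu K J a ^ 2 = 1 + bet K a + bet J a :=
  Real.sq_sqrt (by linarith [hK.bet_nonneg a, hJ.bet_nonneg a])

lemma ctx (hK : Good p S e K) (hJ : Good p S (-e) J) (bK : Bd S K s L lam r dd om ga)
    (bJ : Bd S J s L lam r dd om ga) {w : ι → ι → ℝ} {eF eE er ε δ ζ q : ℝ} (hw : Wt S K w eF eE er)
    (hδ : 1 ≤ δ) (hdd : dd ≤ δ) (hδs : δ ^ 2 ≤ s) (hsE : s ≤ eE) (hom : om ≤ 4 * s) (hζ : 0 ≤ ζ)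
    (hq : 0 ≤ q) (q1 : q ≤ ε * ζ) (q2 : δ * q ≤ ε * s * ζ) (h1 : eE * L ≤ ε * s ^ 2)
    (h2 : δ * L ≤ ε * s) (h4 : eE * L ≤ ε * ζ) (h5 : s ^ 2 ≤ ε * ζ) (h6 : L * r * s ≤ ε * ζ)
    (h7 : L * δ ^ 2 * r ^ 2 ≤ ε * ζ) (h8 : L * δ * s ≤ ε * ζ) (h10 : δ ^ 3 * r ^ 2 ≤ ε * ζ) :
    Ctx S w (uu K J) (xd K J) (dl K J) s δ r eE L (4 * L * ζ + 4 * s ^ 2) (2 * q + 2 * L * s)
      (ε * s ^ 2 * ζ) := by
  have hs := bK.s_ge
  have hL := bK.L_ge
  have hr := bK.r_ge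
  have hs0 : 0 ≤ s := by linarith
  have hL0 : 0 ≤ L := by linarith
  have hδ0 : 0 ≤ δ := by linarith
  have hE := hw.eE_nonneg
  have hs2 := sq_nonneg s
  have hx0 : ∀ a, 0 ≤ xd K J a := fun a => add_nonneg (abs_nonneg _) (abs_nonneg _)
  have hdδ : dd ^ 2 ≤ δ ^ 2 := pow_le_pow_left₀ bK.dd_nonneg hdd 2
  have hom2 : om ^ 2 ≤ (4 * s) ^ 2 := pow_le_pow_left₀ bK.om_nonneg hom 2
  have hr2 : 1 ≤ r ^ 2 := one_le_pow₀ hr
  have u4 : ∑ a ∈ S, uu K J a ^ 4 ≤ 100 * s ^ 2 := by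
    have g : ∑ a ∈ S, uu K J a ^ 4 ≤ 3 * ∑ _a ∈ S, (1 : ℝ) + 3 * Vs 0 S K + 3 * Vs 0 S J := by
      simp only [Vs, mul_sum, ← sum_add_distrib, sub_zero]
      refine sum_le_sum fun a _ => ?_
      rw [show uu K J a ^ 4 = (uu K J a ^ 2) ^ 2 by ring, uu_sq hK hJ]
      nlinarith [sq_nonneg (1 - bet K a), sq_nonneg (1 - bet J a), sq_nonneg (bet K a - bet J a)]
    rw [sum_const, nsmul_eq_mul, ← bK.hs] at g
    linarith [bK.W, bJ.W]
  have ur : ∀ a, uu K J a ^ 2 ≤ 3 * r ^ 2 := fun a => by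
    linarith [uu_sq hK hJ a, bK.beta a, bJ.beta a]
  have x2 : ∑ a ∈ S, xd K J a ^ 2 ≤ 4 * δ ^ 2 := by
    have g : ∑ a ∈ S, xd K J a ^ 2 ≤ 2 * Dh K + 2 * Dh J := by
      simp only [hK.Dh_eq, hJ.Dh_eq, mul_sum, ← sum_add_distrib, xd]
      exact sum_le_sum fun a _ => by
        nlinarith [sq_nonneg (|K a a| - |J a a|), sq_abs (K a a), sq_abs (J a a)]
    linarith [bK.D, bJ.D]
  have hdiag : ∀ M : Matrix ι ι ℝ, Dh M ≤ dd ^ 2 → ∀ a, |M a a| ≤ δ := fun M hM a =>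
    abs_le_of_sq_le_sq ((single_le_sum (f := fun c => M c c ^ 2) (fun _ _ => sq_nonneg _)
      (mem_univ a)).trans (hM.trans hdδ)) hδ0
  have m := fun {a b : ℝ} (h : a ≤ b) => mul_le_mul_of_nonneg_left h hs2
  have m' := fun {a b : ℝ} (h : a ≤ b) => mul_le_mul_of_nonneg_left h hζ
  have k1 : eE * 1 ≤ eE * L := mul_le_mul_of_nonneg_left hL hE
  have k2 : 1 * (δ * s) ≤ L * (δ * s) := mul_le_mul_of_nonneg_right hL (by positivity)
  have k3 : L * δ * 1 ≤ L * δ * s := mul_le_mul_of_nonneg_left (by linarith) (by positivity)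
  have k4 : L * s * 1 ≤ L * s * r := mul_le_mul_of_nonneg_left hr (by positivity)
  have n2 : eE * (4 * L * ζ + 4 * s ^ 2) ≤ 8 * (ε * s ^ 2 * ζ) := by linarith [m' h1, m h4, m k1]
  refine ⟨bK.hs, hs, hδ, hδs, hr, hL, hE, by positivity, by positivity, hw.nonneg, hw.le, hw.symm,
    hw.op, fun a => ?_, u4, ur, hx0, x2, fun a => ?_, fun a b => ?_, fun a b => ?_, ?_, ?_,
    by linarith [m h5], n2, ?_, ?_, ?_, ?_, ?_, ?_, ?_, ?_⟩
  · exact Real.one_le_sqrt.2 (by linarith [hK.bet_nonneg a, hJ.bet_nonneg a])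
  · linarith [hdiag K bK.D a, hdiag J bJ.D a, show xd K J a = |K a a| + |J a a| from rfl]
  · exact add_nonneg (add_nonneg (abs_nonneg _) (abs_nonneg _)) (mul_nonneg (hx0 a) (hx0 b))
  · rw [dl, dl, hK.symm a b, hJ.symm a b, mul_comm]
  · refine (sq3 S _ _ _).trans ?_
    have g := prod_le S (by positivity) (fun a => sq_nonneg (xd K J a)) x2 x2
    have g2 : δ ^ 2 * δ ^ 2 ≤ s * s := mul_le_mul hδs hδs (sq_nonneg δ) hs0
    simp only [sq_abs, mul_pow, ← hK.Tr2_eq', ← hJ.Tr2_eq']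
    linarith [bK.T2, bJ.T2]
  · have g1 : ∑ a ∈ S, (xd K J a * uu K J a) ^ 2 ≤ 12 * (δ ^ 2 * r ^ 2) := by
      calc _ ≤ ∑ a ∈ S, 3 * r ^ 2 * xd K J a ^ 2 := sum_le_sum fun a _ => by
            linarith [mul_le_mul_of_nonneg_right (ur a) (sq_nonneg (xd K J a))]
        _ ≤ 3 * r ^ 2 * (4 * δ ^ 2) := by
            rw [← mul_sum]
            exact mul_le_mul_of_nonneg_left x2 (by positivity)
        _ = _ := by ring
    have g2 := prod_le S (by positivity) (fun a => sq_nonneg (xd K J a * uu K J a)) g1 g1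
    have g3 := sq3 S (fun a b => |K a b| * uu K J a * uu K J b)
      (fun a b => |J a b| * uu K J a * uu K J b)
      (fun a b => xd K J a * uu K J a * (xd K J b * uu K J b))
    have g4 : ∀ a b, dl K J a b * uu K J a * uu K J b = |K a b| * uu K J a * uu K J b +
        |J a b| * uu K J a * uu K J b + xd K J a * uu K J a * (xd K J b * uu K J b) :=
      fun a b => by rw [dl]; ring
    simp only [g4]
    simp only [mul_pow (xd K J _ * uu K J _)] at g3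
    linarith [Kuu hK bK.beta u4, Kuu hJ bJ.beta u4]
  · linarith [m' (mul_le_mul_of_nonneg_left h2 hs0), m h8, m k2]
  · exact (mul_le_mul_of_nonneg_right hsE (by positivity)).trans n2
  · linarith [mul_le_mul_of_nonneg_left q2 hs0, m h8, m k3]
  · linarith [m q1, m h6, m k4]
  · linarith [m h6, m k4]
  · linarith [m h4]
  · linarith [m h6, m h7, m h8]
  · linarith [m h10]

end ZS

open ZS in
theorem Z_step : ∃ C : ℝ, 0 < C ∧ ∀ {ι : Type} [Fintype ι] [DecidableEq ι] {p e : ℝ} {S : Finset ι} {K J : Matrix ι ι ℝ}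
      {s L lam r dd om ga : ℝ}, Good p S e K → Good p S (-e) J → Bd S K s L lam r dd om ga →
      Bd S J s L lam r dd om ga →
      ∀ {w : ι → ι → ℝ} {eF eE er ε δ t ζ : ℝ}, Wt S K w eF eE er → Wt S J w eF eE er → 0 ≤ ε →
      1 ≤ δ → dd ≤ δ → δ ^ 2 ≤ s → s ≤ eE → lam ≤ s → om ≤ 4 * s → Zz S K J ≤ ζ →
      |Tr 1 K| ≤ t → |Tr 1 J| ≤ t → Tr 2 K ≤ (1 + ε) * s ^ 2 →
      eE * L ≤ ε * s ^ 2 → δ * L ≤ ε * s → δ ^ 2 * L ^ 3 ≤ ε ^ 2 * s ^ 2 * ζ → eE * L ≤ ε * ζ →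
      s ^ 2 ≤ ε * ζ → L * r * s ≤ ε * ζ → L * δ ^ 2 * r ^ 2 ≤ ε * ζ → L * δ * s ≤ ε * ζ →
      L ^ 3 ≤ ε ^ 2 * ζ → δ ^ 3 * r ^ 2 ≤ ε * ζ → t ≤ ε * s ^ 2 → 1 ≤ ε * s ^ 2 →
      ∑ a ∈ S, ∑ b ∈ S, w a b * (Zz (del S a b) (upd e K a b) (upd (-e) J a b) - Zz S K J) ≤
        -2 * s ^ 2 * Zz S K J + C * ε * s ^ 2 * ζ := by
  refine ⟨10 ^ 11, by norm_num, ?_⟩
  intro ι _ _ p e S K J s L lam r dd om ga hK hJ bK bJ w eF eE er ε δ t ζ hw hw' hε hδ hdd hδs hsE _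
    hom hZ t1 t2 hT h1 h2 h3 h4 h5 h6 h7 h8 h9 h10 h11 h12
  have hZ0 := Zz_nonneg hK hJ
  have hζ : 0 ≤ ζ := hZ0.trans hZ
  have hL := bK.L_ge
  have hL0 : 0 ≤ L := by linarith
  have hs0 : 0 ≤ s := by linarith [bK.s_ge]
  obtain ⟨q, hq, hq2⟩ : ∃ q : ℝ, 0 ≤ q ∧ q ^ 2 = L ^ 3 * ζ :=
    ⟨√(L ^ 3 * ζ), Real.sqrt_nonneg _, Real.sq_sqrt (by positivity)⟩
  have c := ctx hK hJ bK bJ hw hδ hdd hδs hsE hom hζ hq
    (le_of_sq_le_sq (by linarith [mul_le_mul_of_nonneg_right h9 hζ]) (by positivity))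
    (le_of_sq_le_sq (by
      rw [mul_pow, hq2]
      linarith [mul_le_mul_of_nonneg_right h3 hζ]) (by positivity)) h1 h2 h4 h5 h6 h7 h8 h10
  have he := hK.sign
  have he' := hJ.sign
  have hx0 := c.x_nonneg
  have XK : XF w (xd K J) (dl K J) e (Xm e K) :=
    xf_Xm he hw.supp (fun a => le_add_of_nonneg_right (abs_nonneg _)) fun a b => by
      have := mul_le_mul (le_add_of_nonneg_right (abs_nonneg (J a a)) : |K a a| ≤ xd K J a)
        (le_add_of_nonneg_right (abs_nonneg (J b b)) : |K b b| ≤ xd K J b) (abs_nonneg _) (hx0 a)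
      rw [dl, xd, xd, abs_mul]
      linarith [abs_nonneg (J a b)]
  have XJ : XF w (xd K J) (dl K J) (-e) (Xm (-e) J) :=
    xf_Xm he' hw'.supp (fun a => le_add_of_nonneg_left (abs_nonneg _)) fun a b => by
      have := mul_le_mul (le_add_of_nonneg_left (abs_nonneg (K a a)) : |J a a| ≤ xd K J a)
        (le_add_of_nonneg_left (abs_nonneg (K b b)) : |J b b| ≤ xd K J b) (abs_nonneg _) (hx0 a)
      rw [dl, xd, xd, abs_mul]
      linarith [abs_nonneg (K a b)]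
  obtain ⟨B, hB⟩ := hJ.exists_fac
  have sK := symm_of_good hK
  have sJ := symm_of_good hJ
  have oK := bK.op
  have oJ := opB_add (S := S) bJ.op hL
  have rK := row_of_good hK
  have rJ := row_of_good hJ
  have rT := rJ.add_idS
  have eZ : Zz S K J = (K * K * (J + idS S)).trace := rfl
  have eJ : J * K = (J + idS S) * K - K := by rw [Matrix.add_mul, idS_mul hK, add_sub_cancel_right]
  have cT : ∀ a, cn (J + idS S) a ≤ (2 * uu K J a) ^ 2 := fun a => by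
    linarith [cn_add_idS (S := S) J a, cn_eq hJ a, uu_sq hK hJ a, hK.bet_nonneg a, hJ.bet_nonneg a]
  have key := fun a b ha hb hab hD hD' => Zz_upd hK hJ (a := a) (b := b) ha hb hab hD hD'
  generalize J + idS S = T at hB oJ rT eZ eJ cT key
  set u := uu K J
  have u0 := c.u0
  have sT : Tᵀ = T := by rw [hB, Matrix.transpose_mul, Matrix.transpose_transpose]
  have sKK : (K * K)ᵀ = K * K := by rw [Matrix.transpose_mul, sK]
  have sTK : (T * K)ᵀ = K * T := by rw [Matrix.transpose_mul, sK, sT]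
  have sKJ : (K * J)ᵀ = J * K := by rw [Matrix.transpose_mul, sK, sJ]
  have cK : ∀ a, cn K a ≤ u a ^ 2 := fun a => by
    linarith [cn_eq hK a, uu_sq hK hJ a, hJ.bet_nonneg a]
  have cJ : ∀ a, cn J a ≤ u a ^ 2 := fun a => by
    linarith [cn_eq hJ a, uu_sq hK hJ a, hK.bet_nonneg a]
  have Lu : ∀ a, 0 ≤ L * u a := fun a => mul_nonneg hL0 (u0 a)
  have cL : ∀ {A M : Matrix ι ι ℝ} {l : ℝ}, OpB A l → l ≤ 2 * L → 0 ≤ l →
      (∀ a, cn M a ≤ u a ^ 2) → ∀ a, cn (A * M) a ≤ (2 * L * u a) ^ 2 := fun h g g' hM a => by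
    rw [mul_pow]
    exact (cn_mul h _ a).trans (mul_le_mul (pow_le_pow_left₀ g' g 2) (hM a) (cn_nonneg _ _)
      (sq_nonneg _))
  have cKK := cL oK (by linarith) hL0 cK
  have cKJ := cL oK (by linarith) hL0 cJ
  have cTK := cL oJ le_rfl (by linarith) cK
  have two : ∀ {A A' M : Matrix ι ι ℝ} {k : ℝ}, 0 ≤ k → Aᵀ = A' → (∀ a, cn A a ≤ (k * u a) ^ 2) →
      (∀ a, cn M a ≤ u a ^ 2) → ∀ a b, |(A' * M) a b| ≤ k * u a * u b :=
    fun hk e hA hM a b => e ▸ tmul_le (mul_nonneg hk (u0 a)) (u0 b) (hA a) (hM b)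
  have one : ∀ {A A' : Matrix ι ι ℝ} {k : ℝ}, 0 ≤ k → Aᵀ = A' → (∀ a, cn A a ≤ (k * u a) ^ 2) →
      ∀ a b, |A' a b| ≤ k * u a := fun hk e hA a b => e ▸ entry_le (mul_nonneg hk (u0 a)) (hA a) b
  have cK1 : ∀ a, cn K a ≤ (1 * u a) ^ 2 := by simpa using cK
  have cJ1 : ∀ a, cn J a ≤ (1 * u a) ^ 2 := by simpa using cJ
  have cK2 : ∀ a, cn K a ≤ (2 * u a) ^ 2 := fun a => by linarith [cK a, sq_nonneg (u a)]
  have cJ2 : ∀ a, cn J a ≤ (2 * u a) ^ 2 := fun a => by linarith [cJ a, sq_nonneg (u a)]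
  have L2 : 0 ≤ 2 * L := by linarith
  have eKT : ∀ a b, |(K * T) a b| ≤ 2 * u a * u b := fun a b => by
    have := tmul_le (u0 a) (mul_nonneg zero_le_two (u0 b)) (cK a) (cT b)
    rw [sK] at this
    linarith
  have eKKT : ∀ a b, |(K * K * T) a b| ≤ 2 * L * u a * u b := fun a b => by
    have := tmul_le (Lu a) (mul_nonneg zero_le_two (u0 b)) ((cn_mul oK K a).trans
      ((mul_le_mul_of_nonneg_left (cK a) (sq_nonneg L)).trans_eq (mul_pow _ _ _).symm)) (cT b)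
    rw [sKK] at this
    linarith
  have eKTK := two L2 sTK cTK cK
  have eJKK := two L2 sKJ cKJ cK
  have eKKJ := two L2 sKK cKK cJ
  have eKK := two zero_le_one sK cK1 cK
  have eKJ := two zero_le_one sK cK1 cJ
  have eJK := two zero_le_one sJ cJ1 cK
  have eK := one zero_le_one sK cK1
  have eJ1 := one zero_le_one sJ cJ1
  -- traces
  set Z := Zz S K J
  have tKTK : (K * T * K).trace = Z := by rw [Matrix.trace_mul_cycle, eZ]
  have tKK : (K * K).trace = Tr 2 K := by rw [Tr, sq]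
  have tJKK : (J * K * K).trace = Z - Tr 2 K := by
    rw [eJ, Matrix.sub_mul, Matrix.trace_sub, tKK, Matrix.trace_mul_cycle, tKTK]
  have tKKJ : (K * K * J).trace = Z - Tr 2 K := by rw [Matrix.trace_mul_cycle, tJKK]
  have tJK : (J * K).trace = (K * J).trace := Matrix.trace_mul_comm _ _
  have tr3 : ∀ {A : Matrix ι ι ℝ} {e' : ℝ}, Good p S e' A → ∀ M N : Matrix ι ι ℝ,
      ∑ a ∈ S, (A * M * N) a a = (A * M * N).trace := fun h M N => by
    rw [Matrix.mul_assoc, tr_eq h]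
  have M1 := M11_ge hK hJ
  have M2 : (K * J).trace ≤ 100 * s ^ 2 := by
    rw [← tr_eq hK]
    exact (sum_le_sum fun a _ => (le_abs_self _).trans ((eKJ a a).trans_eq (by ring))).trans
      (c.u_pow (k := 2) (by norm_num))
  -- Frobenius norms
  have T0 : 0 ≤ Tr 2 K := fr_good hK ▸ fr_nonneg K
  have fBK : fr (B * K) = Z := by
    rw [fr_eq, Matrix.transpose_mul, sK, ← tKTK, hB]
    simp only [Matrix.mul_assoc]
  have fTK : fr (T * K) ≤ 2 * L * ζ := by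
    rw [hB, Matrix.mul_assoc]
    exact (fr_fac (hB ▸ oJ) L2 _).trans (mul_le_mul_of_nonneg_left (fBK.trans_le hZ) L2)
  have fKJ : fr (K * J) ≤ 4 * L * ζ + 4 * s ^ 2 := by
    rw [← fr_transpose, sKJ, eJ]
    linarith [fr_sub (T * K) K, fr_good hK, bK.T2]
  have f3 : ∀ M : Matrix ι ι ℝ, fr M ≤ 4 * L * ζ + 4 * s ^ 2 →
      fr (K * M) ≤ (2 * q + 2 * L * s) ^ 2 := fun M h => by
    have : 0 ≤ q * (L * s) := by positivity
    linarith [fr_mul oK M, mul_le_mul_of_nonneg_left h (sq_nonneg L)]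
  have Lζ : 0 ≤ L * ζ := by positivity
  have fKKT := (SS_le_fr S _).trans (f3 (K * T) (by
    rw [← sTK, fr_transpose]; linarith [sq_nonneg s]))
  have fKTK := (SS_le_fr S _).trans (f3 (T * K) (by linarith [sq_nonneg s]))
  have fKKJ := (SS_le_fr S _).trans (f3 _ fKJ)
  have fJKK := (SS_le_fr S _).trans ((fr_transpose _).trans_le (f3 _ fKJ))
  rw [Matrix.transpose_mul, sKJ, sK] at fJKK
  rw [← Matrix.mul_assoc] at fKKT fKTK fKKJ
  have fK : ∑ a ∈ S, ∑ b ∈ S, K a b ^ 2 ≤ (2 * s) ^ 2 := by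
    linarith [hK.Tr2_eq', bK.T2, sq_nonneg s]
  have fJ : ∑ a ∈ S, ∑ b ∈ S, J a b ^ 2 ≤ (2 * s) ^ 2 := by
    linarith [hJ.Tr2_eq', bJ.T2, sq_nonneg s]
  have fBKK : fr (B * K * K) * fr (B * K) ≤ (4 * L * ζ + 4 * s ^ 2) ^ 2 := by
    have g1 : fr (B * K * K) ≤ L ^ 2 * Z := by
      rw [← fr_transpose, Matrix.transpose_mul, sK, ← fBK, ← fr_transpose (B * K)]
      exact fr_mul oK _
    calc _ ≤ L ^ 2 * Z * Z := mul_le_mul g1 fBK.le (fr_nonneg _) (by positivity)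
      _ = (L * Z) ^ 2 := by ring
      _ ≤ _ := pow_le_pow_left₀ (by positivity)
          (by linarith [mul_le_mul_of_nonneg_left hZ hL0, sq_nonneg s]) 2
  obtain ⟨a1, a2, a3⟩ := four c.eE_nonneg c.ν_nonneg c.op fBKK
  obtain ⟨b1, b2, b3⟩ := four c.eE_nonneg c.ν_nonneg c.op ((mul_comm _ _).trans_le fBKK)
  obtain ⟨c1, c2, c3⟩ := four c.eE_nonneg c.ν_nonneg c.op
    ((mul_le_mul fKJ fKJ (fr_nonneg _) c.ν_nonneg).trans_eq (sq _).symm)
  rw [show (B * K * K)ᵀ * (B * K) = K * K * T * K by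
    simp only [hB, Matrix.transpose_mul, sK, Matrix.mul_assoc]] at a1 a2 a3
  rw [show (B * K)ᵀ * (B * K * K) = K * T * K * K by
    simp only [hB, Matrix.transpose_mul, sK, Matrix.mul_assoc]] at b1 b2 b3
  rw [sKJ, ← Matrix.mul_assoc] at c1 c2 c3
  have row : ∀ {M : Matrix ι ι ℝ} {k : ℝ}, Row S M k → |k| ≤ 2 →
      |∑ a ∈ S, ∑ b ∈ S, M a b| ≤ 2 * s ^ 2 := fun h hk => by
    rw [h.sum, ← bK.hs, abs_mul, abs_sq]
    exact mul_le_mul_of_nonneg_right hk (sq_nonneg s)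
  have s1 := c.one_block XK a1 a2 a3 (row (((rK.mul rK).mul rT).mul rK)
    (by rcases he with rfl | rfl <;> norm_num)) fKKT eKKT
  have s2 := c.one_block XK b1 b2 b3 (row (((rK.mul rT).mul rK).mul rK)
    (by rcases he with rfl | rfl <;> norm_num)) fKTK eKTK
  have s3 := c.one_block XJ c1 c2 c3 (row (((rJ.mul rK).mul rK).mul rJ)
    (by rcases he with rfl | rfl <;> norm_num)) fJKK eJKK
  have s4 := c.two_block XK XK he he eKK eK fK eKTK fKTK eKT (one L2 sTK cTK)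
  have s5 := c.two_block XJ XK he he' eJK eJ1 fJ eKKJ fKKJ (two zero_le_two sK cK2 cK)
    (one L2 sKK cKK)
  have s6 := c.two_block XK XJ he' he eKJ eK fK eJKK fJKK (two zero_le_two sJ cJ2 cK)
    (one L2 sKJ cKJ)
  have s7 := c.three_block XK XK XJ (EB_bm c.u_ge he zero_le_one eKK eK)
    (EB_bm c.u_ge he' zero_le_one eKJ eK) (EB_bm c.u_ge he zero_le_one eJK eJ1)
  have he2 : e * e = 1 := by rcases he with rfl | rfl <;> norm_num
  rw [tr3 hK, ← eZ] at s1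
  rw [tr3 hK, tKTK] at s2
  rw [tr3 hJ, tJKK] at s3
  rw [tr_eq hK, tr3 hK, tKK, tKTK, he2] at s4
  rw [tr_eq hJ, tr3 hK, tJK, tKKJ, neg_mul, he2] at s5
  rw [tr_eq hK, tr3 hJ, tJKK, mul_neg, he2] at s6
  refine le_trans (le_of_eq ?_) ((add_le_add (add_le_add (add_le_add (add_le_add (add_le_add
    (add_le_add s1 s2) s3) s4) s5) s6) s7).trans ?_)
  · simp only [← sum_add_distrib, ← mul_add]
    refine sum_congr rfl fun a ha => sum_congr rfl fun b hb => ?_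
    by_cases h0 : w a b = 0
    · simp [h0]
    have g1 := hw.supp a b h0
    have g2 := (Alw.Dd_bound he g1).1
    have g3 := (Alw.Dd_bound he' (hw'.supp a b h0)).1
    rw [key a b ha hb g1.1 (by positivity) (by positivity),
      Matrix.trace_mul_cycle (Xm e K a b) (blk K a b), Matrix.mul_assoc _ (Xm (-e) J a b),
      Matrix.trace_mul_comm (Xm e K a b * bm (-e) (K * K * J) (K * K) a b), ← Matrix.mul_assoc]
    ring
  · have hη := c.η0
    have g1 := mul_le_mul_of_nonneg_left M1 hZ0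
    have g3 : Tr 2 K * (K * J).trace ≤ 2 * s ^ 2 * (100 * s ^ 2) :=
      (mul_le_mul_of_nonneg_left M2 T0).trans
        (mul_le_mul_of_nonneg_right bK.T2 (by positivity))
    have g4 := mul_le_mul_of_nonneg_right hT hZ0
    have g5 := mul_le_mul_of_nonneg_left hZ (by positivity : 0 ≤ ε * s ^ 2)
    have g6 := mul_le_mul_of_nonneg_left (t1.trans h11) hZ0
    have g7 := mul_le_mul_of_nonneg_left (t2.trans h11) hZ0
    have g8 := mul_le_mul_of_nonneg_left h12 hZ0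
    have g9 := mul_le_mul_of_nonneg_left bK.T2 (sq_nonneg s)
    rw [← bK.hs] at g1
    linarith [c.n1]

end Crest.Agent.R62
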