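import Crest.Agent.R62.Sig
import Crest.Agent.R62.DStep
import Crest.Agent.R62.VW
import Crest.Agent.R62.Gain
import Crest.Agent.R62.ZStep

/-! Auxiliary material for the step theorem of phase 0: real powers of the scale, bounds read off
the potential, Huber terms. -/

set_option autoImplicit false
open Classical
open scoped Matrix
open Finset

noncomputable section
namespace Crest.Agent.R62

/-- real powers of the scale -/
def Ph0P (μ a : ℝ) : ℝ := μ ^ a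

section P
variable {μ : ℝ}

theorem Ph0P_pos (h : 100 ≤ μ) (a : ℝ) : 0 < Ph0P μ a := Real.rpow_pos_of_pos (by linarith) a
theorem Ph0P_mul (h : 100 ≤ μ) (a b : ℝ) : Ph0P μ a * Ph0P μ b = Ph0P μ (a + b) :=
  (Real.rpow_add (by linarith) a b).symm
theorem Ph0P_pow (h : 100 ≤ μ) (a : ℝ) (k : ℕ) : Ph0P μ a ^ k = Ph0P μ (k * a) := by
  rw [Ph0P, Ph0P, ← Real.rpow_natCast, ← Real.rpow_mul (by linarith), mul_comm]
theorem Ph0P_le (h : 100 ≤ μ) {a b : ℝ} (hab : a ≤ b) : Ph0P μ a ≤ Ph0P μ b :=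
  Real.rpow_le_rpow_of_exponent_le (by linarith) hab
theorem Ph0P_nat (μ : ℝ) (k : ℕ) : μ ^ k = Ph0P μ k := (Real.rpow_natCast μ k).symm
theorem Ph0P_zero (μ : ℝ) : Ph0P μ 0 = 1 := Real.rpow_zero μ
theorem Ph0P_one (μ : ℝ) : Ph0P μ 1 = μ := Real.rpow_one μ
theorem Ph0P_one_le (h : 100 ≤ μ) {a : ℝ} (ha : 0 ≤ a) : 1 ≤ Ph0P μ a :=
  Ph0P_zero μ ▸ Ph0P_le h ha
/-- one factor `μ` absorbs a constant -/
theorem Ph0P_const (h : 100 ≤ μ) {c a b : ℝ} (hc : c ≤ μ) (hab : a + 1 ≤ b) :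
    c * Ph0P μ a ≤ Ph0P μ b := by
  refine le_trans ?_ (Ph0P_le h hab)
  rw [← Ph0P_mul h, Ph0P_one, mul_comm]
  exact mul_le_mul_of_nonneg_left hc (Ph0P_pos h a).le
theorem Ph0P_100 (h : 100 ≤ μ) {a b : ℝ} (hab : a + 1 ≤ b) : 100 * Ph0P μ a ≤ Ph0P μ b :=
  Ph0P_const h h hab
theorem Ph0P_div (h : 100 ≤ μ) (a b : ℝ) : Ph0P μ a / Ph0P μ b = Ph0P μ (a - b) :=
  (Real.rpow_sub (by linarith) a b).symm
theorem Ph0P_exists (h : 100 ≤ μ) {s : ℝ} (hs : 0 < s) : ∃ x, s = Ph0P μ x :=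
  ⟨Real.logb μ s, (Real.rpow_logb (by linarith) (by linarith) hs).symm⟩
theorem Ph0P_le_iff (h : 100 ≤ μ) {a b : ℝ} : Ph0P μ a ≤ Ph0P μ b ↔ a ≤ b :=
  Real.rpow_le_rpow_left_iff (by linarith)

end P

/-- monomial inequalities -/
macro "ph0_mono " h:term : tactic =>
  `(tactic| (simp only [Ph0P_pow $h, Ph0P_mul $h, Ph0P_le_iff $h]; push_cast; linarith))

section
variable {ι : Type} [Fintype ι] [DecidableEq ι] {p e : ℝ} {S : Finset ι} {K J : Matrix ι ι ℝ}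

theorem Ph0_Bd_mono {s L lam r dd om ga r' om' ga' : ℝ} (h : Bd S K s L lam r dd om ga)
    (h1 : r ≤ r') (h2 : om ≤ om') (h3 : ga ≤ ga') : Bd S K s L lam r' dd om' ga' :=
  { h with
    r_ge := h.r_ge.trans h1
    om_nonneg := h.om_nonneg.trans h2
    ga_nonneg := h.ga_nonneg.trans h3
    beta := fun c => (h.beta c).trans (pow_le_pow_left₀ (zero_le_one.trans h.r_ge) h1 2)
    W := h.W.trans (pow_le_pow_left₀ h.om_nonneg h2 2)
    G := h.G.trans (pow_le_pow_left₀ h.ga_nonneg h3 2) }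

theorem Ph0_Tr2_nonneg (h : Good p S e K) : 0 ≤ Tr 2 K := by
  rw [h.Tr2_eq']
  positivity

theorem Ph0_Tr4_nonneg (h : Good p S e K) : 0 ≤ Tr 4 K := by
  rw [h.Tr_eq (by norm_num)]
  refine sum_nonneg fun c _ => ?_
  rw [show 4 = 2 * 2 from rfl, h.pow_diag]
  positivity

/-- the bounds read off the potential of phase 0 -/
structure Ph0B (μ x n : ℝ) (S : Finset ι) (K J : Matrix ι ι ℝ) : Prop where
  bd : Bd S K (Ph0P μ x) (Ph0P μ 1198) (Ph0P μ 1280) (Ph0P μ 641) (Ph0P μ 300) (4 * Ph0P μ x)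
    (Ph0P μ 2479)
  T1p : Tr 1 K ≤ Ph0P μ 1480
  T1 : |Tr 1 K| ≤ Ph0P μ 1493
  y : |yy S K| ≤ Ph0P μ 2697
  T3m : 37 / 20 * n ≤ Tr 3 K
  T3 : |Tr 3 K| ≤ Ph0P μ 4001
  Z : Zz S K J ≤ Ph0P μ (740 + 2 * x)

theorem Ph0_bounds {e' μ x n d : ℝ} (hμ : 100 ≤ μ) (hd : 2 * (d ^ 2 + 1) ≤ μ)
    (hn1 : Ph0P μ 4000 ≤ n) (hn2 : n ≤ 2 * Ph0P μ 4000) (hx : 1610 ≤ x)
    (hs : Ph0P μ x ^ 2 = S.card) (hN : (S.card : ℝ) ≤ n * d) (hK : Good p S e K)
    (hJ : Good p S e' J) (h : PhiA (par0 μ n d S.card) S K J ≤ 1) : Ph0B μ x n S K J := by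
  have pos := Ph0P_pos hμ
  have hn : 0 < n := (pos _).trans_le hn1
  have hN0 : (0 : ℝ) < S.card := hs ▸ pow_pos (pos x) 2
  obtain ⟨h4, hV, hD, hZ, h1p, h1m, hym, hyp, h3m, h3p⟩ :=
    PhiA_bounds (par_pos (by linarith) hn hN0).1 hK hJ h
  simp only [par0, G1, Ph0P_nat μ, Nat.cast_ofNat, forall_const] at h4 hV hD hZ h1p h1m hym hyp h3m h3p
  have hG : Ph0P μ 700 * n / Ph0P μ 3220 ≤ 2 * Ph0P μ 1480 := by
    rw [div_le_iff₀ (pos _), mul_assoc, Ph0P_mul hμ, show (1480 : ℝ) + 3220 = 700 + 4000 by norm_num,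
      ← Ph0P_mul hμ]
    nlinarith [pos 700]
  have hc : 0 ≤ Ph0P μ 700 * n / 2 * (1 / S.card - 1 / (n * d)) :=
    mul_nonneg (by have := pos 700; positivity) (sub_nonneg.2 (one_div_le_one_div_of_le hN0 hN))
  have hT1p : Tr 1 K ≤ Ph0P μ 1480 := by linarith [pos 1480]
  have hy : |yy S K| ≤ Ph0P μ 2697 := by
    have := Ph0P_100 hμ (a := 2696) (b := 2697) (by norm_num)
    rw [abs_le]
    constructor <;> linarith [pos 2696]
  have hy' : Ph0P μ 2697 ≤ Ph0P μ x ^ 2 := by ph0_mono hμ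
  refine ⟨Ph0_Bd_mono (Bd.ofA hK hs ?_ (Ph0P_one_le hμ (by norm_num)) (Ph0P_one_le hμ (by norm_num))
    (pos _).le ?_ ?_ ?_ ?_) ?_ ?_ ?_, hT1p, ?_, hy, by linarith, ?_, ?_⟩
  · have := Ph0P_100 hμ (a := 0) (b := x) (by linarith)
    rw [Ph0P_zero] at this
    linarith
  · have := (abs_le.1 hy).1
    rw [yy] at this
    linarith
  · exact h4.trans (by ph0_mono hμ)
  · exact hV.trans (by ph0_mono hμ)
  · exact hD.trans (by ph0_mono hμ)
  · rw [Real.sqrt_le_left (pos _).le, Ph0P_pow hμ]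
    exact Ph0P_const hμ (by linarith) (by norm_num)
  · have : Ph0P μ 1280 ≤ Ph0P μ x := Ph0P_le hμ (by linarith)
    linarith
  · rw [Ph0P_pow hμ, Ph0P_mul hμ]
    have h1 := Ph0P_100 hμ (a := (2 : ℕ) * 1198) (b := 2479) (by norm_num)
    have h2 := Ph0P_100 hμ (a := 1280 + 1198) (b := 2479) (by norm_num)
    linarith [pos 2479]
  · have h1 := Ph0P_100 hμ (a := 1492) (b := 1493) (by norm_num)
    have h2 := Ph0P_le hμ (a := 1480) (b := 1493) (by norm_num)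
    rw [abs_le]
    constructor <;> linarith [pos 1492]
  · have h1 := Ph0P_const hμ (a := 4000) (b := 4001) hd (by norm_num)
    rw [abs_of_nonneg (by linarith)]
    nlinarith [sq_nonneg d]
  · rw [one_div, inv_mul_le_iff₀ (mul_pos (pos _) hN0), mul_one, ← hs, Ph0P_pow hμ,
      Ph0P_mul hμ] at hZ
    exact_mod_cast hZ

end

/-- `sig_avg` with the error terms collected -/
theorem Ph0_sig : ∃ C : ℝ, 0 < C ∧ ∀ {ι : Type} [Fintype ι] [DecidableEq ι] {p e : ℝ}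
      {S : Finset ι} {K : Matrix ι ι ℝ} {s L lam r dd om ga : ℝ}, Good p S e K →
      Bd S K s L lam r dd om ga → BdA s L lam r dd →
      ∀ {w : ι → ι → ℝ} {eF eE er : ℝ}, Wt S K w eF eE er →
      ∀ (k : ℕ) (σ x η w0 w' α A : ℝ), 1 ≤ k → k ≤ 3 →
      (σ = 1 ∨ σ = -1) → 0 < w' → w' ≤ w0 → 0 ≤ α → 0 ≤ A →
      (σ * k * (∑ a ∈ S, ∑ b ∈ S, w a b * ff S e K k a b)
        - η * (∑ a ∈ S, ∑ b ∈ S, w a b) ≤ α * w') →
      L ^ (2 * k + 2) ≤ A * w' ^ 2 → η ^ 2 * s ^ 4 ≤ A * w' ^ 2 → s * L ^ (k + 1) ≤ A * w' →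
      ∑ a ∈ S, ∑ b ∈ S, w a b *
        (hub (x + (σ * (aa (del S a b) (upd e K a b) k - aa S K k) - η) / w0) - hub x) ≤
        α + C * A := by
  obtain ⟨C, hC, h⟩ := sig_avg
  refine ⟨3 * C, by positivity, ?_⟩
  intro ι _ _ p e S K s L lam r dd om ga hK hB hA w eF eE er hW k σ x η w0 w' α A hk1 hk3 hσ hw' hw
    hα hA0 h1 h2 h3 h4
  have hw0 : 0 < w0 := hw'.trans_le hw
  refine (h hK hB hA hW k σ x η w0 α hk1 hk3 hσ hw0 hα fun _ =>
    h1.trans (mul_le_mul_of_nonneg_left hw hα)).trans (add_le_add_right ?_ _)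
  have h5 : A * w' ^ 2 ≤ A * w0 ^ 2 :=
    mul_le_mul_of_nonneg_left (pow_le_pow_left₀ hw'.le hw 2) hA0
  have h6 : (L ^ (2 * k + 2) + η ^ 2 * s ^ 4) / w0 ^ 2 ≤ 2 * A := by
    rw [div_le_iff₀ (pow_pos hw0 2)]
    linarith
  have h7 : s * L ^ (k + 1) / w0 ≤ A := by
    rw [div_le_iff₀ hw0]
    exact h4.trans (mul_le_mul_of_nonneg_left hw hA0)
  nlinarith

/-- Huber terms for which crude absolute bounds suffice -/
theorem Ph0_crude : ∃ C : ℝ, 0 < C ∧ ∀ {ι : Type} [Fintype ι] [DecidableEq ι] {p e : ℝ}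
      {S : Finset ι} {K : Matrix ι ι ℝ} {s L lam r dd om ga : ℝ}, Good p S e K →
      Bd S K s L lam r dd om ga → BdA s L lam r dd →
      ∀ {w : ι → ι → ℝ} {eF eE er : ℝ}, Wt S K w eF eE er →
      ∀ (k : ℕ) (σ x w0 w' A : ℝ), 1 ≤ k → k ≤ 3 →
      (σ = 1 ∨ σ = -1) → 0 < w' → w' ≤ w0 → 0 ≤ A →
      |∑ i ∈ range (k + 1), (RR S K i).trace * (RR S K (k - i)).trace| ≤ A * w' →
      eF * L ^ (k + 1) ≤ A * w' → L ^ (2 * k + 2) ≤ A * w' ^ 2 → s * L ^ (k + 1) ≤ A * w' →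
      ∑ a ∈ S, ∑ b ∈ S, w a b *
        (hub (x + σ * (aa (del S a b) (upd e K a b) k - aa S K k) / w0) - hub x) ≤ C * A := by
  obtain ⟨C, hC, h⟩ := Ph0_sig
  obtain ⟨C', hC', h'⟩ := ff_avg
  refine ⟨3 * (1 + C') + C, by positivity, ?_⟩
  intro ι _ _ p e S K s L lam r dd om ga hK hB hA w eF eE er hW k σ x w0 w' A hk1 hk3 hσ hw' hw
    hA0 h1 h2 h3 h4
  have h5 := h hK hB hA hW k σ x 0 w0 w' (3 * (1 + C') * A) A hk1 hk3 hσ hw' hw (by positivity) hA0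
    ?_ h3 (by rw [zero_pow two_ne_zero, zero_mul]; positivity) h4
  · simp only [sub_zero] at h5
    linarith
  · have h6 := h' hK hB hA hW k hk1 (by omega)
    have h7 : |∑ a ∈ S, ∑ b ∈ S, w a b * ff S e K k a b| ≤ (1 + C') * (A * w') := by
      have := abs_sub_abs_le_abs_sub (∑ a ∈ S, ∑ b ∈ S, w a b * ff S e K k a b)
        (∑ i ∈ range (k + 1), (RR S K i).trace * (RR S K (k - i)).trace)
      have := mul_le_mul_of_nonneg_left h2 hC'.le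
      linarith
    have h8 : (k : ℝ) ≤ 3 := by exact_mod_cast hk3
    have h9 : |σ * k * ∑ a ∈ S, ∑ b ∈ S, w a b * ff S e K k a b| ≤ 3 * ((1 + C') * (A * w')) := by
      rw [abs_mul, abs_mul, show |σ| = 1 by rcases hσ with rfl | rfl <;> simp, one_mul,
        Nat.abs_cast]
      exact mul_le_mul h8 h7 (abs_nonneg _) (by norm_num)
    have := le_abs_self (σ * k * ∑ a ∈ S, ∑ b ∈ S, w a b * ff S e K k a b)
    linarith

end Crest.Agent.R62
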