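import Crest.Agent.R62.Sig
import Crest.Agent.R62.DStep
import Crest.Agent.R62.VW
import Crest.Agent.R62.Gain
import Crest.Agent.R62.ZStep
import Crest.Agent.R62.Ph0Aux

/-! The step theorem of phase 0. -/

set_option autoImplicit false
open Classical
open scoped Matrix
open Finset

noncomputable section
namespace Crest.Agent.R62

theorem Ph0_div {ι : Type} (S : Finset ι) (w q' : ι → ι → ℝ) {q E B : ℝ} (hE : 0 < E)
    (h : ∑ a ∈ S, ∑ b ∈ S, w a b * (q' a b - q) ≤ B * E) :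
    ∑ a ∈ S, ∑ b ∈ S, w a b * (q' a b / E - q / E) ≤ B := by
  rw [← div_le_iff₀ hE] at h
  refine le_of_eq_of_le ?_ h
  simp only [sum_div, ← sub_div, mul_div_assoc]

theorem Ph0_abs_mul {μ a b u v c : ℝ} (hμ : 100 ≤ μ) (h1 : |a| ≤ Ph0P μ u) (h2 : |b| ≤ Ph0P μ v)
    (h : u + v + 1 ≤ c) : 100 * |a * b| ≤ Ph0P μ c := by
  refine le_trans ?_ (Ph0P_100 hμ h)
  rw [abs_mul, ← Ph0P_mul hμ]
  exact mul_le_mul_of_nonneg_left (mul_le_mul h1 h2 (abs_nonneg _) (Ph0P_pos hμ _).le) (by norm_num)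

/-- the step inequality for one sign -/
theorem Ph0_one (κ : ℝ) : ∃ C : ℝ, 0 < C ∧ ∃ μ0 : ℝ, ∀ {μ x n d : ℝ}, 100 ≤ μ → μ0 ≤ μ →
    Ph0P μ 4000 ≤ n → n ≤ 2 * Ph0P μ 4000 → 1610 ≤ x → x ≤ 2001 →
    ∀ {ι : Type} [Fintype ι] [DecidableEq ι] {p e : ℝ} {S : Finset ι} {K J : Matrix ι ι ℝ},
    Ph0P μ x ^ 2 = S.card → Good p S e K → Good p S (-e) J → Ph0B μ x n S K J → Ph0B μ x n S J K →
    ∀ {conf : ι → ι → Prop}, (∀ a b, conf a b → conf b a) →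
    (∀ a, ((S.filter fun b => conf a b).card : ℝ) ≤ κ) →
    (∀ a b, 0 ≤ wt conf (Ph0P μ 700) e K J a b) ∧
    (S.card : ℝ) ^ 2 / 2 ≤ ∑ a ∈ S, ∑ b ∈ S, wt conf (Ph0P μ 700) e K J a b ∧
    ∑ a ∈ S, ∑ b ∈ S, wt conf (Ph0P μ 700) e K J a b *
      (PhiA (par0 μ n d (S.card - 2)) (del S a b) (upd e K a b) (upd (-e) J a b) -
        PhiA (par0 μ n d S.card) S K J) ≤ C * Ph0P μ (2 * x - 2) := by
  obtain ⟨Cw, hCw, Hw⟩ := wt_props κ
  obtain ⟨Cg, hCg, Hg⟩ := gain κ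
  obtain ⟨C4, hC4, H4⟩ := T4_step
  obtain ⟨CV, hCV, HV⟩ := V_step
  obtain ⟨CD, hCD, HD⟩ := D_step
  obtain ⟨CZ, hCZ, HZ⟩ := Z_step
  obtain ⟨Cs, hCs, Hs⟩ := Ph0_sig
  obtain ⟨Cc, hCc, Hc⟩ := Ph0_crude
  refine ⟨C4 + CV + CD + 2 * (CZ + 2) + (4 + 5 * Cg + Cs) + 5 * Cc, by positivity, 3 * Cw, ?_⟩
  intro μ x n d hμ hμw hn1 hn2 hx1 hx2 ι _ _ p e S K J hs hK hJ bK bJ conf hc1 hc2
  have pos := Ph0P_pos hμ
  have hn : 0 < n := (pos _).trans_le hn1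
  have hA : BdA (Ph0P μ x) (Ph0P μ 1198) (Ph0P μ 1280) (Ph0P μ 641) (Ph0P μ 300) := by
    constructor <;> ph0_mono hμ
  have hwm : ∀ {M : Matrix ι ι ℝ} {w : ι → ι → ℝ}, Wt S M w (Cw * (1 + Ph0P μ 700) * Ph0P μ x)
      (Cw * (Ph0P μ x + Ph0P μ 700 * Ph0P μ 1198))
      (Cw * (Ph0P μ 641 + Ph0P μ 300 ^ 2 + Ph0P μ 700)) →
      Wt S M w (Ph0P μ (701 + x)) (Ph0P μ (290 + x)) (Ph0P μ 701) := by
    intro M w h
    refine h.mono ?_ ?_ ?_
    · have h1 := Ph0P_const hμ hμw (a := 700 + x) (b := 701 + x) (by linarith)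
      have h2 : Ph0P μ x ≤ Ph0P μ (700 + x) := by ph0_mono hμ
      rw [mul_assoc, add_mul, one_mul, Ph0P_mul hμ]
      nlinarith [pos (700 + x)]
    · have h1 := Ph0P_const hμ hμw (a := 288 + x) (b := 290 + x) (by linarith)
      have h2 : Ph0P μ x ≤ Ph0P μ (288 + x) := by ph0_mono hμ
      have h3 : Ph0P μ 700 * Ph0P μ 1198 ≤ Ph0P μ (288 + x) := by ph0_mono hμ
      nlinarith [pos (288 + x)]
    · have h1 := Ph0P_const hμ hμw (a := 700) (b := 701) (by linarith)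
      have h2 : Ph0P μ 641 ≤ Ph0P μ 700 := by ph0_mono hμ
      have h3 : Ph0P μ 300 ^ 2 ≤ Ph0P μ 700 := by ph0_mono hμ
      nlinarith
  have hθL : Ph0P μ 700 ≤ Ph0P μ 1198 := by ph0_mono hμ
  have wK := hwm (Hw hK hJ bK.bd bJ.bd hc1 hc2 (pos _).le hθL hA.h6)
  have wJ := hwm (Hw hJ (by rwa [neg_neg]) bJ.bd bK.bd hc1 hc2 (pos _).le hθL hA.h6)
  rw [wt_swap] at wJ
  have hg := Hg hK hJ bK.bd bJ.bd hA hc1 hc2 (pos _).le hθL
  generalize wt conf (Ph0P μ 700) e K J = w at wK wJ hg ⊢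
  have hN : (S.card : ℝ) = Ph0P μ (2 * x) := by
    rw [← hs, Ph0P_pow hμ]
    norm_num
  have hN100 : (100 : ℝ) ≤ S.card := by
    have := Ph0P_100 hμ (a := 0) (b := 2 * x) (by linarith)
    rwa [Ph0P_zero, mul_one, ← hN] at this
  have hN0 : (0 : ℝ) < S.card := by linarith
  have hε : Ph0P μ (-2) ≤ 1 / 2 := by
    have := Ph0P_100 hμ (a := -2) (b := 0) (by norm_num)
    rw [Ph0P_zero] at this
    linarith
  have htot : |∑ a ∈ S, ∑ b ∈ S, w a b - (S.card : ℝ) ^ 2| ≤ Ph0P μ (-2) * (S.card : ℝ) ^ 2 := by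
    refine wK.total.trans ?_
    rw [hN]
    ph0_mono hμ
  obtain ⟨htot1, htot2⟩ := abs_le.1 htot
  have hεN := mul_le_mul_of_nonneg_right hε (sq_nonneg (S.card : ℝ))
  refine ⟨wK.nonneg, by linarith, ?_⟩
  -- bounds
  have bK' := Ph0_Bd_mono bK.bd le_rfl (Ph0P_const hμ (by linarith) le_rfl) le_rfl
  obtain ⟨hT1m, -⟩ := abs_le.1 bK.T1
  obtain ⟨hym, hyp⟩ := abs_le.1 bK.y
  have hT2 : Tr 2 K ≤ (1 + Ph0P μ (-2)) * Ph0P μ x ^ 2 := by
    have h1 : Ph0P μ 2697 ≤ Ph0P μ (-2) * Ph0P μ x ^ 2 := by ph0_mono hμ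
    rw [yy, ← hs] at hym
    linarith
  have hT2' : 8 / 5 * Tr 2 K ≤ 2 * Ph0P μ x ^ 2 := by
    have h1 : 100 * Ph0P μ 2697 ≤ Ph0P μ x ^ 2 := by
      rw [Ph0P_pow hμ]
      exact Ph0P_100 hμ (by push_cast; linarith)
    rw [yy, ← hs] at hym
    linarith [pos 2697]
  have hone : ∀ a, 0 ≤ a → 1 ≤ Ph0P μ a := fun a => Ph0P_one_le hμ
  have hrδ : Ph0P μ 641 + Ph0P μ 300 ^ 2 ≤ Ph0P μ 701 := by
    have h1 := Ph0P_100 hμ (a := 641) (b := 701) (by norm_num)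
    have h2 : Ph0P μ 300 ^ 2 ≤ Ph0P μ 641 := by ph0_mono hμ
    linarith [pos 641]
  have hT32 : Tr 3 K + Tr 2 K ≤ Ph0P μ 4003 := by
    have h1 := Ph0P_100 hμ (a := 4002) (b := 4003) (by norm_num)
    have h2 : Ph0P μ x ^ 2 ≤ Ph0P μ 4002 := by ph0_mono hμ
    have h3 : Ph0P μ 4001 ≤ Ph0P μ 4002 := by ph0_mono hμ
    linarith [(abs_le.1 bK.T3).2, bK.bd.T2, pos 4002]
  have hT31 : |Tr 3 K - Tr 1 K| ≤ Ph0P μ 4002 := by
    have h1 := Ph0P_100 hμ (a := 4001) (b := 4002) (by norm_num)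
    have h3 : Ph0P μ 1493 ≤ Ph0P μ 4001 := by ph0_mono hμ
    linarith [abs_sub (Tr 3 K) (Tr 1 K), bK.T1, bK.T3, pos 4001]
  have hT42 : |Tr 4 K - Tr 2 K| ≤ Ph0P μ 4793 := by
    have h1 := Ph0P_100 hμ (a := 4792) (b := 4793) (by norm_num)
    have h2 : Ph0P μ x ^ 2 ≤ Ph0P μ 4792 := by ph0_mono hμ
    have h3 : Ph0P μ 1198 ^ 4 ≤ Ph0P μ 4792 := by ph0_mono hμ
    rw [abs_le]
    constructor <;>
      linarith [Ph0_Tr2_nonneg hK, Ph0_Tr4_nonneg hK, bK.bd.T2, bK.bd.T4, pos 4792]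
  have hy' : |-yy S K| ≤ Ph0P μ 2697 := by rw [abs_neg]; exact bK.y
  -- linear terms
  have t1 := Ph0_div S w (fun a b => Tr 4 (upd e K a b)) (pos 4792) (B := C4 * Ph0P μ (2 * x - 2))
    ((H4 hK bK' hA wK (ε := Ph0P μ (-2)) (tm := Ph0P μ 1493) (ym := Ph0P μ 2697) (pos _).le
      (pos _).le (pos _).le (pos _).le bK.T1p (by linarith) bK.T3 (by linarith)
      (by ph0_mono hμ) (by ph0_mono hμ) (by ph0_mono hμ) (by ph0_mono hμ) (by ph0_mono hμ)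
      (by ph0_mono hμ) (by ph0_mono hμ) (by ph0_mono hμ) (by ph0_mono hμ) (by ph0_mono hμ)).trans (by
        simp only [mul_assoc]
        exact mul_le_mul_of_nonneg_left (by ph0_mono hμ) hC4.le))
  have t2 := Ph0_div S w (fun a b => Vs 1 (del S a b) (upd e K a b)) (pos 2560)
    (B := CV * Ph0P μ (2 * x - 2))
    ((HV hK bK' wK (ε := Ph0P μ (-2)) (δ := Ph0P μ 300) (tm := Ph0P μ 1493) (ym := Ph0P μ 2697)
      (pos _).le (hone _ (by norm_num)) le_rfl hA.h6 (by ph0_mono hμ) hrδ (by ph0_mono hμ)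
      (by rw [← Ph0P_zero μ]; ph0_mono hμ) (by ph0_mono hμ) (by ph0_mono hμ) (by ph0_mono hμ)
      (by ph0_mono hμ) (by ph0_mono hμ) (by ph0_mono hμ) (by ph0_mono hμ) (by ph0_mono hμ)
      (by ph0_mono hμ) (by ph0_mono hμ) (by ph0_mono hμ) (by ph0_mono hμ) (by ph0_mono hμ)
      (by ph0_mono hμ) (pos _).le (pos _).le (pos _).le bK.T1p (by linarith) hT32 (by linarith) bK.y
      (by ph0_mono hμ) (by ph0_mono hμ) (by ph0_mono hμ) (by ph0_mono hμ) (by ph0_mono hμ)).trans (by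
        have h1 : 0 ≤ Vs 1 S K := sum_nonneg fun _ _ => sq_nonneg _
        have h2 := mul_le_mul_of_nonneg_right hT2' h1
        have h3 : CV * (Ph0P μ (-2) * Ph0P μ x ^ 2 * Ph0P μ 1280 ^ 2) ≤
            CV * (Ph0P μ (2 * x - 2) * Ph0P μ 2560) :=
          mul_le_mul_of_nonneg_left (by ph0_mono hμ) hCV.le
        linarith))
  have t3 := Ph0_div S w (fun a b => Dh (upd e K a b)) (pos 600) (B := CD * Ph0P μ (2 * x - 2))
    ((HD hK bK' wK (ε := Ph0P μ (-2)) (δ := Ph0P μ 300) (pos _).le (hone _ (by norm_num)) le_rfl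
      hA.h6 (by ph0_mono hμ) hrδ bK.T1 (by ph0_mono hμ) (by ph0_mono hμ) (by ph0_mono hμ)
      (by ph0_mono hμ) (by ph0_mono hμ) (by ph0_mono hμ) (by ph0_mono hμ) (by ph0_mono hμ)).trans (by
        have h1 : 0 ≤ Dh K := sum_nonneg fun _ _ => sq_nonneg _
        have h2 := mul_le_mul_of_nonneg_right hT2' h1
        have h3 : CD * (Ph0P μ (-2) * Ph0P μ x ^ 2 * Ph0P μ 300 ^ 2) ≤
            CD * (Ph0P μ (2 * x - 2) * Ph0P μ 600) :=
          mul_le_mul_of_nonneg_left (by ph0_mono hμ) hCD.le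
        linarith))
  have hζ : Ph0P μ (740 + 2 * x) = Ph0P μ 740 * S.card := by rw [hN, Ph0P_mul hμ]
  have t4 := lin_avg S w wK.nonneg (Zz S K J) (Ph0P μ 740 * S.card) (Ph0P μ 740 * (S.card - 2)) 2
    (Ph0P μ (-2)) (CZ * Ph0P μ (-2))
    (fun a b => Zz (del S a b) (upd e K a b) (upd (-e) J a b)) hN0 (Zz_nonneg hK hJ)
    (mul_pos (pos _) hN0) (mul_pos (pos _) (by linarith)) (by norm_num) (pos _).le
    (le_of_eq (by field_simp)) (by nlinarith [pos 740]) (hζ ▸ bK.Z) (by linarith)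
    (mul_pos hCZ (pos _)).le
    ((HZ hK hJ bK.bd bJ.bd wK wJ (ε := Ph0P μ (-2)) (δ := Ph0P μ 300) (pos _).le
      (hone _ (by norm_num)) le_rfl hA.h6 (by ph0_mono hμ) (by ph0_mono hμ) le_rfl bK.Z bK.T1 bJ.T1
      hT2 (by ph0_mono hμ) (by ph0_mono hμ) (by ph0_mono hμ) (by ph0_mono hμ) (by ph0_mono hμ)
      (by ph0_mono hμ) (by ph0_mono hμ) (by ph0_mono hμ) (by ph0_mono hμ) (by ph0_mono hμ)
      (by ph0_mono hμ) (by rw [← Ph0P_zero μ]; ph0_mono hμ)).trans_eq (by rw [hζ, hs]))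
  have hA' : Ph0P μ (-2) * S.card = Ph0P μ (2 * x - 2) := by
    rw [hN, Ph0P_mul hμ]
    ring_nf
  have t4' : 2 * (CZ * Ph0P μ (-2) + 2 * Ph0P μ (-2)) * S.card =
      2 * (CZ + 2) * Ph0P μ (2 * x - 2) := by
    rw [← hA']
    ring
  rw [t4'] at t4
  -- Huber terms
  obtain ⟨r0, r1, r2, r3, -⟩ := RR_trace hK
  have hAp := (pos (2 * x - 2)).le
  have hk1 : |∑ i ∈ range (1 + 1), (RR S K i).trace * (RR S K (1 - i)).trace| ≤
      Ph0P μ (2 * x - 2) * Ph0P μ 1492 := by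
    simp only [sum_range_succ, range_zero, sum_empty, zero_add, Nat.sub_zero, Nat.sub_self, r0, r1]
    have h1 := Ph0_abs_mul hμ bK.T1 hy' (c := 2 * x - 2 + 1492) (by linarith)
    rw [Ph0P_mul hμ, mul_comm (-yy S K), ← two_mul, abs_mul, abs_two]
    linarith [abs_nonneg (Tr 1 K * -yy S K)]
  have hk2 : |∑ i ∈ range (2 + 1), (RR S K i).trace * (RR S K (2 - i)).trace| ≤
      Ph0P μ (2 * x - 2) * Ph0P μ 2696 := by
    simp only [sum_range_succ, range_zero, sum_empty, zero_add, Nat.sub_zero, Nat.sub_self,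
      Nat.reduceSub, r0, r1, r2]
    have h1 := Ph0_abs_mul hμ bK.T1 hT31 (c := 2 * x - 2 + 2696) (by linarith)
    have h2 := Ph0_abs_mul hμ hy' hy' (c := 2 * x - 2 + 2696) (by linarith)
    have h3 := Ph0_abs_mul hμ hT31 bK.T1 (c := 2 * x - 2 + 2696) (by linarith)
    rw [Ph0P_mul hμ]
    refine (abs_add_three _ _ _).trans ?_
    linarith [pos (2 * x - 2 + 2696)]
  have hk3 : |∑ i ∈ range (3 + 1), (RR S K i).trace * (RR S K (3 - i)).trace| ≤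
      Ph0P μ (2 * x - 2) * Ph0P μ 3999 := by
    simp only [sum_range_succ, range_zero, sum_empty, zero_add, Nat.sub_zero, Nat.sub_self,
      Nat.reduceSub, r0, r1, r2, r3]
    have h1 := Ph0_abs_mul hμ bK.T1 hT42 (c := 2 * x - 2 + 3999) (by linarith)
    have h2 := Ph0_abs_mul hμ hy' hT31 (c := 2 * x - 2 + 3999) (by linarith)
    have h3 := Ph0_abs_mul hμ hT31 hy' (c := 2 * x - 2 + 3999) (by linarith)
    have h4 := Ph0_abs_mul hμ hT42 bK.T1 (c := 2 * x - 2 + 3999) (by linarith)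
    rw [Ph0P_mul hμ]
    refine (abs_add_le _ _).trans ((add_le_add_left (abs_add_three _ _ _) _).trans ?_)
    linarith [pos (2 * x - 2 + 3999)]
  have hw3 : Ph0P μ 3999 ≤ n / 10 := by
    have h1 := Ph0P_100 hμ (a := 3999) (b := 4000) (by norm_num)
    linarith [pos 3999]
  have t6 := Hc hK bK' hA wK 1 (-1) ((-Tr 1 K - Ph0P μ 1492) / Ph0P μ 1492) (Ph0P μ 1492) _ _
    le_rfl (by norm_num) (Or.inr rfl) (pos _) le_rfl hAp hk1
    (by ph0_mono hμ) (by ph0_mono hμ) (by ph0_mono hμ)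
  have t7 := Hc hK bK' hA wK 2 1 ((-Ph0P μ 2696 - yy S K) / Ph0P μ 2696) (Ph0P μ 2696) _ _
    (by norm_num) (by norm_num) (Or.inl rfl) (pos _) le_rfl hAp hk2
    (by ph0_mono hμ) (by ph0_mono hμ) (by ph0_mono hμ)
  have t8 := Hc hK bK' hA wK 2 (-1) ((yy S K - Ph0P μ 2696) / Ph0P μ 2696) (Ph0P μ 2696) _ _
    (by norm_num) (by norm_num) (Or.inr rfl) (pos _) le_rfl hAp hk2
    (by ph0_mono hμ) (by ph0_mono hμ) (by ph0_mono hμ)
  have t9 := Hc hK bK' hA wK 3 (-1) ((2 * n - Tr 3 K) / (n / 10)) (n / 10) _ _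
    (by norm_num) le_rfl (Or.inr rfl) (pos _) hw3 hAp hk3
    (by ph0_mono hμ) (by ph0_mono hμ) (by ph0_mono hμ)
  have t10 := Hc hK bK' hA wK 3 1 ((Tr 3 K - d ^ 2 * n) / (n / 10)) (n / 10) _ _
    (by norm_num) le_rfl (Or.inl rfl) (pos _) hw3 hAp hk3
    (by ph0_mono hμ) (by ph0_mono hμ) (by ph0_mono hμ)
  have hN2 : (0 : ℝ) < S.card - 2 := by linarith
  have hθn : 0 < Ph0P μ 700 * n := mul_pos (pos _) hn
  have t5 := Hs hK bK' hA wK 1 1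
    ((Tr 1 K - (Ph0P μ 700 * n / Ph0P μ 3220 / 25 -
      Ph0P μ 700 * n / 2 * (1 / S.card - 1 / (n * d)))) / (Ph0P μ 700 * n / Ph0P μ 3220 / 25))
    (-(Ph0P μ 700 * n / (S.card * (S.card - 2)))) (Ph0P μ 700 * n / Ph0P μ 3220 / 25)
    (Ph0P μ 1479) ((4 + 5 * Cg) * Ph0P μ (2 * x - 2)) _ le_rfl (by norm_num) (Or.inl rfl) (pos _)
    (by
      have h1 := Ph0P_100 hμ (a := 1479 + 3220) (b := 700 + 4000) (by norm_num)
      rw [← Ph0P_mul hμ, ← Ph0P_mul hμ] at h1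
      have h2 := mul_le_mul_of_nonneg_left hn1 (pos 700).le
      rw [le_div_iff₀ (by norm_num), le_div_iff₀ (pos _)]
      linarith [mul_pos (pos 1479) (pos 3220)])
    (by positivity) hAp
    (by
      have h1 : Ph0P μ 700 * n / (S.card * (S.card - 2)) * ∑ a ∈ S, ∑ b ∈ S, w a b ≤
          3 * (Ph0P μ 700 * n) := by
        rw [div_mul_eq_mul_div, div_le_iff₀ (mul_pos hN0 hN2), mul_comm 3, mul_assoc _ 3]
        refine mul_le_mul_of_nonneg_left ?_ hθn.le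
        nlinarith
      have h2 := mul_le_mul_of_nonneg_left bK.T3m (pos 700).le
      have h3 := Ph0_abs_mul hμ bK.T1 bK.y (c := 2 * x - 2 + 1479) (by linarith)
      have h4 : Ph0P μ 700 * Zz S K J ≤ Ph0P μ (2 * x - 2 + 1479) :=
        (mul_le_mul_of_nonneg_left bK.Z (pos 700).le).trans (by ph0_mono hμ)
      have h5 : Ph0P μ 700 * Ph0P μ x ^ 2 ≤ Ph0P μ (2 * x - 2 + 1479) := by ph0_mono hμ
      have h6 : Ph0P μ 700 * (Ph0P μ 700 * Ph0P μ x ^ 2) ≤ Ph0P μ (2 * x - 2 + 1479) := by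
        ph0_mono hμ
      have h7 : Ph0P μ 700 * (Ph0P μ 1198 * Ph0P μ 1280 ^ 2) ≤ Ph0P μ (2 * x - 2 + 1479) := by
        ph0_mono hμ
      have h8 : Ph0P μ 700 * (Ph0P μ 1198 * Ph0P μ 300 * Ph0P μ 1280) ≤
          Ph0P μ (2 * x - 2 + 1479) := by ph0_mono hμ
      have h9 : Ph0P μ x * Ph0P μ 1198 ^ 2 ≤ Ph0P μ (2 * x - 2 + 1479) := by ph0_mono hμ
      have h10 := mul_le_mul_of_nonneg_left
        (add_le_add (add_le_add (add_le_add (add_le_add h5 h6) h7) h8) h9) hCg.le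
      rw [mul_assoc (4 + 5 * Cg), Ph0P_mul hμ, Nat.cast_one]
      linarith [neg_abs_le (Tr 1 K * yy S K), pos (2 * x - 2 + 1479)])
    (by ph0_mono hμ)
    (by
      have h1 : Ph0P μ 700 * n / (S.card - 2) ≤ Ph0P μ (4701 - 2 * x) := by
        have h2 := Ph0P_100 hμ (a := 700 + 4000) (b := 4701 - 2 * x + 2 * x) (by linarith)
        rw [← Ph0P_mul hμ, ← Ph0P_mul hμ, ← hN] at h2
        have h3 := mul_le_mul_of_nonneg_left hn2 (pos 700).le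
        have h4 := mul_le_mul_of_nonneg_left hN100 (pos (4701 - 2 * x)).le
        rw [div_le_iff₀ hN2]
        linarith [mul_pos (pos 700) (pos 4000)]
      have h2 : (-(Ph0P μ 700 * n / (S.card * (S.card - 2)))) ^ 2 * Ph0P μ x ^ 4 =
          (Ph0P μ 700 * n / (S.card - 2)) ^ 2 := by
        rw [show Ph0P μ x ^ 4 = (Ph0P μ x ^ 2) ^ 2 by ring, hs]
        field_simp
      rw [h2]
      exact (pow_le_pow_left₀ (div_pos hθn hN2).le h1 2).trans (by ph0_mono hμ))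
    (by ph0_mono hμ)
  have hc1 : Ph0P μ 700 * n / 2 * (1 / (S.card - 2) - 1 / (n * d)) =
      Ph0P μ 700 * n / 2 * (1 / S.card - 1 / (n * d)) +
        Ph0P μ 700 * n / (S.card * (S.card - 2)) := by
    generalize 1 / (n * d) = u
    field_simp
    ring
  refine le_of_eq_of_le ?_ ((add_le_add (add_le_add (add_le_add (add_le_add (add_le_add (add_le_add
    (add_le_add (add_le_add (add_le_add t1 t2) t3) t4) t5) t6) t7) t8) t9) t10).trans_eq (by ring))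
  simp only [← sum_add_distrib]
  refine sum_congr rfl fun a _ => sum_congr rfl fun b _ => ?_
  simp only [PhiA, par0, G1, Ph0P_nat μ, Nat.cast_ofNat, aa_one, aa_two, aa_three, hc1, ← add_div,
    ← mul_add]
  congr 1
  ring_nf

theorem ph0_step (d : ℕ) (hd : 3 ≤ d) : ∃ C : ℝ, 0 < C ∧ ∃ m0 : ℕ, ∀ m, m0 ≤ m → ∀ n, Scale m n →
      ∀ {V ι : Type} [Fintype V] [Fintype ι] [DecidableEq ι] (vx : ι → V) (st : St V ι ℝ),
      Base n d vx st → ph m st.S.card = 0 → Phi 0 m n d vx st ≤ 1 →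
      ∃ a b, Simple vx st a b ∧ 0 < Dd 1 st.K a b ∧ 0 < Dd (-1) st.J a b ∧
        Phi 0 m n d vx (rawStep vx st a b) ≤ Phi 0 m n d vx st + C / ((m : ℝ) ^ 2 * st.S.card) := by
  obtain ⟨C, hC, μ0, H⟩ := Ph0_one ((d : ℝ) ^ 2 + d)
  obtain ⟨m0, hm0⟩ := exists_nat_ge (max (max 100 μ0) (2 * ((d : ℝ) ^ 2 + 1)))
  refine ⟨4 * C, by positivity, m0, ?_⟩
  intro m hm n hn V ι _ _ _ vx st hB hph hΦ
  have hm' : max (max 100 μ0) (2 * ((d : ℝ) ^ 2 + 1)) ≤ m := hm0.trans (Nat.cast_le.2 hm)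
  simp only [max_le_iff] at hm'
  obtain ⟨⟨hμ, hμ0⟩, hμd⟩ := hm'
  have pos := Ph0P_pos hμ
  have hn1 : Ph0P m 4000 ≤ n := by
    have : ((m ^ 4000 : ℕ) : ℝ) ≤ n := Nat.cast_le.2 hn.1
    rwa [Nat.cast_pow, Ph0P_nat, Nat.cast_ofNat] at this
  have hn2 : (n : ℝ) ≤ 2 * Ph0P m 4000 := by
    have : (n : ℝ) ≤ ((2 * m ^ 4000 : ℕ) : ℝ) := Nat.cast_le.2 hn.2
    rwa [Nat.cast_mul, Nat.cast_pow, Ph0P_nat, Nat.cast_ofNat, Nat.cast_ofNat] at this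
  have hN1 : Ph0P m 3220 ≤ st.S.card := by
    have h1 : m ^ 3220 < st.S.card := by
      by_contra h
      rw [ph, if_neg h] at hph
      split_ifs at hph
    have : ((m ^ 3220 : ℕ) : ℝ) ≤ st.S.card := Nat.cast_le.2 h1.le
    rwa [Nat.cast_pow, Ph0P_nat, Nat.cast_ofNat] at this
  have hN2 : (st.S.card : ℝ) ≤ n * d := by
    rw [← Nat.cast_mul, ← hB.gi.card_ι]
    exact Nat.cast_le.2 (card_le_univ _)
  have hN0 : (0 : ℝ) < st.S.card := (pos _).trans_le hN1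
  obtain ⟨x, hx⟩ := Ph0P_exists hμ (Real.sqrt_pos.2 hN0)
  have hs : Ph0P m x ^ 2 = st.S.card := by rw [← hx, Real.sq_sqrt hN0.le]
  have hx1 : 1610 ≤ x := by
    rw [← hs, Ph0P_pow hμ, Ph0P_le_iff hμ] at hN1
    push_cast at hN1
    linarith
  have hx2 : x ≤ 2001 := by
    have h0 : (0 : ℝ) ≤ d := Nat.cast_nonneg d
    have h1 := Ph0P_const hμ (c := 2 * d) (a := 4000) (b := 4001) (by nlinarith) (by norm_num)
    have h2 : (st.S.card : ℝ) ≤ Ph0P m 4001 := by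
      nlinarith [mul_le_mul_of_nonneg_right hn2 h0]
    rw [← hs, Ph0P_pow hμ, Ph0P_le_iff hμ] at h2
    push_cast at h2
    linarith
  have hP := (par_pos (m := m) (n := n) (d := d) (by linarith) ((pos _).trans_le hn1) hN0).1
  have h1 := PhiA_nonneg hP hB.gK hB.gJ
  have h2 := PhiA_nonneg hP hB.gJ hB.gK
  simp only [Phi] at hΦ ⊢
  have bK := Ph0_bounds hμ hμd hn1 hn2 hx1 hs hN2 hB.gK hB.gJ (by linarith)
  have bJ := Ph0_bounds hμ hμd hn1 hn2 hx1 hs hN2 hB.gJ hB.gK (by linarith)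
  obtain ⟨hw0, htot, s1⟩ := H (d := d) hμ hμ0 hn1 hn2 hx1 hx2 hs hB.gK hB.gJ bK bJ
    (fun _ _ => Conf.symm) hB.gi.conf_deg
  obtain ⟨-, -, s2⟩ := H (d := d) hμ hμ0 hn1 hn2 hx1 hx2 hs hB.gJ (by rw [neg_neg]; exact hB.gK) bJ bK
    (fun _ _ => Conf.symm) hB.gi.conf_deg
  rw [wt_swap, neg_neg] at s2
  have hA : Ph0P m (2 * x - 2) = st.S.card / (m : ℝ) ^ 2 := by
    rw [← hs, Ph0P_pow hμ, Ph0P_nat (m : ℝ), Ph0P_div hμ, Nat.cast_ofNat]
  obtain ⟨a, ha, b, hb, hw, h⟩ := exists_of_avg st.S _ hw0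
    (PhiA (par0 (m : ℝ) n d st.S.card) st.S st.K st.J +
      PhiA (par0 (m : ℝ) n d st.S.card) st.S st.J st.K) (2 * C / (m : ℝ) ^ 2)
    (fun a b => PhiA (par0 (m : ℝ) n d (st.S.card - 2)) (del st.S a b) (upd 1 st.K a b)
      (upd (-1) st.J a b) + PhiA (par0 (m : ℝ) n d (st.S.card - 2)) (del st.S a b)
      (upd (-1) st.J a b) (upd 1 st.K a b)) hN0 (by positivity) htot (by
      refine le_of_eq_of_le ?_ ((add_le_add s1 s2).trans_eq (by rw [hA]; ring))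
      simp only [← sum_add_distrib]
      exact sum_congr rfl fun a _ => sum_congr rfl fun b _ => by ring)
  obtain ⟨h3, h4, h5⟩ := wt_ne_zero hw
  refine ⟨a, b, ⟨ha, hb, h3⟩, by linarith [(h4.Dd_bound (Or.inl rfl)).1],
    by linarith [(h5.Dd_bound (Or.inr rfl)).1], ?_⟩
  simp only [rawStep, card_del ha hb h4.1]
  refine h.trans_eq ?_
  congr 1
  field_simp
  ring

end Crest.Agent.R62
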