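import Crest.Agent.R62.Sig
import Crest.Agent.R62.DStep
import Crest.Agent.R62.VW
import Crest.Agent.R62.Weights

/-! Phase 2: the term by term inequalities for one sign. -/

set_option autoImplicit false
set_option linter.unusedSimpArgs false
open Classical
open scoped Matrix
open Finset

noncomputable section
namespace Crest.Agent.R62.Ph2

/-- numerical context -/
structure Num (μ s ε : ℝ) : Prop where
  hμ : 10 ≤ μ
  hε : ε * μ ^ 2 = 1
  s1 : μ ^ 1350 ≤ s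
  s2 : s ≤ μ ^ 1380

namespace Num
variable {μ s ε : ℝ} (h : Num μ s ε)
include h

theorem one : 1 ≤ μ := by linarith [h.hμ]
theorem pos : 0 < μ := by linarith [h.hμ]
theorem pw {a b : ℕ} (hab : a ≤ b) : μ ^ a ≤ μ ^ b := pow_le_pow_right₀ h.one hab
theorem pw1 (a : ℕ) : 1 ≤ μ ^ a := one_le_pow₀ h.one
theorem pw10 {a b : ℕ} (hab : a + 1 ≤ b) : 10 * μ ^ a ≤ μ ^ b := by
  refine le_trans ?_ (h.pw hab)
  rw [pow_succ, mul_comm]
  exact mul_le_mul_of_nonneg_left h.hμ (pow_pos h.pos a).le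
theorem spos : 0 < s := (pow_pos h.pos _).trans_le h.s1
theorem epos : 0 < ε := by
  by_contra hc
  nlinarith [h.hε, pow_pos h.pos 2]
theorem ss1 : μ ^ 2700 ≤ s ^ 2 := by
  have := pow_le_pow_left₀ (pow_pos h.pos _).le h.s1 2
  rwa [← pow_mul] at this
theorem ss2 : s ^ 2 ≤ μ ^ 2760 := by
  have := pow_le_pow_left₀ h.spos.le h.s2 2
  rwa [← pow_mul] at this
theorem K0 {x y : ℝ} (a b : ℕ) (hab : a ≤ b) (hx : x = μ ^ a) (hy : y = μ ^ b) : x ≤ y := by
  rw [hx, hy]; exact h.pw hab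
theorem eps (a : ℕ) : μ ^ a = ε * μ ^ (a + 2) := by
  rw [pow_add, mul_comm (μ ^ a), ← mul_assoc, h.hε, one_mul]
theorem K2 {x y : ℝ} (a k : ℕ) (hab : a + 2 ≤ 2700 + k) (hx : x = μ ^ a)
    (hy : y = ε * s ^ 2 * μ ^ k) : x ≤ y := by
  rw [hx, hy, h.eps a, mul_assoc]
  refine mul_le_mul_of_nonneg_left ((h.pw hab).trans ?_) h.epos.le
  rw [pow_add]
  exact mul_le_mul_of_nonneg_right h.ss1 (pow_pos h.pos _).le
theorem K1' {x y : ℝ} (a k : ℕ) (hab : a + 2 ≤ 1350 + k) (hx : x = μ ^ a)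
    (hy : y = ε * s * μ ^ k) : x ≤ y := by
  rw [hx, hy, h.eps a, mul_assoc]
  refine mul_le_mul_of_nonneg_left ((h.pw hab).trans ?_) h.epos.le
  rw [pow_add]
  exact mul_le_mul_of_nonneg_right h.s1 (pow_pos h.pos _).le
theorem K1 {x y : ℝ} (a k : ℕ) (hab : a + 2 ≤ 1350 + k) (hx : x = μ ^ a * s)
    (hy : y = ε * s ^ 2 * μ ^ k) : x ≤ y := by
  have := mul_le_mul_of_nonneg_right (h.K1' a k hab rfl rfl) h.spos.le
  rw [hx, hy]
  linarith
theorem K3 {x y : ℝ} (a k : ℕ) (hab : a + 2 ≤ k) (hx : x = μ ^ a * s ^ 2)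
    (hy : y = ε * s ^ 2 * μ ^ k) : x ≤ y := by
  have := mul_le_mul_of_nonneg_left (h.pw hab) (mul_pos h.epos (pow_pos h.spos 2)).le
  rw [hx, hy, h.eps a]
  linarith
theorem bdA : BdA s (μ ^ 1328) (μ ^ 1410) (μ ^ 706) (μ ^ 304) :=
  ⟨h.K0 3428 3984 (by norm_num) (by ring) (by ring), h.pw (by norm_num),
    h.K0 2820 3984 (by norm_num) (by ring) (by ring), h.K0 2116 2656 (by norm_num) (by ring) (by ring),
    h.s2.trans (h.K0 1380 2656 (by norm_num) rfl (by ring)),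
    (h.K0 608 1350 (by norm_num) (by ring) rfl).trans h.s1, (h.pw (by norm_num)).trans h.s1⟩
theorem d2 : (μ ^ 304) ^ 2 ≤ s := h.bdA.h6
theorem sE : s ≤ μ * s := le_mul_of_one_le_left h.spos.le h.one
theorem rer : μ ^ 706 + (μ ^ 304) ^ 2 ≤ μ ^ 707 := by
  have h1 := h.pw10 (a := 706) (b := 707) le_rfl
  have h2 : (μ ^ 304) ^ 2 ≤ μ ^ 706 := h.K0 608 706 (by norm_num) (by ring) rfl
  linarith [pow_pos h.pos 706]
end Num

variable {ι : Type} [Fintype ι] [DecidableEq ι]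

/-- everything the term inequalities use -/
structure Ctx (μ s ε p e : ℝ) (S : Finset ι) (K : Matrix ι ι ℝ) (w : ι → ι → ℝ) : Prop where
  num : Num μ s ε
  good : Good p S e K
  bd : Bd S K s (μ ^ 1328) (μ ^ 1410) (μ ^ 706) (μ ^ 304) (μ ^ 1411) (μ ^ 2739)
  wt : Wt S K w (μ * s) (μ * s) (μ ^ 707)
  tp : Tr 1 K ≤ μ ^ 1313
  tm : -Tr 1 K ≤ μ ^ 1493
  y0 : 0 ≤ yy S K
  t3 : Tr 3 K + s ^ 2 ≤ μ ^ 4001

namespace Ctx
variable {μ s ε p e : ℝ} {S : Finset ι} {K : Matrix ι ι ℝ} {w : ι → ι → ℝ} (h : Ctx μ s ε p e S K w)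
include h

theorem T2_nonneg : 0 ≤ Tr 2 K := by rw [h.good.Tr2_eq']; positivity
theorem T2_le : Tr 2 K ≤ s ^ 2 := by have := h.y0; rw [yy, ← h.bd.hs] at this; linarith
theorem y_le : yy S K ≤ s ^ 2 := by rw [yy, ← h.bd.hs]; linarith [h.T2_nonneg]
theorem T3_ge : -Tr 2 K ≤ Tr 3 K := h.good.Tr_odd_ge (j := 1) le_rfl
theorem T4_nonneg : 0 ≤ Tr 4 K := by
  rw [h.good.Tr_eq (by norm_num)]
  refine sum_nonneg fun c _ => ?_
  rw [show 4 = 2 * 2 from rfl, h.good.pow_diag]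
  positivity
theorem T3_abs : |Tr 3 K| ≤ μ ^ 4001 := by
  have h1 := h.num.ss2.trans (h.num.pw (b := 4001) (by norm_num))
  rw [abs_le]
  constructor <;> nlinarith [h.T3_ge, h.T2_le, h.t3, sq_nonneg s]
theorem T1_abs : |Tr 1 K| ≤ μ ^ 1493 :=
  abs_le.2 ⟨by linarith [h.tm], h.tp.trans (h.num.pw (by norm_num))⟩
end Ctx

theorem stepT4 : ∃ C : ℝ, 0 < C ∧ ∀ {ι : Type} [Fintype ι] [DecidableEq ι] {μ s ε p e : ℝ}
    {S : Finset ι} {K : Matrix ι ι ℝ} {w : ι → ι → ℝ}, Ctx μ s ε p e S K w →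
    ∑ a ∈ S, ∑ b ∈ S, w a b * (Tr 4 (upd e K a b) / μ ^ 5312 - Tr 4 K / μ ^ 5312) ≤
      C * (ε * s ^ 2) := by
  obtain ⟨C, hC, H⟩ := T4_step
  refine ⟨C, hC, fun {ι} _ _ {μ s ε p e S K w} h => ?_⟩
  have n := h.num
  have hp := n.pos
  have := H (ε := ε) (ym := 0) h.good h.bd n.bdA h.wt n.epos.le (by positivity) (by positivity) le_rfl
    h.tp h.tm h.T3_abs (by linarith [h.y0]) n.sE
    (n.K1 1329 0 (by norm_num) (by ring) (by ring)) (n.K2 2641 0 (by norm_num) (by ring) (by ring))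
    (n.K2 1493 0 (by norm_num) (by ring) (by ring)) (n.K2 5494 5312 (by norm_num) (by ring) (by ring))
    (mul_pos n.epos (pow_pos n.spos 2)).le
    (n.ss2.trans ((n.pw (b := 5310) (by norm_num)).trans_eq ((n.eps _).trans (by ring))))
    (n.K2 8002 5312 (by norm_num) (by ring) (by ring)) (n.K2 2626 5312 (by norm_num) (by ring) (by ring))
    (n.K2 2986 5312 (by norm_num) (by ring) (by ring))
  simp only [← sub_div, ← mul_div_assoc, ← sum_div]
  rw [div_le_iff₀ (by positivity)]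
  exact this.trans_eq (by ring)

theorem stepV : ∃ C : ℝ, 0 < C ∧ ∀ {ι : Type} [Fintype ι] [DecidableEq ι] {μ s ε p e : ℝ}
    {S : Finset ι} {K : Matrix ι ι ℝ} {w : ι → ι → ℝ}, Ctx μ s ε p e S K w →
    ∑ a ∈ S, ∑ b ∈ S, w a b * (Vs 1 (del S a b) (upd e K a b) / μ ^ 2820 - Vs 1 S K / μ ^ 2820) ≤
      C * (ε * s ^ 2) := by
  obtain ⟨C, hC, H⟩ := V_step
  refine ⟨C, hC, fun {ι} _ _ {μ s ε p e S K w} h => ?_⟩
  have n := h.num
  have hp := n.pos
  have := H (ε := ε) (ym := 0) (ya := s ^ 2) (t3 := μ ^ 4001) h.good h.bd h.wt n.epos.le (n.pw1 304)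
    le_rfl n.d2 n.sE n.rer (n.K1' 707 0 (by norm_num) (by ring) (by ring))
    (n.K1' 0 1410 (by norm_num) (by ring) (by ring)) (n.K1 2740 1410 (by norm_num) (by ring) (by ring))
    (n.K2 3750 1410 (by norm_num) (by ring) (by ring)) (n.K2 3528 1410 (by norm_num) (by ring) (by ring))
    (n.K2 4067 1410 (by norm_num) (by ring) (by ring)) (n.K2 3125 1410 (by norm_num) (by ring) (by ring))
    (n.K2 3431 1410 (by norm_num) (by ring) (by ring)) (n.K2 3749 1410 (by norm_num) (by ring) (by ring))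
    (n.K1 2118 1410 (by norm_num) (by ring) (by ring)) (n.K1 2018 1410 (by norm_num) (by ring) (by ring))
    (n.K2 5241 2820 (by norm_num) (by ring) (by ring)) (n.K2 5448 2820 (by norm_num) (by ring) (by ring))
    (n.K2 5350 2820 (by norm_num) (by ring) (by ring)) (n.K2 5478 2820 (by norm_num) (by ring) (by ring))
    (n.K2 5450 2820 (by norm_num) (by ring) (by ring)) (by positivity) (by positivity) le_rfl
    h.tp h.tm (by linarith [h.t3, h.T2_le]) (by linarith [h.y0])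
    (by rw [abs_of_nonneg h.y0]; exact h.y_le)
    (n.K2 4052 1410 (by norm_num) (by ring) (by ring)) (n.K2 2904 1410 (by norm_num) (by ring) (by ring))
    (n.K2 5494 2820 (by norm_num) (by ring) (by ring)) (mul_pos n.epos (pow_pos n.spos 2)).le
    (le_trans (by rw [sq (s ^ 2)]; exact mul_le_mul_of_nonneg_right n.ss2 (sq_nonneg s))
      (n.K3 2760 2820 (by norm_num) rfl (by ring)))
  have hV : 0 ≤ Vs 1 S K := sum_nonneg fun _ _ => sq_nonneg _
  have h1 := mul_le_mul_of_nonneg_right h.T2_le hV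
  have h2 := mul_nonneg (sq_nonneg s) hV
  simp only [← sub_div, ← mul_div_assoc, ← sum_div]
  rw [div_le_iff₀ (by positivity)]
  have e1 : C * (ε * s ^ 2) * μ ^ 2820 = C * ε * s ^ 2 * (μ ^ 1410) ^ 2 := by ring
  linarith

theorem stepD : ∃ C : ℝ, 0 < C ∧ ∀ {ι : Type} [Fintype ι] [DecidableEq ι] {μ s ε p e : ℝ}
    {S : Finset ι} {K : Matrix ι ι ℝ} {w : ι → ι → ℝ}, Ctx μ s ε p e S K w →
    ∑ a ∈ S, ∑ b ∈ S, w a b * (Dh (upd e K a b) / μ ^ 608 - Dh K / μ ^ 608) ≤ C * (ε * s ^ 2) := by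
  obtain ⟨C, hC, H⟩ := D_step
  refine ⟨C, hC, fun {ι} _ _ {μ s ε p e S K w} h => ?_⟩
  have n := h.num
  have hp := n.pos
  have := H (ε := ε) h.good h.bd h.wt n.epos.le (n.pw1 304) le_rfl n.d2 n.sE n.rer h.T1_abs
    (n.K2 2118 0 (by norm_num) (by ring) (by ring)) (n.K2 1715 0 (by norm_num) (by ring) (by ring))
    (n.K2 2020 0 (by norm_num) (by ring) (by ring)) (n.K1' 707 0 (by norm_num) (by ring) (by ring))
    (n.K2 2904 304 (by norm_num) (by ring) (by ring)) (n.K2 1493 608 (by norm_num) (by ring) (by ring))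
    (n.K1 1412 304 (by norm_num) (by ring) (by ring)) (n.K2 2822 608 (by norm_num) (by ring) (by ring))
  have hV : 0 ≤ Dh K := sum_nonneg fun _ _ => sq_nonneg _
  have h1 := mul_le_mul_of_nonneg_right h.T2_le hV
  have h2 := mul_nonneg (sq_nonneg s) hV
  simp only [← sub_div, ← mul_div_assoc, ← sum_div]
  rw [div_le_iff₀ (by positivity)]
  have e1 : C * (ε * s ^ 2) * μ ^ 608 = C * ε * s ^ 2 * (μ ^ 304) ^ 2 := by ring
  linarith

theorem stepH : ∃ C : ℝ, 0 < C ∧ ∀ {ι : Type} [Fintype ι] [DecidableEq ι] {μ s ε p e : ℝ}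
    {S : Finset ι} {K : Matrix ι ι ℝ} {w : ι → ι → ℝ}, Ctx μ s ε p e S K w →
    ∀ (k : ℕ) (σ x η w0 : ℝ), 1 ≤ k → k ≤ 3 → (σ = 1 ∨ σ = -1) → 0 < w0 →
    (0 < x → σ * k * (∑ i ∈ range (k + 1), (RR S K i).trace * (RR S K (k - i)).trace)
      - η * (∑ a ∈ S, ∑ b ∈ S, w a b) ≤ 20 * (ε * s ^ 2 * w0)) →
    μ * s * (μ ^ 1328) ^ (k + 1) ≤ 10 * (ε * s ^ 2 * w0) →
    (μ ^ 1328) ^ (2 * k + 2) + η ^ 2 * s ^ 4 ≤ 100 * (ε * s ^ 2 * w0 ^ 2) →
    ∑ a ∈ S, ∑ b ∈ S, w a b *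
      (hub (x + (σ * (aa (del S a b) (upd e K a b) k - aa S K k) - η) / w0) - hub x) ≤
        C * (ε * s ^ 2) := by
  obtain ⟨C, hC, H⟩ := sig_avg
  obtain ⟨C', hC', H'⟩ := ff_avg
  refine ⟨20 + 30 * C' + C * 110, by positivity,
    fun {ι} _ _ {μ s ε p e S K w} h k σ x η w0 hk1 hk3 hσ hw0 hm h1 h2 => ?_⟩
  have n := h.num
  have hp := n.pos
  have he := n.epos
  have hs := n.spos
  have h3 := H' h.good h.bd n.bdA h.wt k hk1 (by omega)
  have h4 := H h.good h.bd n.bdA h.wt k σ x η w0 ((20 + 30 * C') * (ε * s ^ 2)) hk1 hk3 hσ hw0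
    (by positivity) (fun hx => by
      have h5 := hm hx
      have hk : (k : ℝ) ≤ 3 := by exact_mod_cast hk3
      have h6 : C' * (μ * s) * (μ ^ 1328) ^ (k + 1) ≤ C' * (10 * (ε * s ^ 2 * w0)) := by
        rw [mul_assoc]; gcongr
      have h7 := h3.trans h6
      have h8 : σ * (∑ a ∈ S, ∑ b ∈ S, w a b * ff S e K k a b
          - ∑ i ∈ range (k + 1), (RR S K i).trace * (RR S K (k - i)).trace) ≤
          C' * (10 * (ε * s ^ 2 * w0)) := by
        rw [abs_le] at h7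
        rcases hσ with rfl | rfl <;> linarith [h7.1, h7.2]
      have h9 := mul_le_mul_of_nonneg_left h8 (Nat.cast_nonneg (α := ℝ) k)
      have h10 : k * (C' * (10 * (ε * s ^ 2 * w0))) ≤ 3 * (C' * (10 * (ε * s ^ 2 * w0))) := by gcongr
      linarith)
  have h5 : ((μ ^ 1328) ^ (2 * k + 2) + η ^ 2 * s ^ 4) / w0 ^ 2 ≤ 100 * (ε * s ^ 2) := by
    rw [div_le_iff₀ (by positivity)]; linarith
  have h6 : s * (μ ^ 1328) ^ (k + 1) / w0 ≤ 10 * (ε * s ^ 2) := by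
    rw [div_le_iff₀ hw0]
    have : s * (μ ^ 1328) ^ (k + 1) ≤ μ * s * (μ ^ 1328) ^ (k + 1) := by gcongr; exact n.sE
    linarith
  have h7 := mul_le_mul_of_nonneg_left (add_le_add h5 h6) hC.le
  linarith

omit [Fintype ι] [DecidableEq ι] in
theorem sum_hub_congr {S : Finset ι} {w : ι → ι → ℝ} {f g : ι → ι → ℝ} {x : ℝ}
    (h : ∀ a b, f a b = g a b) :
    ∑ a ∈ S, ∑ b ∈ S, w a b * (hub (f a b) - hub x) = ∑ a ∈ S, ∑ b ∈ S, w a b * (hub (g a b) - hub x) := by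
  simp only [h]

theorem Yfacts {Y N : ℝ} (hY : 0 < Y) (hN : 2 ≤ N) :
    0 ≤ N * Y / (N + Y) - (N - 2) * Y / (N - 2 + Y) ∧ N * Y / (N + Y) - (N - 2) * Y / (N - 2 + Y) ≤ 2 ∧
      2 * (N * Y / (N + Y)) ^ 2 ≤ (N * Y / (N + Y) - (N - 2) * Y / (N - 2 + Y)) * N ^ 2 := by
  have h1 : 0 < N + Y := by linarith
  have h2 : 0 < N - 2 + Y := by linarith
  have e : N * Y / (N + Y) - (N - 2) * Y / (N - 2 + Y) = 2 * Y ^ 2 / ((N + Y) * (N - 2 + Y)) := by
    field_simp; ring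
  rw [e]
  refine ⟨by positivity, ?_, ?_⟩
  · rw [div_le_iff₀ (by positivity)]; nlinarith
  · rw [div_pow, ← mul_div_assoc, div_mul_eq_mul_div, show 2 * (N * Y) ^ 2 = 2 * Y ^ 2 * N ^ 2 by ring]
    exact div_le_div_of_nonneg_left (by positivity) (by positivity) (by nlinarith)

theorem stepHub : ∃ C : ℝ, 0 < C ∧ ∀ {ι : Type} [Fintype ι] [DecidableEq ι] {μ s ε p e : ℝ}
    {S : Finset ι} {K : Matrix ι ι ℝ} {w : ι → ι → ℝ}, Ctx μ s ε p e S K w →
    (∑ a ∈ S, ∑ b ∈ S, w a b * (hub ((Tr 1 (upd e K a b) - 0) / μ ^ 1312)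
      - hub ((Tr 1 K - 0) / μ ^ 1312)) ≤ C * (ε * s ^ 2)) ∧
    (∑ a ∈ S, ∑ b ∈ S, w a b * (hub ((-Tr 1 (upd e K a b) - 5 * μ ^ 1492) / μ ^ 1492)
      - hub ((-Tr 1 K - 5 * μ ^ 1492) / μ ^ 1492)) ≤ C * (ε * s ^ 2)) ∧
    (∀ Y : ℝ, 0 < Y → ∑ a ∈ S, ∑ b ∈ S, w a b *
      (hub (((s ^ 2 - 2) * Y / (s ^ 2 - 2 + Y) - yy (del S a b) (upd e K a b)) / μ ^ 2680)
      - hub ((s ^ 2 * Y / (s ^ 2 + Y) - yy S K) / μ ^ 2680)) ≤ C * (ε * s ^ 2)) ∧
    (∀ c n : ℝ, μ ^ 4000 ≤ n → ∑ a ∈ S, ∑ b ∈ S, w a b * (hub ((Tr 3 (upd e K a b) - c) / (n / 10))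
      - hub ((Tr 3 K - c) / (n / 10))) ≤ C * (ε * s ^ 2)) := by
  obtain ⟨C, hC, H⟩ := stepH
  refine ⟨C, hC, fun {ι} _ _ {μ s ε p e S K w} h => ?_⟩
  have n := h.num
  have hp := n.pos
  have he := n.epos
  have hs := n.spos
  obtain ⟨r0, r1, r2, r3, -⟩ := RR_trace h.good
  have y0 := h.y0
  refine ⟨?_, ?_, fun Y hY => ?_, fun c n' hn => ?_⟩
  · refine le_of_eq_of_le (sum_hub_congr fun a b => ?_) (H h 1 1 _ 0 (μ ^ 1312) le_rfl (by norm_num)
      (Or.inl rfl) (by positivity) (fun hx => ?_) ?_ ?_)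
    · rw [aa_one, aa_one]; ring
    · have h1 : 0 < Tr 1 K := by simpa using (div_pos_iff_of_pos_right (by positivity)).1 hx
      simp only [sum_range_succ, range_zero, sum_empty, r0, r1, Nat.sub_zero, Nat.sub_self]
      have := mul_nonneg h1.le y0
      have : 0 ≤ ε * s ^ 2 * μ ^ 1312 := by positivity
      push_cast
      linarith
    · simp only [Nat.reduceAdd, Nat.reduceMul]
      have := n.K1 2657 1312 (by norm_num) rfl rfl
      have : 0 ≤ ε * s ^ 2 * μ ^ 1312 := by positivity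
      linarith
    · simp only [Nat.reduceAdd, Nat.reduceMul]
      have := n.K2 5312 2624 (by norm_num) rfl rfl
      have : 0 ≤ ε * s ^ 2 * μ ^ 2624 := by positivity
      linarith
  · refine le_of_eq_of_le (sum_hub_congr fun a b => ?_) (H h 1 (-1) _ 0 (μ ^ 1492) le_rfl
      (by norm_num) (Or.inr rfl) (by positivity) (fun hx => ?_) ?_ ?_)
    · rw [aa_one, aa_one]; ring
    · have h1 : 0 < -Tr 1 K := by
        have := (div_pos_iff_of_pos_right (by positivity)).1 hx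
        linarith [pow_pos hp 1492]
      simp only [sum_range_succ, range_zero, sum_empty, r0, r1, Nat.sub_zero, Nat.sub_self]
      have := mul_nonneg h1.le y0
      have : 0 ≤ ε * s ^ 2 * μ ^ 1492 := by positivity
      push_cast
      linarith
    · simp only [Nat.reduceAdd, Nat.reduceMul]
      have := n.K1 2657 1492 (by norm_num) rfl rfl
      have : 0 ≤ ε * s ^ 2 * μ ^ 1492 := by positivity
      linarith
    · simp only [Nat.reduceAdd, Nat.reduceMul]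
      have := n.K2 5312 2984 (by norm_num) rfl rfl
      have : 0 ≤ ε * s ^ 2 * μ ^ 2984 := by positivity
      linarith
  · obtain ⟨Y0, Y1, Y2⟩ := Yfacts hY (N := s ^ 2) (by nlinarith [h.bd.s_ge])
    set η := s ^ 2 * Y / (s ^ 2 + Y) - (s ^ 2 - 2) * Y / (s ^ 2 - 2 + Y) with hη
    refine le_of_eq_of_le (sum_hub_congr fun a b => ?_) (H h 2 1 _ η (μ ^ 2680) (by norm_num)
      (by norm_num) (Or.inl rfl) (by positivity) (fun hx => ?_) ?_ ?_)
    · rw [aa_two, aa_two, hη]; ring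
    · have h1 : yy S K ≤ s ^ 2 * Y / (s ^ 2 + Y) := by
        have := (div_pos_iff_of_pos_right (by positivity)).1 hx
        linarith
      have h2 := pow_le_pow_left₀ y0 h1 2
      have h3 := h.wt.total
      rw [← h.bd.hs, abs_le] at h3
      have h4 := mul_le_mul_of_nonneg_left h3.1 Y0
      have h5 : η * (μ * s * s ^ 2) ≤ 2 * (μ * s * s ^ 2) := by gcongr
      have h6 : μ * s * s ^ 2 ≤ ε * s ^ 2 * μ ^ 2680 := by
        refine le_trans ?_ (n.K3 1381 2680 (by norm_num) rfl rfl)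
        rw [pow_succ' μ 1380]
        gcongr
        exact n.s2
      have h7 : Tr 1 K * (Tr 3 K - Tr 1 K) ≤ ε * s ^ 2 * μ ^ 2680 := by
        have : Tr 1 K * Tr 3 K ≤ ε * s ^ 2 * μ ^ 2680 := by
          rcases le_total 0 (Tr 1 K) with h0 | h0
          · calc _ ≤ Tr 1 K * μ ^ 4001 := by gcongr; exact (abs_le.1 h.T3_abs).2
              _ ≤ μ ^ 1313 * μ ^ 4001 := by gcongr; exact h.tp
              _ ≤ _ := n.K2 5314 2680 (by norm_num) (by ring) rfl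
          · calc _ ≤ -Tr 1 K * s ^ 2 := by nlinarith [h.T3_ge, h.T2_le]
              _ ≤ μ ^ 1493 * s ^ 2 := by gcongr; exact h.tm
              _ ≤ _ := n.K3 1493 2680 (by norm_num) rfl rfl
        nlinarith [sq_nonneg (Tr 1 K)]
      simp only [sum_range_succ, range_zero, sum_empty, r0, r1, r2, Nat.sub_zero, Nat.sub_self,
        Nat.reduceSub]
      have : 0 ≤ ε * s ^ 2 * μ ^ 2680 := by positivity
      push_cast
      linarith
    · simp only [Nat.reduceAdd, Nat.reduceMul]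
      have := n.K1 3985 2680 (by norm_num) rfl rfl
      have : 0 ≤ ε * s ^ 2 * μ ^ 2680 := by positivity
      linarith
    · simp only [Nat.reduceAdd, Nat.reduceMul]
      have h1 := n.K2 7968 5360 (by norm_num) rfl rfl
      have h2 := n.K3 2760 5360 (by norm_num) rfl rfl
      have h3 : η ^ 2 * s ^ 4 ≤ 2 ^ 2 * (μ ^ 2760 * s ^ 2) := by
        rw [show s ^ 4 = s ^ 2 * s ^ 2 by ring]
        gcongr
        exact n.ss2
      have : 0 ≤ ε * s ^ 2 * μ ^ 5360 := by positivity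
      linarith
  · have hn0 : 0 < n' := (pow_pos hp _).trans_le hn
    have k1 : ε * s ^ 2 * μ ^ 4000 ≤ ε * s ^ 2 * n' := by gcongr
    have k2 := mul_le_mul_of_nonneg_left (n.pw10 (a := 3999) (b := 4000) le_rfl)
      (mul_pos he (pow_pos hs 2)).le
    refine le_of_eq_of_le (sum_hub_congr fun a b => ?_) (H h 3 1 _ 0 (n' / 10) (by norm_num)
      le_rfl (Or.inl rfl) (by positivity) (fun hx => ?_) ?_ ?_)
    · rw [aa_three, aa_three]; ring
    · have h1 : Tr 1 K * (Tr 4 K - Tr 2 K) ≤ ε * s ^ 2 * μ ^ 3999 := by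
        rcases le_total 0 (Tr 1 K) with h0 | h0
        · calc _ ≤ Tr 1 K * (μ ^ 1328) ^ 4 := by gcongr; linarith [h.bd.T4, h.T2_nonneg]
            _ ≤ μ ^ 1313 * (μ ^ 1328) ^ 4 := by gcongr; exact h.tp
            _ ≤ _ := n.K2 6625 3999 (by norm_num) (by ring) rfl
        · calc _ ≤ -Tr 1 K * s ^ 2 := by nlinarith [h.T4_nonneg, h.T2_le]
            _ ≤ μ ^ 1493 * s ^ 2 := by gcongr; exact h.tm
            _ ≤ _ := n.K3 1493 3999 (by norm_num) rfl rfl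
      have h2 : yy S K * (Tr 1 K - Tr 3 K) ≤ ε * s ^ 2 * μ ^ 3999 := by
        have h3 : Tr 1 K - Tr 3 K ≤ μ ^ 2761 := by
          linarith [h.tp, h.T3_ge, h.T2_le, n.ss2, n.pw (a := 1313) (b := 2760) (by norm_num),
            n.pw10 (a := 2760) (b := 2761) le_rfl, pow_pos hp 2760]
        calc _ ≤ yy S K * μ ^ 2761 := by gcongr
          _ ≤ s ^ 2 * μ ^ 2761 := by gcongr; exact h.y_le
          _ ≤ _ := n.K3 2761 3999 (by norm_num) (by ring) rfl
      simp only [sum_range_succ, range_zero, sum_empty, r0, r1, r2, r3, Nat.sub_zero, Nat.sub_self,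
        Nat.reduceSub]
      have : 0 ≤ ε * s ^ 2 * μ ^ 3999 := by positivity
      push_cast
      linarith
    · simp only [Nat.reduceAdd, Nat.reduceMul]
      have := n.K1 5313 4000 (by norm_num) rfl rfl
      linarith
    · simp only [Nat.reduceAdd, Nat.reduceMul]
      have h1 := n.K2 10624 8000 (by norm_num) rfl rfl
      have h2 : ε * s ^ 2 * (μ ^ 4000) ^ 2 ≤ ε * s ^ 2 * n' ^ 2 := by gcongr
      linarith

end Crest.Agent.R62.Ph2
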