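import Crest.Agent.R62.Defs

/-! Phase 3: the numerical side conditions (monomial inequalities, through logarithms). -/

set_option autoImplicit false

noncomputable section
namespace Crest.Agent.R62.Ph3

theorem lg_le {μ a b : ℝ} (hμ : 1 < μ) (ha : 0 < a) (hb : 0 < b)
    (h : Real.logb μ a ≤ Real.logb μ b) : a ≤ b :=
  (Real.logb_le_logb hμ ha hb).1 h

theorem lg_mono {μ a b : ℝ} (hμ : 1 < μ) (ha : 0 < a) (h : a ≤ b) :
    Real.logb μ a ≤ Real.logb μ b :=
  Real.logb_le_logb_of_le hμ ha h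

theorem lg_add {μ a b τ : ℝ} (hμ : 1 < μ) (ha : 0 < a) (hb : 0 < b) (h2 : Real.logb μ 2 ≤ τ) :
    Real.logb μ (a + b) ≤ Real.logb μ a + τ ∨ Real.logb μ (a + b) ≤ Real.logb μ b + τ := by
  rcases le_total a b with h | h
  · right
    have h1 : Real.logb μ (a + b) ≤ Real.logb μ (2 * b) := lg_mono hμ (by positivity) (by linarith)
    rw [Real.logb_mul (by norm_num) hb.ne'] at h1
    linarith
  · left
    have h1 : Real.logb μ (a + b) ≤ Real.logb μ (2 * a) := lg_mono hμ (by positivity) (by linarith)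
    rw [Real.logb_mul (by norm_num) ha.ne'] at h1
    linarith

/-- all side conditions of phase 3 -/
structure Cond (s ε L om dd δ lam r er eE tp tm t LA : ℝ) : Prop where
  a1 : δ ^ 2 ≤ s
  Ls : L ≤ s
  eE1 : eE ≤ ε * s ^ 2
  t1 : dd ^ 2 ≤ ε * L ^ 2
  t2 : dd ^ 4 ≤ ε * s ^ 2 * L ^ 2
  t3 : er ≤ ε * s
  t4 : dd ≤ ε * s
  t5 : L ^ 2 ≤ ε * s ^ 2
  t6 : dd ^ 2 * om ^ 2 ≤ ε * s ^ 2 * L ^ 2
  t7 : eE * L ≤ ε * s ^ 2
  t8 : tp * L ≤ ε * s ^ 2
  t9 : tm ≤ ε * s ^ 2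
  t10 : L * er * δ ≤ ε * s ^ 2
  w1 : 1 ≤ ε * s * om
  w2 : eE * (L * om) ≤ ε * s ^ 2 * om
  w3 : L * om * er * δ ≤ ε * s ^ 2 * om
  w4 : om * er * lam ≤ ε * s ^ 2 * om
  w5 : om * L ^ 2 ≤ ε * s ^ 2 * om
  w6 : om * δ * lam ≤ ε * s ^ 2 * om
  w7 : om * δ ^ 2 * r ^ 2 ≤ ε * s ^ 2 * om
  w8 : om * δ * L * r ≤ ε * s ^ 2 * om
  w9 : om * s * er ≤ ε * s ^ 2 * om
  w10 : δ ^ 2 * s * lam ≤ ε * s ^ 2 * om
  w11 : lam ^ 2 * δ * r * om ≤ ε * s ^ 2 * om ^ 2
  w12 : δ ^ 4 * r ^ 2 * lam ^ 2 ≤ ε * s ^ 2 * om ^ 2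
  w13 : δ ^ 6 * r * lam ^ 2 ≤ ε * s ^ 2 * om ^ 2
  w14 : (L * om) ^ 2 ≤ ε * s ^ 2 * om ^ 2
  w15 : δ ^ 4 * r ^ 2 * om ^ 2 ≤ ε * s ^ 2 * om ^ 2
  w16 : tp * (L * om) ≤ ε * s ^ 2 * om
  w17 : L ^ 2 * lam ^ 2 ≤ ε * s ^ 2 * om ^ 2
  d1 : om * er ≤ ε * s ^ 2
  d2 : δ * om ≤ ε * s ^ 2
  d3 : δ ^ 2 * r ^ 2 ≤ ε * s ^ 2
  d4 : t * om ≤ ε * dd * s ^ 2
  d5 : t ≤ ε * dd ^ 2 * s ^ 2
  d6 : eE * om ≤ ε * dd * s ^ 2
  d7 : om ^ 2 ≤ ε * dd ^ 2 * s ^ 2
  bda : BdA s LA lam r dd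
  g1 : LA ^ 4 ≤ ε * s ^ 2 * tp ^ 2
  g2 : t ^ 2 ≤ ε * s ^ 2 * tp ^ 2
  g3 : eE * LA ^ 2 ≤ ε * s ^ 2 * tp

local macro "lgt" : tactic => `(tactic|
  (refine lg_le (by assumption) (by positivity) (by positivity) ?_
   try simp (disch := positivity) only [Real.logb_mul, Real.logb_pow, Real.logb_one]
   try push_cast))

section
variable {μ s ε L om dd δ lam r er eE tp tm t LA x : ℝ}

set_option maxHeartbeats 1000000 in
theorem cond_of_lg (hμ : 1 < μ) (hs : 0 < s) (hε : 0 < ε) (hL : 0 < L) (hom : 0 < om) (hdd : 0 < dd)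
    (hδ : 0 < δ) (hlam : 0 < lam) (hr : 0 < r) (her : 0 < er) (heE : 0 < eE) (htp : 0 < tp)
    (htm : 0 < tm) (ht : 0 < t) (hLA : 0 < LA)
    (hx : Real.logb μ s = x) (x1 : 660 ≤ x) (x2 : x ≤ 1350)
    (le : Real.logb μ ε = -2)
    (L1 : 2 * x - 1358 ≤ Real.logb μ L) (L2 : 0 ≤ Real.logb μ L)
    (L3 : Real.logb μ L ≤ 2 * x - 1358 + 1 / 20 ∨ Real.logb μ L ≤ 1 / 20)
    (O1 : 2 * x - 1288 ≤ Real.logb μ om) (O2 : Real.logb μ om ≤ 2 * x - 1288 + 1 / 20)
    (D1 : x - 1045 ≤ Real.logb μ dd) (D2 : -3 ≤ Real.logb μ dd)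
    (D3 : Real.logb μ dd ≤ x - 1045 + 1 / 20 ∨ Real.logb μ dd ≤ -3 + 1 / 20)
    (E3 : Real.logb μ δ ≤ x - 1045 + 1 / 20 ∨ Real.logb μ δ ≤ 1 / 20)
    (M3 : Real.logb μ lam ≤ x + 1 / 20 ∨ Real.logb μ lam ≤ 2 * x - 1288 + 1 / 20)
    (R3 : Real.logb μ r ≤ x - 644 + 1 / 20) (Q3 : Real.logb μ er ≤ x - 644 + 1 / 20)
    (F3 : Real.logb μ eE ≤ x + 1 / 20)
    (P1 : 2 * x - 1350 ≤ Real.logb μ tp) (P2 : 1280 ≤ Real.logb μ tp)
    (P3 : Real.logb μ tp ≤ 2 * x - 1350 + 1 / 20 ∨ Real.logb μ tp ≤ 1280 + 1 / 20)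
    (N3 : Real.logb μ tm ≤ 2 * x - 1207 + 1 / 20 ∨ Real.logb μ tm ≤ 1280 + 1 / 20)
    (T3 : Real.logb μ t ≤ 2 * x - 1207 + 1 / 20 ∨ Real.logb μ t ≤ 1280 + 1 / 20)
    (A1 : x - 40 ≤ Real.logb μ LA)
    (A3 : Real.logb μ LA ≤ 2 * x - 1358 + 1 / 20 ∨ Real.logb μ LA ≤ x - 40 + 1 / 20) :
    Cond s ε L om dd δ lam r er eE tp tm t LA := by
  have E4 : Real.logb μ δ ≤ 305 + 1 / 20 := by rcases E3 with h | h <;> linarith
  have L4 : Real.logb μ L ≤ x - 8 + 1 / 20 := by rcases L3 with h | h <;> linarith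
  refine ⟨?_, ?_, ?_, ?_, ?_, ?_, ?_, ?_, ?_, ?_, ?_, ?_, ?_, ?_, ?_, ?_, ?_, ?_, ?_, ?_, ?_, ?_, ?_,
    ?_, ?_, ?_, ?_, ?_, ?_, ?_, ?_, ?_, ?_, ?_, ?_, ?_, ?_, ⟨?_, ?_, ?_, ?_, ?_, ?_, ?_⟩, ?_, ?_, ?_⟩
  · lgt; linarith
  · lgt; linarith
  · lgt; linarith
  · lgt; rcases D3 with h | h <;> linarith
  · lgt; rcases D3 with h | h <;> linarith
  · lgt; linarith
  · lgt; rcases D3 with h | h <;> linarith
  · lgt; linarith
  · lgt; rcases D3 with h | h <;> linarith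
  · lgt; linarith
  · lgt; rcases L3 with h | h <;> rcases P3 with h' | h' <;> linarith
  · lgt; rcases N3 with h | h <;> linarith
  · lgt; linarith
  · lgt; linarith
  · lgt; linarith
  · lgt; linarith
  · lgt; rcases M3 with h | h <;> linarith
  · lgt; linarith
  · lgt; rcases M3 with h | h <;> linarith
  · lgt; linarith
  · lgt; linarith
  · lgt; linarith
  · lgt; rcases M3 with h | h <;> rcases E3 with h' | h' <;> linarith
  · lgt; rcases M3 with h | h <;> rcases E3 with h' | h' <;> linarith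
  · lgt; rcases M3 with h | h <;> rcases E3 with h' | h' <;> linarith
  · lgt; rcases M3 with h | h <;> rcases E3 with h' | h' <;> linarith
  · lgt; linarith
  · lgt; linarith
  · lgt; rcases L3 with h | h <;> rcases P3 with h' | h' <;> linarith
  · lgt; rcases M3 with h | h <;> rcases L3 with h' | h' <;> linarith
  · lgt; linarith
  · lgt; linarith
  · lgt; linarith
  · lgt; rcases T3 with h | h <;> linarith
  · lgt; rcases T3 with h | h <;> linarith
  · lgt; linarith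
  · lgt; linarith
  · lgt; rcases M3 with h | h <;> rcases D3 with h' | h' <;> linarith
  · lgt; rcases D3 with h | h <;> linarith
  · lgt; rcases M3 with h | h <;> linarith
  · lgt; rcases M3 with h | h <;> linarith
  · lgt; linarith
  · lgt; rcases D3 with h | h <;> linarith
  · lgt; rcases A3 with h | h <;> linarith
  · lgt; rcases A3 with h | h <;> linarith
  · lgt; rcases T3 with h | h <;> linarith
  · lgt; rcases A3 with h | h <;> linarith

end

theorem lg_small {μ y : ℝ} (hμ : 1 < μ) (hy : 0 < y) (h : y ^ 200 ≤ μ) : Real.logb μ y ≤ 1 / 200 := by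
  have h1 := lg_mono hμ (by positivity) h
  rw [Real.logb_pow, Real.logb_self_eq_one hμ] at h1
  push_cast at h1
  linarith

theorem cond_main {c μ s : ℝ} (hc : 1 ≤ c) (hμc : (c + 2) ^ 200 ≤ μ) (hs : 0 < s)
    (h1 : μ ^ 1320 ≤ s ^ 2) (h2 : s ^ 2 ≤ μ ^ 2700) :
    Cond s (1 / μ ^ 2) (s ^ 2 / μ ^ 1358 + 2) (s ^ 2 / μ ^ 1288 + μ ^ 20) (s / μ ^ 1045 + 1 / μ ^ 3)
      (s / μ ^ 1045 + 1 / μ ^ 3 + 1) (2 * (s + (s ^ 2 / μ ^ 1288 + μ ^ 20)))
      (√(s ^ 2 / μ ^ 1288 + μ ^ 20))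
      (c * (√(s ^ 2 / μ ^ 1288 + μ ^ 20) + (s / μ ^ 1045 + 1 / μ ^ 3 + 1) ^ 2)) (c * s)
      (5 / 2 * (s ^ 2 / μ ^ 1350 + μ ^ 1280)) (5 / 2 * (s ^ 2 / μ ^ 1207 + μ ^ 1280))
      (5 / 2 * (s ^ 2 / μ ^ 1350 + μ ^ 1280) + 5 / 2 * (s ^ 2 / μ ^ 1207 + μ ^ 1280))
      (s ^ 2 / μ ^ 1358 + 2 + s / μ ^ 40) := by
  have h3 : (3 : ℝ) ^ 200 ≤ μ := le_trans (pow_le_pow_left₀ (by norm_num) (by linarith) 200) hμc
  have hμ : 1 < μ := lt_of_lt_of_le (one_lt_pow₀ (by norm_num) (by norm_num)) h3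
  have hμ0 : 0 < μ := by linarith
  have hcs : ∀ y : ℝ, 0 < y → y ≤ c + 2 → Real.logb μ y ≤ 1 / 200 := fun y hy hy' =>
    lg_small hμ hy (le_trans (pow_le_pow_left₀ hy.le hy' 200) hμc)
  have k2 := hcs 2 (by norm_num) (by linarith)
  have k52 := hcs (5 / 2) (by norm_num) (by linarith)
  have kc := hcs c (by linarith) (by linarith)
  have k52' : 0 ≤ Real.logb μ (5 / 2) := Real.logb_nonneg hμ (by norm_num)
  obtain ⟨x, hx⟩ : ∃ x, Real.logb μ s = x := ⟨_, rfl⟩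
  have lp : ∀ k : ℕ, Real.logb μ (μ ^ k) = k := fun k => by
    rw [Real.logb_pow, Real.logb_self_eq_one hμ, mul_one]
  have ls2 : Real.logb μ (s ^ 2) = 2 * x := by rw [Real.logb_pow, hx]; norm_num
  have lq : ∀ k : ℕ, Real.logb μ (s ^ 2 / μ ^ k) = 2 * x - k := fun k => by
    rw [Real.logb_div (by positivity) (by positivity), lp, ls2]
  have ll : ∀ k : ℕ, Real.logb μ (s / μ ^ k) = x - k := fun k => by
    rw [Real.logb_div (by positivity) (by positivity), lp, hx]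
  have li : ∀ k : ℕ, Real.logb μ (1 / μ ^ k) = -k := fun k => by
    rw [Real.logb_div (by positivity) (by positivity), lp, Real.logb_one, zero_sub]
  have x1 : 660 ≤ x := by
    have := lg_mono hμ (by positivity) h1
    rw [lp, ls2] at this; push_cast at this; linarith
  have x2 : x ≤ 1350 := by
    have := lg_mono hμ (by positivity) h2
    rw [lp, ls2] at this; push_cast at this; linarith
  have up : ∀ {a b : ℝ}, 0 < a → 0 < b → Real.logb μ a ≤ Real.logb μ (a + b) := fun ha hb =>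
    lg_mono hμ ha (by linarith)
  have up' : ∀ {a b : ℝ}, 0 < a → 0 < b → Real.logb μ b ≤ Real.logb μ (a + b) := fun ha hb =>
    lg_mono hμ hb (by linarith)
  have q1 := lq 1358
  have q2 := lq 1288
  have q3 := lq 1350
  have q4 := lq 1207
  have q5 := ll 1045
  have q6 := ll 40
  have q7 := li 3
  have q8 := lp 20
  have q9 := lp 1280
  push_cast at q1 q2 q3 q4 q5 q6 q7 q8 q9
  have p1 : 0 < s ^ 2 / μ ^ 1358 := by positivity
  have p2 : 0 < s ^ 2 / μ ^ 1288 := by positivity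
  have p3 : 0 < s ^ 2 / μ ^ 1350 := by positivity
  have p4 : 0 < s ^ 2 / μ ^ 1207 := by positivity
  have p5 : 0 < s / μ ^ 1045 := by positivity
  have p6 : 0 < s / μ ^ 40 := by positivity
  have p7 : 0 < 1 / μ ^ 3 := by positivity
  have p8 : 0 < μ ^ 20 := by positivity
  have p9 : 0 < μ ^ 1280 := by positivity
  have le2 := li 2
  have pe : 0 < 1 / μ ^ 2 := by positivity
  push_cast at le2
  generalize s ^ 2 / μ ^ 1358 = a1 at *
  generalize s ^ 2 / μ ^ 1288 = a2 at *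
  generalize s ^ 2 / μ ^ 1350 = a3 at *
  generalize s ^ 2 / μ ^ 1207 = a4 at *
  generalize s / μ ^ 1045 = a5 at *
  generalize s / μ ^ 40 = a6 at *
  generalize 1 / μ ^ 3 = a7 at *
  generalize μ ^ 20 = a8 at *
  generalize μ ^ 1280 = a9 at *
  generalize 1 / μ ^ 2 = ε at *
  clear lp lq ll li h1 h2 hcs h3 hμc
  have k2' : 0 ≤ Real.logb μ 2 := Real.logb_nonneg hμ (by norm_num)
  have L3 : Real.logb μ (a1 + 2) ≤ 2 * x - 1358 + 1 / 100 ∨ Real.logb μ (a1 + 2) ≤ 1 / 100 := by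
    rcases lg_add hμ p1 two_pos k2 with h | h
    · left; linarith
    · right; linarith
  have O2 : Real.logb μ (a2 + a8) ≤ 2 * x - 1288 + 1 / 200 := by
    rcases lg_add hμ p2 p8 k2 with h | h <;> linarith
  have O1 := up p2 p8
  have D3 : Real.logb μ (a5 + a7) ≤ x - 1045 + 1 / 200 ∨ Real.logb μ (a5 + a7) ≤ -3 + 1 / 200 := by
    rcases lg_add hμ p5 p7 k2 with h | h
    · left; linarith
    · right; linarith
  have E3 : Real.logb μ (a5 + a7 + 1) ≤ x - 1045 + 1 / 100 ∨ Real.logb μ (a5 + a7 + 1) ≤ 1 / 100 := by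
    rcases lg_add hμ (add_pos p5 p7) one_pos k2 with h | h
    · rcases D3 with h' | h'
      · left; linarith
      · right; linarith
    · right; rw [Real.logb_one] at h; linarith
  have R0 : Real.logb μ (√(a2 + a8)) = Real.logb μ (a2 + a8) / 2 := by
    have : Real.logb μ (√(a2 + a8) ^ 2) = 2 * Real.logb μ (√(a2 + a8)) := by
      rw [Real.logb_pow]; norm_num
    rw [Real.sq_sqrt (by positivity)] at this
    linarith
  have pr : 0 < √(a2 + a8) := by positivity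
  have P3 : Real.logb μ (5 / 2 * (a3 + a9)) ≤ 2 * x - 1350 + 1 / 100 ∨
      Real.logb μ (5 / 2 * (a3 + a9)) ≤ 1280 + 1 / 100 := by
    rw [Real.logb_mul (by norm_num) (by positivity)]
    rcases lg_add hμ p3 p9 k2 with h | h
    · left; linarith
    · right; linarith
  have N3 : Real.logb μ (5 / 2 * (a4 + a9)) ≤ 2 * x - 1207 + 1 / 100 ∨
      Real.logb μ (5 / 2 * (a4 + a9)) ≤ 1280 + 1 / 100 := by
    rw [Real.logb_mul (by norm_num) (by positivity)]
    rcases lg_add hμ p4 p9 k2 with h | h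
    · left; linarith
    · right; linarith
  refine cond_of_lg hμ hs pe (by positivity) (by positivity) (by positivity) (by positivity)
    (by positivity) pr (by positivity) (by positivity) (by positivity) (by positivity)
    (by positivity) (by positivity) hx x1 x2 le2 ?_ ?_ ?_ ?_ ?_ ?_ ?_ ?_ ?_ ?_ ?_ ?_ ?_ ?_ ?_ ?_ ?_ ?_
    ?_ ?_
  · have := up p1 two_pos; linarith
  · have := up' p1 two_pos; linarith
  · rcases L3 with h | h
    · left; linarith
    · right; linarith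
  · linarith
  · linarith
  · have := up p5 p7; linarith
  · have := up' p5 p7; linarith
  · rcases D3 with h | h
    · left; linarith
    · right; linarith
  · rcases E3 with h | h
    · left; linarith
    · right; linarith
  · rw [Real.logb_mul (by norm_num) (by positivity)]
    rcases lg_add hμ hs (add_pos p2 p8) k2 with h | h
    · left; linarith
    · right; linarith
  · linarith
  · rw [Real.logb_mul (by positivity) (by positivity)]
    have hp : 0 < (a5 + a7 + 1) ^ 2 := by positivity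
    rcases lg_add hμ pr hp k2 with h | h
    · linarith
    · rw [Real.logb_pow] at h
      push_cast at h
      rcases E3 with h' | h' <;> linarith
  · rw [Real.logb_mul (by positivity) (by positivity)]; linarith
  · rw [Real.logb_mul (by norm_num) (by positivity)]
    have := up p3 p9; linarith
  · rw [Real.logb_mul (by norm_num) (by positivity)]
    have := up' p3 p9; linarith
  · rcases P3 with h | h
    · left; linarith
    · right; linarith
  · rcases N3 with h | h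
    · left; linarith
    · right; linarith
  · have hp : 0 < 5 / 2 * (a3 + a9) := by positivity
    have hq : 0 < 5 / 2 * (a4 + a9) := by positivity
    rcases lg_add hμ hp hq k2 with h | h
    · rcases P3 with h' | h'
      · left; linarith
      · right; linarith
    · rcases N3 with h' | h'
      · left; linarith
      · right; linarith
  · have := up' (add_pos p1 two_pos) p6; linarith
  · rcases lg_add hμ (add_pos p1 two_pos) p6 k2 with h | h
    · rcases L3 with h' | h'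
      · left; linarith
      · right; linarith
    · right; linarith

end Crest.Agent.R62.Ph3
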