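import Crest.Agent.R62.Sig

/-! The potentials are insensitive to small entrywise perturbations. -/

set_option autoImplicit false
open Classical
open scoped Matrix
open Finset

noncomputable section
namespace Crest.Agent.R62

/-- `x` and `x'` are bounded by `R ^ k` and differ by at most `R ^ k * η`. -/
def RoundCl (R η : ℝ) (k : ℕ) (x x' : ℝ) : Prop :=
  |x| ≤ R ^ k ∧ |x'| ≤ R ^ k ∧ |x' - x| ≤ R ^ k * η

namespace RoundCl
variable {R η : ℝ} {j k : ℕ} {x x' y y' : ℝ}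

theorem mono (hR : 2 ≤ R) (hη : 0 ≤ η) (h : RoundCl R η j x x') (hjk : j ≤ k) :
    RoundCl R η k x x' := by
  have : R ^ j ≤ R ^ k := pow_le_pow_right₀ (by linarith) hjk
  exact ⟨h.1.trans this, h.2.1.trans this, h.2.2.trans (mul_le_mul_of_nonneg_right this hη)⟩

theorem const (hR : 2 ≤ R) (hη : 0 ≤ η) (hx : |x| ≤ 1) : RoundCl R η k x x := by
  have : 1 ≤ R ^ k := one_le_pow₀ (by linarith)
  refine ⟨hx.trans this, hx.trans this, ?_⟩
  rw [sub_self, abs_zero]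
  positivity

theorem add (hR : 2 ≤ R) (hη : 0 ≤ η) (h : RoundCl R η k x x') (h' : RoundCl R η k y y') :
    RoundCl R η (k + 1) (x + y) (x' + y') := by
  have h0 : 0 ≤ R ^ k := by positivity
  have h1 : R ^ k + R ^ k ≤ R ^ (k + 1) := by rw [pow_succ]; nlinarith
  refine ⟨(abs_add_le _ _).trans (by linarith [h.1, h'.1]),
    (abs_add_le _ _).trans (by linarith [h.2.1, h'.2.1]), ?_⟩
  rw [show x' + y' - (x + y) = (x' - x) + (y' - y) by ring]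
  refine (abs_add_le _ _).trans ?_
  have := mul_le_mul_of_nonneg_right h1 hη
  linarith [h.2.2, h'.2.2]

theorem mul (hR : 2 ≤ R) (hη : 0 ≤ η) (h : RoundCl R η j x x') (h' : RoundCl R η k y y') :
    RoundCl R η (j + k + 1) (x * y) (x' * y') := by
  have hj : 0 ≤ R ^ j := by positivity
  have hk : 0 ≤ R ^ k := by positivity
  have h0 : 0 ≤ R ^ j * R ^ k := by positivity
  have h1 : R ^ j * R ^ k + R ^ j * R ^ k ≤ R ^ (j + k + 1) := by
    rw [pow_succ, pow_add]; nlinarith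
  refine ⟨?_, ?_, ?_⟩
  · rw [abs_mul]
    have := mul_le_mul h.1 h'.1 (abs_nonneg _) hj
    linarith
  · rw [abs_mul]
    have := mul_le_mul h.2.1 h'.2.1 (abs_nonneg _) hj
    linarith
  · rw [show x' * y' - x * y = (x' - x) * y' + x * (y' - y) by ring]
    refine (abs_add_le _ _).trans ?_
    rw [abs_mul, abs_mul]
    have h2 := mul_le_mul h.2.2 h'.2.1 (abs_nonneg _) (mul_nonneg hj hη)
    have h3 := mul_le_mul h.1 h'.2.2 (abs_nonneg _) hj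
    have h4 := mul_le_mul_of_nonneg_right h1 hη
    nlinarith

theorem sum {ι : Type} (hη : 0 ≤ η) (hR : 2 ≤ R) (s : Finset ι) (hs : (s.card : ℝ) ≤ R)
    {f f' : ι → ℝ} (h : ∀ i, RoundCl R η k (f i) (f' i)) :
    RoundCl R η (k + 1) (∑ i ∈ s, f i) (∑ i ∈ s, f' i) := by
  have hk : 0 ≤ R ^ k := by positivity
  have key : ∀ (g : ι → ℝ) (c : ℝ), 0 ≤ c → (∀ i, |g i| ≤ c) → |∑ i ∈ s, g i| ≤ R * c := by
    intro g c hc hg
    refine (Finset.abs_sum_le_sum_abs _ _).trans ?_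
    refine (Finset.sum_le_card_nsmul _ _ c fun i _ => hg i).trans ?_
    rw [nsmul_eq_mul]
    exact mul_le_mul_of_nonneg_right hs hc
  refine ⟨?_, ?_, ?_⟩
  · rw [pow_succ']; exact key f _ hk fun i => (h i).1
  · rw [pow_succ']; exact key f' _ hk fun i => (h i).2.1
  · rw [← Finset.sum_sub_distrib, pow_succ', mul_assoc]
    exact key _ _ (mul_nonneg hk hη) fun i => (h i).2.2

end RoundCl

theorem Round_mul {ι : Type} [Fintype ι] {R η : ℝ} (hR : 2 ≤ R) (hη : 0 ≤ η)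
    (hc : (Fintype.card ι : ℝ) ≤ R) {j k : ℕ} {A A' B B' : Matrix ι ι ℝ}
    (hA : ∀ c f, RoundCl R η j (A c f) (A' c f)) (hB : ∀ c f, RoundCl R η k (B c f) (B' c f))
    (c f : ι) : RoundCl R η (j + k + 2) ((A * B) c f) ((A' * B') c f) := by
  rw [Matrix.mul_apply, Matrix.mul_apply]
  exact RoundCl.sum hη hR univ hc fun g => (hA c g).mul hR hη (hB g f)

/-- all the moment functionals change by at most `R ^ 12 * η` -/
theorem Round_moments {ι : Type} [Fintype ι] [DecidableEq ι] {R η : ℝ} (hR : 2 ≤ R) (hη : 0 ≤ η)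
    (hc : (Fintype.card ι : ℝ) ≤ R) (S : Finset ι) {K K' J J' : Matrix ι ι ℝ}
    (hK : ∀ c f, RoundCl R η 1 (K c f) (K' c f)) (hJ : ∀ c f, RoundCl R η 1 (J c f) (J' c f)) :
    |Tr 1 K' - Tr 1 K| ≤ R ^ 12 * η ∧ |Tr 2 K' - Tr 2 K| ≤ R ^ 12 * η ∧
    |Tr 3 K' - Tr 3 K| ≤ R ^ 12 * η ∧ |Tr 4 K' - Tr 4 K| ≤ R ^ 12 * η ∧
    |Vs 1 S K' - Vs 1 S K| ≤ R ^ 12 * η ∧ |Vs 0 S K' - Vs 0 S K| ≤ R ^ 12 * η ∧
    |Dh K' - Dh K| ≤ R ^ 12 * η ∧ |Zz S K' J' - Zz S K J| ≤ R ^ 12 * η := by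
  have hS : (S.card : ℝ) ≤ R := le_trans (by exact_mod_cast S.card_le_univ) hc
  have h2 := Round_mul hR hη hc hK hK
  have h3 := Round_mul hR hη hc h2 hK
  have h4 := Round_mul hR hη hc h3 hK
  have hV : ∀ s0 : ℝ, |s0| ≤ 1 → |Vs s0 S K' - Vs s0 S K| ≤ R ^ 12 * η := by
    intro s0 hs0
    have h5 : ∀ c, RoundCl R η 5 (bet K c - s0) (bet K' c - s0) := fun c => by
      rw [sub_eq_add_neg, sub_eq_add_neg]
      exact (h2 c c).add hR hη (RoundCl.const hR hη (by rwa [abs_neg]))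
    have h6 := RoundCl.sum hη hR S hS fun c => (h5 c).mul hR hη (h5 c)
    simp only [Vs, sq]
    exact h6.2.2
  refine ⟨?_, ?_, ?_, ?_, hV 1 (by simp), hV 0 (by simp), ?_, ?_⟩
  · simp only [Tr, pow_one]
    exact ((RoundCl.sum hη hR univ hc fun c => hK c c).mono hR hη (by norm_num)).2.2
  · simp only [Tr, sq]
    exact ((RoundCl.sum hη hR univ hc fun c => h2 c c).mono hR hη (by norm_num)).2.2
  · simp only [Tr, pow_succ K, pow_succ K', pow_zero, one_mul]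
    exact ((RoundCl.sum hη hR univ hc fun c => h3 c c).mono hR hη (by norm_num)).2.2
  · simp only [Tr, pow_succ K, pow_succ K', pow_zero, one_mul]
    exact ((RoundCl.sum hη hR univ hc fun c => h4 c c).mono hR hη (by norm_num)).2.2
  · simp only [Dh, sq]
    exact ((RoundCl.sum hη hR univ hc fun c => (hK c c).mul hR hη (hK c c)).mono hR hη
      (by norm_num)).2.2
  · have h5 : ∀ c f, RoundCl R η 2 ((J + idS S : Matrix ι ι ℝ) c f)
        ((J' + idS S : Matrix ι ι ℝ) c f) := fun c f => by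
      rw [Matrix.add_apply, Matrix.add_apply]
      refine (hJ c f).add hR hη (RoundCl.const hR hη ?_)
      rw [idS, Matrix.diagonal_apply]
      split_ifs <;> simp
    have h6 := Round_mul hR hη hc h2 h5
    exact ((RoundCl.sum hη hR univ hc fun c => h6 c c).mono hR hη (by norm_num)).2.2

theorem Round_div {x x' E κ δ : ℝ} (hκ : 0 < κ) (hE : 1 / κ ≤ E) (h : |x' - x| ≤ δ) :
    |x' / E - x / E| ≤ κ * δ := by
  have hE0 : 0 < E := lt_of_lt_of_le (by positivity) hE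
  have h1 : 1 ≤ κ * E := by rwa [div_le_iff₀ hκ, mul_comm] at hE
  have hδ : 0 ≤ δ := (abs_nonneg _).trans h
  rw [← sub_div, abs_div, abs_of_pos hE0, div_le_iff₀ hE0]
  nlinarith

theorem Round_hub {x x' δ : ℝ} (h : |x' - x| ≤ δ) : hub x' ≤ hub x + δ :=
  (hub_lip x' x).trans (by linarith)

theorem Round_PhiA {ι : Type} [Fintype ι] [DecidableEq ι] (P : Par ℝ) {κ δ : ℝ} (hκ : 1 ≤ κ)
    (hP : 1 ≤ P.E4 ∧ 1 ≤ P.EV ∧ 1 ≤ P.ED ∧ 0 ≤ P.z ∧ P.z ≤ 1 ∧ 1 ≤ P.w1 ∧ 1 ≤ P.w2 ∧ 1 ≤ P.w3 ∧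
      1 ≤ P.w4 ∧ 1 ≤ P.w5 ∧ 1 ≤ P.w6 ∧ (P.f4 = 0 ∨ P.f4 = 1) ∧ (P.f5 = 0 ∨ P.f5 = 1))
    {S : Finset ι} {K K' J J' : Matrix ι ι ℝ}
    (h : |Tr 1 K' - Tr 1 K| ≤ δ ∧ |Tr 2 K' - Tr 2 K| ≤ δ ∧
      |Tr 3 K' - Tr 3 K| ≤ δ ∧ |Tr 4 K' - Tr 4 K| ≤ δ ∧
      |Vs 1 S K' - Vs 1 S K| ≤ δ ∧ |Vs 0 S K' - Vs 0 S K| ≤ δ ∧
      |Dh K' - Dh K| ≤ δ ∧ |Zz S K' J' - Zz S K J| ≤ δ) :
    PhiA P S K' J' ≤ PhiA P S K J + 10 * (κ * δ) := by
  obtain ⟨h1, h2, h3, h4, h5, -, h7, h8⟩ := h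
  obtain ⟨p1, p2, p3, p4, p5, p6, p7, p8, p9, p10, p11, p12, p13⟩ := hP
  have hδ : 0 ≤ δ := (abs_nonneg _).trans h1
  have hκ0 : 0 < κ := by linarith
  have hκ1 : 1 / κ ≤ 1 := by rw [div_le_one hκ0]; exact hκ
  have hκδ : δ ≤ κ * δ := by nlinarith
  have t1 := (abs_le.1 (Round_div hκ0 (hκ1.trans p1) h4)).2
  have t2 := (abs_le.1 (Round_div hκ0 (hκ1.trans p2) h5)).2
  have t3 := (abs_le.1 (Round_div hκ0 (hκ1.trans p3) h7)).2
  have t4 : P.z * Zz S K' J' - P.z * Zz S K J ≤ κ * δ := by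
    have := (abs_le.1 h8).2
    nlinarith
  have t5 : hub ((Tr 1 K' - P.c1) / P.w1) ≤ hub ((Tr 1 K - P.c1) / P.w1) + κ * δ :=
    Round_hub (Round_div hκ0 (hκ1.trans p6) (by convert h1 using 2; ring))
  have t6 : hub ((-Tr 1 K' - P.c2) / P.w2) ≤ hub ((-Tr 1 K - P.c2) / P.w2) + κ * δ :=
    Round_hub (Round_div hκ0 (hκ1.trans p7) (by rw [← abs_neg]; convert h1 using 2; ring))
  have t7 : hub ((P.c3 - yy S K') / P.w3) ≤ hub ((P.c3 - yy S K) / P.w3) + κ * δ :=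
    Round_hub (Round_div hκ0 (hκ1.trans p8) (by simp only [yy]; convert h2 using 2; ring))
  have t8 : hub ((yy S K' - P.c4) / P.w4) ≤ hub ((yy S K - P.c4) / P.w4) + κ * δ :=
    Round_hub (Round_div hκ0 (hκ1.trans p9)
      (by simp only [yy]; rw [← abs_neg]; convert h2 using 2; ring))
  have t9 : hub ((P.c5 - Tr 3 K') / P.w5) ≤ hub ((P.c5 - Tr 3 K) / P.w5) + κ * δ :=
    Round_hub (Round_div hκ0 (hκ1.trans p10) (by rw [← abs_neg]; convert h3 using 2; ring))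
  have t10 : hub ((Tr 3 K' - P.c6) / P.w6) ≤ hub ((Tr 3 K - P.c6) / P.w6) + κ * δ :=
    Round_hub (Round_div hκ0 (hκ1.trans p11) (by convert h3 using 2; ring))
  unfold PhiA
  rcases p12 with e4 | e4 <;> rcases p13 with e5 | e5 <;> rw [e4, e5] <;> linarith

theorem Round_PhiC {ι : Type} [Fintype ι] [DecidableEq ι] {m κ δ : ℝ} (hm : 1 ≤ m) (hκ : 4 ≤ κ)
    (hκm : m ^ 6 ≤ κ) {S : Finset ι} {K K' J J' : Matrix ι ι ℝ}
    (h : |Tr 1 K' - Tr 1 K| ≤ δ ∧ |Tr 2 K' - Tr 2 K| ≤ δ ∧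
      |Tr 3 K' - Tr 3 K| ≤ δ ∧ |Tr 4 K' - Tr 4 K| ≤ δ ∧
      |Vs 1 S K' - Vs 1 S K| ≤ δ ∧ |Vs 0 S K' - Vs 0 S K| ≤ δ ∧
      |Dh K' - Dh K| ≤ δ ∧ |Zz S K' J' - Zz S K J| ≤ δ) :
    PhiC m S K' ≤ PhiC m S K + 10 * (κ * δ) := by
  obtain ⟨h1, h2, -, -, -, h6, h7, -⟩ := h
  have hδ : 0 ≤ δ := (abs_nonneg _).trans h1
  have hκ0 : 0 < κ := by linarith
  have hm0 : 0 < m := by linarith
  have hκ1 : 1 / κ ≤ 1 / 4 := one_div_le_one_div_of_le (by norm_num) hκ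
  have hN : (0 : ℝ) ≤ S.card := by positivity
  have hq : ∀ a : ℕ, (0 : ℝ) ≤ S.card / m ^ a := fun a => by positivity
  have hp : ∀ a : ℕ, 1 ≤ m ^ a := fun a => one_le_pow₀ hm
  have e1 : 1 / κ ≤ E2 m S.card := by
    have := hq 1358
    unfold E2
    nlinarith
  have e2 : 1 / κ ≤ EW m S.card := by
    have := hq 1288
    have := hp 20
    unfold EW
    nlinarith
  have e3 : 1 / κ ≤ EDc m S.card := by
    have := hq 2090
    have : 1 / κ ≤ 1 / m ^ 6 := one_div_le_one_div_of_le (by positivity) hκm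
    unfold EDc
    linarith
  have e4 : 1 / κ ≤ E1p m S.card := by
    have := hq 1350
    have := hp 1280
    unfold E1p
    linarith
  have e5 : 1 / κ ≤ E1m m S.card := by
    have := hq 1207
    have := hp 1280
    unfold E1m
    linarith
  have t1 : (Tr 2 K' - 1) / E2 m S.card - (Tr 2 K - 1) / E2 m S.card ≤ κ * δ :=
    (abs_le.1 (Round_div hκ0 e1 (by convert h2 using 2; ring))).2
  have t2 := (abs_le.1 (Round_div hκ0 e2 h6)).2
  have t3 := (abs_le.1 (Round_div hκ0 e3 h7)).2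
  have t4 : hub (Tr 1 K' / E1p m S.card - 1) ≤ hub (Tr 1 K / E1p m S.card - 1) + κ * δ :=
    Round_hub (by convert Round_div hκ0 e4 h1 using 2; ring)
  have t5 : hub (-Tr 1 K' / E1m m S.card - 1) ≤ hub (-Tr 1 K / E1m m S.card - 1) + κ * δ :=
    Round_hub (by rw [← abs_neg]; convert Round_div hκ0 e5 h1 using 2; ring)
  have : 0 ≤ κ * δ := by positivity
  unfold PhiC
  linarith

theorem Round_G1 {m n : ℝ} (hm : 2 ≤ m) (hn : m ^ 4000 ≤ n) : 32 ≤ G1 m n ∧ 32 ≤ y2 m n := by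
  have hm0 : 0 < m := by linarith
  have hm1 : 1 ≤ m := by linarith
  have h5 : 32 ≤ m ^ 5 := le_trans (by norm_num) (pow_le_pow_left₀ (by norm_num) hm 5)
  have h1 : 32 ≤ G1 m n := by
    unfold G1
    rw [le_div_iff₀ (by positivity)]
    calc 32 * m ^ 3220 ≤ m ^ 5 * m ^ 3220 := by gcongr
      _ = m ^ 3225 := by rw [← pow_add]
      _ ≤ m ^ 4000 := pow_le_pow_right₀ hm1 (by norm_num)
      _ ≤ n := hn
      _ ≤ m ^ 700 * n := le_mul_of_one_le_left (le_trans (by positivity) hn) (one_le_pow₀ hm1)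
  refine ⟨h1, ?_⟩
  unfold y2
  rw [le_div_iff₀ (by positivity)]
  exact mul_le_mul h1 ((pow_le_pow_right₀ hm1 (by norm_num)).trans hn) (by positivity)
    (by linarith)

theorem Phi_perturb (d : ℕ) (hd : 3 ≤ d) : ∃ m0 : ℕ, ∀ m, m0 ≤ m → ∀ n, Scale m n →
      ∀ {V ι : Type} [Fintype V] [Fintype ι] [DecidableEq ι] (vx : ι → V) (st : St V ι ℝ),
      ∀ (st' : St V ι ℝ) (j : ℕ), j ≤ 3 → Fintype.card ι = n * d → st'.S = st.S → st'.G = st.G →
      st.S.Nonempty → (∀ c f, |st.K c f| ≤ (n * d : ℕ)) → (∀ c f, |st.J c f| ≤ (n * d : ℕ)) →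
      (∀ c f, |st'.K c f - st.K c f| ≤ 1 / ((n * d : ℕ) : ℝ) ^ 29) →
      (∀ c f, |st'.J c f - st.J c f| ≤ 1 / ((n * d : ℕ) : ℝ) ^ 29) →
      Phi j m n d vx st' ≤ Phi j m n d vx st + 1 / ((n * d : ℕ) : ℝ) ^ 2 := by
  refine ⟨2, fun m hm n hsc V ι _ _ _ vx st st' j hj hcard hS hG hne hK hJ hK' hJ' => ?_⟩
  have hm' : (2 : ℝ) ≤ m := by exact_mod_cast hm
  have hm1 : (1 : ℝ) ≤ m := by linarith
  have hn : (m : ℝ) ^ 4000 ≤ n := by exact_mod_cast hsc.1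
  have h6 : (m : ℝ) ^ 6 ≤ n := (pow_le_pow_right₀ hm1 (by norm_num)).trans hn
  have hn64 : (64 : ℝ) ≤ n := le_trans (by norm_num) ((pow_le_pow_left₀ (by norm_num) hm' 6).trans h6)
  have hd' : (3 : ℝ) ≤ d := by exact_mod_cast hd
  set N0 : ℝ := ((n * d : ℕ) : ℝ) with hN0
  have hN0n : (n : ℝ) ≤ N0 := by rw [hN0]; push_cast; nlinarith
  have hN64 : 64 ≤ N0 := hn64.trans hN0n
  have hN0' : 0 < N0 := by linarith
  set η : ℝ := 1 / N0 ^ 29 with hη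
  have hη0 : 0 ≤ η := by positivity
  have hη1 : η ≤ 1 := by
    rw [hη, div_le_one (by positivity)]
    exact one_le_pow₀ (by linarith)
  have hR : 2 ≤ 2 * N0 := by linarith
  have hc : (Fintype.card ι : ℝ) ≤ 2 * N0 := by rw [hcard]; linarith
  have hcl : ∀ {A A' : Matrix ι ι ℝ}, (∀ c f, |A c f| ≤ N0) → (∀ c f, |A' c f - A c f| ≤ η) →
      ∀ c f, RoundCl (2 * N0) η 1 (A c f) (A' c f) := by
    intro A A' h h' c f
    have h1 := h c f
    have h2 := h' c f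
    have h3 : |A' c f| ≤ |A' c f - A c f| + |A c f| := by
      simpa using abs_add_le (A' c f - A c f) (A c f)
    refine ⟨by linarith, by linarith, ?_⟩
    nlinarith
  have mK := Round_moments hR hη0 hc st.S (hcl hK hK') (hcl hJ hJ')
  have mJ := Round_moments hR hη0 hc st.S (hcl hJ hJ') (hcl hK hK')
  have hfin : 10 * (N0 * ((2 * N0) ^ 12 * η)) + 10 * (N0 * ((2 * N0) ^ 12 * η)) ≤ 1 / N0 ^ 2 := by
    have h3 : 81920 ≤ N0 ^ 14 :=
      le_trans (by norm_num) (pow_le_pow_left₀ (by norm_num) hN64 14)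
    have e : 10 * (N0 * ((2 * N0) ^ 12 * η)) + 10 * (N0 * ((2 * N0) ^ 12 * η)) =
        81920 / N0 ^ 14 * (1 / N0 ^ 2) := by
      rw [hη]; field_simp; norm_num
    rw [e]
    exact mul_le_of_le_one_left (by positivity) ((div_le_one (by positivity)).2 h3)
  obtain ⟨hG1, hy2⟩ := Round_G1 hm' hn
  have hp : ∀ a : ℕ, (1 : ℝ) ≤ (m : ℝ) ^ a := fun a => one_le_pow₀ hm1
  have hN1 : (1 : ℝ) ≤ st.S.card := by exact_mod_cast hne.card_pos
  have hκ : 1 ≤ N0 := by linarith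
  have hA : ∀ P : Par ℝ, (1 ≤ P.E4 ∧ 1 ≤ P.EV ∧ 1 ≤ P.ED ∧ 0 ≤ P.z ∧ P.z ≤ 1 ∧ 1 ≤ P.w1 ∧
      1 ≤ P.w2 ∧ 1 ≤ P.w3 ∧ 1 ≤ P.w4 ∧ 1 ≤ P.w5 ∧ 1 ≤ P.w6 ∧ (P.f4 = 0 ∨ P.f4 = 1) ∧
      (P.f5 = 0 ∨ P.f5 = 1)) → PhiA P st.S st'.K st'.J + PhiA P st.S st'.J st'.K ≤
        PhiA P st.S st.K st.J + PhiA P st.S st.J st.K + 1 / N0 ^ 2 := fun P hP => by
    have h1 := Round_PhiA P hκ hP mK
    have h2 := Round_PhiA P hκ hP mJ
    linarith
  interval_cases j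
  · simp only [Phi, hS]
    refine hA _ ⟨hp _, hp _, hp _, ?_, ?_, ?_, hp _, hp _, hp _, ?_, ?_, Or.inr rfl, Or.inr rfl⟩
    · simp only [par0]; positivity
    · simp only [par0]
      rw [div_le_one (by positivity)]
      exact one_le_mul_of_one_le_of_one_le (hp _) hN1
    all_goals simp only [par0]; linarith
  · simp only [Phi, hS]
    refine hA _ ⟨hp _, hp _, hp _, le_rfl, zero_le_one, ?_, hp _, ?_, hp _, ?_, ?_, Or.inr rfl,
      Or.inr rfl⟩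
    all_goals simp only [par1]; linarith
  · simp only [Phi, hS]
    refine hA _ ⟨hp _, hp _, hp _, le_rfl, zero_le_one, hp _, hp _, hp _, le_rfl, le_rfl, ?_,
      Or.inl rfl, Or.inl rfl⟩
    simp only [par2]; linarith
  · simp only [Phi, hS, hG]
    have h1 := Round_PhiC hm1 (by linarith) (h6.trans hN0n) mK
    have h2 := Round_PhiC hm1 (by linarith) (h6.trans hN0n) mJ
    linarith

end Crest.Agent.R62
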