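import Crest.Agent.R62.LemA2
import Crest.Agent.R62.Hub

/-! Signed moment terms, and reading off bounds from the potentials. -/

set_option autoImplicit false
open Classical
open scoped Matrix
open Finset

noncomputable section
namespace Crest.Agent.R62

/-- averaging a Huber term built on `σ a_k` (`σ = ±1`), with shift `η` and width `w0` -/
theorem sig_avg : ∃ C : ℝ, 0 < C ∧ ∀ {ι : Type} [Fintype ι] [DecidableEq ι] {p e : ℝ} {S : Finset ι} {K : Matrix ι ι ℝ}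
      {s L lam r dd om ga : ℝ}, Good p S e K → Bd S K s L lam r dd om ga → BdA s L lam r dd →
      ∀ {w : ι → ι → ℝ} {eF eE er : ℝ}, Wt S K w eF eE er → ∀ (k : ℕ) (σ x η w0 α : ℝ), 1 ≤ k → k ≤ 3 →
      (σ = 1 ∨ σ = -1) → 0 < w0 → 0 ≤ α →
      (0 < x → σ * k * (∑ a ∈ S, ∑ b ∈ S, w a b * ff S e K k a b)
        - η * (∑ a ∈ S, ∑ b ∈ S, w a b) ≤ α * w0) →
      ∑ a ∈ S, ∑ b ∈ S, w a b *
        (hub (x + (σ * (aa (del S a b) (upd e K a b) k - aa S K k) - η) / w0) - hub x) ≤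
        α + C * ((L ^ (2 * k + 2) + η ^ 2 * s ^ 4) / w0 ^ 2 + s * L ^ (k + 1) / w0) := by
  obtain ⟨C1, hC1, h1⟩ := ff_norm
  obtain ⟨C2, hC2, h2⟩ := rem_bound
  refine ⟨18 * C1 + 2 + 2 * C2, by positivity, ?_⟩
  intro ι _ _ p e S K s L lam r dd om ga hK hB hA w eF eE er hw k σ x η w0 α hk1 hk3 hσ hw0 hα hF
  have hff := h1 hK hB hA k hk1 (by omega)
  have hrem := h2 hK hB hA k hk1 (by omega)
  have hσ2 : σ ^ 2 = 1 := by rcases hσ with rfl | rfl <;> norm_num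
  have hσ1 : |σ| = 1 := by rcases hσ with rfl | rfl <;> norm_num
  have hL : 0 < L := lt_of_lt_of_le one_pos hB.L_ge
  have hs : 0 < s := lt_of_lt_of_le two_pos hB.s_ge
  have hk : (k : ℝ) ^ 2 ≤ 9 := by
    have : (k : ℝ) ≤ 3 := by exact_mod_cast hk3
    nlinarith [Nat.cast_nonneg (α := ℝ) k]
  have key := hub_avg S w hw.nonneg hw.le x
    (fun a b => x + (σ * (aa (del S a b) (upd e K a b) k - aa S K k) - η) / w0)
    (fun a b => (σ * k * ff S e K k a b - η) / w0)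
    (fun a b => σ * (aa (del S a b) (upd e K a b) k - aa S K k - k * ff S e K k a b) / w0)
    α ((18 * C1 * L ^ (2 * k + 2) + 2 * (η ^ 2 * s ^ 4)) / w0 ^ 2) (C2 * s * L ^ (k + 1) / w0) hα
    (fun a _ b _ _ => le_of_eq (by ring)) ?_ ?_ ?_
  · refine key.trans ?_
    have e1 : (18 * C1 * L ^ (2 * k + 2) + 2 * (η ^ 2 * s ^ 4)) / w0 ^ 2 =
        18 * C1 * (L ^ (2 * k + 2) / w0 ^ 2) + 2 * (η ^ 2 * s ^ 4 / w0 ^ 2) := by ring
    have e2 : (L ^ (2 * k + 2) + η ^ 2 * s ^ 4) / w0 ^ 2 =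
        L ^ (2 * k + 2) / w0 ^ 2 + η ^ 2 * s ^ 4 / w0 ^ 2 := by ring
    have e3 : C2 * s * L ^ (k + 1) / w0 = C2 * (s * L ^ (k + 1) / w0) := by ring
    rw [e1, e2, e3]
    have p1 : 0 ≤ L ^ (2 * k + 2) / w0 ^ 2 := by positivity
    have p2 : 0 ≤ η ^ 2 * s ^ 4 / w0 ^ 2 := by positivity
    have p3 : 0 ≤ s * L ^ (k + 1) / w0 := by positivity
    generalize L ^ (2 * k + 2) / w0 ^ 2 = t1 at *
    generalize η ^ 2 * s ^ 4 / w0 ^ 2 = t2 at *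
    generalize s * L ^ (k + 1) / w0 = t3 at *
    nlinarith [mul_nonneg hC1.le p1, mul_nonneg hC1.le p2, mul_nonneg hC1.le p3,
      mul_nonneg hC2.le p1, mul_nonneg hC2.le p2, mul_nonneg hC2.le p3]
  · intro hx
    have e1 : ∑ a ∈ S, ∑ b ∈ S, w a b * ((σ * k * ff S e K k a b - η) / w0) =
        (σ * k * (∑ a ∈ S, ∑ b ∈ S, w a b * ff S e K k a b)
          - η * (∑ a ∈ S, ∑ b ∈ S, w a b)) / w0 := by
      simp only [Finset.mul_sum, ← Finset.sum_sub_distrib, Finset.sum_div]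
      exact Finset.sum_congr rfl fun a _ => Finset.sum_congr rfl fun b _ => by ring
    rw [e1, div_le_iff₀ hw0]
    exact hF hx
  · have e1 : ∑ a ∈ S, ∑ b ∈ S, ((σ * k * ff S e K k a b - η) / w0) ^ 2 ≤
        (18 * (∑ a ∈ S, ∑ b ∈ S, ff S e K k a b ^ 2) + ∑ _a ∈ S, ∑ _b ∈ S, 2 * η ^ 2) / w0 ^ 2 := by
      simp only [Finset.mul_sum, ← Finset.sum_add_distrib, Finset.sum_div]
      refine Finset.sum_le_sum fun a _ => Finset.sum_le_sum fun b _ => ?_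
      rw [div_pow]
      refine div_le_div_of_nonneg_right ?_ (by positivity)
      have e2 : (σ * k * ff S e K k a b) ^ 2 ≤ 9 * ff S e K k a b ^ 2 := by
        rw [mul_pow, mul_pow, hσ2, one_mul]
        exact mul_le_mul_of_nonneg_right hk (sq_nonneg _)
      nlinarith [sq_nonneg (σ * k * ff S e K k a b + η)]
    refine e1.trans (div_le_div_of_nonneg_right ?_ (by positivity))
    have e2 : ∑ _a ∈ S, ∑ _b ∈ S, 2 * η ^ 2 = 2 * (η ^ 2 * s ^ 4) := by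
      simp only [Finset.sum_const, nsmul_eq_mul, ← hB.hs]
      ring
    rw [e2]
    linarith
  · refine le_trans ?_ (div_le_div_of_nonneg_right hrem hw0.le)
    simp only [Finset.sum_div]
    refine Finset.sum_le_sum fun a _ => Finset.sum_le_sum fun b _ => ?_
    by_cases h0 : w a b ≠ 0
    · rw [if_pos h0, if_pos (hw.supp a b h0), abs_div, abs_mul, hσ1, one_mul, abs_of_pos hw0]
    · rw [if_neg h0]
      split_ifs
      · positivity
      · simp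

variable {ι : Type} [Fintype ι] [DecidableEq ι] {p e e' : ℝ} {S : Finset ι} {K J : Matrix ι ι ℝ}

theorem aa_one : aa S K 1 = Tr 1 K := by
  simp [aa]
theorem aa_two : aa S K 2 = -yy S K := by
  simp [aa, yy]
theorem aa_three : aa S K 3 = Tr 3 K := by
  have : ¬ Even 3 := by decide
  simp [aa, this]

structure Par.Pos (P : Par ℝ) : Prop where
  E4 : 0 < P.E4
  EV : 0 < P.EV
  ED : 0 < P.ED
  z : 0 ≤ P.z
  w1 : 0 < P.w1
  w2 : 0 < P.w2
  w3 : 0 < P.w3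
  f4 : P.f4 = 0 ∨ P.f4 = 1
  w4 : 0 < P.w4
  f5 : P.f5 = 0 ∨ P.f5 = 1
  w5 : 0 < P.w5
  w6 : 0 < P.w6

theorem Sig_Vs_nonneg (s0 : ℝ) : 0 ≤ Vs s0 S K := Finset.sum_nonneg fun _ _ => sq_nonneg _

omit [DecidableEq ι] in
theorem Sig_Dh_nonneg : 0 ≤ Dh K := Finset.sum_nonneg fun _ _ => sq_nonneg _

theorem Sig_Tr4_nonneg (hK : Good p S e K) : 0 ≤ Tr 4 K := by
  rw [hK.Tr_eq (by norm_num)]
  refine Finset.sum_nonneg fun c _ => ?_
  rw [show 4 = 2 * 2 from rfl, hK.pow_diag]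
  positivity

theorem Sig_PhiA_terms {P : Par ℝ} (hP : P.Pos) (hK : Good p S e K) (hJ : Good p S e' J) :
    0 ≤ Tr 4 K / P.E4 ∧ 0 ≤ Vs 1 S K / P.EV ∧ 0 ≤ Dh K / P.ED ∧ 0 ≤ P.z * Zz S K J ∧
    0 ≤ hub ((Tr 1 K - P.c1) / P.w1) ∧ 0 ≤ hub ((-Tr 1 K - P.c2) / P.w2) ∧
    0 ≤ hub ((P.c3 - yy S K) / P.w3) ∧ 0 ≤ P.f4 * hub ((yy S K - P.c4) / P.w4) ∧
    0 ≤ P.f5 * hub ((P.c5 - Tr 3 K) / P.w5) ∧ 0 ≤ hub ((Tr 3 K - P.c6) / P.w6) :=
  ⟨div_nonneg (Sig_Tr4_nonneg hK) hP.E4.le, div_nonneg (Sig_Vs_nonneg 1) hP.EV.le,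
    div_nonneg Sig_Dh_nonneg hP.ED.le, mul_nonneg hP.z (Zz_nonneg hK hJ), hub_nonneg _,
    hub_nonneg _, hub_nonneg _,
    mul_nonneg (by rcases hP.f4 with h | h <;> rw [h] <;> norm_num) (hub_nonneg _),
    mul_nonneg (by rcases hP.f5 with h | h <;> rw [h] <;> norm_num) (hub_nonneg _), hub_nonneg _⟩

theorem PhiA_nonneg {P : Par ℝ} (hP : P.Pos) (hK : Good p S e K) (hJ : Good p S e' J) :
    0 ≤ PhiA P S K J := by
  obtain ⟨h1, h2, h3, h4, h5, h6, h7, h8, h9, h10⟩ := Sig_PhiA_terms hP hK hJ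
  unfold PhiA
  linarith

theorem PhiA_bounds {P : Par ℝ} (hP : P.Pos) (hK : Good p S e K) (hJ : Good p S e' J)
    (h : PhiA P S K J ≤ 1) :
    Tr 4 K ≤ P.E4 ∧ Vs 1 S K ≤ P.EV ∧ Dh K ≤ P.ED ∧ P.z * Zz S K J ≤ 1 ∧
    Tr 1 K ≤ P.c1 + 3 / 2 * P.w1 ∧ -Tr 1 K ≤ P.c2 + 3 / 2 * P.w2 ∧ P.c3 - 3 / 2 * P.w3 ≤ yy S K ∧
    (P.f4 = 1 → yy S K ≤ P.c4 + 3 / 2 * P.w4) ∧ (P.f5 = 1 → P.c5 - 3 / 2 * P.w5 ≤ Tr 3 K) ∧
    Tr 3 K ≤ P.c6 + 3 / 2 * P.w6 := by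
  obtain ⟨h1, h2, h3, h4, h5, h6, h7, h8, h9, h10⟩ := Sig_PhiA_terms hP hK hJ
  unfold PhiA at h
  refine ⟨(div_le_one hP.E4).1 (by linarith), (div_le_one hP.EV).1 (by linarith),
    (div_le_one hP.ED).1 (by linarith), by linarith, ?_, ?_, ?_, fun hf => ?_, fun hf => ?_, ?_⟩
  · have := (div_le_iff₀ hP.w1).1 (le_of_hub_le (by linarith : hub ((Tr 1 K - P.c1) / P.w1) ≤ 1))
    linarith
  · have := (div_le_iff₀ hP.w2).1 (le_of_hub_le (by linarith : hub ((-Tr 1 K - P.c2) / P.w2) ≤ 1))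
    linarith
  · have := (div_le_iff₀ hP.w3).1 (le_of_hub_le (by linarith : hub ((P.c3 - yy S K) / P.w3) ≤ 1))
    linarith
  · rw [hf, one_mul] at h h8
    have := (div_le_iff₀ hP.w4).1 (le_of_hub_le (by linarith : hub ((yy S K - P.c4) / P.w4) ≤ 1))
    linarith
  · rw [hf, one_mul] at h h9
    have := (div_le_iff₀ hP.w5).1 (le_of_hub_le (by linarith : hub ((P.c5 - Tr 3 K) / P.w5) ≤ 1))
    linarith
  · have := (div_le_iff₀ hP.w6).1 (le_of_hub_le (by linarith : hub ((Tr 3 K - P.c6) / P.w6) ≤ 1))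
    linarith

theorem par_pos {m n d N : ℝ} (hm : 0 < m) (hn : 0 < n) (hN : 0 < N) :
    (par0 m n d N).Pos ∧ (par1 m n d N).Pos ∧ (par2 m n d N).Pos := by
  have hG : 0 < G1 m n := by unfold G1; positivity
  have hy : 0 < y2 m n := by unfold y2; positivity
  refine ⟨?_, ?_, ?_⟩
  · constructor <;> simp only [par0] <;> first | positivity | simp
  · refine ⟨?_, ?_, ?_, le_rfl, ?_, ?_, ?_, Or.inr rfl, ?_, Or.inr rfl, ?_, ?_⟩
    · exact pow_pos hm 5252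
    · exact pow_pos hm 2760
    · exact pow_pos hm 604
    · exact div_pos hG (by norm_num)
    · exact pow_pos hm 1492
    · exact div_pos hy (by norm_num)
    · exact pow_pos hm 2739
    · exact div_pos hn (by norm_num)
    · exact div_pos hn (by norm_num)
  · refine ⟨?_, ?_, ?_, le_rfl, ?_, ?_, ?_, Or.inl rfl, one_pos, Or.inl rfl, one_pos, ?_⟩
    · exact pow_pos hm 5312
    · exact pow_pos hm 2820
    · exact pow_pos hm 608
    · exact pow_pos hm 1312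
    · exact pow_pos hm 1492
    · exact pow_pos hm 2680
    · exact div_pos hn (by norm_num)

theorem Sig_PhiC_terms {m : ℝ} (hm : 0 < m) (hK : Good p S e K) (hS : S.Nonempty) :
    (0 < E2 m (S.card : ℝ) ∧ 0 < EW m (S.card : ℝ) ∧ 0 < EDc m (S.card : ℝ) ∧
      0 < E1p m (S.card : ℝ) ∧ 0 < E1m m (S.card : ℝ)) ∧
    0 ≤ (Tr 2 K - 1) / E2 m S.card ∧ 0 ≤ Vs 0 S K / EW m S.card ∧ 0 ≤ Dh K / EDc m S.card ∧
    0 ≤ hub (Tr 1 K / E1p m S.card - 1) ∧ 0 ≤ hub (-Tr 1 K / E1m m S.card - 1) := by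
  have p1 : 0 < E2 m (S.card : ℝ) := by unfold E2; positivity
  have p2 : 0 < EW m (S.card : ℝ) := by unfold EW; positivity
  have p3 : 0 < EDc m (S.card : ℝ) := by unfold EDc; positivity
  have p4 : 0 < E1p m (S.card : ℝ) := by unfold E1p; positivity
  have p5 : 0 < E1m m (S.card : ℝ) := by unfold E1m; positivity
  exact ⟨⟨p1, p2, p3, p4, p5⟩, div_nonneg (sub_nonneg.2 (hK.one_le_Tr2 hS)) p1.le,
    div_nonneg (Sig_Vs_nonneg 0) p2.le, div_nonneg Sig_Dh_nonneg p3.le, hub_nonneg _, hub_nonneg _⟩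

theorem PhiC_nonneg {m : ℝ} (hm : 0 < m) (hK : Good p S e K) (hS : S.Nonempty) : 0 ≤ PhiC m S K := by
  obtain ⟨-, h1, h2, h3, h4, h5⟩ := Sig_PhiC_terms hm hK hS
  unfold PhiC
  linarith

theorem PhiC_bounds {m : ℝ} (hm : 0 < m) (hK : Good p S e K) (hS : S.Nonempty) (h : PhiC m S K ≤ 1) :
    Tr 2 K ≤ E2 m S.card + 1 ∧ Vs 0 S K ≤ EW m S.card ∧ Dh K ≤ EDc m S.card ∧
    Tr 1 K ≤ 5 / 2 * E1p m S.card ∧ -Tr 1 K ≤ 5 / 2 * E1m m S.card := by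
  obtain ⟨⟨p1, p2, p3, p4, p5⟩, h1, h2, h3, h4, h5⟩ := Sig_PhiC_terms hm hK hS
  unfold PhiC at h
  refine ⟨?_, (div_le_one p2).1 (by linarith), (div_le_one p3).1 (by linarith), ?_, ?_⟩
  · have := (div_le_one p1).1 (by linarith : (Tr 2 K - 1) / E2 m S.card ≤ 1)
    linarith
  · have := le_of_hub_le (by linarith : hub (Tr 1 K / E1p m S.card - 1) ≤ 1)
    exact (div_le_iff₀ p4).1 (by linarith)
  · have := le_of_hub_le (by linarith : hub (-Tr 1 K / E1m m S.card - 1) ≤ 1)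
    exact (div_le_iff₀ p5).1 (by linarith)

/-- the size bounds used in phases 0, 1, 2 -/
theorem Bd.ofA (hK : Good p S e K) {s L lam dd : ℝ} (hs : s ^ 2 = S.card) (hs2 : 2 ≤ s) (hL : 1 ≤ L)
    (hl : 1 ≤ lam) (hd : 0 ≤ dd) (h2 : Tr 2 K ≤ 2 * s ^ 2) (h4 : Tr 4 K ≤ L ^ 4)
    (hV : Vs 1 S K ≤ lam ^ 2) (hD : Dh K ≤ dd ^ 2) :
    Bd S K s L lam (√(2 * lam)) dd (2 * (s + lam)) (2 * (L ^ 2 + lam * L)) := by
  have ho := hK.opB_of_T4 (by linarith) h4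
  refine ⟨hs, hs2, hL, Real.one_le_sqrt.2 (by linarith), by linarith, hd, by linarith,
    by positivity, h2, h4, ho, hV, fun c => ?_, hD, ?_, ?_⟩
  · rw [Real.sq_sqrt (by linarith)]
    linarith [hK.bet_le (by linarith) hV c]
  · have := hK.W_le
    nlinarith [mul_nonneg (by linarith : 0 ≤ s) (by linarith : 0 ≤ lam)]
  · have h1 := hK.G_le ho
    have h3 := mul_le_mul_of_nonneg_left hV (by positivity : 0 ≤ 4 * L ^ 2)
    have h5 : 0 ≤ L ^ 3 * lam := by positivity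
    have h6 : 0 ≤ L ^ 4 := by positivity
    nlinarith

/-- the size bounds used in phase 3 -/
theorem Bd.ofC (hK : Good p S e K) {s L om dd : ℝ} (hs : s ^ 2 = S.card) (hs2 : 2 ≤ s) (hL : 1 ≤ L)
    (ho : 1 ≤ om) (hd : 0 ≤ dd) (hLs : L ≤ s) (h2 : Tr 2 K ≤ L ^ 2) (hW : Vs 0 S K ≤ om ^ 2)
    (hD : Dh K ≤ dd ^ 2) : Bd S K s L (2 * (s + om)) (√om) dd om (L * om) := by
  have ho' := hK.opB_of_T2 h2
  have hT : 0 ≤ Tr 2 K := by
    rw [hK.Tr2_eq']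
    positivity
  refine ⟨hs, hs2, hL, Real.one_le_sqrt.2 ho, by linarith, hd, by linarith,
    by positivity, by nlinarith, ?_, ho', ?_, fun c => ?_, hD, hW, ?_⟩
  · calc Tr 4 K ≤ Tr 2 K ^ 2 := hK.Tr4_le
      _ ≤ (L ^ 2) ^ 2 := pow_le_pow_left₀ hT h2 2
      _ = L ^ 4 := by ring
  · have := hK.V_le
    nlinarith [mul_nonneg (by linarith : 0 ≤ s) (by linarith : 0 ≤ om)]
  · rw [Real.sq_sqrt (by linarith)]
    exact hK.bet_le_W (by linarith) hW c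
  · refine (hK.G_le_W ho').trans ?_
    rw [mul_pow]
    exact mul_le_mul_of_nonneg_left hW (sq_nonneg L)

theorem Bd.mono_L {s L L' lam r dd om ga : ℝ} (h : Bd S K s L lam r dd om ga) (hL : L ≤ L') :
    Bd S K s L' lam r dd om ga := by
  have h0 : 0 ≤ L := zero_le_one.trans h.L_ge
  exact { h with
    L_ge := h.L_ge.trans hL
    T4 := h.T4.trans (pow_le_pow_left₀ h0 hL 4)
    op := h.op.mono h0 hL }

end Crest.Agent.R62
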