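import Crest.Agent.R62.Defs

/-! Elementary facts about one boundary matrix (first half of `Spec`). -/

set_option autoImplicit false
open Classical
open scoped Matrix
open Finset

noncomputable section
namespace Crest.Agent.R62.SpecA

variable {ι : Type} [Fintype ι] [DecidableEq ι] {p e : ℝ} {S : Finset ι} {K J : Matrix ι ι ℝ}

theorem sum_eq_of_supp (S : Finset ι) (f : ι → ℝ) (hf : ∀ c, c ∉ S → f c = 0) :
    ∑ c, f c = ∑ c ∈ S, f c :=
  (Finset.sum_subset (Finset.subset_univ S) fun c _ hc => hf c hc).symm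

theorem transpose_eq (h : Good p S e K) : Kᵀ = K := by
  ext a b
  exact h.symm b a

theorem bet_eq (h : Good p S e K) (c : ι) : bet K c = ∑ b, K c b ^ 2 := by
  simp only [bet, Matrix.mul_apply]
  exact Finset.sum_congr rfl fun b _ => by rw [h.symm b c, sq]

theorem bet_nonneg (h : Good p S e K) (c : ι) : 0 ≤ bet K c := by
  rw [bet_eq h]
  exact Finset.sum_nonneg fun _ _ => sq_nonneg _

theorem bet_of_not_mem (h : Good p S e K) {c : ι} (hc : c ∉ S) : bet K c = 0 := by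
  rw [bet_eq h]
  exact Finset.sum_eq_zero fun b _ => by rw [h.supp c b hc]; simp

theorem pow_symm (h : Good p S e K) (k : ℕ) (a b : ι) : (K ^ k) a b = (K ^ k) b a := by
  have : (K ^ k)ᵀ = K ^ k := by rw [Matrix.transpose_pow, transpose_eq h]
  rw [← this, Matrix.transpose_apply, this]

theorem pow_supp (h : Good p S e K) {k : ℕ} (hk : 1 ≤ k) {a : ι} (ha : a ∉ S) (b : ι) :
    (K ^ k) a b = 0 := by
  obtain ⟨j, rfl⟩ : ∃ j, k = j + 1 := ⟨k - 1, by omega⟩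
  rw [pow_succ', Matrix.mul_apply]
  exact Finset.sum_eq_zero fun c _ => by rw [h.supp a c ha, zero_mul]

theorem Tr_eq (h : Good p S e K) {k : ℕ} (hk : 1 ≤ k) : Tr k K = ∑ c ∈ S, (K ^ k) c c :=
  sum_eq_of_supp S (fun c => (K ^ k) c c) fun c hc => pow_supp h hk hc c

theorem Tr_eq_univ (k : ℕ) (K : Matrix ι ι ℝ) : Tr k K = ∑ c, (K ^ k) c c := rfl

theorem Tr2_eq (h : Good p S e K) : Tr 2 K = ∑ c ∈ S, bet K c := by
  rw [Tr_eq h (by norm_num)]
  simp only [bet, sq]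

theorem Tr2_eq' (h : Good p S e K) : Tr 2 K = ∑ a ∈ S, ∑ b ∈ S, K a b ^ 2 := by
  rw [Tr2_eq h]
  refine Finset.sum_congr rfl fun a _ => ?_
  rw [bet_eq h]
  exact sum_eq_of_supp S _ fun b hb => by rw [h.symm a b, h.supp b a hb]; simp

theorem Tr1_eq (h : Good p S e K) : Tr 1 K = ∑ c ∈ S, K c c := by
  rw [Tr_eq h le_rfl, pow_one]

theorem Dh_eq (h : Good p S e K) : Dh K = ∑ c ∈ S, K c c ^ 2 :=
  sum_eq_of_supp S _ fun c hc => by rw [h.supp c c hc]; simp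

theorem pow_row (h : Good p S e K) {k : ℕ} (hk : 1 ≤ k) {a : ι} (ha : a ∈ S) :
    ∑ b ∈ S, (K ^ k) a b = e ^ k := by
  have h1 : ∀ a ∈ S, ∑ b ∈ S, K a b = e := fun a ha => by
    rw [← h.row a ha]
    exact (sum_eq_of_supp S _ fun b hb => by rw [h.symm a b, h.supp b a hb]).symm
  induction k, hk using Nat.le_induction generalizing a with
  | base => simpa using h1 a ha
  | succ k hk ih =>
    simp only [pow_succ' K, Matrix.mul_apply]
    rw [Finset.sum_comm]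
    simp only [← Finset.mul_sum]
    rw [sum_eq_of_supp S _ fun c hc => by rw [h.symm a c, h.supp c a hc, zero_mul],
      Finset.sum_congr rfl fun c hc => by rw [ih hc], ← Finset.sum_mul, h1 a ha, pow_succ']

theorem pow_add_apply (h : Good p S e K) (i j : ℕ) (a b : ι) :
    (K ^ (i + j)) a b = ∑ c, (K ^ i) a c * (K ^ j) b c := by
  rw [pow_add, Matrix.mul_apply]
  exact Finset.sum_congr rfl fun c _ => by rw [pow_symm h j c b]

theorem pow_diag (h : Good p S e K) (j : ℕ) (a : ι) :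
    (K ^ (2 * j)) a a = ∑ b, (K ^ j) a b ^ 2 := by
  rw [two_mul, pow_add_apply h]
  simp only [sq]

theorem pow_diag_nonneg (h : Good p S e K) (j : ℕ) (a : ι) : 0 ≤ (K ^ (2 * j)) a a := by
  rw [pow_diag h]
  exact Finset.sum_nonneg fun _ _ => sq_nonneg _

theorem pow_entry (h : Good p S e K) (i j : ℕ) (a b : ι) :
    (K ^ (i + j)) a b ^ 2 ≤ (K ^ (2 * i)) a a * (K ^ (2 * j)) b b := by
  rw [pow_add_apply h, pow_diag h, pow_diag h]
  exact Finset.sum_mul_sq_le_sq_mul_sq _ _ _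

theorem Tr_even (h : Good p S e K) (j : ℕ) : Tr (2 * j) K = ∑ a, ∑ b, (K ^ j) a b ^ 2 := by
  rw [Tr_eq_univ]
  exact Finset.sum_congr rfl fun a _ => pow_diag h j a

/-- Frobenius bound for `M *ᵥ x`. -/
theorem frob_mulVec (M : Matrix ι ι ℝ) (x : ι → ℝ) :
    ∑ a, (M *ᵥ x) a ^ 2 ≤ (∑ a, ∑ b, M a b ^ 2) * ∑ a, x a ^ 2 := by
  rw [Finset.sum_mul]
  exact Finset.sum_le_sum fun a _ => Finset.sum_mul_sq_le_sq_mul_sq _ _ _

theorem opB_of_T2 (h : Good p S e K) {L : ℝ} (h2 : Tr 2 K ≤ L ^ 2) : OpB K L := by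
  intro x
  have h1 := Tr_even h 1
  rw [mul_one, pow_one] at h1
  refine (frob_mulVec K x).trans ?_
  rw [← h1]
  exact mul_le_mul_of_nonneg_right h2 (Finset.sum_nonneg fun _ _ => sq_nonneg _)

theorem opB_of_T4 (h : Good p S e K) {L : ℝ} (_hL : 0 ≤ L) (h4 : Tr 4 K ≤ L ^ 4) : OpB K L := by
  intro x
  have hX : 0 ≤ ∑ a, x a ^ 2 := Finset.sum_nonneg fun _ _ => sq_nonneg _
  have h1 : ∑ a, (K *ᵥ x) a ^ 2 = ∑ a, x a * ((K ^ 2) *ᵥ x) a := by
    have : ∑ a, (K *ᵥ x) a ^ 2 = (K *ᵥ x) ⬝ᵥ (K *ᵥ x) := by simp only [dotProduct, sq]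
    rw [this, Matrix.dotProduct_mulVec, ← Matrix.mulVec_transpose, transpose_eq h,
      Matrix.mulVec_mulVec, ← sq, dotProduct_comm]
    rfl
  have h2 := Finset.sum_mul_sq_le_sq_mul_sq univ x ((K ^ 2) *ᵥ x)
  have h3 := frob_mulVec (K ^ 2) x
  rw [← Tr_even h 2] at h3
  have h5 : (∑ a, x a * ((K ^ 2) *ᵥ x) a) ^ 2 ≤ (L ^ 2 * ∑ a, x a ^ 2) ^ 2 := by
    calc _ ≤ (∑ a, x a ^ 2) * ∑ a, ((K ^ 2) *ᵥ x) a ^ 2 := h2
      _ ≤ (∑ a, x a ^ 2) * (L ^ 4 * ∑ a, x a ^ 2) :=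
        mul_le_mul_of_nonneg_left (h3.trans (mul_le_mul_of_nonneg_right h4 hX)) hX
      _ = _ := by ring
  rw [h1]
  exact (abs_le_of_sq_le_sq' h5 (by positivity)).2

theorem opB_mono {L L' : ℝ} (h : OpB K L) (hL : 0 ≤ L) (hLL : L ≤ L') : OpB K L' := fun x =>
  (h x).trans (mul_le_mul_of_nonneg_right (pow_le_pow_left₀ hL hLL 2)
    (Finset.sum_nonneg fun _ _ => sq_nonneg _))

theorem mulVec_row (h : Good p S e K) (j : ℕ) (c a : ι) :
    (K *ᵥ fun b => (K ^ j) c b) a = (K ^ (j + 1)) c a := by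
  rw [pow_add_apply h, pow_one]
  simp only [Matrix.mulVec, dotProduct]
  exact Finset.sum_congr rfl fun b _ => mul_comm _ _

theorem diag_succ (h : Good p S e K) {L : ℝ} (ho : OpB K L) (j : ℕ) (c : ι) :
    (K ^ (2 * j + 2)) c c ≤ L ^ 2 * (K ^ (2 * j)) c c := by
  have := ho fun b => (K ^ j) c b
  simp only [mulVec_row h] at this
  rwa [← pow_diag h, ← pow_diag h, mul_add, mul_one] at this

theorem diag_odd (h : Good p S e K) {L : ℝ} (hL : 0 ≤ L) (ho : OpB K L) (j : ℕ) (c : ι) :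
    |(K ^ (2 * j + 1)) c c| ≤ L * (K ^ (2 * j)) c c := by
  have h1 := pow_entry h j (j + 1) c c
  rw [show j + (j + 1) = 2 * j + 1 by ring, show 2 * (j + 1) = 2 * j + 2 by ring] at h1
  have h2 := diag_succ h ho j c
  have h0 := pow_diag_nonneg h j c
  refine abs_le_of_sq_le_sq ?_ (mul_nonneg hL h0)
  calc _ ≤ (K ^ (2 * j)) c c * (K ^ (2 * j + 2)) c c := h1
    _ ≤ (K ^ (2 * j)) c c * (L ^ 2 * (K ^ (2 * j)) c c) := mul_le_mul_of_nonneg_left h2 h0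
    _ = _ := by ring

theorem Tr_succ (h : Good p S e K) {L : ℝ} (ho : OpB K L) (j : ℕ) :
    Tr (2 * j + 2) K ≤ L ^ 2 * Tr (2 * j) K := by
  rw [Tr_eq_univ, Tr_eq_univ, Finset.mul_sum]
  exact Finset.sum_le_sum fun c _ => diag_succ h ho j c

theorem Tr2_nonneg (h : Good p S e K) : 0 ≤ Tr 2 K := by
  rw [Tr2_eq h]
  exact Finset.sum_nonneg fun c _ => bet_nonneg h c

theorem Tr4_le (h : Good p S e K) : Tr 4 K ≤ Tr 2 K ^ 2 := by
  have h0 := Tr2_nonneg h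
  have ho : OpB K √(Tr 2 K) := opB_of_T2 h (Real.sq_sqrt h0).ge
  have := Tr_succ h ho 1
  rwa [Real.sq_sqrt h0, ← sq] at this

theorem Tr3_sq (h : Good p S e K) : Tr 3 K ^ 2 ≤ Tr 2 K * Tr 4 K := by
  have h3 : Tr 3 K = ∑ q : ι × ι, (K ^ 1) q.1 q.2 * (K ^ 2) q.1 q.2 := by
    rw [Fintype.sum_prod_type, Tr_eq_univ]
    exact Finset.sum_congr rfl fun a _ => pow_add_apply h 1 2 a a
  have h2 : Tr 2 K = ∑ q : ι × ι, (K ^ 1) q.1 q.2 ^ 2 := by
    rw [Fintype.sum_prod_type]; exact Tr_even h 1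
  have h4 : Tr 4 K = ∑ q : ι × ι, (K ^ 2) q.1 q.2 ^ 2 := by
    rw [Fintype.sum_prod_type]; exact Tr_even h 2
  rw [h3, h2, h4]
  exact Finset.sum_mul_sq_le_sq_mul_sq _ _ _

theorem Tr1_sq (h : Good p S e K) : Tr 1 K ^ 2 ≤ S.card * Dh K := by
  rw [Tr1_eq h, Dh_eq h]
  exact sq_sum_le_card_mul_sum_sq

end Crest.Agent.R62.SpecA
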