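import Crest.Agent.R62.Defs

/-! Second half of the elementary and spectral facts about one boundary matrix. -/

set_option autoImplicit false
set_option linter.unusedSectionVars false
open Classical
open scoped Matrix
open Finset

noncomputable section
namespace Crest.Agent.R62
namespace SpecB

variable {ι : Type} [Fintype ι] [DecidableEq ι] {p e : ℝ} {S : Finset ι} {K J : Matrix ι ι ℝ}

/-! ### norm tests -/

omit [Fintype ι] [DecidableEq ι] in
theorem abs_le_of_sq {t A X Y : ℝ} (hA : 0 ≤ A) (hX : 0 ≤ X) (hY : 0 ≤ Y)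
    (h : t ^ 2 ≤ A ^ 2 * X * Y) : |t| ≤ A * √X * √Y := by
  refine abs_le_of_sq_le_sq' ?_ (by positivity) |> abs_le.2
  rw [mul_pow, mul_pow, Real.sq_sqrt hX, Real.sq_sqrt hY]
  exact h

omit [Fintype ι] [DecidableEq ι] in
theorem cs (T : Finset ι) (f g : ι → ℝ) :
    (∑ a ∈ T, f a * g a) ^ 2 ≤ (∑ a ∈ T, f a ^ 2) * ∑ a ∈ T, g a ^ 2 :=
  sum_mul_sq_le_sq_mul_sq T f g

omit [Fintype ι] [DecidableEq ι] in
theorem cs2 (T : Finset ι) (f g : ι → ι → ℝ) :
    (∑ a ∈ T, ∑ b ∈ T, f a b * g a b) ^ 2 ≤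
      (∑ a ∈ T, ∑ b ∈ T, f a b ^ 2) * ∑ a ∈ T, ∑ b ∈ T, g a b ^ 2 := by
  have := sum_mul_sq_le_sq_mul_sq (T ×ˢ T) (fun q => f q.1 q.2) (fun q => g q.1 q.2)
  simpa only [sum_product] using this

omit [Fintype ι] [DecidableEq ι] in
theorem schur_test (S : Finset ι) (M : ι → ι → ℝ) (ρ : ℝ) (hρ : 0 ≤ ρ) (hs : ∀ a b, M a b = M b a)
    (hr : ∀ a ∈ S, ∑ b ∈ S, |M a b| ≤ ρ) (x y : ι → ℝ) :
    |∑ a ∈ S, ∑ b ∈ S, x a * M a b * y b| ≤
      ρ * √(∑ a ∈ S, x a ^ 2) * √(∑ b ∈ S, y b ^ 2) := by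
  have hX : 0 ≤ ∑ a ∈ S, x a ^ 2 := sum_nonneg fun _ _ => sq_nonneg _
  have hY : 0 ≤ ∑ b ∈ S, y b ^ 2 := sum_nonneg fun _ _ => sq_nonneg _
  refine abs_le_of_sq hρ hX hY ?_
  have h1 := cs2 S (fun a b => √|M a b| * |x a|) (fun a b => √|M a b| * |y b|)
  have h2 : |∑ a ∈ S, ∑ b ∈ S, x a * M a b * y b| ≤
      ∑ a ∈ S, ∑ b ∈ S, √|M a b| * |x a| * (√|M a b| * |y b|) := by
    refine (abs_sum_le_sum_abs _ _).trans (sum_le_sum fun a _ => ?_)
    refine (abs_sum_le_sum_abs _ _).trans (sum_le_sum fun b _ => le_of_eq ?_)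
    have := Real.mul_self_sqrt (abs_nonneg (M a b))
    rw [abs_mul, abs_mul]
    linear_combination (-(|x a| * |y b|)) * this
  have h3 : ∑ a ∈ S, ∑ b ∈ S, (√|M a b| * |x a|) ^ 2 ≤ ρ * ∑ a ∈ S, x a ^ 2 := by
    rw [mul_sum]
    refine sum_le_sum fun a ha => ?_
    simp only [mul_pow, Real.sq_sqrt (abs_nonneg _), sq_abs]
    rw [← sum_mul]
    exact mul_le_mul_of_nonneg_right (hr a ha) (sq_nonneg _)
  have h4 : ∑ a ∈ S, ∑ b ∈ S, (√|M a b| * |y b|) ^ 2 ≤ ρ * ∑ b ∈ S, y b ^ 2 := by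
    rw [sum_comm, mul_sum]
    refine sum_le_sum fun b hb => ?_
    simp only [mul_pow, Real.sq_sqrt (abs_nonneg _), sq_abs]
    rw [← sum_mul]
    refine mul_le_mul_of_nonneg_right ?_ (sq_nonneg _)
    simpa only [hs b] using hr b hb
  rw [← sq_abs]
  refine (pow_le_pow_left₀ (abs_nonneg _) h2 2).trans (h1.trans ?_)
  refine (mul_le_mul h3 h4 (sum_nonneg fun _ _ => sum_nonneg fun _ _ => sq_nonneg _)
    (by positivity)).trans (le_of_eq (by ring))

omit [Fintype ι] [DecidableEq ι] in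
theorem frob_test (S : Finset ι) (M : ι → ι → ℝ) (x y : ι → ℝ) :
    |∑ a ∈ S, ∑ b ∈ S, x a * M a b * y b| ≤
      √(∑ a ∈ S, ∑ b ∈ S, M a b ^ 2) * √(∑ a ∈ S, x a ^ 2) * √(∑ b ∈ S, y b ^ 2) := by
  have hX : 0 ≤ ∑ a ∈ S, x a ^ 2 := sum_nonneg fun _ _ => sq_nonneg _
  have hY : 0 ≤ ∑ b ∈ S, y b ^ 2 := sum_nonneg fun _ _ => sq_nonneg _
  refine abs_le_of_sq (Real.sqrt_nonneg _) hX hY ?_
  rw [Real.sq_sqrt (sum_nonneg fun _ _ => sum_nonneg fun _ _ => sq_nonneg _)]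
  have h1 := cs2 S M (fun a b => x a * y b)
  have h2 : ∑ a ∈ S, ∑ b ∈ S, (x a * y b) ^ 2 = (∑ a ∈ S, x a ^ 2) * ∑ b ∈ S, y b ^ 2 := by
    rw [sum_mul_sum]; simp only [mul_pow]
  have h3 : ∑ a ∈ S, ∑ b ∈ S, x a * M a b * y b = ∑ a ∈ S, ∑ b ∈ S, M a b * (x a * y b) :=
    sum_congr rfl fun a _ => sum_congr rfl fun b _ => by ring
  rw [h3, mul_assoc, ← h2]
  exact h1

omit [Fintype ι] [DecidableEq ι] in
theorem row_test (S : Finset ι) (M : ι → ι → ℝ) (ρ : ℝ) (hρ : 0 ≤ ρ)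
    (hr : ∀ a ∈ S, ∑ b ∈ S, M a b ^ 2 ≤ ρ ^ 2) (x y : ι → ℝ) :
    |∑ a ∈ S, ∑ b ∈ S, x a * M a b * y b| ≤
      (∑ a ∈ S, |x a|) * ρ * √(∑ b ∈ S, y b ^ 2) := by
  have hY : 0 ≤ ∑ b ∈ S, y b ^ 2 := sum_nonneg fun _ _ => sq_nonneg _
  rw [mul_assoc, sum_mul]
  refine (abs_sum_le_sum_abs _ _).trans (sum_le_sum fun a ha => ?_)
  simp only [mul_assoc]
  rw [← mul_sum, abs_mul]
  refine mul_le_mul_of_nonneg_left ?_ (abs_nonneg _)
  have := abs_le_of_sq (t := ∑ b ∈ S, M a b * y b) (X := 1) hρ zero_le_one hY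
    ((cs S (M a) y).trans (by rw [mul_one]; exact mul_le_mul_of_nonneg_right (hr a ha) hY))
  simpa using this

/-! ### basic facts -/

theorem supp' (h : Good p S e K) (a : ι) {b : ι} (hb : b ∉ S) : K a b = 0 := by
  rw [h.symm, h.supp _ _ hb]

theorem sum_row (h : Good p S e K) (a : ι) (f : ι → ℝ → ℝ) (hf : ∀ b, f b 0 = 0) :
    ∑ b, f b (K a b) = ∑ b ∈ S, f b (K a b) :=
  (sum_subset (subset_univ S) fun b _ hb => by rw [supp' h a hb, hf]).symm

theorem bet_eq (h : Good p S e K) (c : ι) : bet K c = ∑ b, K c b ^ 2 := by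
  simp only [bet, Matrix.mul_apply, sq]
  exact sum_congr rfl fun b _ => by rw [h.symm b c]

theorem bet_eq' (h : Good p S e K) (c : ι) : bet K c = ∑ b ∈ S, K c b ^ 2 := by
  rw [bet_eq h, sum_row h c (fun _ t => t ^ 2) (by simp)]

theorem bet_nonneg (h : Good p S e K) (c : ι) : 0 ≤ bet K c := by
  rw [bet_eq h]; exact sum_nonneg fun _ _ => sq_nonneg _

theorem bet_of_not_mem (h : Good p S e K) {c : ι} (hc : c ∉ S) : bet K c = 0 := by
  rw [bet_eq h]; exact sum_eq_zero fun b _ => by simp [h.supp c b hc]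

theorem Tr2_eq (h : Good p S e K) : Tr 2 K = ∑ c ∈ S, bet K c := by
  have : Tr 2 K = ∑ c, bet K c := by simp [Tr, Matrix.trace, bet, sq]
  rw [this]
  exact (sum_subset (subset_univ S) fun c _ hc => bet_of_not_mem h hc).symm

theorem Tr2_eq' (h : Good p S e K) : Tr 2 K = ∑ a ∈ S, ∑ b ∈ S, K a b ^ 2 := by
  rw [Tr2_eq h]; exact sum_congr rfl fun a _ => bet_eq' h a

theorem Tr2_nonneg (h : Good p S e K) : 0 ≤ Tr 2 K := by
  rw [Tr2_eq h]; exact sum_nonneg fun c _ => bet_nonneg h c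

theorem Tr1_eq (h : Good p S e K) : Tr 1 K = ∑ c ∈ S, K c c := by
  have : Tr 1 K = ∑ c, K c c := by simp [Tr, Matrix.trace]
  rw [this]
  exact (sum_subset (subset_univ S) fun c _ hc => h.supp c c hc).symm

theorem Dh_eq (h : Good p S e K) : Dh K = ∑ c ∈ S, K c c ^ 2 :=
  (sum_subset (subset_univ S) fun c _ hc => by simp [h.supp c c hc]).symm

theorem diag_sq_le (K : Matrix ι ι ℝ) (a : ι) : K a a ^ 2 ≤ Dh K :=
  single_le_sum (f := fun c => K c c ^ 2) (fun _ _ => sq_nonneg _) (mem_univ a)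

theorem row' (h : Good p S e K) {a : ι} (ha : a ∈ S) : ∑ b ∈ S, K a b = e := by
  rw [← h.row a ha, sum_row h a (fun _ t => t) (by simp)]

theorem transpose_eq (h : Good p S e K) : Kᵀ = K := by
  ext a b; exact h.symm b a

theorem pow_symm (h : Good p S e K) (k : ℕ) (a b : ι) : (K ^ k) a b = (K ^ k) b a := by
  have : (K ^ k)ᵀ = K ^ k := by rw [Matrix.transpose_pow, transpose_eq h]
  exact (congrFun (congrFun this a) b).symm

theorem pow_diag (h : Good p S e K) (j : ℕ) (a : ι) :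
    (K ^ (2 * j)) a a = ∑ b, (K ^ j) b a ^ 2 := by
  rw [two_mul, pow_add, Matrix.mul_apply]
  exact sum_congr rfl fun b _ => by rw [pow_symm h j a b, sq]

theorem form_eq (h : Good p S e K) (x y : ι → ℝ) :
    x ⬝ᵥ (K *ᵥ y) = ∑ a ∈ S, ∑ b ∈ S, x a * K a b * y b := by
  simp only [dotProduct, Matrix.mulVec]
  rw [← sum_subset (subset_univ S) (fun a _ ha => by simp [h.supp a _ ha])]
  refine sum_congr rfl fun a _ => ?_
  rw [sum_row h a (fun b t => t * y b) (by simp), mul_sum]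
  exact sum_congr rfl fun b _ => by ring

theorem p_le_one (h : Good p S e K) : p ≤ 1 := by nlinarith [h.p_sq, h.p_nonneg]

theorem p_le (h : Good p S e K) : p ≤ 3 / 4 := by nlinarith [h.p_sq, h.p_nonneg]

theorem e_sq (h : Good p S e K) : e ^ 2 = 1 := by rcases h.sign with h | h <;> simp [h]

theorem abs_e (h : Good p S e K) : -1 ≤ e ∧ e ≤ 1 := by
  rcases h.sign with h | h <;> simp [h]

/-- splitting off the constant part -/
theorem split (h : Good p S e K) (x : ι → ℝ) : ∃ u v : ℝ, 0 ≤ u + p * v ∧ 0 ≤ v ∧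
    x ⬝ᵥ (K *ᵥ x) = u + e * ((∑ a ∈ S, x a) ^ 2 / S.card) ∧
    ∑ a ∈ S, x a ^ 2 = v + (∑ a ∈ S, x a) ^ 2 / S.card := by
  rcases S.eq_empty_or_nonempty with rfl | hS
  · exact ⟨0, 0, by simp, le_rfl, by simp [form_eq h], by simp⟩
  have hN : (S.card : ℝ) ≠ 0 := by exact_mod_cast hS.card_pos.ne'
  set l : ℝ := (∑ a ∈ S, x a) / S.card with hl
  have hl' : ∑ a ∈ S, x a = l * S.card := by rw [hl]; field_simp
  set z : ι → ℝ := fun a => if a ∈ S then x a - l else 0 with hz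
  have hz0 : ∑ a ∈ S, (x a - l) = 0 := by
    rw [sum_sub_distrib, hl', sum_const, nsmul_eq_mul]; ring
  have h1 := h.psd0 z (fun a ha => by simp [hz, ha]) (by
    rw [hz, sum_ite_mem, univ_inter, hz0])
  have h2 : z ⬝ᵥ z = ∑ a ∈ S, (x a - l) ^ 2 := by
    simp only [dotProduct, hz]
    rw [← sum_subset (subset_univ S) (fun a _ ha => by simp [ha])]
    exact sum_congr rfl fun a ha => by simp [ha, sq]
  have h3 : z ⬝ᵥ (K *ᵥ z) = ∑ a ∈ S, ∑ b ∈ S, (x a - l) * K a b * (x b - l) := by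
    rw [form_eq h]
    exact sum_congr rfl fun a ha => sum_congr rfl fun b hb => by simp [hz, ha, hb]
  refine ⟨z ⬝ᵥ (K *ᵥ z), z ⬝ᵥ z, h1, by rw [h2]; exact sum_nonneg fun _ _ => sq_nonneg _, ?_, ?_⟩
  · rw [h3, form_eq h]
    have e1 : ∑ a ∈ S, ∑ b ∈ S, x a * K a b * l = l * e * ∑ a ∈ S, x a := by
      rw [mul_sum]
      refine sum_congr rfl fun a ha => ?_
      rw [← sum_mul, ← mul_sum, row' h ha]; ring
    have e2 : ∑ a ∈ S, ∑ b ∈ S, l * K a b * x b = l * e * ∑ a ∈ S, x a := by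
      rw [sum_comm, mul_sum]
      refine sum_congr rfl fun a ha => ?_
      rw [← sum_mul, ← mul_sum]
      simp only [fun b => h.symm b a]
      rw [row' h ha]
    have e3 : ∑ a ∈ S, ∑ b ∈ S, l * K a b * l = l * e * l * S.card := by
      rw [sum_congr rfl (g := fun _ => l * e * l) (fun a ha => by
        rw [← sum_mul, ← mul_sum, row' h ha]), sum_const, nsmul_eq_mul, mul_comm]
    have e4 : ∑ a ∈ S, ∑ b ∈ S, (x a - l) * K a b * (x b - l) =
        ∑ a ∈ S, ∑ b ∈ S, x a * K a b * x b - ∑ a ∈ S, ∑ b ∈ S, x a * K a b * l -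
          ∑ a ∈ S, ∑ b ∈ S, l * K a b * x b + ∑ a ∈ S, ∑ b ∈ S, l * K a b * l := by
      simp only [← sum_sub_distrib, ← sum_add_distrib]
      exact sum_congr rfl fun a _ => sum_congr rfl fun b _ => by ring
    rw [e4, e1, e2, e3, hl']
    field_simp
    ring
  · rw [h2]
    have e4 : ∑ a ∈ S, (x a - l) ^ 2 =
        ∑ a ∈ S, x a ^ 2 - 2 * l * ∑ a ∈ S, x a + S.card * l ^ 2 := by
      rw [mul_sum, ← nsmul_eq_mul, ← sum_const, ← sum_sub_distrib, ← sum_add_distrib]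
      exact sum_congr rfl fun a _ => by ring
    rw [e4, hl']
    field_simp
    ring

theorem psd1 (h : Good p S e K) (x : ι → ℝ) : 0 ≤ x ⬝ᵥ (K *ᵥ x) + ∑ a ∈ S, x a ^ 2 := by
  obtain ⟨u, v, h1, h2, h3, h4⟩ := split h x
  have h5 : 0 ≤ (∑ a ∈ S, x a) ^ 2 / (S.card : ℝ) := by positivity
  rw [h3, h4]
  nlinarith [p_le_one h, (abs_e h).1]

theorem psdp (h : Good p S e K) (x : ι → ℝ) :
    0 ≤ x ⬝ᵥ (K *ᵥ x) + p * ∑ a ∈ S, x a ^ 2 + (∑ a ∈ S, x a) ^ 2 / S.card := by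
  obtain ⟨u, v, h1, h2, h3, h4⟩ := split h x
  have h5 : 0 ≤ (∑ a ∈ S, x a) ^ 2 / (S.card : ℝ) := by positivity
  rw [h3, h4]
  nlinarith [h.p_nonneg, (abs_e h).1]

theorem diag_odd_ge (h : Good p S e K) (j : ℕ) (c : ι) :
    -(K ^ (2 * j)) c c ≤ (K ^ (2 * j + 1)) c c := by
  have h1 := psd1 h (fun a => (K ^ j) a c)
  have h2 : (fun a => (K ^ j) a c) ⬝ᵥ (K *ᵥ fun a => (K ^ j) a c) = (K ^ (2 * j + 1)) c c := by
    rw [show 2 * j + 1 = j + (j + 1) by ring, pow_add, pow_succ', Matrix.mul_apply]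
    simp only [dotProduct, Matrix.mulVec, Matrix.mul_apply]
    exact sum_congr rfl fun a _ => by rw [pow_symm h j a c]
  have h3 : ∑ a ∈ S, (K ^ j) a c ^ 2 ≤ (K ^ (2 * j)) c c := by
    rw [pow_diag h]
    exact sum_le_sum_of_subset_of_nonneg (subset_univ S) fun _ _ _ => sq_nonneg _
  linarith

theorem Tr_odd_ge (h : Good p S e K) (j : ℕ) : -Tr (2 * j) K ≤ Tr (2 * j + 1) K := by
  simp only [Tr, Matrix.trace, Matrix.diag_apply]
  rw [← sum_neg_distrib]
  exact sum_le_sum fun c _ => diag_odd_ge h j c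

theorem one_le_Tr2 (h : Good p S e K) (hS : S.Nonempty) : 1 ≤ Tr 2 K := by
  have hN : (0 : ℝ) < S.card := by exact_mod_cast hS.card_pos
  rw [Tr2_eq' h]
  have h1 : ∑ _a ∈ S, (1 : ℝ) ≤ ∑ a ∈ S, (S.card : ℝ) * ∑ b ∈ S, K a b ^ 2 :=
    sum_le_sum fun a ha => by
      have := sq_sum_le_card_mul_sum_sq (s := S) (f := fun b => K a b)
      rwa [row' h ha, e_sq h] at this
  rw [sum_const, nsmul_eq_mul, ← mul_sum] at h1
  exact le_of_mul_le_mul_left h1 hN

theorem form_le (h : Good p S e K) (h2 : Tr 2 K ≤ 2) (z : ι → ℝ) (hz : ∀ a, a ∉ S → z a = 0)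
    (hz0 : ∑ a, z a = 0) : z ⬝ᵥ (K *ᵥ z) ≤ z ⬝ᵥ z := by
  have hzz : z ⬝ᵥ z = ∑ a ∈ S, z a ^ 2 := by
    simp only [dotProduct, sq]
    exact (sum_subset (subset_univ S) fun a _ ha => by simp [hz a ha]).symm
  have hz1 : ∑ a ∈ S, z a = 0 := by
    rw [← hz0]; exact sum_subset (subset_univ S) fun a _ ha => hz a ha
  rcases S.eq_empty_or_nonempty with rfl | hS
  · simp [form_eq h, hzz]
  have hN : (S.card : ℝ) ≠ 0 := by exact_mod_cast hS.card_pos.ne'
  have h1 := frob_test S (fun a b => K a b - e / S.card) z z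
  have h3 : ∑ a ∈ S, ∑ b ∈ S, z a * (K a b - e / S.card) * z b = z ⬝ᵥ (K *ᵥ z) := by
    rw [form_eq h]
    have : ∑ a ∈ S, ∑ b ∈ S, z a * (e / S.card) * z b = 0 :=
      sum_eq_zero fun a _ => by rw [← mul_sum, hz1, mul_zero]
    rw [← sub_zero (∑ a ∈ S, ∑ b ∈ S, z a * K a b * z b), ← this]
    simp only [← sum_sub_distrib]
    exact sum_congr rfl fun a _ => sum_congr rfl fun b _ => by ring
  have h4 : ∑ a ∈ S, ∑ b ∈ S, (K a b - e / S.card) ^ 2 = Tr 2 K - 1 := by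
    have : ∀ a ∈ S, ∑ b ∈ S, (K a b - e / S.card) ^ 2 = ∑ b ∈ S, K a b ^ 2 - 1 / S.card := by
      intro a ha
      have e4 : ∑ b ∈ S, (K a b - e / S.card) ^ 2 = ∑ b ∈ S, K a b ^ 2 -
          2 * (e / S.card) * ∑ b ∈ S, K a b + S.card * (e / S.card) ^ 2 := by
        rw [mul_sum, ← nsmul_eq_mul, ← sum_const, ← sum_sub_distrib, ← sum_add_distrib]
        exact sum_congr rfl fun a _ => by ring
      rw [e4, row' h ha]
      have := e_sq h
      field_simp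
      linear_combination (-1 : ℝ) * this
    rw [sum_congr rfl this, sum_sub_distrib, ← Tr2_eq' h, sum_const, nsmul_eq_mul]
    field_simp
  rw [h3, h4, mul_assoc, Real.mul_self_sqrt (sum_nonneg fun _ _ => sq_nonneg _), ← hzz] at h1
  have h5 : √(Tr 2 K - 1) ≤ 1 := Real.sqrt_le_one.2 (by linarith)
  have h6 : 0 ≤ z ⬝ᵥ z := by rw [hzz]; exact sum_nonneg fun _ _ => sq_nonneg _
  nlinarith [le_abs_self (z ⬝ᵥ (K *ᵥ z))]

open scoped MatrixOrder in
theorem psd_fac (A : Matrix ι ι ℝ) (hs : ∀ a b, A a b = A b a) (h : ∀ x, 0 ≤ x ⬝ᵥ (A *ᵥ x)) :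
    ∃ B : Matrix ι ι ℝ, A = Bᵀ * B := by
  have hA : A.PosSemidef := Matrix.posSemidef_iff_dotProduct_mulVec.2
    ⟨by ext a b; simpa using hs b a, fun x => by simpa using h x⟩
  obtain ⟨B, hB⟩ := CStarAlgebra.nonneg_iff_eq_star_mul_self.mp hA.nonneg
  exact ⟨B, by rw [hB, Matrix.star_eq_conjTranspose, Matrix.conjTranspose_eq_transpose_of_trivial]⟩

theorem idS_form (S : Finset ι) (x : ι → ℝ) : x ⬝ᵥ (idS S *ᵥ x) = ∑ a ∈ S, x a ^ 2 := by
  simp only [idS, dotProduct, Matrix.mulVec_diagonal]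
  rw [← sum_subset (subset_univ S) (fun a _ ha => by simp [ha])]
  exact sum_congr rfl fun a ha => by simp [ha, sq]

theorem idS_symm (S : Finset ι) (a b : ι) : (idS S : Matrix ι ι ℝ) a b = idS S b a := by
  by_cases h : a = b
  · rw [h]
  · simp [idS, Matrix.diagonal_apply_ne _ h, Matrix.diagonal_apply_ne _ (Ne.symm h)]

theorem exists_fac (h : Good p S e J) : ∃ B : Matrix ι ι ℝ, J + idS S = Bᵀ * B :=
  psd_fac _ (fun a b => by rw [Matrix.add_apply, Matrix.add_apply, h.symm, idS_symm]) fun x => by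
    rw [Matrix.add_mulVec, dotProduct_add, idS_form]; exact psd1 h x

theorem trace_transpose_mul_nonneg (C : Matrix ι ι ℝ) : 0 ≤ (Cᵀ * C).trace := by
  simp only [Matrix.trace, Matrix.diag_apply, Matrix.mul_apply, Matrix.transpose_apply]
  exact sum_nonneg fun _ _ => sum_nonneg fun _ _ => mul_self_nonneg _

theorem Zz_nonneg {e' : ℝ} (hK : Good p S e K) (hJ : Good p S e' J) : 0 ≤ Zz S K J := by
  obtain ⟨B, hB⟩ := exists_fac hJ
  have := trace_transpose_mul_nonneg (B * K)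
  rw [Matrix.transpose_mul, transpose_eq hK, ← Matrix.mul_assoc, Matrix.trace_mul_comm,
    Matrix.mul_assoc K Bᵀ B, ← Matrix.mul_assoc] at this
  rw [Zz, hB]
  exact this

/-! ### entries -/

theorem entry_sq (h : Good p S e K) {a c : ι} (ha : a ∈ S) (hc : c ∈ S) :
    K c a ^ 2 ≤ 101 / 100 * ((|K a a| + p + 1 / S.card) * (|K c c| + p + 1 / S.card))
      + 101 / (S.card : ℝ) ^ 2 := by
  have hN : (0 : ℝ) < S.card := by exact_mod_cast card_pos.2 ⟨a, ha⟩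
  have hp := h.p_nonneg
  have hi : (0 : ℝ) < 1 / S.card := by positivity
  have hi2 : (101 : ℝ) / (S.card : ℝ) ^ 2 = 101 * (1 / S.card) ^ 2 := by field_simp
  rw [hi2]
  set i : ℝ := 1 / S.card with hi'
  by_cases hac : a = c
  · subst hac
    have := abs_nonneg (K a a)
    rw [← sq_abs]
    nlinarith [mul_nonneg this hp, mul_nonneg this hi.le, mul_nonneg hp hi.le]
  have key : ∀ s t : ℝ, 0 ≤ (K a a + p + i) * (s * s) + 2 * (K c a + i) * t * s
      + (K c c + p + i) * (t * t) := by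
    intro s t
    have h1 := psdp h (Pi.single a s + Pi.single c t)
    have h2 : (Pi.single a s + Pi.single c t : ι → ℝ) ⬝ᵥ (K *ᵥ (Pi.single a s + Pi.single c t)) =
        s * K a a * s + 2 * (s * K c a * t) + t * K c c * t := by
      simp only [Matrix.mulVec_add, add_dotProduct, single_dotProduct, Pi.add_apply,
        Matrix.mulVec_single, Pi.smul_apply, Matrix.col_apply, MulOpposite.smul_eq_mul_unop,
        MulOpposite.unop_op, h.symm a c]
      ring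
    have h3 : ∑ b ∈ S, (Pi.single a s + Pi.single c t : ι → ℝ) b ^ 2 = s ^ 2 + t ^ 2 := by
      have : ∀ b, (Pi.single a s + Pi.single c t : ι → ℝ) b ^ 2 =
          (if b = a then s ^ 2 else 0) + (if b = c then t ^ 2 else 0) := by
        intro b
        by_cases h5 : b = a
        · subst h5; simp [hac]
        · by_cases h6 : b = c
          · subst h6; simp [h5]
          · simp [h5, h6]
      simp only [this, sum_add_distrib, sum_ite_eq', ha, hc, if_true]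
    have h4 : ∑ b ∈ S, (Pi.single a s + Pi.single c t : ι → ℝ) b = s + t := by
      simp only [Pi.add_apply, sum_add_distrib, Pi.single_apply, sum_ite_eq', ha, hc, if_true]
    rw [h2, h3, h4, div_eq_mul_one_div, ← hi'] at h1
    linarith
  have hA : 0 ≤ K a a + p + i := by simpa using key 1 0
  have hC : 0 ≤ K c c + p + i := by simpa using key 0 1
  have hd := discrim_le_zero (a := K a a + p + i) (b := 2 * (K c a + i)) (c := K c c + p + i)
    (fun s => by simpa using key s 1)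
  rw [discrim] at hd
  have hAC : (K a a + p + i) * (K c c + p + i) ≤ (|K a a| + p + i) * (|K c c| + p + i) :=
    mul_le_mul (by linarith [le_abs_self (K a a)]) (by linarith [le_abs_self (K c c)]) hC
      (by positivity)
  nlinarith [sq_nonneg ((K c a + i) / 10 + 10 * i)]

theorem abs_diag_le {δ : ℝ} (hδ : 0 ≤ δ) (hD : Dh K ≤ δ ^ 2) (a : ι) : |K a a| ≤ δ :=
  abs_le.2 (abs_le_of_sq_le_sq' ((diag_sq_le K a).trans hD) hδ)

theorem q_le (h : Good p S e K) (hS : 4 ≤ (S.card : ℝ)) : p + 1 / S.card ≤ 1 := by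
  have : (1 : ℝ) / S.card ≤ 1 / 4 := one_div_le_one_div_of_le (by norm_num) hS
  linarith [p_le h]

theorem entry_le (h : Good p S e K) (hS : 4 ≤ (S.card : ℝ)) {δ : ℝ} (hδ : 1 ≤ δ)
    (hD : Dh K ≤ δ ^ 2) (a c : ι) : K c a ^ 2 ≤ 20 * δ ^ 2 := by
  by_cases ha : a ∈ S
  swap
  · rw [supp' h c ha]; nlinarith [sq_nonneg δ]
  by_cases hc : c ∈ S
  swap
  · rw [h.supp c a hc]; nlinarith [sq_nonneg δ]
  have h1 := entry_sq h ha hc
  have hq := q_le h hS
  have hp := h.p_nonneg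
  have h2 : (|K a a| + p + 1 / S.card) * (|K c c| + p + 1 / S.card) ≤ (2 * δ) * (2 * δ) :=
    mul_le_mul (by linarith [abs_diag_le (by linarith) hD a])
      (by linarith [abs_diag_le (by linarith) hD c]) (by positivity) (by linarith)
  have h3 : (101 : ℝ) / (S.card : ℝ) ^ 2 ≤ 101 / 4 ^ 2 := by gcongr
  nlinarith

theorem Vs0_eq (S : Finset ι) (K : Matrix ι ι ℝ) : Vs 0 S K = ∑ c ∈ S, bet K c ^ 2 := by
  simp [Vs]

theorem F4_le (h : Good p S e K) {s L lam r dd om ga δ : ℝ} (hb : Bd S K s L lam r dd om ga)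
    (hδ : 1 ≤ δ) (hdd : dd ≤ δ) :
    ∑ a ∈ S, ∑ c ∈ S, K c a ^ 4 ≤
      51 / 100 * Tr 2 K + 1000 * (δ * om + δ ^ 2 * r ^ 2 + 1) := by
  have hS : 4 ≤ (S.card : ℝ) := by rw [← hb.hs]; nlinarith [hb.s_ge]
  have hq := q_le h hS
  have hp := h.p_nonneg
  have hT0 := Tr2_nonneg h
  have hT2 : Tr 2 K ≤ 2 * S.card := by rw [← hb.hs]; exact hb.T2
  have hi : (0 : ℝ) < 1 / S.card := by positivity
  have hi4 : (1 : ℝ) / S.card ≤ 1 / 4 := one_div_le_one_div_of_le (by norm_num) hS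
  have hiT : 1 / (S.card : ℝ) * Tr 2 K ≤ 2 := by
    rw [one_div, inv_mul_le_iff₀ (by linarith)]; linarith
  have hi2 : (101 : ℝ) / (S.card : ℝ) ^ 2 = 101 * (1 / S.card) ^ 2 := by field_simp
  have hent := fun a c ha hc => entry_sq h (a := a) (c := c) ha hc
  simp only [hi2, add_assoc] at hent
  set i : ℝ := 1 / S.card
  set q : ℝ := p + i with hqd
  have hq0 : 0 ≤ q := by positivity
  set g : ι → ℝ := fun a => 101 / 100 * (K a a ^ 2 / 2 + q * |K a a|) with hg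
  set k : ℝ := 101 / 100 * q ^ 2 + 101 * i ^ 2 with hk
  have h1 : ∑ a ∈ S, ∑ c ∈ S, K c a ^ 4 ≤
      ∑ a ∈ S, ∑ c ∈ S, (K a c ^ 2 * g a + K c a ^ 2 * g c + K a c ^ 2 * k) := by
    refine sum_le_sum fun a ha => sum_le_sum fun c hc => ?_
    rw [h.symm a c]
    have h2 : K c a ^ 2 ≤ g a + g c + k := by
      refine (hent a c ha hc).trans ?_
      simp only [hg, hk]
      rw [← sq_abs (K a a), ← sq_abs (K c c)]
      nlinarith [sq_nonneg (|K a a| - |K c c|)]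
    nlinarith [mul_le_mul_of_nonneg_left h2 (sq_nonneg (K c a))]
  have h2 : ∑ a ∈ S, ∑ c ∈ S, K a c ^ 2 * g a = ∑ a ∈ S, bet K a * g a :=
    sum_congr rfl fun a _ => by rw [← sum_mul, bet_eq' h]
  have h3 : ∑ a ∈ S, ∑ c ∈ S, K c a ^ 2 * g c = ∑ a ∈ S, bet K a * g a := by
    rw [sum_comm, h2]
  have h4 : ∑ a ∈ S, ∑ c ∈ S, K a c ^ 2 * k = Tr 2 K * k := by
    rw [Tr2_eq' h, sum_mul]
    exact sum_congr rfl fun a _ => by rw [← sum_mul]
  simp only [sum_add_distrib] at h1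
  rw [h2, h3, h4] at h1
  have hom := hb.om_nonneg
  have hdd0 := hb.dd_nonneg
  have hD : ∑ a ∈ S, K a a ^ 2 ≤ δ ^ 2 := by
    rw [← Dh_eq h]; exact hb.D.trans (by gcongr)
  have h5 : ∑ a ∈ S, bet K a * K a a ^ 2 ≤ δ ^ 2 * r ^ 2 := by
    calc ∑ a ∈ S, bet K a * K a a ^ 2 ≤ ∑ a ∈ S, r ^ 2 * K a a ^ 2 :=
          sum_le_sum fun a _ => mul_le_mul_of_nonneg_right (hb.beta a) (sq_nonneg _)
      _ = r ^ 2 * ∑ a ∈ S, K a a ^ 2 := by rw [mul_sum]
      _ ≤ r ^ 2 * δ ^ 2 := by gcongr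
      _ = _ := by ring
  have h6 : ∑ a ∈ S, bet K a * |K a a| ≤ δ * om := by
    have h7 := cs S (bet K) (fun a => |K a a|)
    simp only [sq_abs] at h7
    have h8 : (∑ a ∈ S, bet K a ^ 2) * ∑ a ∈ S, K a a ^ 2 ≤ om ^ 2 * δ ^ 2 :=
      mul_le_mul (by rw [← Vs0_eq]; exact hb.W) hD (sum_nonneg fun _ _ => sq_nonneg _)
        (sq_nonneg _)
    exact (abs_le_of_sq_le_sq' (by nlinarith) (by positivity)).2
  have h60 : 0 ≤ ∑ a ∈ S, bet K a * |K a a| :=
    sum_nonneg fun a _ => mul_nonneg (bet_nonneg h a) (abs_nonneg _)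
  have h7 : ∑ a ∈ S, bet K a * g a = 101 / 100 * ((∑ a ∈ S, bet K a * K a a ^ 2) / 2
      + q * ∑ a ∈ S, bet K a * |K a a|) := by
    rw [sum_div, mul_sum, ← sum_add_distrib, mul_sum]
    exact sum_congr rfl fun a _ => by simp only [hg]; ring
  have h8 : q * ∑ a ∈ S, bet K a * |K a a| ≤ δ * om := by nlinarith
  have h9 : k ≤ 51 / 100 + 30 * i := by
    have := h.p_sq
    have := p_le_one h
    simp only [hk, hqd]
    nlinarith [mul_le_mul_of_nonneg_right (p_le_one h) hi.le,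
      mul_le_mul_of_nonneg_right hi4 hi.le]
  have h10 : Tr 2 K * k ≤ 51 / 100 * Tr 2 K + 60 := by
    nlinarith [mul_le_mul_of_nonneg_left h9 hT0]
  have h11 : 0 ≤ δ * om := by positivity
  have h12 : 0 ≤ δ ^ 2 * r ^ 2 := by positivity
  linarith

theorem M11_ge {e' : ℝ} (hK : Good p S e K) (hJ : Good p S e' J) :
    -(S.card : ℝ) / 2 - |Tr 1 K| - |Tr 1 J| - 10 ≤ (K * J).trace := by
  have htr : (K * J).trace = ∑ a ∈ S, ∑ b ∈ S, K a b * J a b := by
    simp only [Matrix.trace, Matrix.diag_apply, Matrix.mul_apply]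
    rw [← sum_subset (subset_univ S) (fun a _ ha => by simp [hK.supp a _ ha])]
    refine sum_congr rfl fun a _ => ?_
    rw [sum_row hK a (fun b t => t * J b a) (by simp)]
    exact sum_congr rfl fun b _ => by rw [hJ.symm b a]
  rcases S.eq_empty_or_nonempty with rfl | hS
  · rw [htr]
    have := abs_nonneg (Tr 1 K)
    have := abs_nonneg (Tr 1 J)
    simp only [card_empty, Nat.cast_zero, sum_empty]
    linarith
  have hN : (S.card : ℝ) ≠ 0 := by exact_mod_cast hS.card_pos.ne'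
  set u : ι → ℝ := fun a => if a ∈ S then 1 else 0 with hu
  have hux : ∀ x : ι → ℝ, ∑ a, u a * x a = ∑ a ∈ S, x a := fun x => by
    simp only [hu, ite_mul, one_mul, zero_mul, sum_ite_mem, univ_inter]
  obtain ⟨C, hC⟩ := psd_fac
    (K + p • idS S + (1 / (S.card : ℝ)) • Matrix.of fun a b => u a * u b)
    (fun a b => by
      simp only [Matrix.add_apply, Matrix.smul_apply, Matrix.of_apply, hK.symm a b, idS_symm S a b,
        mul_comm (u a)])
    (fun x => by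
      have h1 : x ⬝ᵥ ((Matrix.of fun a b => u a * u b) *ᵥ x) = (∑ a ∈ S, x a) ^ 2 := by
        simp only [dotProduct, Matrix.mulVec, Matrix.of_apply, mul_assoc, ← mul_sum, hux]
        rw [sq, sum_mul, ← hux (fun a => x a * ∑ a ∈ S, x a)]
        exact sum_congr rfl fun a _ => by ring
      rw [Matrix.add_mulVec, Matrix.add_mulVec, dotProduct_add, dotProduct_add,
        Matrix.smul_mulVec, Matrix.smul_mulVec, dotProduct_smul, dotProduct_smul, idS_form, h1]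
      have := psdp hK x
      rw [div_eq_mul_one_div] at this
      simp only [smul_eq_mul]
      linarith)
  have hA : ∀ a ∈ S, ∀ b ∈ S, ∑ i, C i a * C i b =
      K a b + (if a = b then p else 0) + 1 / S.card := by
    intro a ha b hb
    have := congrFun (congrFun hC a) b
    simp only [Matrix.add_apply, Matrix.smul_apply, Matrix.of_apply, Matrix.mul_apply,
      Matrix.transpose_apply, hu, ha, hb, if_true, smul_eq_mul, mul_one, idS,
      Matrix.diagonal_apply, mul_ite, mul_zero] at this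
    exact this.symm
  have h0 : 0 ≤ ∑ i, (C i ⬝ᵥ (J *ᵥ C i) + p * ∑ a ∈ S, C i a ^ 2
      + (∑ a ∈ S, C i a) ^ 2 / S.card) := sum_nonneg fun i _ => psdp hJ (C i)
  have h1 : ∑ i, C i ⬝ᵥ (J *ᵥ C i) = (K * J).trace + p * Tr 1 J + e' := by
    have : ∑ i, C i ⬝ᵥ (J *ᵥ C i) = ∑ a ∈ S, ∑ b ∈ S, (∑ i, C i a * C i b) * J a b := by
      simp only [form_eq hJ]
      rw [sum_comm]
      refine sum_congr rfl fun a _ => ?_
      rw [sum_comm]
      refine sum_congr rfl fun b _ => ?_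
      rw [sum_mul]
      exact sum_congr rfl fun i _ => by ring
    rw [this, htr, Tr1_eq hJ, mul_sum]
    have h2 : e' = ∑ _a ∈ S, 1 / (S.card : ℝ) * e' := by
      rw [sum_const, nsmul_eq_mul]; field_simp
    rw [h2, ← sum_add_distrib, ← sum_add_distrib]
    refine sum_congr rfl fun a ha => ?_
    rw [sum_congr rfl fun b hb => by rw [hA a ha b hb]]
    simp only [add_mul, sum_add_distrib, ite_mul, zero_mul, sum_ite_eq, ha, if_true, ← mul_sum,
      row' hJ ha]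
  have h2 : ∑ i, ∑ a ∈ S, C i a ^ 2 = Tr 1 K + p * S.card + 1 := by
    rw [sum_comm, Tr1_eq hK]
    rw [sum_congr rfl fun a ha => by simp only [sq]; rw [hA a ha a ha]]
    simp only [if_true, sum_add_distrib, sum_const, nsmul_eq_mul]
    field_simp
  have h3 : ∑ i, (∑ a ∈ S, C i a) ^ 2 = (e + p + 1) * S.card := by
    have : ∑ i, (∑ a ∈ S, C i a) ^ 2 = ∑ a ∈ S, ∑ b ∈ S, ∑ i, C i a * C i b := by
      simp only [sq, sum_mul_sum]
      rw [sum_comm]
      exact sum_congr rfl fun a _ => sum_comm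
    rw [this, mul_comm, ← nsmul_eq_mul, ← sum_const]
    refine sum_congr rfl fun a ha => ?_
    rw [sum_congr rfl fun b hb => by rw [hA a ha b hb]]
    simp only [sum_add_distrib, sum_ite_eq, ha, if_true, row' hK ha, sum_const, nsmul_eq_mul]
    field_simp
  rw [sum_add_distrib, sum_add_distrib, ← mul_sum, ← sum_div, h1, h2, h3,
    mul_div_cancel_right₀ _ hN] at h0
  have hp := hK.p_nonneg
  have hp1 := p_le_one hK
  have h4 : ∀ t : ℝ, p * t ≤ |t| := fun t => by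
    nlinarith [le_abs_self t, abs_nonneg t, mul_le_mul_of_nonneg_left (le_abs_self t) hp]
  have h5 : p * (p * S.card) ≤ (S.card : ℝ) / 2 := by
    nlinarith [mul_le_mul_of_nonneg_right hK.p_sq (Nat.cast_nonneg (α := ℝ) S.card)]
  nlinarith [h4 (Tr 1 K), h4 (Tr 1 J), (abs_e hK).2, (abs_e hJ).2]

/-! ### row norms -/

theorem W_le (S : Finset ι) (K : Matrix ι ι ℝ) : Vs 0 S K ≤ 2 * Vs 1 S K + 2 * S.card := by
  rw [Vs, Vs, mul_sum, mul_comm (2 : ℝ) S.card, ← nsmul_eq_mul, ← sum_const, ← sum_add_distrib]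
  exact sum_le_sum fun c _ => by nlinarith [sq_nonneg (bet K c - 2)]

theorem V_le (S : Finset ι) (K : Matrix ι ι ℝ) : Vs 1 S K ≤ 2 * Vs 0 S K + 2 * S.card := by
  rw [Vs, Vs, mul_sum, mul_comm (2 : ℝ) S.card, ← nsmul_eq_mul, ← sum_const, ← sum_add_distrib]
  exact sum_le_sum fun c _ => by nlinarith [sq_nonneg (bet K c + 1)]

theorem bet_le_gen (h : Good p S e K) {t lam : ℝ} (ht : 0 ≤ t) (hl : 0 ≤ lam)
    (hV : Vs t S K ≤ lam ^ 2) (c : ι) : bet K c ≤ t + lam := by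
  by_cases hc : c ∈ S
  · have h1 : (bet K c - t) ^ 2 ≤ Vs t S K :=
      single_le_sum (f := fun c => (bet K c - t) ^ 2) (fun _ _ => sq_nonneg _) hc
    linarith [(abs_le_of_sq_le_sq' (h1.trans hV) hl).2]
  · rw [bet_of_not_mem h hc]; positivity

theorem bet_le (h : Good p S e K) {lam : ℝ} (hl : 0 ≤ lam) (hV : Vs 1 S K ≤ lam ^ 2) (c : ι) :
    bet K c ≤ 1 + lam := bet_le_gen h zero_le_one hl hV c

theorem bet_le_W (h : Good p S e K) {om : ℝ} (ho : 0 ≤ om) (hW : Vs 0 S K ≤ om ^ 2) (c : ι) :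
    bet K c ≤ om := by simpa using bet_le_gen h le_rfl ho hW c

theorem bad1 (g : ι → ℝ) (M : ℝ) (hM : 0 ≤ M) (hg : ∀ c ∈ S, 0 ≤ g c)
    (hgM : ∀ c ∈ S, g c ≤ M * bet K c) :
    ∑ c ∈ S, bet K c * g c ≤ 2 * ∑ c ∈ S, g c + 4 * M * Vs 1 S K := by
  rw [Vs, mul_sum, mul_sum, ← sum_add_distrib]
  refine sum_le_sum fun c hc => ?_
  have h1 := hg c hc
  have h2 := hgM c hc
  rcases le_total (bet K c) 2 with h3 | h3
  · nlinarith [mul_nonneg hM (sq_nonneg (bet K c - 1))]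
  · have h4 : bet K c * g c ≤ bet K c * (M * bet K c) := mul_le_mul_of_nonneg_left h2 (by linarith)
    have h5 : bet K c * bet K c ≤ 4 * (bet K c - 1) ^ 2 := by nlinarith
    nlinarith [mul_le_mul_of_nonneg_left h5 hM]

theorem bad2 (h : Good p S e K) (g : ι → ℝ) (M : ℝ) (hM : 0 ≤ M) (hg : ∀ c ∈ S, 0 ≤ g c)
    (hgM : ∀ c ∈ S, g c ≤ M) :
    ∑ c ∈ S, bet K c ^ 2 * g c ≤ 4 * ∑ c ∈ S, g c + 4 * M * Vs 1 S K := by
  rw [Vs, mul_sum, mul_sum, ← sum_add_distrib]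
  refine sum_le_sum fun c hc => ?_
  have h1 := hg c hc
  have h2 := hgM c hc
  have h0 := bet_nonneg h c
  rcases le_total (bet K c) 2 with h3 | h3
  · have h4 : bet K c ^ 2 ≤ 4 := by nlinarith
    nlinarith [mul_nonneg hM (sq_nonneg (bet K c - 1)), mul_le_mul_of_nonneg_right h4 h1]
  · have h4 : bet K c ^ 2 * g c ≤ bet K c ^ 2 * M := mul_le_mul_of_nonneg_left h2 (sq_nonneg _)
    have h5 : bet K c ^ 2 ≤ 4 * (bet K c - 1) ^ 2 := by nlinarith
    nlinarith [mul_le_mul_of_nonneg_left h5 hM]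

theorem diag4_nonneg (h : Good p S e K) (c : ι) : 0 ≤ (K ^ 4) c c := by
  rw [show 4 = 2 * 2 from rfl, pow_diag h]
  exact sum_nonneg fun _ _ => sq_nonneg _

theorem diag4_le (h : Good p S e K) {L : ℝ} (ho : OpB K L) (c : ι) :
    (K ^ 4) c c ≤ L ^ 2 * bet K c := by
  have h1 := ho (fun b => K b c)
  rw [show 4 = 2 * 2 from rfl, pow_diag h, bet_eq h]
  simp only [h.symm c]
  refine le_of_eq_of_le ?_ h1
  exact sum_congr rfl fun a _ => by rw [sq K, Matrix.mul_apply]; rfl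

theorem G_eq (h : Good p S e K) :
    ∑ c, bet K c * (K ^ 4) c c = ∑ c ∈ S, bet K c * (K ^ 4) c c :=
  (sum_subset (subset_univ S) fun c _ hc => by rw [bet_of_not_mem h hc, zero_mul]).symm

theorem G_le (h : Good p S e K) {L : ℝ} (ho : OpB K L) :
    ∑ c, bet K c * (K ^ 4) c c ≤ 2 * Tr 4 K + 4 * L ^ 2 * Vs 1 S K := by
  have h1 := bad1 (S := S) (K := K) (fun c => (K ^ 4) c c) (L ^ 2) (sq_nonneg _)
    (fun c _ => diag4_nonneg h c) (fun c _ => diag4_le h ho c)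
  have h2 : ∑ c ∈ S, (K ^ 4) c c ≤ Tr 4 K :=
    sum_le_sum_of_subset_of_nonneg (subset_univ S) fun c _ _ => diag4_nonneg h c
  rw [G_eq h]
  linarith

theorem G_le_W (h : Good p S e K) {L : ℝ} (ho : OpB K L) :
    ∑ c, bet K c * (K ^ 4) c c ≤ L ^ 2 * Vs 0 S K := by
  rw [G_eq h, Vs0_eq, mul_sum]
  refine sum_le_sum fun c _ => ?_
  nlinarith [mul_le_mul_of_nonneg_left (diag4_le h ho c) (bet_nonneg h c)]

/-! ### allowed pairs -/

theorem alw_symm (h : Good p S e K) {a b : ι} (ha : Alw K a b) : Alw K b a :=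
  ⟨ha.1.symm, by rw [h.symm]; exact ha.2.1, by rw [mul_comm]; exact ha.2.2⟩

theorem Dd_bound (he : e = 1 ∨ e = -1) {a b : ι} (ha : Alw K a b) :
    99 / 100 ≤ Dd e K a b ∧ Dd e K a b ≤ 101 / 100 ∧
      |1 / Dd e K a b - 1| ≤ 3 * (|K a b| + |K a a * K b b|) := by
  obtain ⟨-, h1, h2⟩ := ha
  have h3 := abs_nonneg (K a b)
  have h4 := abs_nonneg (K a a * K b b)
  have h5 : |Dd e K a b - 1| ≤ 201 / 100 * |K a b| + |K a a * K b b| := by
    have h6 : K a b ^ 2 ≤ 1 / 1000 * |K a b| := by rw [← sq_abs]; nlinarith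
    have h7 := sq_nonneg (K a b)
    have := le_abs_self (K a b)
    have := neg_abs_le (K a b)
    have := le_abs_self (K a a * K b b)
    have := neg_abs_le (K a a * K b b)
    rw [Dd, abs_le]
    rcases he with rfl | rfl <;> constructor <;> linarith
  have h6 := abs_le.1 h5
  have h7 : 99 / 100 ≤ Dd e K a b := by linarith [h6.1]
  refine ⟨h7, by linarith [h6.2], ?_⟩
  have h8 : 0 < Dd e K a b := by linarith
  rw [show 1 / Dd e K a b - 1 = -(Dd e K a b - 1) / Dd e K a b by field_simp; ring, abs_div,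
    abs_neg, abs_of_pos h8, div_le_iff₀ h8]
  nlinarith [mul_le_mul_of_nonneg_left h7 (add_nonneg h3 h4)]

theorem delta_row' (h : Good p S e K) (a : ι) :
    ∑ b ∈ S, (|K a b| + |K a a * K b b|) ^ 2 ≤ 2 * (bet K a + K a a ^ 2 * Dh K) := by
  rw [bet_eq' h, Dh_eq h, mul_sum, ← sum_add_distrib, mul_sum]
  refine sum_le_sum fun b _ => ?_
  rw [← mul_pow, ← sq_abs (K a b), ← sq_abs (K a a * K b b)]
  nlinarith [sq_nonneg (|K a b| - |K a a * K b b|)]

theorem delta_frob (h : Good p S e K) :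
    ∑ a ∈ S, ∑ b ∈ S, (|K a b| + |K a a * K b b|) ^ 2 ≤ 2 * (Tr 2 K + Dh K ^ 2) := by
  refine (sum_le_sum fun a _ => delta_row' h a).trans (le_of_eq ?_)
  rw [← mul_sum, sum_add_distrib, ← sum_mul, ← Tr2_eq h, ← Dh_eq h, sq]

theorem delta_row (h : Good p S e K) (a : ι) :
    ∑ b ∈ S, (|K a b| + |K a a * K b b|) ^ 2 ≤ 2 * (bet K a + Dh K ^ 2) := by
  refine (delta_row' h a).trans ?_
  have h1 : 0 ≤ Dh K := sum_nonneg fun _ _ => sq_nonneg _
  nlinarith [mul_le_mul_of_nonneg_right (diag_sq_le K a) h1]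

/-! ### weights -/

theorem wt_total {w : ι → ι → ℝ} {eF eE er : ℝ} (h : Wt S K w eF eE er) :
    |∑ a ∈ S, ∑ b ∈ S, w a b - (S.card : ℝ) ^ 2| ≤ eE * S.card := by
  have h1 := h.op (fun _ => 1) (fun _ => 1)
  simp only [one_mul, mul_one, one_pow, sum_const, nsmul_eq_mul, sum_sub_distrib] at h1
  rw [mul_assoc, Real.mul_self_sqrt (Nat.cast_nonneg _), abs_sub_comm, ← sq] at h1
  exact h1

theorem wt_row_sum {w : ι → ι → ℝ} {eF eE er s : ℝ} (h : Wt S K w eF eE er) (hs0 : 0 ≤ s)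
    (hs : s ^ 2 = S.card) {a : ι} (ha : a ∈ S) : |∑ b ∈ S, w a b - S.card| ≤ s * er := by
  have h1 := sq_sum_le_card_mul_sum_sq (s := S) (f := fun b => 1 - w a b)
  have h2 : (∑ b ∈ S, (1 - w a b)) ^ 2 ≤ (s * er) ^ 2 := by
    rw [mul_pow, hs]
    exact h1.trans (mul_le_mul_of_nonneg_left (h.row a ha) (Nat.cast_nonneg _))
  rw [sum_sub_distrib, sum_const, nsmul_eq_mul, mul_one] at h2
  rw [abs_sub_comm]
  exact abs_le.2 (abs_le_of_sq_le_sq' h2 (mul_nonneg hs0 h.er_nonneg))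

theorem wt_mono {w : ι → ι → ℝ} {eF eE er eF' eE' er' : ℝ} (h : Wt S K w eF eE er)
    (h1 : eF ≤ eF') (h2 : eE ≤ eE') (h3 : er ≤ er') : Wt S K w eF' eE' er' where
  nonneg := h.nonneg
  le := h.le
  symm := h.symm
  supp := h.supp
  eF_nonneg := h.eF_nonneg.trans h1
  eE_nonneg := h.eE_nonneg.trans h2
  er_nonneg := h.er_nonneg.trans h3
  frob := h.frob.trans (pow_le_pow_left₀ h.eF_nonneg h1 2)
  op := fun x y => (h.op x y).trans (by gcongr)
  row := fun a ha => (h.row a ha).trans (pow_le_pow_left₀ h.er_nonneg h3 2)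

end SpecB
end Crest.Agent.R62
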