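import Crest.Agent.R62.Defs
import Crest.Agent.R62.SpecA
import Crest.Agent.R62.SpecB

/-! Elementary and spectral facts about one boundary matrix. -/

set_option autoImplicit false
set_option linter.unusedVariables false
set_option linter.unusedSectionVars false
open Classical
open scoped Matrix
open Finset

noncomputable section
namespace Crest.Agent.R62

variable {ι : Type} [Fintype ι] [DecidableEq ι] {p e : ℝ} {S : Finset ι} {K J : Matrix ι ι ℝ}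

theorem Good.bet_eq (h : Good p S e K) (c : ι) : bet K c = ∑ b, K c b ^ 2 :=
  SpecA.bet_eq h c
theorem Good.bet_nonneg (h : Good p S e K) (c : ι) : 0 ≤ bet K c :=
  SpecA.bet_nonneg h c
theorem Good.bet_of_not_mem (h : Good p S e K) {c : ι} (hc : c ∉ S) : bet K c = 0 :=
  SpecA.bet_of_not_mem h hc
theorem Good.Tr2_eq (h : Good p S e K) : Tr 2 K = ∑ c ∈ S, bet K c :=
  SpecA.Tr2_eq h
theorem Good.Tr2_eq' (h : Good p S e K) : Tr 2 K = ∑ a ∈ S, ∑ b ∈ S, K a b ^ 2 :=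
  SpecA.Tr2_eq' h
theorem Good.Tr1_eq (h : Good p S e K) : Tr 1 K = ∑ c ∈ S, K c c :=
  SpecA.Tr1_eq h
theorem Good.Dh_eq (h : Good p S e K) : Dh K = ∑ c ∈ S, K c c ^ 2 :=
  SpecA.Dh_eq h
theorem Good.pow_symm (h : Good p S e K) (k : ℕ) (a b : ι) : (K ^ k) a b = (K ^ k) b a :=
  SpecA.pow_symm h k a b
theorem Good.pow_supp (h : Good p S e K) {k : ℕ} (hk : 1 ≤ k) {a : ι} (ha : a ∉ S) (b : ι) :
    (K ^ k) a b = 0 :=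
  SpecA.pow_supp h hk ha b
theorem Good.pow_row (h : Good p S e K) {k : ℕ} (hk : 1 ≤ k) {a : ι} (ha : a ∈ S) :
    ∑ b ∈ S, (K ^ k) a b = e ^ k :=
  SpecA.pow_row h hk ha
theorem Good.Tr_eq (h : Good p S e K) {k : ℕ} (hk : 1 ≤ k) : Tr k K = ∑ c ∈ S, (K ^ k) c c :=
  SpecA.Tr_eq h hk
/-- `(K^{2j})_{aa}` is the squared norm of a row of `K^j` -/
theorem Good.pow_diag (h : Good p S e K) (j : ℕ) (a : ι) :
    (K ^ (2 * j)) a a = ∑ b, (K ^ j) a b ^ 2 :=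
  SpecA.pow_diag h j a
theorem Good.pow_entry (h : Good p S e K) (i j : ℕ) (a b : ι) :
    (K ^ (i + j)) a b ^ 2 ≤ (K ^ (2 * i)) a a * (K ^ (2 * j)) b b :=
  SpecA.pow_entry h i j a b
theorem Good.opB_of_T4 (h : Good p S e K) {L : ℝ} (hL : 0 ≤ L) (h4 : Tr 4 K ≤ L ^ 4) : OpB K L :=
  SpecA.opB_of_T4 h hL h4
theorem Good.opB_of_T2 (h : Good p S e K) {L : ℝ} (h2 : Tr 2 K ≤ L ^ 2) : OpB K L :=
  SpecA.opB_of_T2 h h2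
theorem OpB.mono {L L' : ℝ} (h : OpB K L) (hL : 0 ≤ L) (hLL : L ≤ L') : OpB K L' :=
  SpecA.opB_mono h hL hLL
theorem Good.diag_succ (h : Good p S e K) {L : ℝ} (ho : OpB K L) (j : ℕ) (c : ι) :
    (K ^ (2 * j + 2)) c c ≤ L ^ 2 * (K ^ (2 * j)) c c :=
  SpecA.diag_succ h ho j c
theorem Good.diag_odd (h : Good p S e K) {L : ℝ} (hL : 0 ≤ L) (ho : OpB K L) (j : ℕ) (c : ι) :
    |(K ^ (2 * j + 1)) c c| ≤ L * (K ^ (2 * j)) c c :=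
  SpecA.diag_odd h hL ho j c
theorem Good.Tr_succ (h : Good p S e K) {L : ℝ} (ho : OpB K L) (j : ℕ) :
    Tr (2 * j + 2) K ≤ L ^ 2 * Tr (2 * j) K :=
  SpecA.Tr_succ h ho j
theorem Good.Tr4_le (h : Good p S e K) : Tr 4 K ≤ Tr 2 K ^ 2 :=
  SpecA.Tr4_le h
theorem Good.Tr3_sq (h : Good p S e K) : Tr 3 K ^ 2 ≤ Tr 2 K * Tr 4 K :=
  SpecA.Tr3_sq h
theorem Good.Tr1_sq (h : Good p S e K) : Tr 1 K ^ 2 ≤ S.card * Dh K :=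
  SpecA.Tr1_sq h
/-- `K + 1 ⪰ 0` -/
theorem Good.psd1 (h : Good p S e K) (x : ι → ℝ) : 0 ≤ x ⬝ᵥ (K *ᵥ x) + ∑ a ∈ S, x a ^ 2 :=
  SpecB.psd1 h x
/-- `K + p + Π ⪰ 0` -/
theorem Good.psdp (h : Good p S e K) (x : ι → ℝ) :
    0 ≤ x ⬝ᵥ (K *ᵥ x) + p * ∑ a ∈ S, x a ^ 2 + (∑ a ∈ S, x a) ^ 2 / S.card :=
  SpecB.psdp h x
theorem Good.diag_odd_ge (h : Good p S e K) {j : ℕ} (hj : 1 ≤ j) (c : ι) :
    -(K ^ (2 * j)) c c ≤ (K ^ (2 * j + 1)) c c :=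
  SpecB.diag_odd_ge h j c
theorem Good.Tr_odd_ge (h : Good p S e K) {j : ℕ} (hj : 1 ≤ j) : -Tr (2 * j) K ≤ Tr (2 * j + 1) K :=
  SpecB.Tr_odd_ge h j
theorem Good.one_le_Tr2 (h : Good p S e K) (hS : S.Nonempty) : 1 ≤ Tr 2 K :=
  SpecB.one_le_Tr2 h hS
/-- on zero-sum vectors the form of `K` is bounded by `√(T₂ - 1)` -/
theorem Good.form_le (h : Good p S e K) (h2 : Tr 2 K ≤ 2) (z : ι → ℝ) (hz : ∀ a, a ∉ S → z a = 0)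
    (hz0 : ∑ a, z a = 0) : z ⬝ᵥ (K *ᵥ z) ≤ z ⬝ᵥ z :=
  SpecB.form_le h h2 z hz hz0
theorem Good.exists_fac (h : Good p S e J) : ∃ B : Matrix ι ι ℝ, J + idS S = Bᵀ * B :=
  SpecB.exists_fac h
theorem Zz_nonneg {e' : ℝ} (hK : Good p S e K) (hJ : Good p S e' J) : 0 ≤ Zz S K J :=
  SpecB.Zz_nonneg hK hJ
theorem Good.entry_sq (h : Good p S e K) {a c : ι} (ha : a ∈ S) (hc : c ∈ S) :
    K c a ^ 2 ≤ 101 / 100 * ((|K a a| + p + 1 / S.card) * (|K c c| + p + 1 / S.card))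
      + 101 / (S.card : ℝ) ^ 2 :=
  SpecB.entry_sq h ha hc
theorem Good.entry_le (h : Good p S e K) (hS : 4 ≤ (S.card : ℝ)) {δ : ℝ} (hδ : 1 ≤ δ)
    (hD : Dh K ≤ δ ^ 2) (a c : ι) : K c a ^ 2 ≤ 20 * δ ^ 2 :=
  SpecB.entry_le h hS hδ hD a c
/-- the fourth-power sum of the entries: this is where `p² ≤ 1/2` gives contraction -/
theorem Good.F4_le (h : Good p S e K) {s L lam r dd om ga δ : ℝ} (hb : Bd S K s L lam r dd om ga)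
    (hδ : 1 ≤ δ) (hdd : dd ≤ δ) :
    ∑ a ∈ S, ∑ c ∈ S, K c a ^ 4 ≤ 51 / 100 * Tr 2 K + 1000 * (δ * om + δ ^ 2 * r ^ 2 + 1) :=
  SpecB.F4_le h hb hδ hdd
theorem M11_ge {e' : ℝ} (hK : Good p S e K) (hJ : Good p S e' J) :
    -(S.card : ℝ) / 2 - |Tr 1 K| - |Tr 1 J| - 10 ≤ (K * J).trace :=
  SpecB.M11_ge hK hJ
theorem Good.W_le (h : Good p S e K) : Vs 0 S K ≤ 2 * Vs 1 S K + 2 * S.card :=
  SpecB.W_le S K
theorem Good.V_le (h : Good p S e K) : Vs 1 S K ≤ 2 * Vs 0 S K + 2 * S.card :=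
  SpecB.V_le S K
theorem Good.bet_le (h : Good p S e K) {lam : ℝ} (hl : 0 ≤ lam) (hV : Vs 1 S K ≤ lam ^ 2) (c : ι) :
    bet K c ≤ 1 + lam :=
  SpecB.bet_le h hl hV c
theorem Good.bet_le_W (h : Good p S e K) {om : ℝ} (ho : 0 ≤ om) (hW : Vs 0 S K ≤ om ^ 2) (c : ι) :
    bet K c ≤ om :=
  SpecB.bet_le_W h ho hW c
/-- good rows (`β ≤ 2`) and bad rows (`β ≤ 2 (β - 1)`) -/
theorem Good.bad1 (h : Good p S e K) (g : ι → ℝ) (M : ℝ) (hM : 0 ≤ M) (hg : ∀ c ∈ S, 0 ≤ g c)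
    (hgM : ∀ c ∈ S, g c ≤ M * bet K c) :
    ∑ c ∈ S, bet K c * g c ≤ 2 * ∑ c ∈ S, g c + 4 * M * Vs 1 S K :=
  SpecB.bad1 g M hM hg hgM
theorem Good.bad2 (h : Good p S e K) (g : ι → ℝ) (M : ℝ) (hM : 0 ≤ M) (hg : ∀ c ∈ S, 0 ≤ g c)
    (hgM : ∀ c ∈ S, g c ≤ M) :
    ∑ c ∈ S, bet K c ^ 2 * g c ≤ 4 * ∑ c ∈ S, g c + 4 * M * Vs 1 S K :=
  SpecB.bad2 h g M hM hg hgM
theorem Good.G_le (h : Good p S e K) {L : ℝ} (ho : OpB K L) :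
    ∑ c, bet K c * (K ^ 4) c c ≤ 2 * Tr 4 K + 4 * L ^ 2 * Vs 1 S K :=
  SpecB.G_le h ho
theorem Good.G_le_W (h : Good p S e K) {L : ℝ} (ho : OpB K L) :
    ∑ c, bet K c * (K ^ 4) c c ≤ L ^ 2 * Vs 0 S K :=
  SpecB.G_le_W h ho
theorem Alw.symm (h : Good p S e K) {a b : ι} (ha : Alw K a b) : Alw K b a :=
  SpecB.alw_symm h ha
theorem Alw.Dd_bound (he : e = 1 ∨ e = -1) {a b : ι} (ha : Alw K a b) :
    99 / 100 ≤ Dd e K a b ∧ Dd e K a b ≤ 101 / 100 ∧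
      |1 / Dd e K a b - 1| ≤ 3 * (|K a b| + |K a a * K b b|) :=
  SpecB.Dd_bound he ha
/-- `δ'_{ab} = |K_ab| + |K_aa K_bb|` -/
theorem Good.delta_frob (h : Good p S e K) :
    ∑ a ∈ S, ∑ b ∈ S, (|K a b| + |K a a * K b b|) ^ 2 ≤ 2 * (Tr 2 K + Dh K ^ 2) :=
  SpecB.delta_frob h
theorem Good.delta_row (h : Good p S e K) (a : ι) :
    ∑ b ∈ S, (|K a b| + |K a a * K b b|) ^ 2 ≤ 2 * (bet K a + Dh K ^ 2) :=
  SpecB.delta_row h a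
/-- Schur test -/
theorem schur_test (S : Finset ι) (M : ι → ι → ℝ) (ρ : ℝ) (hρ : 0 ≤ ρ) (hs : ∀ a b, M a b = M b a)
    (hr : ∀ a ∈ S, ∑ b ∈ S, |M a b| ≤ ρ) (x y : ι → ℝ) :
    |∑ a ∈ S, ∑ b ∈ S, x a * M a b * y b| ≤ ρ * √(∑ a ∈ S, x a ^ 2) * √(∑ b ∈ S, y b ^ 2) :=
  SpecB.schur_test S M ρ hρ hs hr x y
theorem frob_test (S : Finset ι) (M : ι → ι → ℝ) (x y : ι → ℝ) :
    |∑ a ∈ S, ∑ b ∈ S, x a * M a b * y b| ≤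
      √(∑ a ∈ S, ∑ b ∈ S, M a b ^ 2) * √(∑ a ∈ S, x a ^ 2) * √(∑ b ∈ S, y b ^ 2) :=
  SpecB.frob_test S M x y
/-- row test: `|∑ x_a M_ab y_b| ≤ ‖x‖₁ · max_a ‖M_a‖₂ · ‖y‖₂` -/
theorem row_test (S : Finset ι) (M : ι → ι → ℝ) (ρ : ℝ) (hρ : 0 ≤ ρ)
    (hr : ∀ a ∈ S, ∑ b ∈ S, M a b ^ 2 ≤ ρ ^ 2) (x y : ι → ℝ) :
    |∑ a ∈ S, ∑ b ∈ S, x a * M a b * y b| ≤ (∑ a ∈ S, |x a|) * ρ * √(∑ b ∈ S, y b ^ 2) :=
  SpecB.row_test S M ρ hρ hr x y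
theorem Wt.total {w : ι → ι → ℝ} {eF eE er : ℝ} (h : Wt S K w eF eE er) :
    |∑ a ∈ S, ∑ b ∈ S, w a b - (S.card : ℝ) ^ 2| ≤ eE * S.card :=
  SpecB.wt_total h
theorem Wt.row_sum {w : ι → ι → ℝ} {eF eE er s : ℝ} (h : Wt S K w eF eE er) (hs0 : 0 ≤ s)
    (hs : s ^ 2 = S.card) {a : ι} (ha : a ∈ S) : |∑ b ∈ S, w a b - S.card| ≤ s * er :=
  SpecB.wt_row_sum h hs0 hs ha
theorem Wt.mono {w : ι → ι → ℝ} {eF eE er eF' eE' er' : ℝ} (h : Wt S K w eF eE er)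
    (h1 : eF ≤ eF') (h2 : eE ≤ eE') (h3 : er ≤ er') : Wt S K w eF' eE' er' :=
  SpecB.wt_mono h h1 h2 h3

end Crest.Agent.R62
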