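import Crest.Agent.R62.MomentB

/-! Abstract estimates for the step inequality of `Z`: sums over pairs and `2 × 2` traces. -/

set_option autoImplicit false
set_option linter.unusedSectionVars false
open Classical
open scoped Matrix
open Finset

noncomputable section
namespace Crest.Agent.R62.ZS

variable {ι : Type}

lemma cs1 (S : Finset ι) (f g : ι → ℝ) {A B : ℝ} (hA : 0 ≤ A) (hB : 0 ≤ B)
    (hf : ∑ a ∈ S, f a ^ 2 ≤ A ^ 2) (hg : ∑ a ∈ S, g a ^ 2 ≤ B ^ 2) :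
    ∑ a ∈ S, f a * g a ≤ A * B := by
  refine (le_abs_self _).trans (abs_le_of_sq_le_sq ((sum_mul_sq_le_sq_mul_sq S f g).trans ?_)
    (mul_nonneg hA hB))
  rw [mul_pow]
  exact mul_le_mul hf hg (sum_nonneg fun _ _ => sq_nonneg _) (sq_nonneg _)

lemma cs2 (S : Finset ι) (f g : ι → ι → ℝ) {A B : ℝ} (hA : 0 ≤ A) (hB : 0 ≤ B)
    (hf : ∑ a ∈ S, ∑ b ∈ S, f a b ^ 2 ≤ A ^ 2) (hg : ∑ a ∈ S, ∑ b ∈ S, g a b ^ 2 ≤ B ^ 2) :
    ∑ a ∈ S, ∑ b ∈ S, f a b * g a b ≤ A * B := by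
  rw [← sum_product'] at hf hg ⊢
  exact cs1 _ _ _ hA hB hf hg

lemma prod_le (S : Finset ι) {f g : ι → ℝ} {A B : ℝ} (hA : 0 ≤ A) (hg0 : ∀ a, 0 ≤ g a)
    (hf : ∑ a ∈ S, f a ≤ A) (hg : ∑ a ∈ S, g a ≤ B) : ∑ a ∈ S, ∑ b ∈ S, f a * g b ≤ A * B := by
  rw [← sum_mul_sum]
  exact mul_le_mul hf hg (sum_nonneg fun a _ => hg0 a) hA

lemma sum2_le (S : Finset ι) {f g : ι → ι → ℝ} (h : ∀ a b, f a b ≤ g a b) :
    ∑ a ∈ S, ∑ b ∈ S, f a b ≤ ∑ a ∈ S, ∑ b ∈ S, g a b :=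
  sum_le_sum fun a _ => sum_le_sum fun b _ => h a b

lemma sq3 (S : Finset ι) (f g h : ι → ι → ℝ) : ∑ a ∈ S, ∑ b ∈ S, (f a b + g a b + h a b) ^ 2 ≤
    3 * (∑ a ∈ S, ∑ b ∈ S, f a b ^ 2 + ∑ a ∈ S, ∑ b ∈ S, g a b ^ 2 +
      ∑ a ∈ S, ∑ b ∈ S, h a b ^ 2) := by
  simp only [← sum_add_distrib, mul_sum]
  exact sum2_le S fun a b => by
    nlinarith [sq_nonneg (f a b - g a b), sq_nonneg (f a b - h a b), sq_nonneg (g a b - h a b)]

/-! ### `2 × 2` matrices -/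

section two
variable {v : Fin 2 → ℝ} {A B X M : Matrix (Fin 2) (Fin 2) ℝ} {ρ ρ' θ c : ℝ}

def RC (v : Fin 2 → ℝ) (A : Matrix (Fin 2) (Fin 2) ℝ) (ρ : ℝ) : Prop :=
  0 ≤ ρ ∧ ∀ i j, |A i j| * v i ≤ ρ * v j

def XB (v : Fin 2 → ℝ) (X : Matrix (Fin 2) (Fin 2) ℝ) (θ : ℝ) : Prop :=
  0 ≤ θ ∧ ∀ i j, |X i j| * v i * v j ≤ θ

def EB (v : Fin 2 → ℝ) (M : Matrix (Fin 2) (Fin 2) ℝ) (c : ℝ) : Prop :=
  0 ≤ c ∧ ∀ i j, |M i j| ≤ c * v i * v j

lemma RC.mul (hv : ∀ i, 1 ≤ v i) (hA : RC v A ρ) (hB : RC v B ρ') : RC v (A * B) (2 * ρ * ρ') := by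
  refine ⟨mul_nonneg (mul_nonneg zero_le_two hA.1) hB.1, fun i j => ?_⟩
  have h : ∀ k, |A i k * B k j| * v i ≤ ρ * ρ' * v j := fun k => by
    calc _ = |A i k| * v i * |B k j| := by rw [abs_mul]; ring
      _ ≤ ρ * v k * |B k j| := mul_le_mul_of_nonneg_right (hA.2 i k) (abs_nonneg _)
      _ = ρ * (|B k j| * v k) := by ring
      _ ≤ ρ * (ρ' * v j) := mul_le_mul_of_nonneg_left (hB.2 k j) hA.1
      _ = _ := by ring
  rw [Matrix.mul_apply, Fin.sum_univ_two]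
  have h2 := mul_le_mul_of_nonneg_right (abs_add_le (A i 0 * B 0 j) (A i 1 * B 1 j))
    (zero_le_one.trans (hv i))
  linarith [h 0, h 1]

lemma RC.trace (hv : ∀ i, 1 ≤ v i) (hA : RC v A ρ) : A.trace ≤ 2 * ρ := by
  have h : ∀ i, A i i ≤ ρ := fun i => (le_abs_self _).trans
    (le_of_mul_le_mul_right (hA.2 i i) (zero_lt_one.trans_le (hv i)))
  rw [Matrix.trace_fin_two]
  linarith [h 0, h 1]

lemma XB.mul (hv : ∀ i, 1 ≤ v i) (hX : XB v X θ) (hM : EB v M c) : RC v (X * M) (2 * θ * c) := by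
  refine ⟨mul_nonneg (mul_nonneg zero_le_two hX.1) hM.1, fun i j => ?_⟩
  have hv0 : ∀ i, 0 ≤ v i := fun i => zero_le_one.trans (hv i)
  have h : ∀ k, |X i k * M k j| * v i ≤ θ * c * v j := fun k => by
    calc _ = |X i k| * v i * |M k j| := by rw [abs_mul]; ring
      _ ≤ |X i k| * v i * (c * v k * v j) :=
        mul_le_mul_of_nonneg_left (hM.2 k j) (mul_nonneg (abs_nonneg _) (hv0 i))
      _ = |X i k| * v i * v k * (c * v j) := by ring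
      _ ≤ θ * (c * v j) := mul_le_mul_of_nonneg_right (hX.2 i k) (mul_nonneg hM.1 (hv0 j))
      _ = _ := by ring
  rw [Matrix.mul_apply, Fin.sum_univ_two]
  have h2 := mul_le_mul_of_nonneg_right (abs_add_le (X i 0 * M 0 j) (X i 1 * M 1 j)) (hv0 i)
  linarith [h 0, h 1]

end two

variable [Fintype ι] [DecidableEq ι]

lemma bm_eq (ε : ℝ) (U W : Matrix ι ι ℝ) (a b : ι) : bm ε U W a b =
    !![U a a - ε * W a b, U a b - ε * W a a; U b a - ε * W b b, U b b - ε * W b a] := by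
  ext i j
  fin_cases i <;> fin_cases j <;> simp [bm, blk, sig]

lemma abs_sub_sign {ε p q : ℝ} (hε : ε = 1 ∨ ε = -1) : |p - ε * q| ≤ |p| + |q| := by
  rcases hε with rfl | rfl
  · simpa using abs_sub p q
  · simpa using abs_add_le p q

lemma abs_sign_mul {ε p : ℝ} (hε : ε = 1 ∨ ε = -1) : |ε * p| = |p| := by
  rcases hε with rfl | rfl <;> simp

lemma EB_bm {u : ι → ℝ} (hu : ∀ a, 1 ≤ u a) {ε c : ℝ} (hε : ε = 1 ∨ ε = -1) (hc : 0 ≤ c)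
    {U W : Matrix ι ι ℝ} (hU : ∀ a b, |U a b| ≤ c * u a * u b) (hW : ∀ a b, |W a b| ≤ c * u a)
    (a b : ι) : EB ![u a, u b] (bm ε U W a b) (2 * c) := by
  have h : ∀ i j k, |U i j - ε * W i k| ≤ 2 * c * u i * u j := fun i j k => by
    have h1 : c * u i ≤ c * u i * u j :=
      le_mul_of_one_le_right (mul_nonneg hc (zero_le_one.trans (hu i))) (hu j)
    linarith [abs_sub_sign (p := U i j) (q := W i k) hε, hU i j, hW i k]
  refine ⟨by positivity, fun i j => ?_⟩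
  rw [bm_eq]
  fin_cases i <;> fin_cases j <;> exact h _ _ _

/-- the data entering the estimates -/
structure Ctx (S : Finset ι) (w : ι → ι → ℝ) (u x : ι → ℝ) (d : ι → ι → ℝ)
    (s δ r eE L ν Λ η : ℝ) : Prop where
  card : s ^ 2 = S.card
  s_ge : 2 ≤ s
  δ_ge : 1 ≤ δ
  δ_le : δ ^ 2 ≤ s
  r_ge : 1 ≤ r
  L_ge : 1 ≤ L
  eE_nonneg : 0 ≤ eE
  ν_nonneg : 0 ≤ ν
  Λ_nonneg : 0 ≤ Λ
  w_nonneg : ∀ a b, 0 ≤ w a b
  w_le : ∀ a b, w a b ≤ 5 / 4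
  w_symm : ∀ a b, w a b = w b a
  op : ∀ x y : ι → ℝ, |∑ a ∈ S, ∑ b ∈ S, x a * (1 - w a b) * y b| ≤
    eE * √(∑ a ∈ S, x a ^ 2) * √(∑ b ∈ S, y b ^ 2)
  u_ge : ∀ a, 1 ≤ u a
  u4 : ∑ a ∈ S, u a ^ 4 ≤ 100 * s ^ 2
  ur : ∀ a, u a ^ 2 ≤ 3 * r ^ 2
  x_nonneg : ∀ a, 0 ≤ x a
  x2 : ∑ a ∈ S, x a ^ 2 ≤ 4 * δ ^ 2
  x_le : ∀ a, x a ≤ 2 * δ
  d_nonneg : ∀ a b, 0 ≤ d a b
  d_symm : ∀ a b, d a b = d b a
  d2 : ∑ a ∈ S, ∑ b ∈ S, d a b ^ 2 ≤ (8 * s) ^ 2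
  dg : ∑ a ∈ S, ∑ b ∈ S, (d a b * u a * u b) ^ 2 ≤ 600 * r ^ 2 * s ^ 2 + 432 * (δ ^ 2 * r ^ 2) ^ 2
  n1 : s ^ 4 ≤ η
  n2 : eE * ν ≤ 8 * η
  n3 : s * δ * ν ≤ 8 * η
  n4 : s * ν ≤ 8 * η
  n5 : s * δ * Λ ≤ 4 * η
  n6 : s ^ 2 * Λ ≤ 4 * η
  n7 : L * s ^ 3 ≤ η
  n8 : eE * L * s ^ 2 ≤ η
  n9 : L * (r * s + δ ^ 2 * r ^ 2 + δ * s) * s ^ 2 ≤ 3 * η
  n10 : δ ^ 3 * r ^ 2 * s ^ 2 ≤ η

/-- `X = ε σ + X°` with small `X°` on the support of the weights -/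
def XF (w : ι → ι → ℝ) (x : ι → ℝ) (d : ι → ι → ℝ) (ε : ℝ)
    (X : ι → ι → Matrix (Fin 2) (Fin 2) ℝ) : Prop :=
  (ε = 1 ∨ ε = -1) ∧ ∀ a b, w a b ≠ 0 → |X a b 0 0| ≤ 2 * x b ∧ |X a b 1 1| ≤ 2 * x a ∧
    |X a b 0 1 - ε| ≤ 5 * d a b ∧ |X a b 0 1| ≤ 2 ∧ X a b 1 0 = X a b 0 1

def Th (u x : ι → ℝ) (a b : ι) : ℝ := u a * u b + u a ^ 2 * x b + x a * u b ^ 2
def Th0 (u x : ι → ℝ) (d : ι → ι → ℝ) (a b : ι) : ℝ :=
  d a b * u a * u b + u a ^ 2 * x b + x a * u b ^ 2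

variable {S : Finset ι} {w : ι → ι → ℝ} {u x : ι → ℝ} {d : ι → ι → ℝ} {s δ r eE L ν Λ η : ℝ}

namespace Ctx
variable (c : Ctx S w u x d s δ r eE L ν Λ η)
include c

lemma u0 (a : ι) : 0 ≤ u a := zero_le_one.trans (c.u_ge a)
lemma s0 : 0 ≤ s := zero_le_two.trans c.s_ge
lemma δ0 : 0 ≤ δ := zero_le_one.trans c.δ_ge
lemma r0 : 0 ≤ r := zero_le_one.trans c.r_ge
lemma L0 : 0 ≤ L := zero_le_one.trans c.L_ge
lemma η0 : 0 ≤ η := (pow_nonneg c.s0 4).trans c.n1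
lemma v_ge (a b : ι) : ∀ i, 1 ≤ ![u a, u b] i := Fin.forall_fin_two.2 ⟨c.u_ge a, c.u_ge b⟩

lemma one2 : ∑ _a ∈ S, (1 : ℝ) ^ 2 ≤ s ^ 2 := by simp [c.card]

lemma u_pow {k : ℕ} (hk : k ≤ 4) : ∑ a ∈ S, u a ^ k ≤ 100 * s ^ 2 :=
  (sum_le_sum fun a _ => pow_le_pow_right₀ (c.u_ge a) hk).trans c.u4

lemma Th_nonneg (a b : ι) : 0 ≤ Th u x a b := by
  have := c.u0 a; have := c.u0 b; have := c.x_nonneg a; have := c.x_nonneg b
  unfold Th; positivity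

lemma Th0_nonneg (a b : ι) : 0 ≤ Th0 u x d a b := by
  have := c.u0 a; have := c.u0 b; have := c.x_nonneg a; have := c.x_nonneg b
  have := c.d_nonneg a b
  unfold Th0; positivity

lemma wsum {F μ ρ : ι → ι → ℝ} (hρ : ∀ a b, 0 ≤ ρ a b)
    (h : ∀ a b, w a b ≠ 0 → F a b ≤ μ a b + μ b a + (ρ a b + ρ b a)) :
    ∑ a ∈ S, ∑ b ∈ S, w a b * F a b ≤
      2 * ∑ a ∈ S, ∑ b ∈ S, w a b * μ a b + 5 / 2 * ∑ a ∈ S, ∑ b ∈ S, ρ a b := by
  have h1 : ∀ a b, w a b * F a b ≤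
      w a b * μ a b + w b a * μ b a + (5 / 4 * ρ a b + 5 / 4 * ρ b a) := fun a b => by
    have h2 := mul_le_mul_of_nonneg_right (c.w_le a b) (add_nonneg (hρ a b) (hρ b a))
    rw [c.w_symm b a]
    by_cases h0 : w a b = 0
    · rw [h0] at h2 ⊢
      linarith
    · linarith [mul_le_mul_of_nonneg_left (h a b h0) (c.w_nonneg a b)]
  refine (sum2_le S h1).trans (le_of_eq ?_)
  simp only [sum_add_distrib, ← mul_sum]
  rw [sum_comm (f := fun a b => w b a * μ b a), sum_comm (f := fun a b => ρ b a)]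
  ring

lemma wprod (f g : ι → ℝ) {A B : ℝ} (hA : 0 ≤ A) (hB : 0 ≤ B)
    (hf : ∑ a ∈ S, f a ^ 2 ≤ A ^ 2) (hg : ∑ a ∈ S, g a ^ 2 ≤ B ^ 2) :
    ∑ a ∈ S, ∑ b ∈ S, w a b * (f a * g b) ≤ (∑ a ∈ S, f a) * (∑ a ∈ S, g a) + eE * A * B := by
  have h1 := (neg_le_abs _).trans ((c.op f g).trans (mul_le_mul (mul_le_mul_of_nonneg_left
    (Real.sqrt_le_iff.2 ⟨hA, hf⟩) c.eE_nonneg) (Real.sqrt_le_iff.2 ⟨hB, hg⟩) (Real.sqrt_nonneg _)
    (mul_nonneg c.eE_nonneg hA)))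
  have h2 : ∑ a ∈ S, ∑ b ∈ S, w a b * (f a * g b) =
      (∑ a ∈ S, f a) * (∑ a ∈ S, g a) - ∑ a ∈ S, ∑ b ∈ S, f a * (1 - w a b) * g b := by
    simp only [sum_mul_sum, ← sum_sub_distrib]
    exact sum_congr rfl fun a _ => sum_congr rfl fun b _ => by ring
  linarith

lemma diag2 {f : ι → ℝ} {k : ℝ} (hf : ∀ a, |f a| ≤ k * u a * u a) :
    ∑ a ∈ S, f a ^ 2 ≤ (10 * k * s) ^ 2 := by
  calc _ ≤ ∑ a ∈ S, k ^ 2 * u a ^ 4 := sum_le_sum fun a _ => by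
        have := pow_le_pow_left₀ (abs_nonneg _) (hf a) 2
        rw [sq_abs] at this
        linarith
    _ ≤ k ^ 2 * (100 * s ^ 2) := by
        rw [← mul_sum]
        exact mul_le_mul_of_nonneg_left c.u4 (sq_nonneg k)
    _ = _ := by ring

lemma ux : ∑ a ∈ S, ∑ b ∈ S, (u a ^ 2 * x b) ^ 2 ≤ 400 * δ ^ 2 * s ^ 2 := by
  have h := prod_le S (by positivity) (fun a => sq_nonneg (x a)) c.u4 c.x2
  simp only [mul_pow, ← pow_mul]
  linarith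

lemma xu : ∑ a ∈ S, ∑ b ∈ S, (x a * u b ^ 2) ^ 2 ≤ 400 * δ ^ 2 * s ^ 2 := by
  rw [sum_comm]
  simpa only [mul_comm (x _)] using c.ux

lemma uu : ∑ a ∈ S, ∑ b ∈ S, (u a * u b) ^ 2 ≤ (100 * s ^ 2) ^ 2 := by
  have h := prod_le S (by positivity) (fun a => sq_nonneg (u a)) (c.u_pow (k := 2) (by norm_num))
    (c.u_pow (k := 2) (by norm_num))
  simp only [mul_pow]
  linarith

lemma Th2 : ∑ a ∈ S, ∑ b ∈ S, Th u x a b ^ 2 ≤ (200 * s ^ 2) ^ 2 := by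
  refine (sq3 S _ _ _).trans ?_
  have h1 : δ ^ 2 * s ^ 2 ≤ s * s ^ 2 := mul_le_mul_of_nonneg_right c.δ_le (sq_nonneg s)
  have h2 : 1 * s ^ 3 ≤ s * s ^ 3 :=
    mul_le_mul_of_nonneg_right (by linarith [c.s_ge]) (pow_nonneg c.s0 3)
  linarith [c.ux, c.xu, c.uu, pow_nonneg c.s0 4]

lemma Th02 : ∑ a ∈ S, ∑ b ∈ S, Th0 u x d a b ^ 2 ≤
    (50 * (r * s + δ ^ 2 * r ^ 2 + δ * s)) ^ 2 := by
  refine (sq3 S _ _ _).trans ?_
  have := c.r0; have := c.s0; have := c.δ0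
  have h1 : 0 ≤ r * s * (δ ^ 2 * r ^ 2) := by positivity
  have h2 : 0 ≤ r * s * (δ * s) := by positivity
  have h3 : 0 ≤ δ ^ 2 * r ^ 2 * (δ * s) := by positivity
  linarith [c.ux, c.xu, c.dg, sq_nonneg (r * s), sq_nonneg (δ ^ 2 * r ^ 2), sq_nonneg (δ * s)]

lemma Th3 : ∑ a ∈ S, ∑ b ∈ S, Th u x a b ^ 3 ≤ 10 ^ 6 * η := by
  have hx : ∑ a ∈ S, x a ^ 3 ≤ 8 * δ ^ 3 := by
    calc _ ≤ ∑ a ∈ S, 2 * δ * x a ^ 2 := sum_le_sum fun a _ => by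
          linarith [mul_le_mul_of_nonneg_right (c.x_le a) (sq_nonneg (x a))]
      _ ≤ 2 * δ * (4 * δ ^ 2) := by
          rw [← mul_sum]
          exact mul_le_mul_of_nonneg_left c.x2 (by linarith [c.δ0])
      _ = _ := by ring
  have hu : ∑ a ∈ S, u a ^ 6 ≤ 300 * r ^ 2 * s ^ 2 := by
    calc _ ≤ ∑ a ∈ S, 3 * r ^ 2 * u a ^ 4 := sum_le_sum fun a _ => by
          linarith [mul_le_mul_of_nonneg_right (c.ur a) (pow_nonneg (c.u0 a) 4)]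
      _ ≤ 3 * r ^ 2 * (100 * s ^ 2) := by
          rw [← mul_sum]
          exact mul_le_mul_of_nonneg_left c.u4 (by positivity)
      _ = _ := by ring
  have h1 := prod_le S (by positivity) (fun a => pow_nonneg (c.u0 a) 3)
    (c.u_pow (k := 3) (by norm_num)) (c.u_pow (k := 3) (by norm_num))
  have h2 := prod_le S (by positivity) (fun a => pow_nonneg (c.x_nonneg a) 3) hu hx
  have h3 := prod_le S (by have := c.δ0; positivity) (fun a => pow_nonneg (c.u0 a) 6) hx hu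
  have h4 : ∑ a ∈ S, ∑ b ∈ S, Th u x a b ^ 3 ≤ 9 * (∑ a ∈ S, ∑ b ∈ S, u a ^ 3 * u b ^ 3 +
      ∑ a ∈ S, ∑ b ∈ S, u a ^ 6 * x b ^ 3 + ∑ a ∈ S, ∑ b ∈ S, x a ^ 3 * u b ^ 6) := by
    simp only [← sum_add_distrib, mul_sum]
    refine sum2_le S fun a b => ?_
    have := c.u0 a; have := c.u0 b; have := c.x_nonneg a; have := c.x_nonneg b
    have h5 := pow_sum_le_card_mul_sum_pow (s := (univ : Finset (Fin 3)))
      (f := ![u a * u b, u a ^ 2 * x b, x a * u b ^ 2])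
      (fun i _ => by fin_cases i <;> simp <;> positivity) 2
    simp only [Fin.sum_univ_three, card_univ, Fintype.card_fin, Matrix.cons_val] at h5
    unfold Th
    norm_num at h5
    linarith
  linarith [c.n1, c.n10, c.η0]

variable {ε : ℝ} {X : ι → ι → Matrix (Fin 2) (Fin 2) ℝ}

lemma XB_X (hX : XF w x d ε X) {a b : ι} (h : w a b ≠ 0) :
    XB ![u a, u b] (X a b) (2 * Th u x a b) := by
  obtain ⟨h1, h2, -, h4, h5⟩ := hX.2 a b h
  have := c.u0 a; have := c.u0 b; have := c.x_nonneg a; have := c.x_nonneg b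
  have g1 := mul_le_mul_of_nonneg_right h1 (sq_nonneg (u a))
  have g2 := mul_le_mul_of_nonneg_right h2 (sq_nonneg (u b))
  have g3 := mul_le_mul_of_nonneg_right h4 (by positivity : 0 ≤ u a * u b)
  have g4 : 0 ≤ u a * u b := by positivity
  have g5 : 0 ≤ u a ^ 2 * x b := by positivity
  have g6 : 0 ≤ x a * u b ^ 2 := by positivity
  refine ⟨by linarith [c.Th_nonneg a b], fun i j => ?_⟩
  fin_cases i <;> fin_cases j <;> simp [Th, h5] <;> linarith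

lemma XB_sig (hε : ε = 1 ∨ ε = -1) (a b : ι) : XB ![u a, u b] (ε • sig) (2 * Th u x a b) := by
  have := c.u0 a; have := c.u0 b; have := c.x_nonneg a; have := c.x_nonneg b
  have g4 : 0 ≤ u a * u b := by positivity
  have g5 : 0 ≤ u a ^ 2 * x b := by positivity
  have g6 : 0 ≤ x a * u b ^ 2 := by positivity
  have g7 : |ε| = 1 := by rcases hε with rfl | rfl <;> simp
  refine ⟨by linarith [c.Th_nonneg a b], fun i j => ?_⟩
  fin_cases i <;> fin_cases j <;> simp [Th, sig, g7] <;> linarith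

lemma XB_X0 (hX : XF w x d ε X) {a b : ι} (h : w a b ≠ 0) :
    XB ![u a, u b] (X a b - ε • sig) (5 * Th0 u x d a b) := by
  obtain ⟨h1, h2, h3, -, h5⟩ := hX.2 a b h
  have := c.u0 a; have := c.u0 b; have := c.x_nonneg a; have := c.x_nonneg b
  have := c.d_nonneg a b
  have g1 := mul_le_mul_of_nonneg_right h1 (sq_nonneg (u a))
  have g2 := mul_le_mul_of_nonneg_right h2 (sq_nonneg (u b))
  have g3 := mul_le_mul_of_nonneg_right h3 (by positivity : 0 ≤ u a * u b)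
  have g4 : 0 ≤ d a b * u a * u b := by positivity
  have g5 : 0 ≤ u a ^ 2 * x b := by positivity
  have g6 : 0 ≤ x a * u b ^ 2 := by positivity
  refine ⟨by linarith [c.Th0_nonneg a b], fun i j => ?_⟩
  fin_cases i <;> fin_cases j <;> simp [Th0, sig, h5] <;> linarith

lemma x1 : ∑ a ∈ S, x a ≤ 2 * δ * s := by
  simpa using cs1 S x (fun _ => 1) (A := 2 * δ) (by linarith [c.δ0]) c.s0 (by linarith [c.x2])
    c.one2

lemma col2 {f : ι → ℝ} {A : ℝ} (hf : ∑ a ∈ S, f a ^ 2 ≤ A ^ 2) :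
    ∑ _a ∈ S, ∑ b ∈ S, f b ^ 2 ≤ (s * A) ^ 2 := by
  rw [sum_const, nsmul_eq_mul, ← c.card, mul_pow]
  exact mul_le_mul_of_nonneg_left hf (sq_nonneg s)

theorem one_block (hX : XF w x d ε X) {U W : Matrix ι ι ℝ}
    (U1 : ∑ a ∈ S, ∑ b ∈ S, U a b ^ 2 ≤ ν ^ 2) (U2 : ∑ a ∈ S, |U a a| ≤ ν)
    (U3 : |∑ a ∈ S, ∑ b ∈ S, (1 - w a b) * U a b| ≤ eE * ν)
    (U4 : |∑ a ∈ S, ∑ b ∈ S, U a b| ≤ 2 * s ^ 2)
    (W1 : ∑ a ∈ S, ∑ b ∈ S, W a b ^ 2 ≤ Λ ^ 2) (W2 : ∀ a b, |W a b| ≤ 2 * L * u a * u b) :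
    ∑ a ∈ S, ∑ b ∈ S, w a b * (X a b * bm ε U W a b).trace ≤
      -2 * s ^ 2 * ∑ a ∈ S, W a a + 10 ^ 4 * η := by
  have hε := hX.1
  have hε2 : ε * ε = 1 := by rcases hε with rfl | rfl <;> norm_num
  have hs := c.s0
  have hδ := c.δ0
  have hL := c.L0
  have h := c.wsum (F := fun a b => (X a b * bm ε U W a b).trace)
    (μ := fun a b => ε * U a b + -W a a * 1)
    (ρ := fun a b => 2 * (|U a a| * x b) + 2 * (x b * |W a b|) + 5 * (d a b * |U a b|) +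
      5 * (d a b * |W a a|))
    (fun a b => by have := c.x_nonneg b; have := c.d_nonneg a b; positivity) fun a b h0 => by
      obtain ⟨h1, h2, h3, -, h5⟩ := hX.2 a b h0
      have g : ∀ p q B : ℝ, ∀ y, |y| ≤ B → y * (p - ε * q) ≤ B * (|p| + |q|) := fun p q B y hy =>
        (le_abs_self _).trans ((abs_mul _ _).trans_le
          (mul_le_mul hy (abs_sub_sign hε) (abs_nonneg _) ((abs_nonneg _).trans hy)))
      have g1 := g (U a a) (W a b) _ _ h1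
      have g2 := g (U b b) (W b a) _ _ h2
      have g3 := g (U a b) (W a a) _ _ h3
      have g4 := g (U b a) (W b b) _ _ h3
      simp only [bm_eq, Matrix.trace_fin_two, Matrix.mul_apply, Fin.sum_univ_two, h5,
        c.d_symm b a, Matrix.of_apply, Matrix.cons_val', Matrix.cons_val_zero, Matrix.cons_val_one,
        Matrix.cons_val_fin_one]
      linear_combination g1 + g2 + g3 + g4 - (W a a + W b b) * hε2
  have hW := c.diag2 (f := fun a => W a a) fun a => W2 a a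
  have m1 : ∑ a ∈ S, ∑ b ∈ S, w a b * (ε * U a b) ≤ 2 * s ^ 2 + eE * ν := by
    have e1 : ∑ a ∈ S, ∑ b ∈ S, w a b * (ε * U a b) =
        ε * (∑ a ∈ S, ∑ b ∈ S, U a b - ∑ a ∈ S, ∑ b ∈ S, (1 - w a b) * U a b) := by
      simp only [← sum_sub_distrib, mul_sum]
      exact sum_congr rfl fun a _ => sum_congr rfl fun b _ => by ring
    rw [e1]
    exact (le_abs_self _).trans ((abs_sign_mul hε).trans_le ((abs_sub _ _).trans (add_le_add U4 U3)))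
  have m2 := c.wprod (fun a => -W a a) (fun _ => 1) (A := 10 * (2 * L) * s) (by positivity) hs
    (by simpa only [neg_sq] using hW) c.one2
  have r1 := prod_le S c.ν_nonneg c.x_nonneg U2 c.x1
  have r2 := cs2 S (fun _ b => x b) (fun a b => |W a b|) (A := s * (2 * δ)) (by positivity)
    c.Λ_nonneg (c.col2 (by linarith [c.x2])) (by simpa only [sq_abs] using W1)
  have r3 := cs2 S d (fun a b => |U a b|) (by positivity) c.ν_nonneg c.d2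
    (by simpa only [sq_abs] using U1)
  have r4 := cs2 S d (fun a _ => |W a a|) (B := s * (10 * (2 * L) * s)) (by positivity)
    (by positivity) c.d2 (by rw [sum_comm]; exact c.col2 (by simpa only [sq_abs] using hW))
  simp only [mul_add, sum_add_distrib, ← mul_sum (a := (2 : ℝ)), ← mul_sum (a := (5 : ℝ))] at h
  rw [sum_neg_distrib, sum_const, nsmul_eq_mul, ← c.card] at m2
  have h1 : 1 * s ^ 2 ≤ s ^ 2 * s ^ 2 :=
    mul_le_mul_of_nonneg_right (by nlinarith [c.s_ge]) (sq_nonneg s)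
  linarith [c.n1, c.n2, c.n3, c.n4, c.n5, c.n7, c.n8, c.η0]

theorem two_block {ε₁ ε₂ ε₃ ε₄ : ℝ} {X₁ X₂ : ι → ι → Matrix (Fin 2) (Fin 2) ℝ}
    (hX₁ : XF w x d ε₁ X₁) (hX₂ : XF w x d ε₂ X₂) (h₃ : ε₃ = 1 ∨ ε₃ = -1) (h₄ : ε₄ = 1 ∨ ε₄ = -1)
    {U W U' W' : Matrix ι ι ℝ} (hU : ∀ a b, |U a b| ≤ 1 * u a * u b) (hW : ∀ a b, |W a b| ≤ 1 * u a)
    (hWf : ∑ a ∈ S, ∑ b ∈ S, W a b ^ 2 ≤ (2 * s) ^ 2)
    (hU' : ∀ a b, |U' a b| ≤ 2 * L * u a * u b) (hUf : ∑ a ∈ S, ∑ b ∈ S, U' a b ^ 2 ≤ Λ ^ 2)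
    (hW' : ∀ a b, |W' a b| ≤ 2 * u a * u b) (hW'' : ∀ a b, |W' a b| ≤ 2 * L * u a) :
    ∑ a ∈ S, ∑ b ∈ S, w a b * (X₁ a b * bm ε₃ U W a b * X₂ a b * bm ε₄ U' W' a b).trace ≤
      2 * (ε₁ * ε₂ * ((∑ a ∈ S, U a a) * ∑ a ∈ S, U' a a)) + 10 ^ 9 * η := by
  have hs := c.s0
  have hδ := c.δ0
  have hL := c.L0
  have hr := c.r0
  have h12 : ε₁ * ε₂ = 1 ∨ ε₁ * ε₂ = -1 := by
    rcases hX₁.1 with rfl | rfl <;> rcases hX₂.1 with rfl | rfl <;> norm_num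
  have key : ∀ a b, ε₁ * ε₂ * ((U a a - ε₃ * W a b) * (U' b b - ε₄ * W' b a) +
      (U a b - ε₃ * W a a) * (U' a b - ε₄ * W' a a)) ≤ ε₁ * ε₂ * U a a * U' b b +
      (|W a b| * |U' b b| + 2 * (u a * u b * |U' a b|) + 8 * (u a ^ 4 * u b ^ 4)) := fun a b => by
    have ha := c.u0 a
    have hb := c.u0 b
    have hE := (EB_bm c.u_ge h₃ zero_le_one hU hW a b).2
    have g1 : |U a a - ε₃ * W a b| ≤ 2 * 1 * u a * u a := by simpa [bm_eq] using hE 0 0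
    have g2 : |U a b - ε₃ * W a a| ≤ 2 * 1 * u a * u b := by simpa [bm_eq] using hE 0 1
    have g3 : |ε₃ * (W a b * U' b b)| = |W a b| * |U' b b| := by rw [abs_sign_mul h₃, abs_mul]
    have g4 : |ε₄ * ((U a a - ε₃ * W a b) * W' b a)| ≤ 2 * 1 * u a * u a * (2 * u b * u a) := by
      rw [abs_sign_mul h₄, abs_mul]
      exact mul_le_mul g1 (hW' b a) (abs_nonneg _) (by positivity)
    have g5 : |(U a b - ε₃ * W a a) * U' a b| ≤ 2 * 1 * u a * u b * |U' a b| := by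
      rw [abs_mul]
      exact mul_le_mul_of_nonneg_right g2 (abs_nonneg _)
    have g6 : |ε₄ * ((U a b - ε₃ * W a a) * W' a a)| ≤ 2 * 1 * u a * u b * (2 * u a * u a) := by
      rw [abs_sign_mul h₄, abs_mul]
      exact mul_le_mul g2 (hW' a a) (abs_nonneg _) (by positivity)
    have g7 : u a ^ 3 * u b ^ 1 ≤ u a ^ 4 * u b ^ 4 :=
      mul_le_mul (pow_le_pow_right₀ (c.u_ge a) (by norm_num))
        (pow_le_pow_right₀ (c.u_ge b) (by norm_num)) (by positivity) (by positivity)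
    rw [abs_le] at g4 g5 g6
    have g8 := neg_abs_le (ε₃ * (W a b * U' b b))
    have g9 := le_abs_self (ε₃ * (W a b * U' b b))
    rcases h12 with e | e <;> rw [e] <;> linarith [g4.1, g4.2, g5.1, g5.2, g6.1, g6.2]
  have h := c.wsum
    (F := fun a b => (X₁ a b * bm ε₃ U W a b * X₂ a b * bm ε₄ U' W' a b).trace)
    (μ := fun a b => ε₁ * ε₂ * U a a * U' b b)
    (ρ := fun a b => 1280 * L * (Th0 u x d a b * Th u x a b) +
      (|W a b| * |U' b b| + 2 * (u a * u b * |U' a b|) + 8 * (u a ^ 4 * u b ^ 4)))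
    (fun a b => by
      have := c.Th_nonneg a b; have := c.Th0_nonneg a b; have := c.u0 a; have := c.u0 b
      positivity) fun a b h0 => by
      have hv := c.v_ge a b
      have hA := EB_bm c.u_ge h₃ zero_le_one hU hW a b
      have hB := EB_bm c.u_ge h₄ (by positivity) hU' hW'' a b
      have g1 := (((c.XB_X0 hX₁ h0).mul hv hA).mul hv ((c.XB_X hX₂ h0).mul hv hB)).trace hv
      have g2 := (((c.XB_sig hX₁.1 a b).mul hv hA).mul hv ((c.XB_X0 hX₂ h0).mul hv hB)).trace hv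
      have g3 : X₁ a b * bm ε₃ U W a b * X₂ a b * bm ε₄ U' W' a b =
          (X₁ a b - ε₁ • sig) * bm ε₃ U W a b * (X₂ a b * bm ε₄ U' W' a b) +
          ε₁ • sig * bm ε₃ U W a b * ((X₂ a b - ε₂ • sig) * bm ε₄ U' W' a b) +
          ε₁ • sig * bm ε₃ U W a b * ε₂ • sig * bm ε₄ U' W' a b := by
        generalize ε₁ • (sig : Matrix (Fin 2) (Fin 2) ℝ) = s₁
        generalize ε₂ • (sig : Matrix (Fin 2) (Fin 2) ℝ) = s₂
        noncomm_ring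
      have g4 : (ε₁ • sig * bm ε₃ U W a b * ε₂ • sig * bm ε₄ U' W' a b).trace =
          ε₁ * ε₂ * ((U a a - ε₃ * W a b) * (U' b b - ε₄ * W' b a) +
            (U a b - ε₃ * W a a) * (U' a b - ε₄ * W' a a)) +
          ε₁ * ε₂ * ((U b b - ε₃ * W b a) * (U' a a - ε₄ * W' a b) +
            (U b a - ε₃ * W b b) * (U' b a - ε₄ * W' b b)) := by
        simp [bm_eq, sig, Matrix.trace_fin_two]
        ring
      have g5 : Th u x b a = Th u x a b := by unfold Th; ring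
      have g6 : Th0 u x d b a = Th0 u x d a b := by unfold Th0; rw [c.d_symm b a]; ring
      simp only [g5, g6]
      rw [g3, Matrix.trace_add, Matrix.trace_add, g4]
      linarith [key a b, key b a]
  have hU2 := c.diag2 (f := fun a => ε₁ * ε₂ * U a a) fun a => (abs_sign_mul h12).trans_le (hU a a)
  have hU2' := c.diag2 (f := fun a => U' a a) fun a => hU' a a
  have m1 := c.wprod _ _ (by positivity) (by positivity) hU2 hU2'
  have r1 := mul_le_mul_of_nonneg_left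
    (cs2 S _ _ (by positivity) (by positivity) c.Th02 c.Th2) hL
  have r2 := cs2 S (fun a b => |W a b|) (fun _ b => |U' b b|) (A := 2 * s)
    (B := s * (10 * (2 * L) * s)) (by positivity) (by positivity) (by simpa only [sq_abs] using hWf)
    (c.col2 (by simpa only [sq_abs] using hU2'))
  have r3 := cs2 S (fun a b => u a * u b) (fun a b => |U' a b|) (by positivity) c.Λ_nonneg c.uu
    (by simpa only [sq_abs] using hUf)
  have r4 := prod_le S (by positivity) (fun a => pow_nonneg (c.u0 a) 4) c.u4 c.u4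
  simp only [sum_add_distrib, ← mul_sum (a := (2 : ℝ)), ← mul_sum (a := (8 : ℝ)),
    ← mul_sum (a := 1280 * L)] at h
  rw [← mul_sum] at m1
  linarith [c.n1, c.n6, c.n7, c.n8, c.n9, c.η0]

theorem three_block {ε₁ ε₂ ε₃ : ℝ} {X₁ X₂ X₃ A₁ A₂ A₃ : ι → ι → Matrix (Fin 2) (Fin 2) ℝ}
    (hX₁ : XF w x d ε₁ X₁) (hX₂ : XF w x d ε₂ X₂) (hX₃ : XF w x d ε₃ X₃)
    (h₁ : ∀ a b, EB ![u a, u b] (A₁ a b) (2 * 1)) (h₂ : ∀ a b, EB ![u a, u b] (A₂ a b) (2 * 1))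
    (h₃ : ∀ a b, EB ![u a, u b] (A₃ a b) (2 * 1)) :
    ∑ a ∈ S, ∑ b ∈ S, w a b * (X₁ a b * A₁ a b * X₂ a b * A₂ a b * X₃ a b * A₃ a b).trace ≤
      10 ^ 10 * η := by
  have h : ∀ a b, w a b * (X₁ a b * A₁ a b * X₂ a b * A₂ a b * X₃ a b * A₃ a b).trace ≤
      5120 * Th u x a b ^ 3 := fun a b => by
    have h1 := pow_nonneg (c.Th_nonneg a b) 3
    by_cases h0 : w a b = 0
    · rw [h0]
      linarith
    have hv := c.v_ge a b
    have g := ((((c.XB_X hX₁ h0).mul hv (h₁ a b)).mul hv ((c.XB_X hX₂ h0).mul hv (h₂ a b))).mul hv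
      ((c.XB_X hX₃ h0).mul hv (h₃ a b))).trace hv
    simp only [← Matrix.mul_assoc] at g
    linarith [mul_le_mul_of_nonneg_left g (c.w_nonneg a b),
      mul_le_mul_of_nonneg_right (c.w_le a b) h1]
  refine (sum2_le S h).trans ?_
  simp only [← mul_sum]
  linarith [c.Th3, c.η0]

end Ctx

end Crest.Agent.R62.ZS
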