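import Crest.Agent.R62.ZStepAux1

/-! Matrix estimates for the step inequality of `Z`. -/

set_option autoImplicit false
set_option linter.unusedSectionVars false
open Classical
open scoped Matrix
open Finset

noncomputable section
namespace Crest.Agent.R62.ZS

variable {ι : Type} [Fintype ι] [DecidableEq ι] {p e L : ℝ} {S : Finset ι}
  {K J A B M U V : Matrix ι ι ℝ}

/-- squared norm of a column -/
def cn (M : Matrix ι ι ℝ) (b : ι) : ℝ := ∑ c, M c b ^ 2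
/-- squared Frobenius norm -/
def fr (M : Matrix ι ι ℝ) : ℝ := ∑ b, cn M b

lemma cn_nonneg (M : Matrix ι ι ℝ) (b : ι) : 0 ≤ cn M b := sum_nonneg fun _ _ => sq_nonneg _
lemma fr_nonneg (M : Matrix ι ι ℝ) : 0 ≤ fr M := sum_nonneg fun _ _ => cn_nonneg _ _

lemma tmul_sq (A B : Matrix ι ι ℝ) (a b : ι) : (Aᵀ * B) a b ^ 2 ≤ cn A a * cn B b :=
  sum_mul_sq_le_sq_mul_sq univ (fun c => A c a) fun c => B c b

lemma tmul_le {a b : ι} {y z : ℝ} (hy : 0 ≤ y) (hz : 0 ≤ z) (hA : cn A a ≤ y ^ 2)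
    (hB : cn B b ≤ z ^ 2) : |(Aᵀ * B) a b| ≤ y * z := by
  refine abs_le_of_sq_le_sq ((tmul_sq A B a b).trans ?_) (mul_nonneg hy hz)
  rw [mul_pow]
  exact mul_le_mul hA hB (cn_nonneg _ _) (sq_nonneg _)

lemma entry_le {a : ι} {y : ℝ} (hy : 0 ≤ y) (h : cn M a ≤ y ^ 2) (b : ι) : |Mᵀ a b| ≤ y :=
  abs_le_of_sq_le_sq ((single_le_sum (f := fun c => M c a ^ 2) (fun _ _ => sq_nonneg _)
    (mem_univ b)).trans h) hy

lemma cn_mul (h : OpB K L) (M : Matrix ι ι ℝ) (b : ι) : cn (K * M) b ≤ L ^ 2 * cn M b :=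
  h fun c => M c b

lemma fr_mul (h : OpB K L) (M : Matrix ι ι ℝ) : fr (K * M) ≤ L ^ 2 * fr M := by
  rw [fr, fr, mul_sum]
  exact sum_le_sum fun b _ => cn_mul h M b

lemma fr_transpose (M : Matrix ι ι ℝ) : fr Mᵀ = fr M := sum_comm

lemma fr_eq (M : Matrix ι ι ℝ) : fr M = (Mᵀ * M).trace := by
  simp only [fr, cn, Matrix.trace, Matrix.diag, Matrix.mul_apply, Matrix.transpose_apply, sq]

lemma sum_le_univ (S : Finset ι) {f : ι → ℝ} (h : ∀ a, 0 ≤ f a) : ∑ a ∈ S, f a ≤ ∑ a, f a :=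
  sum_le_sum_of_subset_of_nonneg (subset_univ S) fun a _ _ => h a

lemma SS_le_fr (S : Finset ι) (M : Matrix ι ι ℝ) : ∑ a ∈ S, ∑ b ∈ S, M a b ^ 2 ≤ fr M := by
  rw [sum_comm]
  exact (sum_le_sum fun b _ => sum_le_univ S fun _ => sq_nonneg _).trans
    (sum_le_univ S (cn_nonneg M))

lemma idS_mulVec (S : Finset ι) (y : ι → ℝ) (a : ι) :
    ((idS S : Matrix ι ι ℝ) *ᵥ y) a = if a ∈ S then y a else 0 := by
  simp [idS, Matrix.mulVec_diagonal]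

lemma opB_add (h : OpB J L) (hL : 1 ≤ L) : OpB (J + idS S) (2 * L) := fun y => by
  have h1 : ∑ a, ((J + idS S) *ᵥ y) a ^ 2 ≤ 2 * ∑ a, (J *ᵥ y) a ^ 2 + 2 * ∑ a, y a ^ 2 := by
    simp only [mul_sum, ← sum_add_distrib]
    refine sum_le_sum fun a _ => ?_
    rw [Matrix.add_mulVec, Pi.add_apply, idS_mulVec]
    split_ifs
    · nlinarith [sq_nonneg ((J *ᵥ y) a - y a)]
    · nlinarith [sq_nonneg ((J *ᵥ y) a), sq_nonneg (y a)]
  have h2 : 1 * ∑ a, y a ^ 2 ≤ L ^ 2 * ∑ a, y a ^ 2 :=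
    mul_le_mul_of_nonneg_right (one_le_pow₀ hL) (sum_nonneg fun _ _ => sq_nonneg _)
  linarith [h y]

lemma fac_le (h : OpB (Bᵀ * B) L) (hL : 0 ≤ L) (z : ι → ℝ) :
    ∑ a, (Bᵀ *ᵥ z) a ^ 2 ≤ L * ∑ a, z a ^ 2 := by
  have hd : ∀ f : ι → ℝ, ∑ a, f a ^ 2 = f ⬝ᵥ f := fun f => by simp only [dotProduct, sq]
  have hn : ∀ f : ι → ℝ, 0 ≤ ∑ a, f a ^ 2 := fun f => sum_nonneg fun _ _ => sq_nonneg _
  set y := Bᵀ *ᵥ z with hy
  have h1 : ∑ a, (B *ᵥ y) a ^ 2 ≤ L * ∑ a, y a ^ 2 := by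
    refine (le_abs_self _).trans (abs_le_of_sq_le_sq ?_ (mul_nonneg hL (hn y)))
    have h2 : ∑ a, (B *ᵥ y) a ^ 2 = ∑ a, y a * ((Bᵀ * B) *ᵥ y) a := by
      rw [hd, ← Matrix.mulVec_mulVec, Matrix.mulVec_transpose, Matrix.dotProduct_mulVec,
        dotProduct_comm]
      rfl
    rw [h2]
    linarith [sum_mul_sq_le_sq_mul_sq univ y ((Bᵀ * B) *ᵥ y),
      mul_le_mul_of_nonneg_left (h y) (hn y)]
  have h3 : ∑ a, y a ^ 2 = ∑ a, z a * (B *ᵥ y) a := by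
    rw [hd]
    nth_rewrite 1 [hy]
    rw [Matrix.mulVec_transpose, ← Matrix.dotProduct_mulVec]
    rfl
  have h4 := sum_mul_sq_le_sq_mul_sq univ z (B *ᵥ y)
  rw [← h3] at h4
  rcases (hn y).eq_or_lt with h5 | h5
  · rw [← h5]
    exact mul_nonneg hL (hn z)
  · refine le_of_mul_le_mul_right ?_ h5
    linarith [mul_le_mul_of_nonneg_left h1 (hn z)]

lemma fr_fac (h : OpB (Bᵀ * B) L) (hL : 0 ≤ L) (M : Matrix ι ι ℝ) : fr (Bᵀ * M) ≤ L * fr M := by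
  rw [fr, fr, mul_sum]
  exact sum_le_sum fun b _ => fac_le h hL fun c => M c b

lemma four {w : ι → ι → ℝ} {eE ν : ℝ} (hE : 0 ≤ eE) (hν : 0 ≤ ν)
    (hop : ∀ x y : ι → ℝ, |∑ a ∈ S, ∑ b ∈ S, x a * (1 - w a b) * y b| ≤
      eE * √(∑ a ∈ S, x a ^ 2) * √(∑ b ∈ S, y b ^ 2)) (h : fr U * fr V ≤ ν ^ 2) :
    ∑ a ∈ S, ∑ b ∈ S, (Uᵀ * V) a b ^ 2 ≤ ν ^ 2 ∧ ∑ a ∈ S, |(Uᵀ * V) a a| ≤ ν ∧
      |∑ a ∈ S, ∑ b ∈ S, (1 - w a b) * (Uᵀ * V) a b| ≤ eE * ν := by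
  have h0 : √(fr U) * √(fr V) ≤ ν := by
    rw [← Real.sqrt_mul (fr_nonneg U)]
    exact Real.sqrt_le_iff.2 ⟨hν, h⟩
  refine ⟨(sum2_le S (tmul_sq U V)).trans ((prod_le S (fr_nonneg U) (cn_nonneg V)
    (sum_le_univ S (cn_nonneg U)) (sum_le_univ S (cn_nonneg V))).trans h), ?_, ?_⟩
  · calc _ ≤ ∑ a ∈ S, √(cn U a) * √(cn V a) := sum_le_sum fun a _ =>
          tmul_le (Real.sqrt_nonneg _) (Real.sqrt_nonneg _) (Real.sq_sqrt (cn_nonneg _ _)).ge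
            (Real.sq_sqrt (cn_nonneg _ _)).ge
      _ ≤ ∑ a, √(cn U a) * √(cn V a) := sum_le_univ S fun _ => by positivity
      _ ≤ √(fr U) * √(fr V) := Real.sum_sqrt_mul_sqrt_le _ (cn_nonneg U) (cn_nonneg V)
      _ ≤ ν := h0
  · have e1 : ∑ a ∈ S, ∑ b ∈ S, (1 - w a b) * (Uᵀ * V) a b =
        ∑ c, ∑ a ∈ S, ∑ b ∈ S, U c a * (1 - w a b) * V c b := by
      rw [sum_comm (s := univ)]
      refine sum_congr rfl fun a _ => ?_
      rw [sum_comm (s := univ)]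
      refine sum_congr rfl fun b _ => ?_
      rw [Matrix.mul_apply, mul_sum]
      exact sum_congr rfl fun c _ => by rw [Matrix.transpose_apply]; ring
    rw [e1]
    calc _ ≤ ∑ c, eE * (√(cn Uᵀ c) * √(cn Vᵀ c)) := (abs_sum_le_sum_abs _ _).trans
          (sum_le_sum fun c _ => (hop _ _).trans (by
            rw [mul_assoc]
            gcongr <;> exact sum_le_univ S fun _ => sq_nonneg _))
      _ ≤ eE * (√(fr Uᵀ) * √(fr Vᵀ)) := by
          rw [← mul_sum]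
          exact mul_le_mul_of_nonneg_left
            (Real.sum_sqrt_mul_sqrt_le _ (cn_nonneg _) (cn_nonneg _)) hE
      _ ≤ eE * ν := by
          rw [fr_transpose, fr_transpose]
          exact mul_le_mul_of_nonneg_left h0 hE

/-- constant row sums -/
def Row (S : Finset ι) (M : Matrix ι ι ℝ) (c : ℝ) : Prop :=
  M *ᵥ (fun a => if a ∈ S then 1 else 0) = c • fun a => if a ∈ S then 1 else 0

lemma Row.mul {c c' : ℝ} (hA : Row S A c) (hB : Row S B c') : Row S (A * B) (c * c') := by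
  rw [Row, ← Matrix.mulVec_mulVec, hB, Matrix.mulVec_smul, hA, smul_smul, mul_comm]

lemma Row.sum {c : ℝ} (h : Row S M c) : ∑ a ∈ S, ∑ b ∈ S, M a b = c * S.card := by
  rw [mul_comm, ← nsmul_eq_mul, ← sum_const]
  refine sum_congr rfl fun a ha => ?_
  simpa [Matrix.mulVec, dotProduct, ha] using congrFun h a

lemma row_of_good (h : Good p S e K) : Row S K e := by
  funext a
  by_cases ha : a ∈ S
  · have h1 : ∑ b ∈ S, K a b = ∑ b, K a b :=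
      sum_subset (subset_univ S) fun b _ hb => (h.symm a b).trans (h.supp b a hb)
    simp [Matrix.mulVec, dotProduct, ha, h1, h.row a ha]
  · simp [Matrix.mulVec, dotProduct, ha, h.supp a _ ha]

lemma Row.add_idS {c : ℝ} (h : Row S M c) : Row S (M + idS S) (c + 1) := by
  rw [Row, Matrix.add_mulVec, h, add_smul, one_smul]
  congr 1
  funext a
  rw [idS_mulVec]
  split_ifs <;> rfl

lemma tr_eq (h : Good p S e K) (M : Matrix ι ι ℝ) : ∑ a ∈ S, (K * M) a a = (K * M).trace :=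
  sum_subset (subset_univ S) fun a _ ha => by simp [Matrix.mul_apply, h.supp a _ ha]

lemma symm_of_good (h : Good p S e K) : Kᵀ = K := Matrix.ext fun a b => h.symm b a

lemma cn_eq (h : Good p S e K) (a : ι) : cn K a = bet K a := by
  rw [h.bet_eq, cn]
  exact sum_congr rfl fun b _ => by rw [h.symm]

lemma fr_good (h : Good p S e K) : fr K = Tr 2 K := by rw [fr_eq, symm_of_good h, Tr, sq]

lemma idS_mul (h : Good p S e K) : idS S * K = K := by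
  ext a b
  by_cases ha : a ∈ S <;> simp [idS, Matrix.diagonal_mul, ha, h.supp a b]

lemma fr_sub (A B : Matrix ι ι ℝ) : fr (A - B) ≤ 2 * fr A + 2 * fr B := by
  simp only [fr, cn, mul_sum, ← sum_add_distrib, Matrix.sub_apply]
  exact sum2_le _ fun b c => by nlinarith [sq_nonneg (A c b + B c b)]

lemma cn_add_idS (M : Matrix ι ι ℝ) (b : ι) : cn (M + idS S) b ≤ 2 * cn M b + 2 := by
  have h1 : cn (idS S : Matrix ι ι ℝ) b ≤ 1 := by
    by_cases hb : b ∈ S <;> simp [cn, idS, Matrix.diagonal_apply, hb]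
  have h2 : cn (M + idS S) b ≤ 2 * cn M b + 2 * cn (idS S : Matrix ι ι ℝ) b := by
    simp only [cn, mul_sum, ← sum_add_distrib, Matrix.add_apply]
    exact sum_le_sum fun c _ => by nlinarith [sq_nonneg (M c b - idS S c b)]
  linarith

lemma xf_Xm (he : e = 1 ∨ e = -1) {w : ι → ι → ℝ} (hw : ∀ a b, w a b ≠ 0 → Alw K a b) {x : ι → ℝ}
    {d : ι → ι → ℝ} (hx : ∀ a, |K a a| ≤ x a) (hd : ∀ a b, |K a b| + |K a a * K b b| ≤ d a b) :
    XF w x d e (Xm e K) := by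
  refine ⟨he, fun a b h => ?_⟩
  obtain ⟨h1, -, h3⟩ := Alw.Dd_bound he (hw a b h)
  have h4 := (hw a b h).2.1
  have h5 : |(Dd e K a b)⁻¹| ≤ 3 / 2 := by
    rw [abs_of_pos (by positivity)]
    exact inv_le_of_inv_le₀ (by norm_num) (by linarith)
  have h6 : ∀ y, |(Dd e K a b)⁻¹ * y| ≤ 3 / 2 * |y| := fun y => by
    rw [abs_mul]
    exact mul_le_mul_of_nonneg_right h5 (abs_nonneg _)
  have h7 : |e| = 1 := by rcases he with rfl | rfl <;> simp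
  have h8 : (Dd e K a b)⁻¹ * (e - K a b) - e =
      e * (1 / Dd e K a b - 1) - (Dd e K a b)⁻¹ * K a b := by ring
  have h9 := abs_sub (e * (1 / Dd e K a b - 1)) ((Dd e K a b)⁻¹ * K a b)
  rw [← h8, abs_sign_mul he] at h9
  simp only [Xm, Matrix.smul_apply, Matrix.of_apply, Matrix.cons_val', Matrix.cons_val_zero,
    Matrix.cons_val_one, Matrix.cons_val_fin_one, smul_eq_mul, and_true]
  refine ⟨?_, ?_, ?_, ?_⟩
  · linarith [h6 (K b b), hx b, abs_nonneg (K b b)]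
  · linarith [h6 (K a a), hx a, abs_nonneg (K a a)]
  · linarith [h6 (K a b), hd a b, abs_nonneg (K a b), abs_nonneg (K a a * K b b)]
  · linarith [h6 (e - K a b), abs_sub e (K a b)]

lemma Kuu (h : Good p S e K) {u : ι → ℝ} {r s : ℝ} (hb : ∀ c, bet K c ≤ r ^ 2)
    (hu : ∑ a ∈ S, u a ^ 4 ≤ 100 * s ^ 2) :
    ∑ a ∈ S, ∑ b ∈ S, (|K a b| * u a * u b) ^ 2 ≤ 100 * r ^ 2 * s ^ 2 := by
  have h1 : ∑ a ∈ S, ∑ b ∈ S, u a ^ 4 * K a b ^ 2 ≤ 100 * r ^ 2 * s ^ 2 := by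
    calc _ ≤ ∑ a ∈ S, r ^ 2 * u a ^ 4 := sum_le_sum fun a _ => by
          rw [← mul_sum, mul_comm]
          refine mul_le_mul_of_nonneg_right ?_ (by positivity)
          exact (sum_le_univ S fun _ => sq_nonneg _).trans ((h.bet_eq a).symm.trans_le (hb a))
      _ ≤ r ^ 2 * (100 * s ^ 2) := by
          rw [← mul_sum]
          exact mul_le_mul_of_nonneg_left hu (sq_nonneg r)
      _ = _ := by ring
  have h2 : ∑ a ∈ S, ∑ b ∈ S, u b ^ 4 * K a b ^ 2 ≤ 100 * r ^ 2 * s ^ 2 := by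
    rw [sum_comm]
    simpa only [fun a b => h.symm a b] using h1
  have h3 : ∑ a ∈ S, ∑ b ∈ S, (|K a b| * u a * u b) ^ 2 ≤ 1 / 2 * ∑ a ∈ S, ∑ b ∈ S,
      u a ^ 4 * K a b ^ 2 + 1 / 2 * ∑ a ∈ S, ∑ b ∈ S, u b ^ 4 * K a b ^ 2 := by
    simp only [mul_sum, ← sum_add_distrib, mul_pow, sq_abs]
    exact sum2_le S fun a b => by
      nlinarith [mul_nonneg (sq_nonneg (K a b)) (sq_nonneg (u a ^ 2 - u b ^ 2))]
  linarith

end Crest.Agent.R62.ZS
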